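import Crest.Agent.R042.Mader_375
import Mathlib
import Crest.Agent.R042.Palette_365
import Crest.Agent.R042.Crit_374

-- ▼ part R042/P1_375
section

/-! Row 42, sec 10.1, second half: LEMMA P1. -/

set_option autoImplicit false
set_option linter.unusedSectionVars false

namespace Crest.Agent.R042.P1375

open Finset SimpleGraph Crest.Agent.R042.Conn353 Crest.Agent.R042.Mader375
open scoped Classical

variable {V : Type*}

/-- some vertex of `A` is adjacent to some vertex of `B`. -/
def Tch (G : SimpleGraph V) (A B : Finset V) : Prop := ∃ x ∈ A, ∃ y ∈ B, G.Adj x y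

lemma Tch.symm {G : SimpleGraph V} {A B : Finset V} (h : Tch G A B) : Tch G B A := by
  obtain ⟨x, hx, y, hy, hxy⟩ := h
  exact ⟨y, hy, x, hx, hxy.symm⟩

/-- the union of branch sets over a connected set of indices is connected. -/
lemma conn_biUnion_index {ι : Type*} {G : SimpleGraph V} {H : SimpleGraph ι} (P : ι → Finset V)
    {S : Finset ι} (hP : ∀ i ∈ S, Conn G (P i)) (hH : ∀ i ∈ S, ∀ j ∈ S, H.Adj i j → Tch G (P i) (P j))
    (hS : Conn H S) : Conn G (S.biUnion P) := by
  obtain ⟨i0, hi0⟩ := hS.nonempty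
  obtain ⟨x0, hx0⟩ := (hP i0 hi0).nonempty
  have hsub : ∀ i ∈ S, P i ⊆ S.biUnion P := fun i hi => Finset.subset_biUnion_of_mem P hi
  refine conn_of_reach (u := x0) (hsub i0 hi0 hx0) ?_
  have key : ∀ j, Reach H S i0 j → ∀ y ∈ P j, Reach G (S.biUnion P) x0 y := by
    intro j hj
    induction hj with
    | refl =>
      intro y hy
      exact ((hP i0 hi0).reach hx0 hy).mono (hsub i0 hi0)
    | tail h1 h2 ih =>
      rename_i b c
      intro y hy
      have hb : b ∈ S := Reach.mem h1 hi0
      obtain ⟨u, hu, w, hw, huw⟩ := hH b hb c h2.2 h2.1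
      exact (((ih u hu).step huw (hsub c h2.2 hw)).trans
        (((hP c h2.2).reach hw hy).mono (hsub c h2.2)))
  intro v hv
  obtain ⟨j, hj, hvj⟩ := Finset.mem_biUnion.1 hv
  exact key j (hS.reach hi0 hj) v hvj

/-- a model in the index graph lifts to a model in the graph. -/
lemma model_lift {ι : Type*} {G : SimpleGraph V} {W : Finset V} {H : SimpleGraph ι} {s : Finset ι}
    (P : ι → Finset V) (hP : ∀ i ∈ s, P i ⊆ W ∧ Conn G (P i))
    (hd : ∀ i ∈ s, ∀ j ∈ s, i ≠ j → Disjoint (P i) (P j))
    (hH : ∀ i ∈ s, ∀ j ∈ s, H.Adj i j → Tch G (P i) (P j)) {n : ℕ} (hm : Model H s n) :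
    Model G W n := by
  obtain ⟨B, h1, h2, h3⟩ := hm
  refine ⟨fun i => (B i).biUnion P, ?_, ?_, ?_⟩
  · intro i
    have hc : Conn G ((B i).biUnion P) :=
      conn_biUnion_index P (fun a ha => (hP a ((h1 i).1 ha)).2)
        (fun a ha b hb hab => hH a ((h1 i).1 ha) b ((h1 i).1 hb) hab) (h1 i).2.2
    refine ⟨?_, hc.nonempty, hc⟩
    intro x hx
    obtain ⟨a, ha, hxa⟩ := Finset.mem_biUnion.1 hx
    exact (hP a ((h1 i).1 ha)).1 hxa
  · intro i j hij
    rw [Finset.disjoint_left]
    intro x hx hx'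
    obtain ⟨a, ha, hxa⟩ := Finset.mem_biUnion.1 hx
    obtain ⟨b, hb, hxb⟩ := Finset.mem_biUnion.1 hx'
    have hab : a ≠ b := by
      rintro rfl
      exact (Finset.disjoint_left.1 (h2 i j hij)) ha hb
    exact (Finset.disjoint_left.1 (hd a ((h1 i).1 ha) b ((h1 j).1 hb) hab)) hxa hxb
  · intro i j hij
    obtain ⟨a, ha, b, hb, hab⟩ := h3 i j hij
    obtain ⟨x, hx, y, hy, hxy⟩ := hH a ((h1 i).1 ha) b ((h1 j).1 hb) hab
    exact ⟨x, Finset.mem_biUnion.2 ⟨a, ha, hx⟩, y, Finset.mem_biUnion.2 ⟨b, hb, hy⟩, hxy⟩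

/-- a clique gives a model with singletons. -/
lemma model_of_clique {G : SimpleGraph V} {W C : Finset V} (hC : C ⊆ W)
    (hcl : ∀ a ∈ C, ∀ b ∈ C, a ≠ b → G.Adj a b) {n : ℕ} (hn : n ≤ C.card) : Model G W n := by
  obtain ⟨D, hDC, hDn⟩ := Finset.exists_subset_card_eq hn
  let e := (D.equivFinOfCardEq hDn).symm
  refine ⟨fun i => {(e i : V)}, ?_, ?_, ?_⟩
  · intro i
    refine ⟨?_, Finset.singleton_nonempty _, conn_singleton _⟩
    intro x hx
    rw [Finset.mem_singleton] at hx
    rw [hx]; exact hC (hDC (e i).2)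
  · intro i j hij
    rw [Finset.disjoint_singleton]
    intro h
    exact hij (e.injective (Subtype.ext h))
  · intro i j hij
    refine ⟨_, Finset.mem_singleton_self _, _, Finset.mem_singleton_self _, ?_⟩
    refine hcl _ (hDC (e i).2) _ (hDC (e j).2) ?_
    intro h
    exact hij (e.injective (Subtype.ext h))

/-- **LEMMA P1**, general index set. -/
theorem outside' {ι : Type*} (G : SimpleGraph V) (W : Finset V) (h : ℕ)
    (hno : ¬ Model G W (h + 1)) (s : Finset ι) (P : ι → Finset V)
    (hP : ∀ i ∈ s, P i ⊆ W ∧ Conn G (P i)) (hd : ∀ i ∈ s, ∀ j ∈ s, i ≠ j → Disjoint (P i) (P j))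
    (T : Finset V) (hTW : T ⊆ W) (hTP : ∀ t ∈ T, ∀ i ∈ s, t ∉ P i)
    (hT : ∀ t ∈ T, h + 1 ≤ (s.filter fun i => ∃ x ∈ P i, G.Adj t x).card) :
    T.card ≤ 2 ^ h * s.card := by
  -- admissible assignments
  let Adm : Finset V → (V → ι) → (V → ι) → Prop := fun T' σ τ =>
    (∀ t ∈ T', σ t ∈ s ∧ τ t ∈ s ∧ σ t ≠ τ t ∧ (∃ x ∈ P (σ t), G.Adj t x) ∧
      (∃ x ∈ P (τ t), G.Adj t x) ∧ ¬ Tch G (P (σ t)) (P (τ t))) ∧
    (∀ t ∈ T', ∀ t' ∈ T', (σ t = σ t' ∧ τ t = τ t') ∨ (σ t = τ t' ∧ τ t = σ t') → t = t')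
  rcases T.eq_empty_or_nonempty with hT0 | ⟨t0, ht0⟩
  · rw [hT0]; simp
  have hs0 : s.Nonempty := by
    rw [← Finset.card_pos]
    have := hT t0 ht0
    have h2 := Finset.card_filter_le s (fun i => ∃ x ∈ P i, G.Adj t0 x)
    omega
  obtain ⟨i0, _⟩ := hs0
  let F : Finset (Finset V) := T.powerset.filter fun T' => ∃ σ τ, Adm T' σ τ
  have hF : F.Nonempty := by
    refine ⟨∅, ?_⟩
    rw [Finset.mem_filter]
    refine ⟨by simp, fun _ => i0, fun _ => i0, ?_, ?_⟩ <;> intro t ht <;> simp at ht
  obtain ⟨T', hT', hmax⟩ := Finset.exists_max_image F Finset.card hF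
  rw [Finset.mem_filter, Finset.mem_powerset] at hT'
  obtain ⟨hT'T, σ, τ, hA, hinj⟩ := hT'
  -- the minor
  let Q : ι → Finset V := fun i => P i ∪ T'.filter fun t => σ t = i
  let H : SimpleGraph ι :=
    { Adj := fun i j => i ≠ j ∧ (Tch G (P i) (P j) ∨
        ∃ t ∈ T', (σ t = i ∧ τ t = j) ∨ (σ t = j ∧ τ t = i))
      symm := ⟨by
        rintro i j ⟨h1, h2⟩
        refine ⟨h1.symm, ?_⟩
        rcases h2 with h2 | ⟨t, ht, h2⟩
        · exact Or.inl h2.symm
        · exact Or.inr ⟨t, ht, h2.symm⟩⟩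
      loopless := ⟨fun i hi => hi.1 rfl⟩ }
  have hQ : ∀ i ∈ s, Q i ⊆ W ∧ Conn G (Q i) := by
    intro i hi
    constructor
    · refine Finset.union_subset (hP i hi).1 ?_
      intro t ht
      exact hTW (hT'T (Finset.mem_filter.1 ht).1)
    · have hc := (hP i hi).2
      refine conn_of_reach (u := hc.nonempty.choose)
        (Finset.mem_union_left _ hc.nonempty.choose_spec) ?_
      intro v hv
      rcases Finset.mem_union.1 hv with h1 | h1
      · exact (hc.reach hc.nonempty.choose_spec h1).mono Finset.subset_union_left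
      · obtain ⟨h2, h3⟩ := Finset.mem_filter.1 h1
        obtain ⟨_, _, _, ⟨x, hx, hvx⟩, _, _⟩ := hA v h2
        rw [h3] at hx
        exact ((hc.reach hc.nonempty.choose_spec hx).mono Finset.subset_union_left).step
          hvx.symm hv
  have hQd : ∀ i ∈ s, ∀ j ∈ s, i ≠ j → Disjoint (Q i) (Q j) := by
    intro i hi j hj hij
    rw [Finset.disjoint_left]
    intro x hx hx'
    rcases Finset.mem_union.1 hx with h1 | h1 <;> rcases Finset.mem_union.1 hx' with h2 | h2
    · exact (Finset.disjoint_left.1 (hd i hi j hj hij)) h1 h2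
    · exact hTP x (hT'T (Finset.mem_filter.1 h2).1) i hi h1
    · exact hTP x (hT'T (Finset.mem_filter.1 h1).1) j hj h2
    · exact hij ((Finset.mem_filter.1 h1).2.symm.trans (Finset.mem_filter.1 h2).2)
  have hQH : ∀ i ∈ s, ∀ j ∈ s, H.Adj i j → Tch G (Q i) (Q j) := by
    intro i hi j hj hij
    have key : ∀ t ∈ T', Tch G (Q (σ t)) (Q (τ t)) := by
      intro t ht
      obtain ⟨_, _, _, _, ⟨x, hx, htx⟩, _⟩ := hA t ht
      exact ⟨t, Finset.mem_union_right _ (Finset.mem_filter.2 ⟨ht, rfl⟩), x,
        Finset.mem_union_left _ hx, htx⟩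
    rcases hij.2 with h2 | ⟨t, ht, h2 | h2⟩
    · obtain ⟨x, hx, y, hy, hxy⟩ := h2
      exact ⟨x, Finset.mem_union_left _ hx, y, Finset.mem_union_left _ hy, hxy⟩
    · rw [← h2.1, ← h2.2]; exact key t ht
    · rw [← h2.1, ← h2.2]; exact (key t ht).symm
  have hnoH : ¬ Model H s (h + 1) := fun hm => hno (model_lift Q hQ hQd hQH hm)
  -- `T' = T`
  have hTT : T' = T := by
    by_contra hne
    obtain ⟨t, ht, htT'⟩ := Finset.exists_of_ssubset
      (Finset.ssubset_iff_subset_ne.2 ⟨hT'T, hne⟩)
    let C := s.filter fun i => ∃ x ∈ P i, G.Adj t x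
    apply hnoH
    refine model_of_clique (C := C) (Finset.filter_subset _ _) ?_ (hT t ht)
    intro i hi j hj hij
    obtain ⟨his, hix⟩ := Finset.mem_filter.1 hi
    obtain ⟨hjs, hjx⟩ := Finset.mem_filter.1 hj
    refine ⟨hij, ?_⟩
    by_contra hcon
    rw [not_or] at hcon
    obtain ⟨hc1, hc2⟩ := hcon
    have hmem : insert t T' ∈ F := by
      rw [Finset.mem_filter, Finset.mem_powerset]
      refine ⟨Finset.insert_subset ht hT'T, Function.update σ t i, Function.update τ t j, ?_, ?_⟩
      · intro u hu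
        by_cases hut : u = t
        · rw [hut]
          simp only [Function.update_self]
          exact ⟨his, hjs, hij, hix, hjx, hc1⟩
        · have hu' : u ∈ T' := by
            rcases Finset.mem_insert.1 hu with h | h
            · exact absurd h hut
            · exact h
          simp only [Function.update_of_ne hut]
          exact hA u hu'
      · have hfresh : ∀ u ∈ T', ¬ ((σ u = i ∧ τ u = j) ∨ (σ u = j ∧ τ u = i)) :=
          fun u hu h => hc2 ⟨u, hu, h⟩
        intro u hu u' hu' hh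
        by_cases hut : u = t <;> by_cases hut' : u' = t
        · rw [hut, hut']
        · exfalso
          have hm : u' ∈ T' := by
            rcases Finset.mem_insert.1 hu' with h | h
            · exact absurd h hut'
            · exact h
          rw [hut] at hh
          simp only [Function.update_self, Function.update_of_ne hut'] at hh
          apply hfresh u' hm
          rcases hh with ⟨a, b⟩ | ⟨a, b⟩
          · exact Or.inl ⟨a.symm, b.symm⟩
          · exact Or.inr ⟨b.symm, a.symm⟩
        · exfalso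
          have hm : u ∈ T' := by
            rcases Finset.mem_insert.1 hu with h | h
            · exact absurd h hut
            · exact h
          rw [hut'] at hh
          simp only [Function.update_self, Function.update_of_ne hut] at hh
          exact hfresh u hm hh
        · have hm : u ∈ T' := by
            rcases Finset.mem_insert.1 hu with h | h
            · exact absurd h hut
            · exact h
          have hm' : u' ∈ T' := by
            rcases Finset.mem_insert.1 hu' with h | h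
            · exact absurd h hut'
            · exact h
          simp only [Function.update_of_ne hut, Function.update_of_ne hut'] at hh
          exact hinj u hm u' hm' hh
    have := hmax _ hmem
    rw [Finset.card_insert_of_notMem htT'] at this
    omega
  -- counting
  have hcount : 2 * T'.card ≤ e2 H s := by
    rw [e2_eq_card]
    let f : V → ι × ι := fun t => (σ t, τ t)
    let g : V → ι × ι := fun t => (τ t, σ t)
    have hf : (T'.image f).card = T'.card := by
      refine Finset.card_image_of_injOn ?_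
      intro a ha b hb hab
      simp only [f, Prod.mk.injEq] at hab
      exact hinj a ha b hb (Or.inl hab)
    have hg : (T'.image g).card = T'.card := by
      refine Finset.card_image_of_injOn ?_
      intro a ha b hb hab
      simp only [g, Prod.mk.injEq] at hab
      exact hinj a ha b hb (Or.inl ⟨hab.2, hab.1⟩)
    have hdis : Disjoint (T'.image f) (T'.image g) := by
      rw [Finset.disjoint_left]
      intro p hp hp'
      obtain ⟨a, ha, rfl⟩ := Finset.mem_image.1 hp
      obtain ⟨b, hb, hab⟩ := Finset.mem_image.1 hp'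
      simp only [f, g, Prod.mk.injEq] at hab
      have hh := hinj a ha b hb (Or.inr ⟨hab.1.symm, hab.2.symm⟩)
      subst hh
      exact (hA a ha).2.2.1 hab.2
    have hcc : 2 * T'.card = (T'.image f ∪ T'.image g).card := by
      rw [Finset.card_union_of_disjoint hdis, hf, hg]; omega
    rw [hcc]
    refine Finset.card_le_card ?_
    · intro p hp
      rcases Finset.mem_union.1 hp with h1 | h1
      · obtain ⟨a, ha, rfl⟩ := Finset.mem_image.1 h1
        obtain ⟨h2, h3, h4, _⟩ := hA a ha
        refine (@Finset.mem_filter _ _ (fun _ => Classical.propDecidable _) _ _).2 ?_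
        exact ⟨Finset.mem_product.2 ⟨h2, h3⟩, h4, Or.inr ⟨a, ha, Or.inl ⟨rfl, rfl⟩⟩⟩
      · obtain ⟨a, ha, rfl⟩ := Finset.mem_image.1 h1
        obtain ⟨h2, h3, h4, _⟩ := hA a ha
        refine (@Finset.mem_filter _ _ (fun _ => Classical.propDecidable _) _ _).2 ?_
        exact ⟨Finset.mem_product.2 ⟨h3, h2⟩, h4.symm, Or.inr ⟨a, ha, Or.inr ⟨rfl, rfl⟩⟩⟩
  have hm := mader_e2 H s h hnoH
  rw [← hTT]
  have : 2 ^ (h + 1) * s.card = 2 * (2 ^ h * s.card) := by ring
  omega


/-- LEMMA P1 for single vertices: few vertices outside `U` have `h + 1` neighbours in `U`. -/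
theorem outside_single (G : SimpleGraph V) (W : Finset V) (h : ℕ) (hno : ¬ Model G W (h + 1))
    (U : Finset V) (hU : U ⊆ W) (T : Finset V) (hTW : T ⊆ W) (hTU : Disjoint T U)
    (hT : ∀ t ∈ T, h + 1 ≤ (U.filter (G.Adj t)).card) : T.card ≤ 2 ^ h * U.card := by
  refine outside' G W h hno U (fun u => {u}) ?_ ?_ T hTW ?_ ?_
  · intro u hu
    exact ⟨by simpa using hU hu, conn_singleton u⟩
  · intro i _ j _ hij
    simpa using hij
  · intro t ht i hi h'
    rw [Finset.mem_singleton] at h'
    subst h'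
    exact (Finset.disjoint_left.1 hTU) ht hi
  · intro t ht
    have := hT t ht
    simpa using this

end Crest.Agent.R042.P1375
end

-- ▼ part R042/Cost_365

/-! Row 42 (S0058), sec 10.5 COST LEMMA and the quasi-subadditivity of 8.1. -/

set_option autoImplicit false
set_option linter.unusedSectionVars false

namespace Crest.Agent.R042.Cost365

open Finset Crit374 Pal365

variable {V : Type*} [DecidableEq V] {G : SimpleGraph V}


/-- **Degenerate pieces, greedily**: `Q_0, …, Q_{m-1}` disjoint, every vertex of `Q_i` has at most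
`t` neighbours in the previous `Q_j`, `Q_i` is `r`-choosable, lists of size `≥ t + r`. -/
theorem chain_col [DecidableRel G.Adj] (L : V → Finset ℕ) (k t r : ℕ) (hk : t + r ≤ k) (m : ℕ) :
    ∀ (Q : Fin m → Finset V), (∀ i j, i ≠ j → Disjoint (Q i) (Q j)) →
    (∀ i, ∀ v ∈ Q i, k ≤ (L v).card) →
    (∀ i, ∀ v ∈ Q i, (((univ.filter fun j => j < i).biUnion Q).filter (G.Adj v)).card ≤ t) →
    (∀ i, Choos G (Q i) r) → ColOn G (univ.biUnion Q) L := by
  induction m with
  | zero =>
    intro Q _ _ _ _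
    exact ⟨fun _ => 0, by simp, by intro u hu; simp at hu⟩
  | succ m ih =>
    intro Q hd hL ht hc
    obtain ⟨c, hc1, hc2⟩ := ih (fun i => Q i.castSucc) (fun i j hij => hd _ _ (by simpa using hij))
      (fun i v hv => hL _ v hv) (fun i v hv => by
        refine le_trans (card_le_card (filter_subset_filter _ ?_)) (ht _ v hv)
        intro x hx
        simp only [mem_biUnion, mem_filter, mem_univ, true_and] at hx ⊢
        obtain ⟨j, hj, hx⟩ := hx
        exact ⟨j.castSucc, by simpa using hj, hx⟩) (fun i => hc _)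
    have hdis : Disjoint (univ.biUnion fun i : Fin m => Q i.castSucc) (Q (Fin.last m)) := by
      rw [disjoint_biUnion_left]
      intro i _
      exact hd _ _ (Fin.castSucc_lt_last i).ne
    obtain ⟨c', h1, h2, h3⟩ := extend_choos (L := L) (t := t) (q := k) hdis hc2
      (fun v hv => hL _ v hv) (fun v hv => by
        refine le_trans (card_le_card (filter_subset_filter _ ?_)) (ht (Fin.last m) v hv)
        intro x hx
        simp only [mem_biUnion, mem_filter, mem_univ, true_and] at hx ⊢
        obtain ⟨j, hx⟩ := hx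
        exact ⟨j.castSucc, Fin.castSucc_lt_last j, hx⟩) ((hc _).mono_card (by omega))
    have hU : univ.biUnion Q = (univ.biUnion fun i : Fin m => Q i.castSucc) ∪ Q (Fin.last m) := by
      ext x
      simp only [mem_biUnion, mem_univ, true_and, mem_union]
      constructor
      · rintro ⟨i, hi⟩
        refine Fin.lastCases (motive := fun i => x ∈ Q i → _) ?_ ?_ i hi
        · intro h; exact Or.inr h
        · intro j h; exact Or.inl ⟨j, h⟩
      · rintro (⟨j, h⟩ | h)
        · exact ⟨_, h⟩
        · exact ⟨_, h⟩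
    refine ⟨c', fun v hv => ?_, ?_⟩
    · rw [hU, mem_union] at hv
      rcases hv with hv | hv
      · rw [h1 v hv]; exact hc1 v hv
      · exact h2 v hv
    · rw [hU]; exact h3

/-- **(10.5) COST LEMMA.** -/
theorem cost [DecidableRel G.Adj] (V0 U : Finset V) (hU : U ⊆ V0) {m : ℕ} (Q : Fin m → Finset V)
    (hQ : ∀ i, Q i ⊆ V0) (hQd : ∀ i j, i ≠ j → Disjoint (Q i) (Q j))
    (k k'' M h t t' r q : ℕ) (hM : 1 ≤ M) (h1 : ¬ Choos G V0 k) (h2 : Choos G U q)
    (hq : 2 * M * q ≤ k)
    (hsize : ((U.card + ((V0 \ U).filter fun v => h + 1 ≤ (U.filter (G.Adj v)).card).card : ℕ) : ℝ)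
      < Real.exp (k / (8 * M)))
    (h3 : ∀ i, ∀ v ∈ Q i, v ∉ U →
      (((univ.filter fun j => j < i).biUnion Q).filter (G.Adj v)).card ≤ t)
    (h4 : ∀ i, Choos G (Q i \ U) r)
    (h5 : ∀ v ∈ V0, v ∉ U → (∀ i, v ∉ Q i) → ((univ.biUnion Q).filter (G.Adj v)).card ≤ t')
    (hnum : h + t + r + 2 * k / M ≤ k) (hk : k'' + 2 * k / M + h + t' ≤ k) :
    ¬ Choos G ((V0 \ U) \ univ.biUnion Q) k'' := by
  classical
  intro hR
  apply h1
  intro L0 hL0
  -- trim the lists to size exactly `k`
  have hex : ∀ v : V, ∃ s : Finset ℕ, v ∈ V0 → s ⊆ L0 v ∧ s.card = k := by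
    intro v
    by_cases hv : v ∈ V0
    · obtain ⟨s, a1, a2⟩ := exists_subset_card_eq (hL0 v hv)
      exact ⟨s, fun _ => ⟨a1, a2⟩⟩
    · exact ⟨∅, fun h => absurd h hv⟩
  choose L hL using hex
  suffices hcol : ColOn G V0 L from hcol.mono_list fun v hv => (hL v hv).1
  set A1 : Finset V := (V0 \ U).filter fun v => h + 1 ≤ (U.filter (G.Adj v)).card with hA1
  obtain ⟨P, hP1, hP2⟩ := palette2 U A1 L M k hM (fun v hv => (hL v (hU hv)).2)
    (fun v hv => (hL v (mem_sdiff.1 (mem_filter.1 hv).1).1).2) hsize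
  have hP1' : ∀ v ∈ U, q ≤ ((L v).filter P).card := by
    intro v hv
    have h := hP1 v hv ((L v).filter P) (fun c => by simp)
    exact Nat.le_of_mul_le_mul_left (hq.trans h) (by omega)
  have hP2' : ∀ v ∈ A1, ((L v).filter P).card ≤ 2 * k / M := by
    intro v hv
    have h := hP2 v hv ((L v).filter P) (fun c => by simp)
    exact (Nat.le_div_iff_mul_le (by omega)).2 (by rw [mul_comm]; exact h)
  -- colour `U` from `P`
  obtain ⟨c0, hc01, hc02⟩ := h2 (fun v => (L v).filter P) hP1'
  -- the new lists outside `U`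
  let L1 : V → Finset ℕ := fun v =>
    if v ∈ A1 then (L v).filter (fun c => ¬ P c) else L v \ (U.filter (G.Adj v)).image c0
  set k1 := k - 2 * k / M - h with hk1
  have hL1 : ∀ v ∈ V0 \ U, k1 ≤ (L1 v).card := by
    intro v hv
    have hvk : (L v).card = k := (hL v (mem_sdiff.1 hv).1).2
    by_cases hvA : v ∈ A1
    · simp only [L1, hvA, if_true]
      have e := card_filter_add_card_filter_not (s := L v) P
      have := hP2' v hvA
      omega
    · simp only [L1, hvA, if_false]
      have e1 : (U.filter (G.Adj v)).card ≤ h := by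
        by_contra hcon
        exact hvA (mem_filter.2 ⟨hv, by omega⟩)
      have h6 := card_sdiff_image_ge c0 (L := L v) (q := k) hvk.ge e1
      exact le_trans (Nat.sub_le_sub_right (Nat.sub_le k _) h) h6
  -- colour the chain
  have hch : ColOn G (univ.biUnion fun i => Q i \ U) L1 := by
    refine chain_col L1 k1 t r (by omega) m (fun i => Q i \ U)
      (fun i j hij => (hQd i j hij).mono sdiff_subset sdiff_subset) ?_ ?_ h4
    · intro i v hv
      rw [mem_sdiff] at hv
      exact hL1 v (mem_sdiff.2 ⟨hQ i hv.1, hv.2⟩)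
    · intro i v hv
      rw [mem_sdiff] at hv
      refine le_trans (card_le_card (filter_subset_filter _ ?_)) (h3 i v hv.1 hv.2)
      exact biUnion_mono fun j _ => sdiff_subset
  obtain ⟨c1, hc11, hc12⟩ := hch
  set R : Finset V := (V0 \ U) \ univ.biUnion Q with hRdef
  set T : Finset V := univ.biUnion fun i => Q i \ U with hT
  have hdTR : Disjoint T R := by
    rw [disjoint_left]
    intro x hx hxR
    rw [hT, mem_biUnion] at hx
    obtain ⟨i, -, hi⟩ := hx
    rw [hRdef, mem_sdiff] at hxR
    exact hxR.2 (mem_biUnion.2 ⟨i, mem_univ _, (mem_sdiff.1 hi).1⟩)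
  obtain ⟨c2, hc21, hc22, hc23⟩ := extend_choos (L := L1) (t := t') (q := k1) hdTR hc12
    (fun v hv => hL1 v (mem_sdiff.1 hv).1)
    (fun v hv => by
      rw [hRdef, mem_sdiff, mem_sdiff] at hv
      refine le_trans (card_le_card (filter_subset_filter _ ?_)) (h5 v hv.1.1 hv.1.2 ?_)
      · exact biUnion_mono fun j _ => sdiff_subset
      · intro i hi
        exact hv.2 (mem_biUnion.2 ⟨i, mem_univ _, hi⟩))
    (hR.mono_card (by omega))
  have hTR : V0 \ U = T ∪ R := by
    ext x
    rw [hRdef, hT]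
    simp only [mem_sdiff, mem_union, mem_biUnion, mem_univ, true_and, not_exists]
    constructor
    · rintro ⟨hx, hxU⟩
      by_cases hq : ∃ i, x ∈ Q i
      · obtain ⟨i, hi⟩ := hq
        exact Or.inl ⟨i, hi, hxU⟩
      · push Not at hq
        exact Or.inr ⟨⟨hx, hxU⟩, hq⟩
    · rintro (⟨i, hi, hxU⟩ | ⟨⟨hx, hxU⟩, -⟩)
      · exact ⟨hQ i hi, hxU⟩
      · exact ⟨hx, hxU⟩
  have hc2L : ∀ v ∈ V0 \ U, c2 v ∈ L1 v := by
    intro v hv
    rw [hTR, mem_union] at hv
    rcases hv with hv | hv
    · rw [hc21 v hv]; exact hc11 v hv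
    · exact hc22 v hv
  rw [← hTR] at hc23
  -- glue
  refine ⟨fun v => if v ∈ V0 \ U then c2 v else c0 v, fun v hv => ?_, ?_⟩
  · by_cases hvU : v ∈ V0 \ U
    · simp only [hvU, if_true]
      have h := hc2L v hvU
      simp only [L1] at h
      split_ifs at h
      · exact (mem_filter.1 h).1
      · exact (mem_sdiff.1 h).1
    · simp only [hvU, if_false]
      have : v ∈ U := by
        by_contra h; exact hvU (mem_sdiff.2 ⟨hv, h⟩)
      exact (mem_filter.1 (hc01 v this)).1
  · have hV : V0 = U ∪ (V0 \ U) := by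
      rw [union_sdiff_of_subset hU]
    have hdisj : Disjoint U (V0 \ U) := disjoint_sdiff
    have hgl := glue_proper (G := G) hdisj hc02 hc23 ?_
    · rw [← hV] at hgl
      exact hgl
    · intro v hv u hu huv heq
      have h := hc2L v hv
      simp only [L1] at h
      split_ifs at h with hA
      · have h' := (mem_filter.1 h).2
        rw [heq] at h'
        exact h' (mem_filter.1 (hc01 u hu)).2
      · have h' := (mem_sdiff.1 h).2
        apply h'
        rw [heq]
        exact mem_image_of_mem c0 (mem_filter.2 ⟨hu, huv⟩)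

end Crest.Agent.R042.Cost365
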