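import Mathlib
import Crest.Agent.R042.Conn_353
import Crest.Agent.R042.Menger_353

/-! Row 42, sec 05: linkage in the connected-set form, `rho`, `Massed`, frozen definitions.

`Linked G W X` : all disjoint pairs `s i, t i` in `X` can be joined by pairwise disjoint connected
vertex sets of `G[W]` which meet `X` only in `s i, t i`.  `rho G W S` counts ORDERED pairs, i.e. it is
twice the number of edges of `G[W]` with at least one end in `S`. -/

set_option autoImplicit false
set_option linter.unusedSectionVars false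

namespace Crest.Agent.R042.Link870

open Finset Crest.Agent.R042.Conn353 Crest.Agent.R042.Menger353

variable {V : Type*} [DecidableEq V]

/-- pairwise disjoint connected sets of `G[W]` joining `s i` and `t i`, meeting `X` only there. -/
structure Joined (G : SimpleGraph V) (W X : Finset V) {ι : Type*} (s t : ι → V)
    (P : ι → Finset V) : Prop where
  sub : ∀ i, P i ⊆ W
  conn : ∀ i, Conn G (P i)
  left : ∀ i, s i ∈ P i
  right : ∀ i, t i ∈ P i
  meet : ∀ i, ∀ x ∈ P i, x ∈ X → x = s i ∨ x = t i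
  disj : ∀ i j, i ≠ j → Disjoint (P i) (P j)

/-- `(G[W], X)` is linked. -/
def Linked (G : SimpleGraph V) (W X : Finset V) : Prop :=
  ∀ (n : ℕ) (s t : Fin n → V), (∀ i, s i ∈ X) → (∀ i, t i ∈ X) →
    Function.Injective s → Function.Injective t → (∀ i j, s i ≠ t j) →
    ∃ P : Fin n → Finset V, Joined G W X s t P

open Classical in
/-- neighbours of `v` inside `W`. -/
noncomputable def nb (G : SimpleGraph V) (W : Finset V) (v : V) : Finset V :=
  W.filter (fun x => G.Adj v x)

open Classical in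
/-- ORDERED pairs of adjacent vertices of `W` with at least one of them in `S`: twice the number of
edges of `G[W]` with at least one end in `S`. -/
noncomputable def rho (G : SimpleGraph V) (W S : Finset V) : ℕ :=
  ((W ×ˢ W).filter (fun p => G.Adj p.1 p.2 ∧ (p.1 ∈ S ∨ p.2 ∈ S))).card

/-- `(G[W], X)` is `lam`-massed. -/
structure Massed (G : SimpleGraph V) (W X : Finset V) (lam : ℕ) : Prop where
  sub : X ⊆ W
  m1 : 2 * lam * (W \ X).card < rho G W (W \ X)
  m2 : ∀ A B, Sep G W A B → X ⊆ A → (A ∩ B).card < X.card →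
    rho G W (B \ A) ≤ 2 * lam * (B \ A).card

variable {G : SimpleGraph V} {W X : Finset V}

lemma mem_nb {v x : V} : x ∈ nb G W v ↔ x ∈ W ∧ G.Adj v x := by
  simp [nb]


lemma Linked.mono {W' : Finset V} (h : Linked G W X) (hW : W ⊆ W') : Linked G W' X := by
  intro n s t hs ht h1 h2 h3
  obtain ⟨P, hP⟩ := h n s t hs ht h1 h2 h3
  exact ⟨P, fun i => (hP.sub i).trans hW, hP.conn, hP.left, hP.right, hP.meet, hP.disj⟩

/-- linkage for an arbitrary finite index type. -/
theorem Linked.family {ι : Type*} [Finite ι] (h : Linked G W X) (s t : ι → V)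
    (hs : ∀ i, s i ∈ X) (ht : ∀ i, t i ∈ X) (h1 : Function.Injective s)
    (h2 : Function.Injective t) (h3 : ∀ i j, s i ≠ t j) :
    ∃ P : ι → Finset V, Joined G W X s t P := by
  obtain ⟨n, ⟨e⟩⟩ := Finite.exists_equiv_fin ι
  obtain ⟨P, hP⟩ := h n (s ∘ e.symm) (t ∘ e.symm) (fun i => hs _) (fun i => ht _)
    (h1.comp e.symm.injective) (h2.comp e.symm.injective) (fun i j => h3 _ _)
  refine ⟨P ∘ e, ⟨fun i => hP.sub _, fun i => hP.conn _, ?_, ?_, ?_, ?_⟩⟩
  · intro i; simpa using hP.left (e i)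
  · intro i; simpa using hP.right (e i)
  · intro i x hx hxX; simpa using hP.meet (e i) x hx hxX
  · intro i j hij; exact hP.disj _ _ (fun h => hij (e.injective h))


/-! ### `rho` -/



/-- the degree sum over `S` is at most `rho`. -/
lemma sum_nb_le_rho {S : Finset V} (hS : S ⊆ W) : ∑ v ∈ S, (nb G W v).card ≤ rho G W S := by
  classical
  unfold rho
  rw [← Finset.card_sigma]
  refine Finset.card_le_card_of_injOn (fun p => (p.1, p.2)) ?_ ?_
  · intro p hp
    rw [Finset.mem_coe, Finset.mem_sigma, mem_nb] at hp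
    simp only [Finset.coe_filter, Finset.mem_product, Set.mem_setOf_eq]
    exact ⟨⟨hS hp.1, hp.2.1⟩, hp.2.2, Or.inl hp.1⟩
  · rintro ⟨a, b⟩ _ ⟨c, d⟩ _ h
    simp only [Prod.mk.injEq] at h
    obtain ⟨rfl, rfl⟩ := h
    rfl


/-- the total degree is at most `rho G W (W \ X) + |X|²`. -/
lemma sum_nb_le_rho_add (hX : X ⊆ W) :
    ∑ v ∈ W, (nb G W v).card ≤ rho G W (W \ X) + X.card * X.card := by
  classical
  unfold rho
  rw [← Finset.card_sigma, ← Finset.card_product]
  have key : ((W.sigma fun v => nb G W v).image fun p => (p.1, p.2)) ⊆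
      ((W ×ˢ W).filter (fun p => G.Adj p.1 p.2 ∧ (p.1 ∈ W \ X ∨ p.2 ∈ W \ X))) ∪ (X ×ˢ X) := by
    intro p hp
    rw [Finset.mem_image] at hp
    obtain ⟨⟨a, b⟩, hab, rfl⟩ := hp
    rw [Finset.mem_sigma, mem_nb] at hab
    obtain ⟨h1, h2, h3⟩ := hab
    simp only at h1 h2 h3
    rw [Finset.mem_union, Finset.mem_filter, Finset.mem_product, Finset.mem_product]
    simp only [Finset.mem_sdiff]
    by_cases ha : a ∈ X
    · by_cases hb : b ∈ X
      · exact Or.inr ⟨ha, hb⟩
      · exact Or.inl ⟨⟨h1, h2⟩, h3, Or.inr ⟨h2, hb⟩⟩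
    · exact Or.inl ⟨⟨h1, h2⟩, h3, Or.inl ⟨h1, ha⟩⟩
  have hinj : ((W.sigma fun v => nb G W v).image fun p => ((p.1, p.2) : V × V)).card =
      (W.sigma fun v => nb G W v).card := by
    apply Finset.card_image_of_injOn
    rintro ⟨a, b⟩ _ ⟨c, d⟩ _ h
    simp only [Prod.mk.injEq] at h
    obtain ⟨rfl, rfl⟩ := h
    rfl
  rw [← hinj]
  exact (Finset.card_le_card key).trans (Finset.card_union_le _ _)

end Crest.Agent.R042.Link870
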