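import Mathlib
import Crest.Agent.R042.Cost_365_Mg
import Crest.Agent.R042.Chain1_374
import Crest.Agent.R042.LinkDefs_870
import Crest.Agent.R042.Menger_353
import Crest.Agent.R042.Spine_883

-- ▼ part R042/B7Core_375
section

/-! Row 42 / S0058: the block B7 (10.6 + 10.7) from the chain of hubs, with all constants. -/

set_option autoImplicit false
set_option linter.unusedSectionVars false

namespace Crest.Agent.R042.B7375

open Finset Crest.Agent.R042.Conn353 Crest.Agent.R042.Menger353 Crest.Agent.R042.Mader375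
  Crest.Agent.R042.Crit374 Crest.Agent.R042.P1375
open scoped Classical

variable {V : Type*} [DecidableEq V]

/-- a set `J` with `≥ 2p+6` vertices which is linked for all sets of `≤ 2(p+2)` vertices is a hub
(the degree condition is automatic). -/
theorem hub_of_linked {G : SimpleGraph V} {J : Finset V} {p : ℕ} (hc : 2 * p + 6 ≤ J.card)
    (hl : ∀ X, X ⊆ J → X.card ≤ 2 * (p + 2) → Link870.Linked G J X) : Chain374.Hub G J p := by
  refine ⟨hc, ?_, ?_⟩
  · intro v hv
    by_contra hcon
    push Not at hcon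
    -- the neighbours of `v`
    set N : Finset V := J.filter (fun u => G.Adj v u) with hN
    have hNc : N.card ≤ 2 * p := by
      have : N.card = Chain374.nb G J v := by
        rw [hN]; rfl
      omega
    have hins : (insert v N).card ≤ 2 * p + 1 := (Finset.card_insert_le _ _).trans (by omega)
    obtain ⟨w, hwJ, hw⟩ : ∃ w ∈ J, w ∉ insert v N := by
      by_contra hcon2
      push Not at hcon2
      have := Finset.card_le_card (show J ⊆ insert v N from hcon2)
      omega
    have hwv : w ≠ v := fun h => hw (h ▸ Finset.mem_insert_self _ _)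
    have hwN : w ∉ N := fun h => hw (Finset.mem_insert_of_mem h)
    set X : Finset V := insert w (insert v N) with hX
    have hXJ : X ⊆ J := by
      intro x hx
      rw [hX, Finset.mem_insert, Finset.mem_insert] at hx
      rcases hx with h | h | h
      · exact h ▸ hwJ
      · exact h ▸ hv
      · exact (Finset.mem_filter.1 h).1
    have hXc : X.card ≤ 2 * (p + 2) := (Finset.card_insert_le _ _).trans (by omega)
    have hvX : v ∈ X := by rw [hX]; simp
    have hwX : w ∈ X := by rw [hX]; simp
    obtain ⟨P, hP⟩ := hl X hXJ hXc 1 (fun _ => v) (fun _ => w) (fun _ => hvX) (fun _ => hwX)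
      (fun i j _ => Subsingleton.elim i j) (fun i j _ => Subsingleton.elim i j)
      (fun _ _ => hwv.symm)
    have hreach := (hP.conn 0).reach (hP.left 0) (hP.right 0)
    rcases Relation.ReflTransGen.cases_head hreach with h | ⟨c, ⟨hvc, hc0⟩, -⟩
    · exact hwv h.symm
    · have hcJ : c ∈ J := hP.sub 0 hc0
      have hcN : c ∈ N := Finset.mem_filter.2 ⟨hcJ, hvc⟩
      have hcX : c ∈ X := by
        rw [hX]
        exact Finset.mem_insert_of_mem (Finset.mem_insert_of_mem hcN)
      rcases hP.meet 0 c hc0 hcX with h | h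
      · exact hvc.ne h.symm
      · exact hwN (h ▸ hcN)
  · intro n s t hn hs ht hsi hti hst
    set X : Finset V := Finset.univ.image s ∪ Finset.univ.image t with hX
    have hXJ : X ⊆ J := by
      intro x hx
      rw [hX, Finset.mem_union, Finset.mem_image, Finset.mem_image] at hx
      rcases hx with ⟨i, -, rfl⟩ | ⟨i, -, rfl⟩
      · exact hs i
      · exact ht i
    have hXc : X.card ≤ 2 * (p + 2) := by
      have h1 : (Finset.univ.image s).card ≤ n := by
        simpa using (Finset.card_image_le (s := (Finset.univ : Finset (Fin n))) (f := s))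
      have h2 : (Finset.univ.image t).card ≤ n := by
        simpa using (Finset.card_image_le (s := (Finset.univ : Finset (Fin n))) (f := t))
      have := Finset.card_union_le (Finset.univ.image s) (Finset.univ.image t)
      rw [← hX] at this
      omega
    obtain ⟨P, hP⟩ := hl X hXJ hXc n s t
      (fun i => Finset.mem_union_left _ (Finset.mem_image_of_mem s (Finset.mem_univ i)))
      (fun i => Finset.mem_union_right _ (Finset.mem_image_of_mem t (Finset.mem_univ i)))
      hsi hti hst
    exact ⟨P, fun i => ⟨hP.sub i, hP.conn i, hP.left i, hP.right i⟩, hP.disj⟩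

/-- LEMMA P1 for a finite set of finite sets. -/
theorem p1_sets (G : SimpleGraph V) (V0 : Finset V) (h : ℕ) (hno : ¬ Model G V0 (h + 1))
    (F : Finset (Finset V)) (T : Finset V) (hF : ∀ A ∈ F, A ⊆ V0 ∧ Conn G A)
    (hd : ∀ A ∈ F, ∀ B ∈ F, A ≠ B → Disjoint A B) (hT : T ⊆ V0)
    (hsee : ∀ t ∈ T, (∀ A ∈ F, t ∉ A) ∧ h + 1 ≤ Chain374.sees G F t) :
    T.card ≤ 2 ^ h * F.card := by
  refine outside' G V0 h hno F (fun A => A) hF hd T hT (fun t ht A hA => (hsee t ht).1 A hA) ?_
  intro t ht
  refine (hsee t ht).2.trans (le_of_eq ?_)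
  unfold Chain374.sees
  congr

/-- the cost lemma with one degenerate set. -/
theorem cost_one (G : SimpleGraph V) (V0 U P : Finset V) (hU : U ⊆ V0) (hP : P ⊆ V0)
    (h k kc M q c t' : ℕ) (hno : ¬ Model G V0 (h + 1)) (hM : 1 ≤ M) (h1 : ¬ Choos G V0 k)
    (h2 : Choos G U q) (hq : 2 * M * q ≤ k)
    (hsize : (((2 ^ h + 1) * U.card : ℕ) : ℝ) < Real.exp (k / (8 * M)))
    (hdeg : Chain374.Degen G (P \ U) c)
    (h5 : ∀ v ∈ V0, v ∉ U → v ∉ P → Chain374.nb G P v ≤ t')
    (hnum : h + c + 1 + 2 * k / M ≤ k) (hk : kc + 2 * k / M + h + t' ≤ k) :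
    ¬ Choos G ((V0 \ U) \ P) kc := by
  have hA1 : ((V0 \ U).filter fun v => h + 1 ≤ (U.filter (G.Adj v)).card).card
      ≤ 2 ^ h * U.card := by
    refine outside_single G V0 h hno U hU _ ((Finset.filter_subset _ _).trans sdiff_subset)
      ?_ ?_
    · exact Finset.disjoint_of_subset_left (Finset.filter_subset _ _) sdiff_disjoint
    · intro t ht
      refine (Finset.mem_filter.1 ht).2.trans (le_of_eq ?_)
      congr
  have := Cost365.cost (G := G) V0 U hU (m := 1) (fun _ => P) (fun _ => hP)
    (fun i j hij => absurd (Subsingleton.elim i j) hij) k kc M h 0 t' (c + 1) q hM h1 h2 hq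
    (lt_of_le_of_lt (by
      have : U.card + ((V0 \ U).filter fun v => h + 1 ≤ (U.filter (G.Adj v)).card).card ≤
        (2 ^ h + 1) * U.card := by
        rw [add_mul, one_mul]; omega
      exact_mod_cast this) hsize)
    (by
      intro i v _ _
      have : (Finset.univ.filter fun j : Fin 1 => j < i) = ∅ := by
        apply Finset.filter_eq_empty_iff.2
        intro j _ hj
        rw [Subsingleton.elim j i] at hj
        exact lt_irrefl _ hj
      rw [this]; simp)
    (fun _ => hdeg.choos)
    (by
      intro v hv hvU hvQ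
      have hb : (Finset.univ : Finset (Fin 1)).biUnion (fun _ => P) = P := by
        ext x; simp
      rw [hb]
      have := h5 v hv hvU (hvQ 0)
      refine le_trans (le_of_eq ?_) this
      unfold Chain374.nb
      congr)
    (by omega) (by omega)
  have hb : (Finset.univ : Finset (Fin 1)).biUnion (fun _ => P) = P := by
    ext x; simp
  rw [hb] at this
  exact this

end Crest.Agent.R042.B7375
end

-- ▼ part R042/LemmaU1_420
section

/-! Row 42, sec 08 Lemma U, part 1: from a "good" permutation of `W + P` to a linkage. -/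

set_option autoImplicit false
set_option linter.unusedSectionVars false

namespace Crest.Agent.R042.U420

open Finset Menger353

variable {V : Type*} [DecidableEq V]

/-- allowed transitions. -/
def Ok (G : SimpleGraph V) (A B : Finset V) : V ⊕ List V → V ⊕ List V → Prop
  | .inl v, .inl w => v = w ∨ G.Adj v w
  | .inl v, .inr _ => v ∈ B
  | .inr _, .inl w => w ∈ A
  | .inr _, .inr _ => False

/-- the nodes. -/
def nodes (W : Finset V) (P : Finset (List V)) : Finset (V ⊕ List V) := W.disjSum P

/-- a good permutation. -/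
structure Good (G : SimpleGraph V) (W A B : Finset V) (P : Finset (List V))
    (τ : Equiv.Perm (V ⊕ List V)) : Prop where
  ok : ∀ x ∈ nodes W P, Ok G A B x (τ x)
  fix : ∀ x, x ∉ nodes W P → τ x = x

/-- the cost of a permutation. -/
def cost (W : Finset V) (τ : Equiv.Perm (V ⊕ List V)) : ℕ :=
  (W.filter (fun v => τ (.inl v) ≠ .inl v)).card

variable {G : SimpleGraph V} {W A B : Finset V} {P : Finset (List V)}
  {τ : Equiv.Perm (V ⊕ List V)}

lemma inl_mem_nodes {v : V} : (Sum.inl v : V ⊕ List V) ∈ nodes W P ↔ v ∈ W := by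
  simp [nodes]

lemma inr_mem_nodes {l : List V} : (Sum.inr l : V ⊕ List V) ∈ nodes W P ↔ l ∈ P := by
  simp [nodes]

lemma Good.mem (h : Good G W A B P τ) {x : V ⊕ List V} (hx : x ∈ nodes W P) :
    τ x ∈ nodes W P := by
  by_contra hn
  have := h.fix _ hn
  exact hn (by rw [τ.injective this]; exact hx)

lemma Good.iter_mem (h : Good G W A B P τ) {x : V ⊕ List V} (hx : x ∈ nodes W P) (n : ℕ) :
    (τ^[n]) x ∈ nodes W P := by
  induction n with
  | zero => exact hx
  | succ n ih => rw [Function.iterate_succ_apply']; exact h.mem ih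

lemma Good.exists_return (h : Good G W A B P τ) {x : V ⊕ List V} (hx : x ∈ nodes W P) :
    ∃ n, (τ^[n + 1]) x = x := by
  have hinf : ∃ m n : ℕ, m ≠ n ∧
      (⟨(τ^[m]) x, h.iter_mem hx m⟩ : {y // y ∈ nodes W P}) = ⟨(τ^[n]) x, h.iter_mem hx n⟩ := by
    obtain ⟨m, n, h1, h2⟩ := Finite.exists_ne_map_eq_of_infinite
      (fun n : ℕ => (⟨(τ^[n]) x, h.iter_mem hx n⟩ : {y // y ∈ nodes W P}))
    exact ⟨m, n, h1, h2⟩
  obtain ⟨m, n, hmn, he⟩ := hinf
  simp only [Subtype.mk.injEq] at he
  wlog hlt : m < n generalizing m n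
  · exact this n m hmn.symm he.symm (by omega)
  obtain ⟨d, rfl⟩ := Nat.exists_eq_add_of_lt hlt
  refine ⟨d, ?_⟩
  have : (τ^[m]) ((τ^[d + 1]) x) = (τ^[m]) x := by
    rw [← Function.iterate_add_apply, he]
    rfl
  exact (τ.injective.iterate m) this

/-- the main extraction: for each dummy `i`, an `A`-`B` path all of whose vertices are of the form
`τ^[j+1] (inr i)`, with all previous iterates on the left. -/
lemma Good.path_of (h : Good G W A B P τ) {i : List V} (hi : i ∈ P) :
    ∃ l, IsPath G W A B l ∧ ∀ v ∈ l, ∃ j, (τ^[j + 1]) (.inr i) = .inl v ∧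
      ∀ j' ≤ j, ∃ u, (τ^[j' + 1]) (.inr i) = .inl u := by
  classical
  have hx0 : (Sum.inr i : V ⊕ List V) ∈ nodes W P := inr_mem_nodes.2 hi
  have hex : ∃ n, ((τ^[n + 1]) (.inr i)).isRight = true := by
    obtain ⟨n, hn⟩ := h.exists_return hx0
    exact ⟨n, by rw [hn]; rfl⟩
  set m := Nat.find hex with hm
  have hmr : ((τ^[m + 1]) (.inr i)).isRight = true := Nat.find_spec hex
  have hml : ∀ j < m, ∃ u, (τ^[j + 1]) (.inr i) = .inl u := by
    intro j hj
    have := Nat.find_min hex hj
    rcases hc : (τ^[j + 1]) (.inr i) with u | l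
    · exact ⟨u, rfl⟩
    · rw [hc] at this; simp at this
  have hm0 : m ≠ 0 := by
    intro h0
    rw [h0] at hmr
    have hok := h.ok _ hx0
    rcases hc : τ (.inr i) with u | l
    · simp [hc] at hmr
    · rw [hc] at hok; exact hok
  obtain ⟨v0, hv0⟩ := hml 0 (by omega)
  let toV : V ⊕ List V → V := Sum.elim id (fun _ => v0)
  let L : List V := (List.range m).map (fun j => toV ((τ^[j + 1]) (.inr i)))
  have hLlen : L.length = m := by simp [L]
  have hget : ∀ j (hj : j < L.length), (τ^[j + 1]) (.inr i) = .inl L[j] := by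
    intro j hj
    obtain ⟨u, hu⟩ := hml j (by rw [hLlen] at hj; exact hj)
    simp only [L, List.getElem_map, List.getElem_range]
    rw [hu]; rfl
  have hmem : ∀ v ∈ L, ∃ j, j < m ∧ (τ^[j + 1]) (.inr i) = .inl v := by
    intro v hv
    obtain ⟨j, hj, rfl⟩ := List.getElem_of_mem hv
    exact ⟨j, by rw [← hLlen]; exact hj, hget j hj⟩
  have hW : ∀ x ∈ L, x ∈ W := by
    intro v hv
    obtain ⟨j, hj, he⟩ := hmem v hv
    have := h.iter_mem hx0 (j + 1)
    rw [he] at this
    exact inl_mem_nodes.1 this
  have hnofix : ∀ j, j < m → τ ((τ^[j + 1]) (.inr i)) ≠ (τ^[j + 1]) (.inr i) := by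
    intro j hj hfix
    obtain ⟨u, hu⟩ := hml j hj
    rw [hu] at hfix
    have h1 : (τ^[j + 1]) (.inl u) = .inl u := Function.iterate_fixed hfix _
    have h2 : (τ^[j + 1]) (.inr i) = (τ^[j + 1]) (.inl u) := by rw [h1, hu]
    exact absurd ((τ.injective.iterate (j + 1)) h2) (by simp)
  have hchain : L.IsChain G.Adj := by
    rw [List.isChain_iff_getElem]
    intro j hj
    have e1 := hget j (by omega)
    have e2 := hget (j + 1) hj
    rw [Function.iterate_succ_apply', e1] at e2
    have hok := h.ok (.inl L[j]) (by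
      rw [← e1]; exact h.iter_mem hx0 _)
    rw [e2] at hok
    rcases hok with hok | hok
    · exfalso
      apply hnofix j (by rw [hLlen] at hj; omega)
      rw [e1, e2, hok]
    · exact hok
  have hne : L ≠ [] := by
    intro h0
    rw [h0] at hLlen
    simp at hLlen
    omega
  have hA : ∃ a t, L = a :: t ∧ a ∈ A := by
    obtain ⟨a, t, hat⟩ := List.exists_cons_of_ne_nil hne
    refine ⟨a, t, hat, ?_⟩
    have e := hget 0 (by rw [hLlen]; omega)
    have hok := h.ok _ hx0
    have e' : τ (.inr i) = .inl L[0] := by simpa using e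
    rw [e'] at hok
    have : L[0]'(by rw [hLlen]; omega) = a := by simp [hat]
    rw [this] at hok
    exact hok
  have hB : ∃ s b, L = s ++ [b] ∧ b ∈ B := by
    rcases List.eq_nil_or_concat L with h0 | ⟨s, b, hsb⟩
    · exact absurd h0 hne
    rw [List.concat_eq_append] at hsb
    refine ⟨s, b, hsb, ?_⟩
    have hsl : s.length + 1 = m := by rw [← hLlen, hsb]; simp
    have e := hget s.length (by rw [hLlen]; omega)
    have hb : L[s.length]'(by rw [hLlen]; omega) = b := by simp [hsb]
    rw [hb, hsl] at e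
    have hok := h.ok (.inl b) (by rw [← e]; exact h.iter_mem hx0 _)
    rw [Function.iterate_succ_apply', e] at hmr
    rcases hc : τ (.inl b) with u | l
    · rw [hc] at hmr; simp at hmr
    · rw [hc] at hok; exact hok
  obtain ⟨l', hl', hsub⟩ := exists_path_of_chain L.length L le_rfl hW hchain hA hB
  refine ⟨l', hl', ?_⟩
  intro v hv
  obtain ⟨j, hj, he⟩ := hmem v (hsub v hv)
  exact ⟨j, he, fun j' hj' => hml j' (by omega)⟩

/-- a good permutation gives a linkage of the same size, using at most `cost` vertices. -/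
theorem Good.exists_linkage (h : Good G W A B P τ) :
    ∃ Q, Linkage G W A B Q ∧ Q.card = P.card ∧ (verts Q).card ≤ cost W τ := by
  classical
  have hch : ∀ i : List V, ∃ l, i ∈ P → IsPath G W A B l ∧ ∀ v ∈ l, ∃ j,
      (τ^[j + 1]) (.inr i) = .inl v ∧ ∀ j' ≤ j, ∃ u, (τ^[j' + 1]) (.inr i) = .inl u := by
    intro i
    by_cases hi : i ∈ P
    · obtain ⟨l, hl⟩ := h.path_of hi
      exact ⟨l, fun _ => hl⟩
    · exact ⟨[], fun h => absurd h hi⟩
  choose F hF using hch
  have hdisj : ∀ i ∈ P, ∀ i' ∈ P, i ≠ i' → ∀ x ∈ F i, x ∉ F i' := by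
    intro i hi i' hi' hne x hx hx'
    obtain ⟨j, h1, h2⟩ := (hF i hi).2 x hx
    obtain ⟨j', h1', h2'⟩ := (hF i' hi').2 x hx'
    clear hx hx'
    wlog hle : j ≤ j' generalizing i i' j j'
    · exact this i' hi' i hi hne.symm j' h1' h2' j h1 h2 (by omega)
    obtain ⟨d, rfl⟩ := Nat.exists_eq_add_of_le hle
    have e : (τ^[j + 1]) (.inr i) = (τ^[j + 1]) ((τ^[d]) (.inr i')) := by
      rw [← Function.iterate_add_apply, h1, ← h1']
      have : j + 1 + d = j + d + 1 := by omega
      rw [this]
    have e' := (τ.injective.iterate (j + 1)) e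
    rcases d with _ | d
    · simp only [Function.iterate_zero, id_eq, Sum.inr.injEq] at e'
      exact hne e'
    · obtain ⟨u, hu⟩ := h2' d (by omega)
      rw [hu] at e'
      exact absurd e' (by simp)
  have hinj : Set.InjOn F P := by
    intro i hi i' hi' he
    by_contra hne
    obtain ⟨a, t, hat, _⟩ := (hF i hi).1.start
    have h1 : a ∈ F i := by rw [hat]; simp
    exact hdisj i hi i' hi' hne a h1 (he ▸ h1)
  refine ⟨P.image F, ⟨?_, ?_⟩, Finset.card_image_of_injOn hinj, ?_⟩
  · intro l hl
    obtain ⟨i, hi, rfl⟩ := Finset.mem_image.1 hl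
    exact (hF i hi).1
  · intro l hl l' hl' hne
    obtain ⟨i, hi, rfl⟩ := Finset.mem_image.1 hl
    obtain ⟨i', hi', rfl⟩ := Finset.mem_image.1 hl'
    exact hdisj i hi i' hi' (fun e => hne (by rw [e]))
  · apply Finset.card_le_card
    intro v hv
    obtain ⟨l, hl, hvl⟩ := mem_verts.1 hv
    obtain ⟨i, hi, rfl⟩ := Finset.mem_image.1 hl
    refine Finset.mem_filter.2 ⟨(hF i hi).1.sub v hvl, ?_⟩
    intro hfix
    obtain ⟨j, h1, h2⟩ := (hF i hi).2 v hvl
    have h3 : (τ^[j + 1]) (.inl v) = .inl v := Function.iterate_fixed hfix _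
    have h4 : (τ^[j + 1]) (.inr i) = (τ^[j + 1]) (.inl v) := by rw [h3, h1]
    exact absurd ((τ.injective.iterate (j + 1)) h4) (by simp)

end Crest.Agent.R042.U420
end

-- ▼ part R042/LemmaU2_420
section

/-! Row 42, sec 08 Lemma U, part 2: the permutation of a linkage. -/

set_option autoImplicit false
set_option linter.unusedSectionVars false

namespace Crest.Agent.R042.U420

open Finset Menger353

variable {V : Type*} [DecidableEq V]
variable {G : SimpleGraph V} {W A B : Finset V} {P : Finset (List V)}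

/-- `formPerm` moves a vertex to the next one. -/
lemma formPerm_next {α : Type*} [DecidableEq α] {s t : List α} {x y : α}
    (h : (s ++ x :: y :: t).Nodup) : (s ++ x :: y :: t).formPerm x = y := by
  have h1 : s.length + 1 < (s ++ x :: y :: t).length := by simp
  have h2 := List.formPerm_apply_lt_getElem (s ++ x :: y :: t) h s.length h1
  simpa using h2

/-- `formPerm` moves the last vertex to the first one. -/
lemma formPerm_last {α : Type*} [DecidableEq α] {t : List α} {x y : α} :
    (x :: (t ++ [y])).formPerm y = x := by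
  have := List.formPerm_apply_getLast x (t ++ [y])
  simpa using this

/-- the cycle of a path. -/
def cyc (l : List V) : List (V ⊕ List V) := .inr l :: l.map .inl

lemma cyc_nodup {l : List V} (h : l.Nodup) : (cyc l).Nodup := by
  refine List.nodup_cons.2 ⟨by simp, h.map Sum.inl_injective⟩

lemma mem_cyc_inl {l : List V} {v : V} : (Sum.inl v : V ⊕ List V) ∈ cyc l ↔ v ∈ l := by
  simp [cyc]

lemma mem_cyc_inr {l l' : List V} : (Sum.inr l' : V ⊕ List V) ∈ cyc l ↔ l' = l := by
  simp [cyc]

/-- what the permutation of a linkage does. -/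
structure Acts (P : Finset (List V)) (σ : Equiv.Perm (V ⊕ List V)) : Prop where
  on : ∀ l ∈ P, ∀ x ∈ cyc l, σ x = (cyc l).formPerm x
  off : ∀ x, (∀ l ∈ P, x ∉ cyc l) → σ x = x

lemma exists_acts (P : Finset (List V)) (hn : ∀ l ∈ P, l.Nodup)
    (hd : ∀ l ∈ P, ∀ l' ∈ P, l ≠ l' → ∀ x ∈ l, x ∉ l') :
    ∃ σ : Equiv.Perm (V ⊕ List V), Acts P σ := by
  classical
  induction P using Finset.induction_on with
  | empty => exact ⟨1, ⟨by simp, by simp⟩⟩
  | insert l P hl ih =>
    obtain ⟨σ, hσ⟩ := ih (fun l hl => hn l (Finset.mem_insert_of_mem hl))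
      (fun l1 h1 l2 h2 => hd l1 (Finset.mem_insert_of_mem h1) l2 (Finset.mem_insert_of_mem h2))
    have hdc : ∀ l' ∈ P, ∀ x ∈ cyc l', x ∉ cyc l := by
      intro l' hl' x hx hx'
      have hne : l' ≠ l := by rintro rfl; exact hl hl'
      rcases x with v | m
      · exact hd l' (Finset.mem_insert_of_mem hl') l (Finset.mem_insert_self _ _) hne v
          (mem_cyc_inl.1 hx) (mem_cyc_inl.1 hx')
      · exact hne ((mem_cyc_inr.1 hx).symm.trans (mem_cyc_inr.1 hx'))
    refine ⟨(cyc l).formPerm * σ, ⟨?_, ?_⟩⟩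
    · intro l' hl' x hx
      rw [Equiv.Perm.mul_apply]
      rcases Finset.mem_insert.1 hl' with rfl | hl'
      · rw [hσ.off x (fun l'' h'' hx'' => hdc l'' h'' x hx'' hx)]
      · rw [hσ.on l' hl' x hx]
        exact List.formPerm_apply_of_notMem
          (hdc l' hl' _ (List.formPerm_apply_mem_of_mem hx))
    · intro x hx
      rw [Equiv.Perm.mul_apply, hσ.off x (fun l' h' => hx l' (Finset.mem_insert_of_mem h')),
        List.formPerm_apply_of_notMem (hx l (Finset.mem_insert_self _ _))]

section
variable {σ : Equiv.Perm (V ⊕ List V)}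

lemma Acts.head (h : Acts P σ) {a : V} {t : List V} (hl : a :: t ∈ P)
    (hn : (a :: t).Nodup) : σ (.inr (a :: t)) = .inl a := by
  rw [h.on _ hl _ (mem_cyc_inr.2 rfl)]
  have := cyc_nodup hn
  have h2 := formPerm_next (s := []) (x := (Sum.inr (a :: t) : V ⊕ List V)) (y := .inl a)
    (t := t.map .inl) (by simpa [cyc] using this)
  simpa [cyc] using h2

lemma Acts.next (h : Acts P σ) {l s t : List V} {x y : V} (hl : l ∈ P) (hn : l.Nodup)
    (he : l = s ++ x :: y :: t) : σ (.inl x) = .inl y := by
  rw [h.on _ hl _ (mem_cyc_inl.2 (by rw [he]; simp))]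
  have h1 : cyc l = (.inr l :: s.map .inl) ++ .inl x :: .inl y :: t.map .inl := by
    rw [cyc, he]; simp
  have h2 := cyc_nodup hn
  rw [h1] at h2 ⊢
  exact formPerm_next h2

lemma Acts.last (h : Acts P σ) {l s : List V} {b : V} (hl : l ∈ P) 
    (he : l = s ++ [b]) : σ (.inl b) = .inr l := by
  rw [h.on _ hl _ (mem_cyc_inl.2 (by rw [he]; simp))]
  have h1 : cyc l = .inr l :: (s.map .inl ++ [.inl b]) := by
    rw [cyc]; congr 1; rw [he]; simp
  rw [h1]
  exact formPerm_last

/-- each vertex of a path has an image. -/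
lemma Acts.cases (h : Acts P σ) {l : List V} {x : V} (hl : l ∈ P) (hn : l.Nodup) (hx : x ∈ l) :
    (∃ s y t, l = s ++ x :: y :: t ∧ σ (.inl x) = .inl y) ∨
    (∃ s, l = s ++ [x] ∧ σ (.inl x) = .inr l) := by
  obtain ⟨s, t, he⟩ := List.append_of_mem hx
  cases t with
  | nil => exact Or.inr ⟨s, he, h.last hl he⟩
  | cons y t => exact Or.inl ⟨s, y, t, he, h.next hl hn he⟩

lemma Acts.good (h : Acts P σ) (hP : Linkage G W A B P) : Good G W A B P σ := by
  refine ⟨?_, ?_⟩
  · intro x hx
    rcases x with v | l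
    · by_cases hv : ∃ l ∈ P, v ∈ l
      · obtain ⟨l, hl, hvl⟩ := hv
        have hp := hP.path l hl
        rcases h.cases hl hp.nodup hvl with ⟨s, y, t, he, hs⟩ | ⟨s, he, hs⟩
        · rw [hs]
          right
          have hc := hp.chain
          rw [he, List.isChain_split] at hc
          have := hc.2
          rw [List.isChain_cons_cons] at this
          exact this.1
        · rw [hs]
          rw [he] at hp
          exact hp.last_mem
      · push Not at hv
        rw [h.off (.inl v) (fun l hl hc => hv l hl (mem_cyc_inl.1 hc))]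
        exact Or.inl rfl
    · have hl := inr_mem_nodes.1 hx
      have hp := hP.path l hl
      obtain ⟨a, t, hat, ha, _⟩ := hp.start
      subst hat
      rw [h.head hl hp.nodup]
      exact ha
  · intro x hx
    apply h.off
    intro l hl hxl
    apply hx
    rcases x with v | m
    · exact inl_mem_nodes.2 ((hP.path l hl).sub v (mem_cyc_inl.1 hxl))
    · rw [mem_cyc_inr.1 hxl]
      exact inr_mem_nodes.2 hl

lemma Acts.ne_of_mem (h : Acts P σ) (hn : ∀ l ∈ P, l.Nodup) {v : V} (hv : v ∈ verts P) :
    σ (.inl v) ≠ .inl v := by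
  obtain ⟨l, hl, hvl⟩ := mem_verts.1 hv
  rcases h.cases hl (hn l hl) hvl with ⟨s, y, t, he, hs⟩ | ⟨s, he, hs⟩
  · rw [hs]
    intro e
    rw [Sum.inl.injEq] at e
    have := hn l hl
    rw [he, e] at this
    have := (List.nodup_append.1 this).2.1
    simp at this
  · rw [hs]; simp

lemma Acts.cost_eq (h : Acts P σ) (hP : Linkage G W A B P) : cost W σ = (verts P).card := by
  classical
  unfold cost
  congr 1
  ext v
  rw [Finset.mem_filter]
  constructor
  · rintro ⟨hv, hne⟩
    by_contra hn
    apply hne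
    apply h.off
    intro l hl hc
    exact hn (mem_verts.2 ⟨l, hl, mem_cyc_inl.1 hc⟩)
  · intro hv
    refine ⟨?_, h.ne_of_mem (fun l hl => (hP.path l hl).nodup) hv⟩
    obtain ⟨l, hl, hvl⟩ := mem_verts.1 hv
    exact (hP.path l hl).sub v hvl

end

/-- a batch: a linkage with the minimal number of vertices. -/
structure IsBatch (G : SimpleGraph V) (W A B : Finset V) (P : Finset (List V)) : Prop where
  link : Linkage G W A B P
  min : ∀ Q, Linkage G W A B Q → Q.card = P.card → (verts P).card ≤ (verts Q).card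


/-- the permutation of a batch has minimal cost. -/
theorem IsBatch.exists_perm (h : IsBatch G W A B P) :
    ∃ σ : Equiv.Perm (V ⊕ List V), Acts P σ ∧ Good G W A B P σ ∧
      ∀ τ, Good G W A B P τ → cost W σ ≤ cost W τ := by
  obtain ⟨σ, hσ⟩ := exists_acts P (fun l hl => (h.link.path l hl).nodup) h.link.disj
  refine ⟨σ, hσ, hσ.good h.link, ?_⟩
  intro τ hτ
  obtain ⟨Q, h1, h2, h3⟩ := hτ.exists_linkage
  rw [hσ.cost_eq h.link]
  exact (h.min Q h1 h2).trans h3

end Crest.Agent.R042.U420
end

-- ▼ part R042/LemmaU3_420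
section

/-! Row 42, sec 08 Lemma U, part 3: potentials. -/

set_option autoImplicit false
set_option linter.unusedSectionVars false

namespace Crest.Agent.R042.U420

open Finset Menger353

/-! ### weights of walks -/

section wt
variable {α : Type*}

/-- weight of a walk. -/
def wt (f : α → α → ℤ) : List α → ℤ
  | [] => 0
  | [_] => 0
  | x :: y :: t => f x y + wt f (y :: t)

variable {f : α → α → ℤ}

lemma wt_append (x : α) (t : List α) : ∀ s : List α,
    wt f (s ++ x :: t) = wt f (s ++ [x]) + wt f (x :: t)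
  | [] => by simp [wt]
  | [y] => by simp [wt]
  | y :: z :: s => by
      have := wt_append x t (z :: s)
      simp only [List.cons_append, wt] at this ⊢
      rw [this]; ring

lemma wt_snoc (s : List α) (x y : α) : wt f (s ++ [x] ++ [y]) = wt f (s ++ [x]) + f x y := by
  have := wt_append (f := f) x [y] s
  simp only [List.append_assoc, List.singleton_append] at this ⊢
  rw [this]; simp [wt]

lemma wt_lower (hf : ∀ x y, -1 ≤ f x y) : ∀ l : List α, -(l.length : ℤ) ≤ wt f l
  | [] => by simp [wt]
  | [x] => by simp [wt]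
  | x :: y :: t => by
      have := wt_lower hf (y :: t)
      have h2 := hf x y
      simp only [List.length_cons, wt] at this ⊢
      push_cast at this ⊢
      linarith

lemma sum_formPerm [DecidableEq α] (c : List α) (hc : c.Nodup) (a : α) (c' : List α)
    (ha : c = a :: c') : ∀ (t s : List α) (y : α), c = s ++ y :: t →
    ((y :: t).map (fun x => f x (c.formPerm x))).sum = wt f (y :: t ++ [a])
  | [], s, y, h => by
      have : c.formPerm y = a := by
        cases s with
        | nil =>
          simp only [List.nil_append] at h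
          rw [ha] at h
          simp only [List.cons.injEq] at h
          rw [ha, h.2, h.1]; simp
        | cons b s =>
          rw [ha] at h
          simp only [List.cons_append, List.cons.injEq] at h
          rw [ha, h.2]
          exact formPerm_last
      simp [wt, this]
  | z :: t, s, y, h => by
      have h1 : c.formPerm y = z := by
        rw [h] at hc ⊢
        exact formPerm_next hc
      have h2 := sum_formPerm c hc a c' ha t (s ++ [y]) z (by rw [h]; simp)
      rw [List.map_cons, List.sum_cons, h2, h1]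
      simp [wt]

end wt

variable {V : Type*} [DecidableEq V]
variable {G : SimpleGraph V} {W A B : Finset V} {P : Finset (List V)}

/-- cost of one transition. -/
def cc (x y : V ⊕ List V) : ℤ :=
  match x with
  | .inl v => if y = .inl v then 0 else 1
  | .inr _ => 0

lemma cc_nonneg (x y : V ⊕ List V) : 0 ≤ cc x y := by
  unfold cc
  cases x with
  | inl v => dsimp only; split_ifs <;> norm_num
  | inr l => exact le_rfl

lemma cc_le_one (x y : V ⊕ List V) : cc x y ≤ 1 := by
  unfold cc
  cases x with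
  | inl v => dsimp only; split_ifs <;> norm_num
  | inr l => norm_num

lemma cost_eq_sum (τ : Equiv.Perm (V ⊕ List V)) :
    (cost W τ : ℤ) = ∑ x ∈ nodes W P, cc x (τ x) := by
  classical
  unfold nodes
  rw [Finset.sum_disjSum]
  have h2 : ∑ x ∈ P, cc (Sum.inr x) (τ (Sum.inr x)) = 0 :=
    Finset.sum_eq_zero (fun _ _ => rfl)
  rw [h2, add_zero, cost, Finset.card_filter]
  push_cast
  apply Finset.sum_congr rfl
  intro v _
  by_cases h : τ (.inl v) = .inl v
  · simp [cc, h]
  · simp [cc, h]

section
variable (σ : Equiv.Perm (V ⊕ List V))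

/-- exchange weight. -/
def ww (x y : V ⊕ List V) : ℤ := cc x (σ y) - cc x (σ x)

/-- exchange relation. -/
def RR (G : SimpleGraph V) (A B : Finset V) (x y : V ⊕ List V) : Prop := Ok G A B x (σ y)

variable {σ}

lemma ww_lower (x y : V ⊕ List V) : -1 ≤ ww σ x y := by
  have h1 := cc_nonneg x (σ y)
  have h2 := cc_le_one x (σ x)
  unfold ww; linarith

/-- no negative cycle. -/
lemma cycle_nonneg (hσ : Good G W A B P σ) (hmin : ∀ τ, Good G W A B P τ → cost W σ ≤ cost W τ)
    {c : List (V ⊕ List V)} (hc : c.Nodup) (hD : ∀ x ∈ c, x ∈ nodes W P) {a : V ⊕ List V}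
    {c' : List (V ⊕ List V)} (ha : c = a :: c') (hR : (c ++ [a]).IsChain (RR σ G A B)) :
    0 ≤ wt (ww σ) (c ++ [a]) := by
  classical
  have hRR : ∀ x ∈ c, RR σ G A B x (c.formPerm x) := by
    intro x hx
    obtain ⟨s, t, he⟩ := List.append_of_mem hx
    cases t with
    | nil =>
      have h1 : c.formPerm x = a := by
        cases s with
        | nil =>
          simp only [List.nil_append] at he
          rw [ha] at he
          simp only [List.cons.injEq] at he
          rw [ha, he.2, he.1]; simp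
        | cons b s =>
          rw [ha] at he
          simp only [List.cons_append, List.cons.injEq] at he
          rw [ha, he.2]
          exact formPerm_last
      rw [h1]
      rw [he, List.append_assoc, List.singleton_append, List.isChain_split] at hR
      have := hR.2
      rw [List.isChain_cons_cons] at this
      exact this.1
    | cons y t =>
      have h1 : c.formPerm x = y := by
        rw [he] at hc ⊢
        exact formPerm_next hc
      rw [h1]
      rw [he, List.append_assoc, List.cons_append, List.isChain_split] at hR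
      have := hR.2
      rw [List.cons_append, List.isChain_cons_cons] at this
      exact this.1
  have hgood : Good G W A B P (σ * c.formPerm) := by
    refine ⟨?_, ?_⟩
    · intro x hx
      rw [Equiv.Perm.mul_apply]
      by_cases hxc : x ∈ c
      · exact hRR x hxc
      · rw [List.formPerm_apply_of_notMem hxc]
        exact hσ.ok x hx
    · intro x hx
      have hxc : x ∉ c := fun h => hx (hD x h)
      rw [Equiv.Perm.mul_apply, List.formPerm_apply_of_notMem hxc]
      exact hσ.fix x hx
  have hle : (cost W σ : ℤ) ≤ cost W (σ * c.formPerm) := by exact_mod_cast hmin _ hgood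
  rw [cost_eq_sum (P := P) σ, cost_eq_sum (P := P) (σ * c.formPerm)] at hle
  have hdiff : ∑ x ∈ nodes W P, cc x ((σ * c.formPerm) x) - ∑ x ∈ nodes W P, cc x (σ x)
      = ∑ x ∈ c.toFinset, ww σ x (c.formPerm x) := by
    rw [← Finset.sum_sub_distrib]
    symm
    apply Finset.sum_subset_zero_on_sdiff
    · intro x hx
      exact hD x (List.mem_toFinset.1 hx)
    · intro x hx
      have hxc : x ∉ c := fun h => (Finset.mem_sdiff.1 hx).2 (List.mem_toFinset.2 h)
      rw [Equiv.Perm.mul_apply, List.formPerm_apply_of_notMem hxc]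
      simp
    · intro x hx
      rfl
  rw [List.sum_toFinset _ hc] at hdiff
  have hs := sum_formPerm (f := ww σ) c hc a c' ha c' [] a (by simp [ha])
  rw [← ha] at hs
  rw [hs] at hdiff
  linarith

/-- the set of weights of simple walks ending at `y`. -/
def wset (σ : Equiv.Perm (V ⊕ List V)) (G : SimpleGraph V) (W A B : Finset V)
    (P : Finset (List V)) (y : V ⊕ List V) : Set ℤ :=
  {n | ∃ s, (s ++ [y]).Nodup ∧ (∀ x ∈ s ++ [y], x ∈ nodes W P) ∧
    (s ++ [y]).IsChain (RR σ G A B) ∧ wt (ww σ) (s ++ [y]) = n}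

lemma wset_bdd (y : V ⊕ List V) : BddBelow (wset σ G W A B P y) := by
  classical
  refine ⟨-((nodes W P).card : ℤ), ?_⟩
  rintro n ⟨s, h1, h2, _, rfl⟩
  have h3 := wt_lower (f := ww σ) ww_lower (s ++ [y])
  have h4 : (s ++ [y]).length ≤ (nodes W P).card := by
    rw [← List.toFinset_card_of_nodup h1]
    exact Finset.card_le_card (fun x hx => h2 x (List.mem_toFinset.1 hx))
  have h5 : ((s ++ [y]).length : ℤ) ≤ (nodes W P).card := by exact_mod_cast h4
  linarith

/-- the potential. -/
noncomputable def pot (σ : Equiv.Perm (V ⊕ List V)) (G : SimpleGraph V) (W A B : Finset V)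
    (P : Finset (List V)) (y : V ⊕ List V) : ℤ := sInf (wset σ G W A B P y)

lemma pot_mem {y : V ⊕ List V} (hy : y ∈ nodes W P) :
    pot σ G W A B P y ∈ wset σ G W A B P y := by
  apply Int.csInf_mem
  · exact ⟨0, [], by simp, by simpa using hy, by simp, by simp [wt]⟩
  · exact wset_bdd y

lemma pot_le {y : V ⊕ List V} {n : ℤ} (h : n ∈ wset σ G W A B P y) : pot σ G W A B P y ≤ n :=
  csInf_le (wset_bdd y) h

lemma pot_triangle (hσ : Good G W A B P σ)
    (hmin : ∀ τ, Good G W A B P τ → cost W σ ≤ cost W τ) {x y : V ⊕ List V}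
    (hx : x ∈ nodes W P) (hy : y ∈ nodes W P) (hR : Ok G A B x (σ y)) :
    pot σ G W A B P y ≤ pot σ G W A B P x + ww σ x y := by
  classical
  obtain ⟨s, h1, h2, h3, h4⟩ := pot_mem (σ := σ) (G := G) (A := A) (B := B) hx
  by_cases hyl : y ∈ s ++ [x]
  · obtain ⟨l1, l2, he⟩ := List.append_of_mem hyl
    -- the last vertex of `y :: l2` is `x`
    have hlast : ∃ s', y :: l2 = s' ++ [x] := by
      rcases List.eq_nil_or_concat l2 with rfl | ⟨l3, z, rfl⟩
      · have h5 := (last_unique (s := s) (s' := l1) he).2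
        exact ⟨[], by rw [h5]; rfl⟩
      · have h5 : s ++ [x] = (l1 ++ y :: l3) ++ [z] := by rw [he]; simp
        have h6 := (last_unique h5).2
        exact ⟨y :: l3, by rw [h6]; simp⟩
    obtain ⟨s', hs'⟩ := hlast
    have h5 : (y :: l2).Nodup := by
      rw [he] at h1
      exact (List.nodup_append.1 h1).2.1
    have h6 : ∀ z ∈ y :: l2, z ∈ nodes W P := by
      intro z hz
      apply h2
      rw [he]
      exact List.mem_append_right _ hz
    have h7 : (y :: l2).IsChain (RR σ G A B) := by
      rw [he, List.isChain_split] at h3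
      exact h3.2
    have h8 : ((y :: l2) ++ [y]).IsChain (RR σ G A B) := by
      rw [hs'] at h7 ⊢
      rw [List.append_assoc, List.singleton_append, List.isChain_split]
      exact ⟨h7, by simp [RR]; exact hR⟩
    have h9 := cycle_nonneg hσ hmin h5 h6 rfl h8
    rw [hs', wt_snoc, ← hs'] at h9
    have h10 : pot σ G W A B P y ≤ wt (ww σ) (l1 ++ [y]) := by
      apply pot_le
      refine ⟨l1, ?_, ?_, ?_, rfl⟩
      · rw [he] at h1
        have : (l1 ++ [y]).Sublist (l1 ++ y :: l2) := by simp
        exact this.nodup h1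
      · intro z hz
        apply h2
        rw [he]
        simp only [List.mem_append, List.mem_cons, List.not_mem_nil, or_false] at hz ⊢
        tauto
      · rw [he, List.isChain_split] at h3
        exact h3.1
    have h11 := wt_append (f := ww σ) y l2 l1
    rw [he] at h4
    linarith
  · have h5 : pot σ G W A B P y ≤ wt (ww σ) (s ++ [x] ++ [y]) := by
      apply pot_le
      refine ⟨s ++ [x], ?_, ?_, ?_, rfl⟩
      · rw [List.nodup_append]
        refine ⟨h1, by simp, ?_⟩
        intro a ha b hb hab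
        rw [List.mem_singleton] at hb
        rw [hab, hb] at ha
        exact hyl ha
      · intro z hz
        rcases List.mem_append.1 hz with hz | hz
        · exact h2 z hz
        · rw [List.mem_singleton] at hz; rw [hz]; exact hy
      · rw [List.append_assoc, List.singleton_append, List.isChain_split]
        exact ⟨h3, by simp [RR]; exact hR⟩
    rw [wt_snoc, h4] at h5
    exact h5

end

/-- the interval structure of a batch. -/
theorem IsBatch.exists_intervals (h : IsBatch G W A B P) :
    ∃ a b : V → ℤ, (∀ v ∈ verts P, a v + 1 ≤ b v) ∧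
      (∀ v ∈ verts P, ∀ z ∈ W, G.Adj v z → a z ≤ b v) ∧
      (∀ l ∈ P, ∀ s x y t, l = s ++ x :: y :: t → a y = b x) := by
  obtain ⟨σ, hact, hgood, hmin⟩ := h.exists_perm
  have hvW : ∀ v ∈ verts P, v ∈ W := by
    intro v hv
    obtain ⟨l, hl, hvl⟩ := mem_verts.1 hv
    exact (h.link.path l hl).sub v hvl
  have hpre : ∀ z ∈ W, σ.symm (.inl z) ∈ nodes W P := by
    intro z hz
    by_contra hn
    have := hgood.fix _ hn
    rw [Equiv.apply_symm_apply] at this
    rw [← this] at hn
    exact hn (inl_mem_nodes.2 hz)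
  have hne : ∀ v ∈ verts P, σ (.inl v) ≠ .inl v := fun v hv =>
    hact.ne_of_mem (fun l hl => (h.link.path l hl).nodup) hv
  refine ⟨fun v => pot σ G W A B P (σ.symm (.inl v)), fun v => pot σ G W A B P (.inl v),
    ?_, ?_, ?_⟩
  · intro v hv
    have h1 := pot_triangle hgood hmin (x := .inl v) (y := σ.symm (.inl v))
      (inl_mem_nodes.2 (hvW v hv)) (hpre v (hvW v hv))
      (by rw [Equiv.apply_symm_apply]; exact Or.inl rfl)
    have h2 : ww σ (.inl v) (σ.symm (.inl v)) = -1 := by
      unfold ww
      rw [Equiv.apply_symm_apply]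
      simp [cc, hne v hv]
    rw [h2] at h1
    linarith
  · intro v hv z hz hadj
    have h1 := pot_triangle hgood hmin (x := .inl v) (y := σ.symm (.inl z))
      (inl_mem_nodes.2 (hvW v hv)) (hpre z hz)
      (by rw [Equiv.apply_symm_apply]; exact Or.inr hadj)
    have h2 : ww σ (.inl v) (σ.symm (.inl z)) = 0 := by
      unfold ww
      rw [Equiv.apply_symm_apply]
      have : z ≠ v := fun e => by rw [e] at hadj; exact G.loopless.irrefl v hadj
      simp [cc, hne v hv, this]
    rw [h2] at h1
    linarith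
  · intro l hl s x y t he
    have h1 := hact.next hl (h.link.path l hl).nodup he
    simp only
    rw [← h1, Equiv.symm_apply_apply]

end Crest.Agent.R042.U420
private theorem rz_c943abc079 : type_of% @_root_.Crest.Agent.R042.U420.cc.eq_1 := @_root_.Crest.Agent.R042.U420.cc.eq_1 -- L81
private theorem rz_74e1d4b9be : type_of% @_root_.Crest.Agent.R042.U420.wt.eq_def := @_root_.Crest.Agent.R042.U420.wt.eq_def -- L19
private theorem rz_fd9f49abd7 : type_of% @_root_.Crest.Agent.R042.U420.wt.eq_1 := @_root_.Crest.Agent.R042.U420.wt.eq_1 -- L19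
end

-- ▼ part R042/LemmaU_420
section

/-! Row 42, sec 08 Lemma U and 10.2: a batch (linkage with the minimal number of vertices) induces a
`(2p-1)`-degenerate graph, its paths are induced, outside vertices have at most three neighbours on
each path. -/

set_option autoImplicit false
set_option linter.unusedSectionVars false

namespace Crest.Agent.R042.U420

open Finset Menger353

variable {V : Type*} [DecidableEq V]
variable {G : SimpleGraph V} {W A B : Finset V} {P : Finset (List V)}

/-! ### interval counting -/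

lemma pairwise_of_steps {a b : V → ℤ} : ∀ l : List V, (∀ v ∈ l, a v + 1 ≤ b v) →
    (∀ s x y t, l = s ++ x :: y :: t → a y = b x) → l.Pairwise (fun x y => b x ≤ a y)
  | [], _, _ => List.Pairwise.nil
  | x :: l, h1, h2 => by
    have hp := pairwise_of_steps l (fun v hv => h1 v (List.mem_cons_of_mem _ hv))
      (fun s y z t he => h2 (x :: s) y z t (by rw [he]; rfl))
    refine List.pairwise_cons.2 ⟨?_, hp⟩
    intro y hy
    cases l with
    | nil => simp at hy
    | cons z l =>
      have h3 := h2 [] x z l rfl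
      rcases List.mem_cons.1 hy with rfl | hy
      · exact h3.ge
      · have h4 := (List.pairwise_cons.1 hp).1 y hy
        have h5 := h1 z (by simp)
        linarith

lemma filter_len_le_two {a b : V → ℤ} (t : ℤ) (l : List V) (h1 : ∀ v ∈ l, a v + 1 ≤ b v)
    (h2 : l.Pairwise (fun x y => b x ≤ a y)) :
    (l.filter (fun x => decide (a x ≤ t ∧ t ≤ b x))).length ≤ 2 := by
  have h3 := h2.filter (fun x => decide (a x ≤ t ∧ t ≤ b x))
  have h4 : ∀ x ∈ l.filter (fun x => decide (a x ≤ t ∧ t ≤ b x)),
      a x + 1 ≤ b x ∧ a x ≤ t ∧ t ≤ b x := by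
    intro x hx
    rw [List.mem_filter] at hx
    exact ⟨h1 x hx.1, by simpa using hx.2⟩
  generalize l.filter (fun x => decide (a x ≤ t ∧ t ≤ b x)) = m at h3 h4
  match m, h3, h4 with
  | [], _, _ => simp
  | [x], _, _ => simp
  | [x, y], _, _ => simp
  | x :: y :: z :: m, h3, h4 =>
    exfalso
    have e1 := (List.pairwise_cons.1 h3).1 y (by simp)
    have e2 := (List.pairwise_cons.1 (List.pairwise_cons.1 h3).2).1 z (by simp)
    have e3 := h4 x (by simp)
    have e4 := h4 y (by simp)
    have e5 := h4 z (by simp)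
    linarith [e3.2.2, e4.1, e5.2.1]

/-- **Lemma U**: the graph induced on a batch of `p` paths is `(2p-1)`-degenerate. -/
theorem IsBatch.degenerate (h : IsBatch G W A B P) {Y : Finset V} (hY : Y ⊆ verts P)
    (hne : Y.Nonempty) [DecidableRel G.Adj] :
    ∃ y ∈ Y, (Y.filter (fun x => G.Adj y x)).card ≤ 2 * P.card - 1 := by
  classical
  obtain ⟨a, b, h1, h2, h3⟩ := h.exists_intervals
  obtain ⟨y, hy, hmin⟩ := Finset.exists_min_image Y b hne
  refine ⟨y, hy, ?_⟩
  set t := b y with ht
  have hvW : ∀ v ∈ verts P, v ∈ W := by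
    intro v hv
    obtain ⟨l, hl, hvl⟩ := mem_verts.1 hv
    exact (h.link.path l hl).sub v hvl
  have hQ : ((verts P).filter (fun x => a x ≤ t ∧ t ≤ b x)).card ≤ 2 * P.card := by
    have hsub : (verts P).filter (fun x => a x ≤ t ∧ t ≤ b x) ⊆
        P.biUnion (fun l => (l.filter (fun x => decide (a x ≤ t ∧ t ≤ b x))).toFinset) := by
      intro x hx
      rw [Finset.mem_filter] at hx
      obtain ⟨l, hl, hxl⟩ := mem_verts.1 hx.1
      refine Finset.mem_biUnion.2 ⟨l, hl, ?_⟩
      rw [List.mem_toFinset, List.mem_filter]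
      exact ⟨hxl, by simpa using hx.2⟩
    refine (Finset.card_le_card hsub).trans ?_
    have := Finset.card_biUnion_le_card_mul P
      (fun l => (l.filter (fun x => decide (a x ≤ t ∧ t ≤ b x))).toFinset) 2 (by
        intro l hl
        refine (List.toFinset_card_le _).trans ?_
        apply filter_len_le_two t l (fun v hv => h1 v (mem_verts.2 ⟨l, hl, hv⟩))
        exact pairwise_of_steps l (fun v hv => h1 v (mem_verts.2 ⟨l, hl, hv⟩))
          (fun s x y t he => h3 l hl s x y t he))
    linarith
  have hsub : insert y (Y.filter (fun x => G.Adj y x)) ⊆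
      (verts P).filter (fun x => a x ≤ t ∧ t ≤ b x) := by
    intro x hx
    rw [Finset.mem_filter]
    rcases Finset.mem_insert.1 hx with rfl | hx
    · exact ⟨hY hy, by have := h1 x (hY hy); linarith, le_rfl⟩
    · rw [Finset.mem_filter] at hx
      exact ⟨hY hx.1, h2 y (hY hy) x (hvW x (hY hx.1)) hx.2, hmin x hx.1⟩
  have hcard := Finset.card_le_card hsub
  rw [Finset.card_insert_of_notMem (by simp)] at hcard
  omega

/-! ### exchange -/

lemma verts_insert {l : List V} {Q : Finset (List V)} : verts (insert l Q) = l.toFinset ∪ verts Q := by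
  unfold verts
  rw [Finset.biUnion_insert]

/-- exchange lemma: a path of a batch is not longer than any walk of `G[W]` from `A` to `B` which
avoids the other paths. -/
theorem IsBatch.exchange (h : IsBatch G W A B P) {l : List V} (hl : l ∈ P) {m : List V}
    (hW : ∀ x ∈ m, x ∈ W) (hc : m.IsChain G.Adj) (hA : ∃ a t, m = a :: t ∧ a ∈ A)
    (hB : ∃ s b, m = s ++ [b] ∧ b ∈ B) (hd : ∀ l' ∈ P, l' ≠ l → ∀ x ∈ m, x ∉ l') :
    l.length ≤ m.length := by
  classical
  obtain ⟨m', hm', hsub⟩ := exists_path_of_chain m.length m le_rfl hW hc hA hB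
  have hmP : m' ∉ P.erase l := by
    intro hmem
    rw [Finset.mem_erase] at hmem
    obtain ⟨a, t, hat, _⟩ := hm'.start
    have ha : a ∈ m' := by rw [hat]; simp
    exact hd m' hmem.2 hmem.1 a (hsub a ha) ha
  have hdd : ∀ l' ∈ P.erase l, ∀ x ∈ m', x ∉ l' := by
    intro l' hl' x hx
    rw [Finset.mem_erase] at hl'
    exact hd l' hl'.2 hl'.1 x (hsub x hx)
  have hlink : Linkage G W A B (insert m' (P.erase l)) := by
    refine ⟨?_, ?_⟩
    · intro l' hl'
      rcases Finset.mem_insert.1 hl' with rfl | hl'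
      · exact hm'
      · exact h.link.path l' (Finset.mem_of_mem_erase hl')
    · intro l1 h1 l2 h2 hne x hx hx'
      rcases Finset.mem_insert.1 h1 with e1 | e1
      · rcases Finset.mem_insert.1 h2 with e2 | e2
        · exact hne (e1.trans e2.symm)
        · exact hdd l2 e2 x (e1 ▸ hx) hx'
      · rcases Finset.mem_insert.1 h2 with e2 | e2
        · exact hdd l1 e1 x (e2 ▸ hx') hx
        · exact h.link.disj l1 (Finset.mem_of_mem_erase e1) l2 (Finset.mem_of_mem_erase e2) hne
            x hx hx'
  have hcard : (insert m' (P.erase l)).card = P.card := by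
    rw [Finset.card_insert_of_notMem hmP, Finset.card_erase_of_mem hl]
    have := Finset.card_pos.2 ⟨l, hl⟩
    omega
  have hle := h.min _ hlink hcard
  rw [verts_insert] at hle
  have hP : verts P = l.toFinset ∪ verts (P.erase l) := by
    rw [← verts_insert, Finset.insert_erase hl]
  have hdisj : Disjoint l.toFinset (verts (P.erase l)) := by
    rw [Finset.disjoint_left]
    intro x hx hx'
    obtain ⟨l', hl', hxl'⟩ := mem_verts.1 hx'
    rw [Finset.mem_erase] at hl'
    exact h.link.disj l hl l' hl'.2 hl'.1.symm x (List.mem_toFinset.1 hx) hxl'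
  rw [hP, Finset.card_union_of_disjoint hdisj,
    List.toFinset_card_of_nodup (h.link.path l hl).nodup] at hle
  have h1 := Finset.card_union_le m'.toFinset (verts (P.erase l))
  have h2 : m'.toFinset.card ≤ m.length :=
    (Finset.card_le_card (fun x hx => List.mem_toFinset.2 (hsub x (List.mem_toFinset.1 hx)))).trans
      (List.toFinset_card_le m)
  omega


/-- a vertex outside the batch has at most three neighbours on each path: if `v` is adjacent to
`x` and `y` on the path then there is at most one vertex between them. -/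
theorem IsBatch.between_le_one (h : IsBatch G W A B P) {l : List V} (hl : l ∈ P)
    {s m t : List V} {x y v : V} (he : l = s ++ x :: (m ++ y :: t)) (hv : v ∈ W)
    (hvP : v ∉ verts P) (hx : G.Adj v x) (hy : G.Adj v y) : m.length ≤ 1 := by
  classical
  have hp := h.link.path l hl
  have hsub : ∀ z ∈ s ++ x :: v :: y :: t, z ∈ l ∨ z = v := by
    intro z hz
    rw [he]
    simp only [List.mem_append, List.mem_cons] at hz ⊢
    tauto
  have hlen := h.exchange hl (m := s ++ x :: v :: y :: t)
    (fun z hz => by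
      rcases hsub z hz with h1 | rfl
      · exact hp.sub z h1
      · exact hv)
    (by
      have hc := hp.chain
      rw [he, List.isChain_split] at hc
      rw [List.isChain_split]
      refine ⟨hc.1, ?_⟩
      rw [List.isChain_cons_cons, List.isChain_cons_cons]
      refine ⟨hx.symm, hy, ?_⟩
      have h2 := hc.2
      rw [← List.cons_append, List.isChain_split] at h2
      exact h2.2)
    (by
      obtain ⟨a, t', hat, ha, _⟩ := hp.start
      rw [he] at hat
      cases s with
      | nil =>
        simp only [List.nil_append, List.cons.injEq] at hat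
        exact ⟨x, v :: y :: t, rfl, hat.1 ▸ ha⟩
      | cons c s =>
        simp only [List.cons_append, List.cons.injEq] at hat
        exact ⟨c, s ++ x :: v :: y :: t, rfl, hat.1 ▸ ha⟩)
    (by
      obtain ⟨s', b, hsb, hb, _⟩ := hp.stop
      rw [he] at hsb
      rcases List.eq_nil_or_concat t with rfl | ⟨t', c, rfl⟩
      · have h5 : (s ++ x :: m) ++ [y] = s' ++ [b] := by rw [← hsb]; simp
        have := (last_unique h5).2
        exact ⟨s ++ [x, v], y, by simp, this ▸ hb⟩
      · have h5 : (s ++ x :: (m ++ y :: t')) ++ [c] = s' ++ [b] := by rw [← hsb]; simp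
        have := (last_unique h5).2
        exact ⟨s ++ x :: v :: y :: t', c, by simp, this ▸ hb⟩)
    (by
      intro l' hl' hne z hz hz'
      rcases hsub z hz with h1 | rfl
      · exact h.link.disj l' hl' l hl hne z hz' h1
      · exact hvP (mem_verts.2 ⟨l', hl', hz'⟩))
  rw [he] at hlen
  simp only [List.length_append, List.length_cons] at hlen
  omega

/-- a vertex outside the batch has at most three neighbours on each path. -/
theorem IsBatch.nbr_le_three (h : IsBatch G W A B P) {l : List V} (hl : l ∈ P) {v : V}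
    (hv : v ∈ W) (hvP : v ∉ verts P) [DecidableRel G.Adj] :
    (l.toFinset.filter (fun x => G.Adj v x)).card ≤ 3 := by
  classical
  have hp := h.link.path l hl
  by_cases hex : ∃ x ∈ l, G.Adj v x
  swap
  · push Not at hex
    rw [Finset.filter_false_of_mem (fun x hx => hex x (List.mem_toFinset.1 hx))]
    simp
  obtain ⟨s, x, r, h1, h2, h3⟩ := split_first (fun x => G.Adj v x) l hex
  by_cases hex2 : ∃ y ∈ r, G.Adj v y
  swap
  · push Not at hex2
    have : l.toFinset.filter (fun x => G.Adj v x) ⊆ {x} := by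
      intro z hz
      rw [Finset.mem_filter, List.mem_toFinset, h1] at hz
      rw [Finset.mem_singleton]
      rcases List.mem_append.1 hz.1 with hz1 | hz1
      · exact absurd hz.2 (h3 z hz1)
      · rcases List.mem_cons.1 hz1 with rfl | hz1
        · rfl
        · exact absurd hz.2 (hex2 z hz1)
    refine (Finset.card_le_card this).trans (by simp)
  obtain ⟨m, y, t, h4, h5, h6⟩ := split_last (fun x => G.Adj v x) r hex2
  have hm := h.between_le_one hl (s := s) (m := m) (t := t) (x := x) (y := y)
    (by rw [h1, h4]) hv hvP h2 h5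
  have : l.toFinset.filter (fun x => G.Adj v x) ⊆ insert x (insert y m.toFinset) := by
    intro z hz
    rw [Finset.mem_filter, List.mem_toFinset, h1, h4] at hz
    simp only [Finset.mem_insert, List.mem_toFinset]
    rcases List.mem_append.1 hz.1 with hz1 | hz1
    · exact absurd hz.2 (h3 z hz1)
    · rcases List.mem_cons.1 hz1 with rfl | hz1
      · left; rfl
      · rcases List.mem_append.1 hz1 with hz2 | hz2
        · right; right; exact hz2
        · rcases List.mem_cons.1 hz2 with rfl | hz2
          · right; left; rfl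
          · exact absurd hz.2 (h6 z hz2)
  refine (Finset.card_le_card this).trans ?_
  have e1 := Finset.card_insert_le x (insert y m.toFinset)
  have e2 := Finset.card_insert_le y m.toFinset
  have e3 := List.toFinset_card_le m
  omega


end Crest.Agent.R042.U420
end

-- ▼ part R042/B7_375

/-! Row 42 / S0058: the block B7 (10.6 + 10.7) of `Spine_883`, from the chain of hubs (10.7) and the
small hub (10.4); all constants are chosen here. -/

set_option autoImplicit false
set_option linter.unusedSectionVars false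

namespace Crest.Agent.R042.B7375

open Finset Crest.Agent.R042.Conn353 Crest.Agent.R042.Menger353 Crest.Agent.R042.Mader375
  Crest.Agent.R042.Crit374 Crest.Agent.R042.P1375 Crest.Agent.R042.Chain374
open Crest.CombinatoricsR.GraphMinor
open scoped Classical

/-- batches are degenerate. -/
theorem bf1 {V : Type*} [DecidableEq V] {G : SimpleGraph V} {W A B : Finset V}
    {P : Finset (List V)} (h : Batch G W A B P) : Degen G (verts P) (2 * P.card - 1) := by
  intro X hX hne
  have h' : U420.IsBatch G W A B P := ⟨h.1, h.2⟩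
  exact h'.degenerate hX hne

/-- vertices outside a batch have at most three neighbours on each path. -/
theorem bf2 {V : Type*} [DecidableEq V] {G : SimpleGraph V} {W A B : Finset V}
    {P : Finset (List V)} (h : Batch G W A B P) {x : V} (hx : x ∈ W) (hxP : x ∉ verts P)
    {l : List V} (hl : l ∈ P) : nb G l.toFinset x ≤ 3 := by
  have h' : U420.IsBatch G W A B P := ⟨h.1, h.2⟩
  exact h'.nbr_le_three hl hx hxP

/-- the statement of the chain of hubs (helper374). -/
def ChainStmt : Prop :=
  ∀ (V : Type) [DecidableEq V] (G : SimpleGraph V) (V0 : Finset V) (p d M UB kc : ℕ), 2 ≤ p →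
    (∀ (F : Finset (Finset V)) (T : Finset V), (∀ A ∈ F, A ⊆ V0 ∧ Conn G A) →
      (∀ A ∈ F, ∀ B ∈ F, A ≠ B → Disjoint A B) → T ⊆ V0 →
      (∀ t ∈ T, (∀ A ∈ F, t ∉ A) ∧ p ≤ sees G F t) → T.card ≤ d * F.card) →
    (∀ U P : Finset V, U ⊆ V0 → P ⊆ V0 → U.card ≤ UB → Degen G (P \ U) (8 * p) →
      (∀ v ∈ V0, v ∉ U → v ∉ P → nb G P v ≤ 3 * p) → ¬ Choos G ((V0 \ U) \ P) kc) →
    (∀ T : Finset V, T ⊆ V0 → T.Nonempty → (∀ v ∈ T, kc - 3 * p ≤ nb G T v) →
      ∃ J, J ⊆ T ∧ J.card ≤ M ∧ Hub G J p) →
    (∀ X Y : Finset V, X ⊆ V0 → Y ⊆ V0 → Disjoint X Y →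
      Choos G X (kc - 8 * p) ∨ Choos G Y (kc - 8 * p)) →
    9 * p ≤ kc → 2 * p + p ^ 2 * (M + 3 * p + 2 * d * p * (p ^ 2 + 1)) ≤ UB →
    ∃ B : Fin p → Finset V, (∀ i, B i ⊆ V0) ∧ IsCliqueMinorModel G B

/-- the small hub (10.4), in the language of `Link870`, for minimum degree. -/
def HubStmt : Prop :=
  ∃ C D0 : ℕ, ∀ h : ℕ, 1 ≤ h → ∀ (V : Type) [DecidableEq V] (G : SimpleGraph V) (T : Finset V),
    ¬ Model G T (h + 1) → T.Nonempty → (∀ v ∈ T, D0 * h ≤ (Link870.nb G T v).card) →
    ∃ J, J ⊆ T ∧ 2 * (h + 1) + 6 ≤ J.card ∧ J.card ≤ 2 ^ (C * h) ∧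
      ∀ X, X ⊆ J → X.card ≤ 2 * (h + 1 + 2) → Link870.Linked G J X

lemma two_pow_le_exp (n : ℕ) : (2 : ℝ) ^ n ≤ Real.exp n := by
  have h1 : (2 : ℝ) ≤ Real.exp 1 := by
    have := Real.add_one_le_exp (1 : ℝ)
    linarith
  calc (2 : ℝ) ^ n ≤ (Real.exp 1) ^ n := pow_le_pow_left₀ (by norm_num) h1 n
    _ = Real.exp n := by rw [← Real.exp_nat_mul]; simp

/-- the size bound. -/
lemma ub_le (C h : ℕ) (hh : 1 ≤ h) :
    2 * (h + 1) + (h + 1) ^ 2 * (2 ^ (C * h) + 3 * (h + 1) +
      2 * 2 ^ h * (h + 1) * ((h + 1) ^ 2 + 1)) ≤ 2 ^ ((C + 10) * h) := by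
  set t := 2 ^ h with ht
  set E := 2 ^ (C * h) with hE
  have hE1 : 1 ≤ E := Nat.one_le_two_pow
  have htp : h + 1 ≤ t := Nat.lt_two_pow_self
  have ht2 : 2 ≤ t := by
    calc 2 = 2 ^ 1 := rfl
      _ ≤ 2 ^ h := Nat.pow_le_pow_right (by norm_num) hh
  have hpow : 2 ^ ((C + 10) * h) = E * t ^ 10 := by
    rw [hE, ht, ← pow_mul, ← pow_add]; congr 1; ring
  rw [hpow]
  set p := h + 1 with hp
  have h1 : p ^ 2 ≤ t ^ 2 := Nat.pow_le_pow_left htp 2
  have h2 : p ^ 2 + 1 ≤ 2 * t ^ 2 := by nlinarith
  have h3 : 2 * t * p * (p ^ 2 + 1) ≤ 4 * t ^ 4 := by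
    calc 2 * t * p * (p ^ 2 + 1) ≤ 2 * t * t * (2 * t ^ 2) := by gcongr
      _ = 4 * t ^ 4 := by ring
  have h4 : E + 3 * p + 2 * t * p * (p ^ 2 + 1) ≤ 8 * (E * t ^ 4) := by
    have a1 : t ≤ t ^ 4 := by
      calc t = t ^ 1 := (pow_one t).symm
        _ ≤ t ^ 4 := Nat.pow_le_pow_right (by omega) (by norm_num)
    have a2 : 1 ≤ t ^ 4 := Nat.one_le_pow _ _ (by omega)
    have a3 : E ≤ E * t ^ 4 := Nat.le_mul_of_pos_right _ (by omega)
    have a4 : t ^ 4 ≤ E * t ^ 4 := Nat.le_mul_of_pos_left _ (by omega)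
    have a5 : 3 * p ≤ 3 * t ^ 4 := by omega
    omega
  have h5 : p ^ 2 * (E + 3 * p + 2 * t * p * (p ^ 2 + 1)) ≤ 8 * (E * t ^ 6) := by
    calc p ^ 2 * (E + 3 * p + 2 * t * p * (p ^ 2 + 1)) ≤ t ^ 2 * (8 * (E * t ^ 4)) := by gcongr
      _ = 8 * (E * t ^ 6) := by ring
  have h6 : 2 * p ≤ 2 * (E * t ^ 6) := by
    have a1 : t ≤ t ^ 6 := by
      calc t = t ^ 1 := (pow_one t).symm
        _ ≤ t ^ 6 := Nat.pow_le_pow_right (by omega) (by norm_num)
    have a4 : t ^ 6 ≤ E * t ^ 6 := Nat.le_mul_of_pos_left _ (by omega)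
    omega
  have h7 : 10 * (E * t ^ 6) ≤ E * t ^ 10 := by
    have a1 : 10 ≤ t ^ 4 := by
      calc 10 ≤ 2 ^ 4 := by norm_num
        _ ≤ t ^ 4 := Nat.pow_le_pow_left ht2 4
    calc 10 * (E * t ^ 6) ≤ t ^ 4 * (E * t ^ 6) := by gcongr
      _ = E * t ^ 10 := by ring
  omega

/-- **the block B7 from the chain of hubs and the small hub.** -/
theorem b7_of (hub : HubStmt) (chain : ChainStmt) : Spine883.B7 := by
  obtain ⟨C0, D0, hub⟩ := hub
  intro s' hs'
  set s0 := 8 * s' with hs0
  set C1 := C0 + 12 with hC1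
  set K := 72 * (C1 + 3) + D0 + 200 with hK
  refine ⟨C1, 40 * s0, s0 * K, by omega, ?_⟩
  intro F hF h hh hsmall V _ G V0 k hno hk hch
  by_contra hcon
  have hmod : ¬ Model G V0 (h + 1) := Spine883.noModel_iff.1 hno
  have hs0pos : 0 < s0 := by omega
  set D := F * h / s0 with hD
  have hD1 : K * h ≤ D := by
    rw [hD, Nat.le_div_iff_mul_le hs0pos]
    calc K * h * s0 = s0 * K * h := by ring
      _ ≤ F * h := Nat.mul_le_mul_right h hF
  have hD2 : s0 * D ≤ F * h := Nat.mul_div_le _ _
  have hD3 : F * h < s0 * (D + 1) := Nat.lt_mul_div_succ _ hs0pos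
  have hD8 : 8 * D ≤ F * h := by
    calc 8 * D ≤ s0 * D := Nat.mul_le_mul_right D (by omega)
      _ ≤ F * h := hD2
  have hDs' : D ≤ F * h / s' := Nat.div_le_div_left (by omega) hs'
  have hKh : K ≤ K * h := Nat.le_mul_of_pos_right _ hh
  have hDbig : 200 ≤ D := by omega
  have hDh : 200 * h ≤ D := by
    calc 200 * h ≤ K * h := Nat.mul_le_mul_right h (by omega)
      _ ≤ D := hD1
  have hDD0 : (D0 + 200) * h ≤ D := by
    calc (D0 + 200) * h ≤ K * h := Nat.mul_le_mul_right h (by omega)
      _ ≤ D := hD1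
  have h4D : 4 * D ≤ k := by omega
  set Mm := 8 * k / D + 1 with hMm
  have hMm1 : 1 ≤ Mm := Nat.le_add_left 1 _
  have hMmD : 8 * k < D * Mm := Nat.lt_mul_div_succ _ (by omega)
  have hMmD' : D * Mm ≤ 9 * k := by
    have : D * (8 * k / D) ≤ 8 * k := Nat.mul_div_le _ _
    rw [hMm, Nat.mul_add, Nat.mul_one]
    omega
  set loss := 2 * k / Mm with hloss
  have hloss' : loss ≤ D / 2 := by
    rw [hloss]
    refine Nat.div_le_of_le_mul ?_
    have h1 : D ≤ 4 * (D / 2) := by omega
    have h2 : D * Mm ≤ 4 * (D / 2) * Mm := Nat.mul_le_mul_right Mm h1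
    have h3 : 4 * (D / 2) * Mm = 4 * (Mm * (D / 2)) := by ring
    omega
  set q := F * h / (40 * s0) with hq
  have hq1 : 40 * s0 * q ≤ F * h := Nat.mul_div_le _ _
  have hq2 : 20 * q ≤ D := by
    have h1 : s0 * (40 * q) < s0 * (2 * D) := by
      calc s0 * (40 * q) = 40 * s0 * q := by ring
        _ ≤ F * h := hq1
        _ < s0 * (D + 1) := hD3
        _ ≤ s0 * (2 * D) := Nat.mul_le_mul_left s0 (by omega)
    have := Nat.lt_of_mul_lt_mul_left h1
    omega
  have hq3 : 2 * Mm * q ≤ k := by
    have h1 : 20 * q * Mm ≤ 9 * k := (Nat.mul_le_mul_right Mm hq2).trans hMmD'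
    have h2 : 20 * q * Mm = 10 * (2 * Mm * q) := by ring
    omega
  set p := h + 1 with hp
  set kc := k - loss - h - 3 * p with hkc
  set UB := 2 * p + p ^ 2 * (2 ^ (C0 * h) + 3 * p + 2 * 2 ^ h * p * (p ^ 2 + 1)) with hUB
  have hUBle : UB ≤ 2 ^ ((C0 + 10) * h) := ub_le C0 h hh
  -- the exponential estimate
  have hexp : ∀ u : ℕ, u ≤ UB → (((2 ^ h + 1) * u : ℕ) : ℝ) < Real.exp (k / (8 * Mm)) := by
    intro u hu
    have h1 : (2 ^ h + 1) * u ≤ 2 ^ ((C0 + 12) * h) := by
      have a1 : 2 ^ h + 1 ≤ 2 ^ (2 * h) := by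
        have e1 : 2 ^ (2 * h) = 2 ^ h * 2 ^ h := by rw [← pow_add]; congr 1; ring
        have e2 : 2 ≤ 2 ^ h := by
          calc 2 = 2 ^ 1 := rfl
            _ ≤ 2 ^ h := Nat.pow_le_pow_right (by norm_num) hh
        rw [e1]; nlinarith
      calc (2 ^ h + 1) * u ≤ 2 ^ (2 * h) * 2 ^ ((C0 + 10) * h) :=
            Nat.mul_le_mul a1 (hu.trans hUBle)
        _ = 2 ^ ((C0 + 12) * h) := by rw [← pow_add]; congr 1; ring
    have h2 : (((2 ^ h + 1) * u : ℕ) : ℝ) < (2 : ℝ) ^ ((C1 + 3) * h) := by
      have : (2 ^ h + 1) * u < 2 ^ ((C1 + 3) * h) := by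
        refine lt_of_le_of_lt h1 (Nat.pow_lt_pow_right (by norm_num) ?_)
        rw [hC1]
        exact Nat.mul_lt_mul_of_pos_right (by omega) hh
      exact_mod_cast this
    have h3 : (((C1 + 3) * h : ℕ) : ℝ) ≤ k / (8 * Mm) := by
      have hMmR : (0 : ℝ) < 8 * Mm := by
        have : (1 : ℝ) ≤ Mm := by exact_mod_cast hMm1
        linarith
      rw [le_div_iff₀ hMmR]
      have a1 : (C1 + 3) * h * (8 * Mm) ≤ k := by
        have b1 : 72 * ((C1 + 3) * h) ≤ D := by
          calc 72 * ((C1 + 3) * h) = 72 * (C1 + 3) * h := by ring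
            _ ≤ K * h := Nat.mul_le_mul_right h (by omega)
            _ ≤ D := hD1
        have b2 : 72 * ((C1 + 3) * h) * Mm ≤ 9 * k := (Nat.mul_le_mul_right Mm b1).trans hMmD'
        have b3 : 72 * ((C1 + 3) * h) * Mm = 9 * ((C1 + 3) * h * (8 * Mm)) := by ring
        omega
      exact_mod_cast a1
    calc (((2 ^ h + 1) * u : ℕ) : ℝ) < (2 : ℝ) ^ ((C1 + 3) * h) := h2
      _ ≤ Real.exp (((C1 + 3) * h : ℕ) : ℝ) := two_pow_le_exp _
      _ ≤ Real.exp (k / (8 * Mm)) := Real.exp_le_exp.2 h3
  obtain ⟨B, hB1, hB2⟩ := chain V G V0 p (2 ^ h) (2 ^ (C0 * h)) UB kc (by omega)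
    (fun F' T hF' hd hT hsee => p1_sets G V0 h hmod F' T hF' hd hT hsee)
    (by
      intro U P hU hP hUc hdeg hnb
      refine cost_one G V0 U P hU hP h k kc Mm q (8 * p) (3 * p) hmod hMm1 hch ?_ hq3
        (hexp _ hUc) hdeg hnb (by omega) (by omega)
      exact hsmall V G U (hno.mono hU) (hUc.trans (hUBle.trans
        (Nat.pow_le_pow_right (by norm_num) (Nat.mul_le_mul_right h (by omega))))))
    (by
      intro T hT hTne hdeg
      obtain ⟨J, hJT, hJ1, hJ2, hJ3⟩ := hub h hh V G T (fun hm => hmod (hm.mono hT)) hTne (by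
        intro v hv
        have h1 := hdeg v hv
        have h2 : (Link870.nb G T v).card = Chain374.nb G T v := by
          unfold Chain374.nb Link870.nb
          congr
        rw [h2]
        have h3 : D0 * h + 200 * h ≤ D := by
          have : (D0 + 200) * h = D0 * h + 200 * h := by ring
          omega
        omega)
      exact ⟨J, hJT, hJ2, hub_of_linked hJ1 hJ3⟩)
    (by
      intro X Y hX hY hXY
      by_contra hboth
      push Not at hboth
      refine hcon ⟨X, Y, hX, hY, hXY, ?_, ?_⟩
      · exact fun hc => hboth.1 (hc.mono_card (by omega))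
      · exact fun hc => hboth.2 (hc.mono_card (by omega)))
    (by omega) le_rfl
  exact hno B hB1 hB2

end Crest.Agent.R042.B7375
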