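import Mathlib
import Crest.Agent.R042.Conf_921

/-!
Row 42, S0059, label level: the relative entropy `KLm H μ` of the law `μ` read modulo a subgroup `H`
(w.r.t. the uniform law) is monotone and supermodular in the lattice of subgroups (helper313).
-/

set_option autoImplicit false

namespace Crest.Agent.R042.KLsup313

open Finset Crest.Agent.R042.Conf921

section Group

variable {E : Type*} [AddCommGroup E] [Fintype E]

lemma sum_avg (H : AddSubgroup E) (f : E → ℝ) : ∑ x, avg H f x = ∑ x, f x := by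
  have := sum_avg_mul H f (fun _ => 1) (fun _ _ _ => rfl)
  simpa using this

open Classical in
lemma avg_inv_of_inv (H1 H2 : AddSubgroup E) (f : E → ℝ) (hf : ∀ x, ∀ h ∈ H2, f (x + h) = f x) :
    ∀ x, ∀ h ∈ H2, avg H1 f (x + h) = avg H1 f x := by
  intro x h hh
  unfold avg
  congr 1
  refine Finset.sum_congr rfl fun k _ => ?_
  rw [show x + h + (k : E) = (x + k) + h by abel, hf _ h hh]

/-- two consecutive averages -/
theorem avg_avg (H1 H2 : AddSubgroup E) (μ : E → ℝ) :
    avg H1 (avg H2 μ) = avg (H1 ⊔ H2) μ := by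
  set b := avg H1 (avg H2 μ) with hb
  set a := avg (H1 ⊔ H2) μ with ha
  have hb1 : ∀ x, ∀ h ∈ H1, b (x + h) = b x := fun x h hh => avg_add H1 _ x hh
  have hb2 : ∀ x, ∀ h ∈ H2, b (x + h) = b x :=
    avg_inv_of_inv H1 H2 _ (fun x h hh => avg_add H2 μ x hh)
  have ha0 : ∀ x, ∀ h ∈ H1 ⊔ H2, a (x + h) = a x := fun x h hh => avg_add _ μ x hh
  have ha1 : ∀ x, ∀ h ∈ H1, a (x + h) = a x := fun x h hh => ha0 x h (AddSubgroup.mem_sup_left hh)
  have ha2 : ∀ x, ∀ h ∈ H2, a (x + h) = a x := fun x h hh => ha0 x h (AddSubgroup.mem_sup_right hh)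
  set φ : E → ℝ := fun x => b x - a x with hφ
  have hφ1 : ∀ x, ∀ h ∈ H1, φ (x + h) = φ x := fun x h hh => by
    simp only [hφ, hb1 x h hh, ha1 x h hh]
  have hφ2 : ∀ x, ∀ h ∈ H2, φ (x + h) = φ x := fun x h hh => by
    simp only [hφ, hb2 x h hh, ha2 x h hh]
  have hφ0 : ∀ x, ∀ h ∈ H1 ⊔ H2, φ (x + h) = φ x := by
    intro x h hh
    obtain ⟨u, hu, v, hv, rfl⟩ := AddSubgroup.mem_sup.1 hh
    rw [← add_assoc, hφ2 _ v hv, hφ1 _ u hu]
  have e1 : ∑ x, b x * φ x = ∑ x, μ x * φ x := by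
    rw [hb, sum_avg_mul H1 _ φ hφ1, sum_avg_mul H2 _ φ hφ2]
  have e2 : ∑ x, a x * φ x = ∑ x, μ x * φ x := by
    rw [ha, sum_avg_mul _ _ φ hφ0]
  have e3 : ∑ x, φ x * φ x = 0 := by
    have : ∑ x, φ x * φ x = ∑ x, b x * φ x - ∑ x, a x * φ x := by
      rw [← Finset.sum_sub_distrib]
      exact Finset.sum_congr rfl fun x _ => by simp only [hφ]; ring
    rw [this, e1, e2, sub_self]
  have e4 := (Finset.sum_eq_zero_iff_of_nonneg (fun x _ => mul_self_nonneg (φ x))).1 e3
  funext x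
  have := e4 x (Finset.mem_univ x)
  have := mul_self_eq_zero.1 this
  simp only [hφ] at this
  linarith

open Classical in
/-- the relative entropy of the law of `x mod H` with respect to the uniform law -/
noncomputable def KLm (H : AddSubgroup E) (μ : E → ℝ) : ℝ :=
  ∑ x, avg H μ x * Real.log ((Fintype.card E : ℝ) * avg H μ x)

lemma cardE_pos : (0 : ℝ) < (Fintype.card E : ℝ) := by
  exact_mod_cast Fintype.card_pos

open Classical in
lemma le_card_mul_avg (H : AddSubgroup E) (μ : E → ℝ) (hμ : ∀ x, 0 ≤ μ x) (x : E) :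
    μ x ≤ (Fintype.card H : ℝ) * avg H μ x := by
  unfold avg
  rw [mul_div_cancel₀ _ (card_pos' H).ne']
  have := Finset.single_le_sum (f := fun h : H => μ (x + (h : E))) (fun h _ => hμ _)
    (Finset.mem_univ (0 : H))
  simpa using this

lemma avg_pos_of_pos (H : AddSubgroup E) (μ : E → ℝ) (hμ : ∀ x, 0 ≤ μ x) (x : E) (hx : 0 < μ x) :
    0 < avg H μ x := by
  classical
  have h1 := le_card_mul_avg H μ hμ x
  have h2 : 0 < (Fintype.card H : ℝ) * avg H μ x := lt_of_lt_of_le hx h1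
  exact (pos_iff_pos_of_mul_pos h2).1 (card_pos' H)

/-- rewriting `KLm` with the law itself -/
lemma KLm_eq (H : AddSubgroup E) (μ : E → ℝ) :
    KLm H μ = ∑ x, μ x * Real.log ((Fintype.card E : ℝ) * avg H μ x) := by
  unfold KLm
  exact sum_avg_mul H μ (fun x => Real.log ((Fintype.card E : ℝ) * avg H μ x))
    (fun x h hh => by simp only [avg_add H μ x hh])


open Classical in
lemma avg_bot (μ : E → ℝ) (x : E) : avg (⊥ : AddSubgroup E) μ x = μ x := by
  unfold avg
  have h1 : ∀ h : (⊥ : AddSubgroup E), μ (x + (h : E)) = μ x := by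
    intro h
    rw [(AddSubgroup.mem_bot.1 h.2), add_zero]
  simp_rw [h1]
  simp


/-- the key inequality: four averages -/
lemma key (p12 p1 p2 p0 : ℝ) (h12 : 0 < p12) (h1 : 0 < p1) (h2 : 0 < p2) (h0 : 0 < p0) (N : ℝ)
    (hN : 0 < N) :
    1 - p1 * (p2 / p0) / p12 ≤ Real.log (N * p12) + Real.log (N * p0) - Real.log (N * p1)
      - Real.log (N * p2) := by
  have e : Real.log (N * p12) + Real.log (N * p0) - Real.log (N * p1) - Real.log (N * p2)
      = Real.log (p12 / (p1 * (p2 / p0))) := by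
    rw [Real.log_div h12.ne' (by positivity), Real.log_mul h1.ne' (by positivity),
      Real.log_div h2.ne' h0.ne', Real.log_mul hN.ne' h12.ne', Real.log_mul hN.ne' h0.ne',
      Real.log_mul hN.ne' h1.ne', Real.log_mul hN.ne' h2.ne']
    ring
  rw [e]
  have := Real.one_sub_inv_le_log_of_pos (x := p12 / (p1 * (p2 / p0))) (by positivity)
  rwa [inv_div] at this

/-- **supermodularity** -/
theorem KLm_supermod (H1 H2 : AddSubgroup E) (μ : E → ℝ) (hμ : ∀ x, 0 ≤ μ x)
    (sμ : ∑ x, μ x = 1) :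
    KLm H1 μ + KLm H2 μ ≤ KLm (H1 ⊓ H2) μ + KLm (H1 ⊔ H2) μ := by
  set p12 := avg (H1 ⊓ H2) μ with hp12
  set p1 := avg H1 μ with hp1
  set p2 := avg H2 μ with hp2
  set p0 := avg (H1 ⊔ H2) μ with hp0
  have n12 : ∀ x, 0 ≤ p12 x := avg_nonneg _ hμ
  have n1 : ∀ x, 0 ≤ p1 x := avg_nonneg _ hμ
  have n2 : ∀ x, 0 ≤ p2 x := avg_nonneg _ hμ
  have n0 : ∀ x, 0 ≤ p0 x := avg_nonneg _ hμ
  have hN := cardE_pos (E := E)
  have hpt : ∀ x, μ x - μ x * (p1 x * (p2 x / p0 x) / p12 x) ≤
      μ x * Real.log ((Fintype.card E : ℝ) * p12 x) + μ x * Real.log ((Fintype.card E : ℝ) * p0 x)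
      - μ x * Real.log ((Fintype.card E : ℝ) * p1 x)
      - μ x * Real.log ((Fintype.card E : ℝ) * p2 x) := by
    intro x
    rcases (hμ x).eq_or_lt with h | h
    · rw [← h]; simp
    · have k := key (p12 x) (p1 x) (p2 x) (p0 x) (avg_pos_of_pos _ μ hμ x h)
        (avg_pos_of_pos _ μ hμ x h) (avg_pos_of_pos _ μ hμ x h) (avg_pos_of_pos _ μ hμ x h)
        (Fintype.card E : ℝ) hN
      have := mul_le_mul_of_nonneg_left k h.le
      calc μ x - μ x * (p1 x * (p2 x / p0 x) / p12 x)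
          = μ x * (1 - p1 x * (p2 x / p0 x) / p12 x) := by ring
        _ ≤ _ := this
        _ = _ := by ring
  have hsum : ∑ x, μ x * (p1 x * (p2 x / p0 x) / p12 x) ≤ 1 := by
    have i12 : ∀ x, ∀ h ∈ H1 ⊓ H2, p12 (x + h) = p12 x := fun x h hh => avg_add _ μ x hh
    have i1 : ∀ x, ∀ h ∈ H1, p1 (x + h) = p1 x := fun x h hh => avg_add _ μ x hh
    have i2 : ∀ x, ∀ h ∈ H2, p2 (x + h) = p2 x := fun x h hh => avg_add _ μ x hh
    have i0 : ∀ x, ∀ h ∈ H1 ⊔ H2, p0 (x + h) = p0 x := fun x h hh => avg_add _ μ x hh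
    have e1 : ∑ x, μ x * (p1 x * (p2 x / p0 x) / p12 x)
        = ∑ x, p12 x * (p1 x * (p2 x / p0 x) / p12 x) := by
      rw [hp12, sum_avg_mul (H1 ⊓ H2) μ (fun x => p1 x * (p2 x / p0 x) / p12 x)]
      intro x h hh
      have h1 := hh.1
      have h2 := hh.2
      simp only [i12 x h hh, i1 x h h1, i2 x h h2, i0 x h (AddSubgroup.mem_sup_left h1)]
    rw [e1]
    have e2 : ∑ x, p12 x * (p1 x * (p2 x / p0 x) / p12 x) ≤ ∑ x, p2 x * (p1 x / p0 x) := by
      refine Finset.sum_le_sum fun x _ => ?_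
      have nn : 0 ≤ p2 x * (p1 x / p0 x) := mul_nonneg (n2 x) (div_nonneg (n1 x) (n0 x))
      rcases (n12 x).eq_or_lt with h | h
      · rw [← h]; simpa using nn
      · rw [mul_div_cancel₀ _ h.ne']
        exact le_of_eq (by ring)
    refine e2.trans ?_
    have e3 : ∑ x, p2 x * (p1 x / p0 x) = ∑ x, p0 x * (p1 x / p0 x) := by
      have a1 : avg H1 p2 = p0 := by rw [hp2, hp0, avg_avg]
      rw [← sum_avg_mul H1 p2 (fun x => p1 x / p0 x)
        (fun x h hh => by simp only [i1 x h hh, i0 x h (AddSubgroup.mem_sup_left hh)]), a1]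
    rw [e3]
    calc ∑ x, p0 x * (p1 x / p0 x) ≤ ∑ x, p1 x := by
          refine Finset.sum_le_sum fun x _ => ?_
          rcases (n0 x).eq_or_lt with h | h
          · rw [← h]; simpa using n1 x
          · rw [mul_div_cancel₀ _ h.ne']
      _ = 1 := by rw [hp1, sum_avg, sμ]
  have htot := Finset.sum_le_sum (fun x (_ : x ∈ (univ : Finset E)) => hpt x)
  rw [KLm_eq, KLm_eq, KLm_eq, KLm_eq]
  simp only [Finset.sum_sub_distrib, Finset.sum_add_distrib] at htot
  rw [sμ] at htot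
  linarith




end Group

section Functional

variable (k : Type*) [Field k] {V : Type*} [AddCommGroup V] [Module k V] [Fintype V]

/-- relative entropy of the functionals in `S` under the law `μ` -/
noncomputable def kl (μ : V → ℝ) (S : Submodule k (Module.Dual k V)) : ℝ :=
  KLm (S.dualCoannihilator.toAddSubgroup) μ

variable {k}

omit [Fintype V] in
lemma toAddSubgroup_inf' (A B : Submodule k V) :
    (A ⊓ B).toAddSubgroup = A.toAddSubgroup ⊓ B.toAddSubgroup := rfl

omit [Fintype V] in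
lemma toAddSubgroup_sup' (A B : Submodule k V) :
    (A ⊔ B).toAddSubgroup = A.toAddSubgroup ⊔ B.toAddSubgroup := by
  ext x
  rw [Submodule.mem_toAddSubgroup, Submodule.mem_sup, AddSubgroup.mem_sup]
  rfl




theorem kl_supermod (μ : V → ℝ) (hμ : ∀ x, 0 ≤ μ x) (sμ : ∑ x, μ x = 1)
    (S T : Submodule k (Module.Dual k V)) :
    kl k μ S + kl k μ T ≤ kl k μ (S ⊔ T) + kl k μ (S ⊓ T) := by
  have : FiniteDimensional k V := inferInstance
  have e1 : (S ⊔ T).dualCoannihilator = S.dualCoannihilator ⊓ T.dualCoannihilator :=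
    Submodule.dualCoannihilator_sup_eq S T
  have e2 : (S ⊓ T).dualCoannihilator = S.dualCoannihilator ⊔ T.dualCoannihilator := by
    have a1 : S = S.dualCoannihilator.dualAnnihilator :=
      (Subspace.dualCoannihilator_dualAnnihilator_eq (W := S)).symm
    have a2 : T = T.dualCoannihilator.dualAnnihilator :=
      (Subspace.dualCoannihilator_dualAnnihilator_eq (W := T)).symm
    conv_lhs => rw [a1, a2]
    rw [← Submodule.dualAnnihilator_sup_eq]
    exact Subspace.dualAnnihilator_dualCoannihilator_eq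
  unfold kl
  rw [e1, e2, toAddSubgroup_inf', toAddSubgroup_sup']
  exact KLm_supermod _ _ μ hμ sμ






end Functional

end Crest.Agent.R042.KLsup313
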