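import Mathlib
import Crest.Agent.R042.Conf_921
import Crest.Agent.R042.KLsup_313

/-!
Row 42, S0059, label level: the bridge from relative entropies of the label law to the hypotheses
of LEMMA CONF (helper921) for the push-forward law on the product of the windows (helper313).
-/

set_option autoImplicit false

namespace Crest.Agent.R042.CondFree313

open Finset Crest.Agent.R042.Conf921 Crest.Agent.R042.KLsup313

section One

variable {E : Type*} [AddCommGroup E] [Fintype E]





end One

section Push

variable {V E : Type*} [AddCommGroup V] [Fintype V] [AddCommGroup E] [Fintype E]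

open Classical in
/-- push-forward of a law -/
noncomputable def push (π : V →+ E) (μ : V → ℝ) (e : E) : ℝ := ∑ v with π v = e, μ v

omit [Fintype E] in
lemma push_nonneg (π : V →+ E) (μ : V → ℝ) (hμ : ∀ v, 0 ≤ μ v) (e : E) : 0 ≤ push π μ e :=
  Finset.sum_nonneg fun v _ => hμ v

lemma sum_push_mul (π : V →+ E) (μ : V → ℝ) (g : E → ℝ) :
    ∑ e, push π μ e * g e = ∑ v, μ v * g (π v) := by
  classical
  unfold push
  have h1 : ∀ e, (∑ v with π v = e, μ v) * g e = ∑ v, if π v = e then μ v * g (π v) else 0 := by
    intro e
    rw [Finset.sum_filter, Finset.sum_mul]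
    refine Finset.sum_congr rfl fun v _ => ?_
    split_ifs with h
    · rw [h]
    · rw [zero_mul]
  simp_rw [h1]
  rw [Finset.sum_comm]
  refine Finset.sum_congr rfl fun v _ => ?_
  rw [Finset.sum_ite_eq]
  simp









end Push

section Linear

variable {k : Type*} [Field k] {V E : Type*} [AddCommGroup V] [Module k V] [Fintype V]
  [AddCommGroup E] [Module k E] [Fintype E]





end Linear

end Crest.Agent.R042.CondFree313
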