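import Mathlib

/-!
# Richness of the random `K`-valued coordinates (row 42, S0059)

`G` = the (finite) alphabet group `K`, `E i l` = the `l`-th coordinate of the type `i`.
`Rich E`: for two different types `i, j` and every `g : G` some coordinate has `E i l = g * E j l`.
Almost all `E` are rich as soon as `L ≥ |G| (2 log |ι| + log |G| + 3)`; a rich `E` solves the four
digit equations of every live quadruple by words `c • E_l`.
-/

set_option autoImplicit false

open scoped BigOperators
open Finset

namespace Crest.Agent.R042.Rich380

section count

variable {ι G : Type*} [Fintype ι] [DecidableEq ι] [Group G] [Fintype G] [DecidableEq G] {L : ℕ}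

/-- richness of the coordinates -/
def Rich {ι G : Type*} [Group G] {L : ℕ} (E : ι → Fin L → G) : Prop :=
  ∀ i j, i ≠ j → ∀ g : G, ∃ l, E i l = g * E j l

instance decRich (E : ι → Fin L → G) : Decidable (Rich E) := by
  unfold Rich; infer_instance









end count

section words

variable {ι F : Type*} [Field F] {L : ℕ} {K : Set F}





end words

end Crest.Agent.R042.Rich380
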