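import Mathlib
import Crest.Agent.R042.TLevE_333

-- ▼ part R042/TLevS_333
section

/-! Row 42 / S0059, T-level: sampling a fingerprint from a law. -/

set_option autoImplicit false
set_option linter.unusedSectionVars false

namespace Crest.Agent.R042.TLev333

open Finset Function
open scoped Classical

section Samp

variable {σ I : Type*} [Fintype σ] [DecidableEq σ] [Fintype I] [DecidableEq I]

/-- product formula. -/
lemma prodE (ℓ : ℕ) (τ : σ → ℝ) (h : Fin ℓ → σ → ℝ) :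
    ∑ F : Fin ℓ → σ, (∏ k, τ (F k)) * ∏ k, h k (F k) = ∏ k, ∑ s, τ s * h k s := by
  rw [Finset.prod_univ_sum, Fintype.piFinset_univ]
  refine Finset.sum_congr rfl (fun F _ => ?_)
  rw [← Finset.prod_mul_distrib]

/-- total mass. -/
lemma E_one (ℓ : ℕ) (τ : σ → ℝ) (h1 : ∑ s, τ s = 1) :
    ∑ F : Fin ℓ → σ, ∏ k, τ (F k) = 1 := by
  have := prodE ℓ τ (fun _ _ => 1)
  simp only [Finset.prod_const_one, mul_one, h1] at this
  exact this

lemma E_single (ℓ : ℕ) (τ : σ → ℝ) (h1 : ∑ s, τ s = 1) (k : Fin ℓ) (g : σ → ℝ) :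
    ∑ F : Fin ℓ → σ, (∏ k, τ (F k)) * g (F k) = ∑ s, τ s * g s := by
  have := prodE ℓ τ (fun k' s => if k' = k then g s else 1)
  rw [Fintype.prod_eq_single k (fun k' hk' => by simp [hk', h1])] at this
  simp only [if_true] at this
  rw [← this]
  refine Finset.sum_congr rfl (fun F _ => ?_)
  congr 1
  rw [Fintype.prod_eq_single k (fun k' hk' => by simp [hk'])]
  simp

lemma E_pair (ℓ : ℕ) (τ : σ → ℝ) (h1 : ∑ s, τ s = 1) (k k' : Fin ℓ) (hkk : k ≠ k')
    (g g' : σ → ℝ) :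
    ∑ F : Fin ℓ → σ, (∏ k, τ (F k)) * (g (F k) * g' (F k')) =
      (∑ s, τ s * g s) * (∑ s, τ s * g' s) := by
  have := prodE ℓ τ (fun j s => if j = k then g s else if j = k' then g' s else 1)
  rw [Fintype.prod_eq_mul k k' hkk (fun j hj => by simp [hj.1, hj.2, h1])] at this
  simp only [if_true, hkk.symm, if_false] at this
  rw [← this]
  refine Finset.sum_congr rfl (fun F _ => ?_)
  congr 1
  rw [Fintype.prod_eq_mul k k' hkk (fun j hj => by simp [hj.1, hj.2])]
  simp [hkk.symm]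

/-- colliding entries. -/
noncomputable def coll (idx : σ → Finset I) {ℓ : ℕ} (F : Fin ℓ → σ) : Finset (Fin ℓ) :=
  univ.filter fun k => ∃ k', k' ≠ k ∧ ¬ Disjoint (idx (F k)) (idx (F k'))

lemma E_coll (idx : σ → Finset I) (a : ℕ) (hidx : ∀ s, (idx s).card = a)
    (τ : σ → ℝ) (h0 : ∀ s, 0 ≤ τ s) (h1 : ∑ s, τ s = 1)
    (m : ℝ) (hm : ∀ i, ∑ s ∈ univ.filter (fun s => i ∈ idx s), τ s ≤ m) (ℓ : ℕ) :
    ∑ F : Fin ℓ → σ, (∏ k, τ (F k)) * ((coll idx F).card : ℝ) ≤ (ℓ : ℝ) ^ 2 * a * m := by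
  set g : I → σ → ℝ := fun i s => if i ∈ idx s then 1 else 0 with hg
  have hgm : ∀ i, ∑ s, τ s * g i s ≤ m := by
    intro i
    refine le_trans (le_of_eq ?_) (hm i)
    rw [Finset.sum_filter]
    refine Finset.sum_congr rfl (fun s _ => ?_)
    simp only [hg]
    split_ifs <;> simp
  have hg0 : ∀ i, 0 ≤ ∑ s, τ s * g i s := by
    intro i
    refine Finset.sum_nonneg (fun s _ => mul_nonneg (h0 s) ?_)
    simp only [hg]
    split_ifs <;> norm_num
  have hga : ∑ i, ∑ s, τ s * g i s = a := by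
    rw [Finset.sum_comm]
    have : ∀ s, ∑ i, τ s * g i s = τ s * a := by
      intro s
      rw [← Finset.mul_sum]
      congr 1
      simp only [hg]
      rw [Finset.sum_ite_mem, Finset.univ_inter, Finset.sum_const, hidx s]
      simp
    simp only [this]
    rw [← Finset.sum_mul, h1, one_mul]
  -- pointwise bound
  have hpt : ∀ F : Fin ℓ → σ, ((coll idx F).card : ℝ) ≤
      ∑ k, ∑ k', if k' ≠ k then ∑ i, g i (F k) * g i (F k') else 0 := by
    intro F
    unfold coll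
    rw [Finset.card_filter]
    push_cast
    refine Finset.sum_le_sum (fun k _ => ?_)
    have hnn : ∀ k' : Fin ℓ, 0 ≤ (if k' ≠ k then ∑ i, g i (F k) * g i (F k') else 0) := by
      intro k'
      split_ifs
      · refine Finset.sum_nonneg (fun i _ => mul_nonneg ?_ ?_)
        · simp only [hg]; split_ifs <;> norm_num
        · simp only [hg]; split_ifs <;> norm_num
      · exact le_rfl
    split_ifs with h
    · obtain ⟨k', hk', hd⟩ := h
      rw [Finset.not_disjoint_iff] at hd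
      obtain ⟨i, hi, hi'⟩ := hd
      refine le_trans ?_ (Finset.single_le_sum
        (f := fun k' => if k' ≠ k then ∑ i, g i (F k) * g i (F k') else 0)
        (fun k' _ => hnn k') (Finset.mem_univ k'))
      rw [if_pos hk']
      refine le_trans (le_of_eq ?_) (Finset.single_le_sum
        (f := fun i => g i (F k) * g i (F k')) (fun i _ => ?_) (Finset.mem_univ i))
      · simp only [hg]
        rw [if_pos hi, if_pos hi', mul_one]
      · refine mul_nonneg ?_ ?_
        · simp only [hg]; split_ifs <;> norm_num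
        · simp only [hg]; split_ifs <;> norm_num
    · exact Finset.sum_nonneg (fun k' _ => hnn k')
  have hw : ∀ F : Fin ℓ → σ, 0 ≤ ∏ k, τ (F k) := fun F => Finset.prod_nonneg (fun k _ => h0 _)
  calc ∑ F : Fin ℓ → σ, (∏ k, τ (F k)) * ((coll idx F).card : ℝ)
      ≤ ∑ F : Fin ℓ → σ, (∏ k, τ (F k)) *
          (∑ k, ∑ k', if k' ≠ k then ∑ i, g i (F k) * g i (F k') else 0) :=
        Finset.sum_le_sum (fun F _ => mul_le_mul_of_nonneg_left (hpt F) (hw F))
    _ = ∑ k, ∑ k', ∑ F : Fin ℓ → σ, (∏ k, τ (F k)) *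
          (if k' ≠ k then ∑ i, g i (F k) * g i (F k') else 0) := by
        simp only [Finset.mul_sum]
        rw [Finset.sum_comm]
        refine Finset.sum_congr rfl (fun k _ => ?_)
        rw [Finset.sum_comm]
    _ ≤ ∑ k : Fin ℓ, ∑ k' : Fin ℓ, a * m := by
        refine Finset.sum_le_sum (fun k _ => Finset.sum_le_sum (fun k' _ => ?_))
        have ham : 0 ≤ (a : ℝ) * m := by
          rcases isEmpty_or_nonempty I with hI | hI
          · have : (a : ℝ) = 0 := by rw [← hga]; simp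
            rw [this, zero_mul]
          · obtain ⟨i⟩ := hI
            exact mul_nonneg (by positivity) ((hg0 i).trans (hgm i))
        by_cases hk : k' = k
        · simp only [hk, ne_eq, not_true_eq_false, if_false, mul_zero, Finset.sum_const_zero]
          exact ham
        · simp only [ne_eq, hk, not_false_eq_true, if_true, Finset.mul_sum]
          rw [Finset.sum_comm]
          calc ∑ i, ∑ F : Fin ℓ → σ, (∏ k, τ (F k)) * (g i (F k) * g i (F k'))
              = ∑ i, (∑ s, τ s * g i s) * (∑ s, τ s * g i s) :=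
                Finset.sum_congr rfl (fun i _ =>
                  E_pair ℓ τ h1 k k' (fun h => hk h.symm) (g i) (g i))
            _ ≤ ∑ i, (∑ s, τ s * g i s) * m :=
                Finset.sum_le_sum (fun i _ => mul_le_mul_of_nonneg_left (hgm i) (hg0 i))
            _ = a * m := by rw [← Finset.sum_mul, hga]
    _ = _ := by
        simp only [Finset.sum_const, Finset.card_univ, Fintype.card_fin, nsmul_eq_mul]
        ring

/-- the core of the sampling argument. -/
lemma samp_core {β : Type*} [DecidableEq β] (idx : σ → Finset I) (a : ℕ)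
    (hidx : ∀ s, (idx s).card = a)
    (τ : σ → ℝ) (h0 : ∀ s, 0 ≤ τ s) (h1 : ∑ s, τ s = 1)
    (m : ℝ) (hm : ∀ i, ∑ s ∈ univ.filter (fun s => i ∈ idx s), τ s ≤ m)
    (ℓ : ℕ) (κ : ℝ) (hκ0 : 0 < κ) (hκ : 8 * (ℓ : ℝ) ^ 2 * a * m ≤ κ)
    (B : Finset β) (ok : β → (Fin ℓ → σ) → Prop)
    (hok : ∀ b ∈ B, ∑ F : Fin ℓ → σ, (∏ k, τ (F k)) * (if ok b F then 0 else 1) ≤ 1 / 2) :
    ∃ F : Fin ℓ → σ, ((coll idx F).card : ℝ) ≤ κ ∧
      (B.card : ℝ) ≤ 4 * ((B.filter fun b => ok b F).card : ℝ) := by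
  have hw : ∀ F : Fin ℓ → σ, 0 ≤ ∏ k, τ (F k) := fun F => Finset.prod_nonneg (fun k _ => h0 _)
  by_contra hcon
  push Not at hcon
  have hcoll := E_coll idx a hidx τ h0 h1 m hm ℓ
  -- probability of many collisions
  have p1 : ∑ F : Fin ℓ → σ, (∏ k, τ (F k)) *
      (if ((coll idx F).card : ℝ) ≤ κ then 0 else 1) ≤ 1 / 8 := by
    have h2 : (∑ F : Fin ℓ → σ, (∏ k, τ (F k)) *
        (if ((coll idx F).card : ℝ) ≤ κ then 0 else 1)) * κ ≤
        ∑ F : Fin ℓ → σ, (∏ k, τ (F k)) * ((coll idx F).card : ℝ) := by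
      rw [Finset.sum_mul]
      refine Finset.sum_le_sum (fun F _ => ?_)
      rw [mul_assoc]
      refine mul_le_mul_of_nonneg_left ?_ (hw F)
      split_ifs with h
      · rw [zero_mul]; positivity
      · rw [one_mul]
        push Not at h
        exact h.le
    have h3 := h2.trans hcoll
    by_contra h4
    push Not at h4
    nlinarith
  -- the average of `1[good] (4 #ok + 1)`
  have p2 : ∑ F : Fin ℓ → σ, (∏ k, τ (F k)) *
      (if ((coll idx F).card : ℝ) ≤ κ then ((B.filter fun b => ok b F).card : ℝ) else 0) ≥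
      B.card * (3 / 8) := by
    have h2 : ∀ b ∈ B, 3 / 8 ≤ ∑ F : Fin ℓ → σ, (∏ k, τ (F k)) *
        (if ((coll idx F).card : ℝ) ≤ κ then (if ok b F then 1 else 0) else 0) := by
      intro b hb
      have h3 : ∑ F : Fin ℓ → σ, (∏ k, τ (F k)) ≤
          ∑ F : Fin ℓ → σ, ((∏ k, τ (F k)) *
          (if ((coll idx F).card : ℝ) ≤ κ then (if ok b F then 1 else 0) else 0) +
          (∏ k, τ (F k)) * (if ((coll idx F).card : ℝ) ≤ κ then 0 else 1) +
          (∏ k, τ (F k)) * (if ok b F then 0 else 1)) := by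
        refine Finset.sum_le_sum (fun F _ => ?_)
        have := hw F
        split_ifs <;> simp <;> linarith
      rw [Finset.sum_add_distrib, Finset.sum_add_distrib, E_one ℓ τ h1] at h3
      have := hok b hb
      linarith
    have h3 := Finset.sum_le_sum h2
    rw [Finset.sum_const, nsmul_eq_mul, Finset.sum_comm] at h3
    refine h3.trans (le_of_eq ?_)
    refine Finset.sum_congr rfl (fun F _ => ?_)
    rw [← Finset.mul_sum]
    congr 1
    split_ifs
    · rw [Finset.card_filter]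
      push_cast
      rfl
    · simp
  -- pointwise bound from `hcon`
  have p3 : ∀ F : Fin ℓ → σ, (∏ k, τ (F k)) *
      (if ((coll idx F).card : ℝ) ≤ κ then ((B.filter fun b => ok b F).card : ℝ) else 0) ≤
      (∏ k, τ (F k)) * ((B.card : ℝ) / 4) := by
    intro F
    refine mul_le_mul_of_nonneg_left ?_ (hw F)
    split_ifs with h
    · have := hcon F h
      linarith
    · positivity
  have p4 := Finset.sum_le_sum (fun (F : Fin ℓ → σ) (_ : F ∈ univ) => p3 F)
  rw [← Finset.sum_mul, E_one ℓ τ h1, one_mul] at p4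
  have hBc : (0 : ℝ) ≤ B.card := by positivity
  have hB0 : (B.card : ℝ) = 0 := by nlinarith
  -- then nobody is good
  have p5 : ∀ F : Fin ℓ → σ, ¬ ((coll idx F).card : ℝ) ≤ κ := by
    intro F h
    have := hcon F h
    rw [hB0] at this
    have h' : (0 : ℝ) ≤ ((B.filter fun b => ok b F).card : ℝ) := by positivity
    linarith
  have p6 : ∑ F : Fin ℓ → σ, (∏ k, τ (F k)) *
      (if ((coll idx F).card : ℝ) ≤ κ then (0 : ℝ) else 1) = 1 := by
    refine (Finset.sum_congr rfl (fun F _ => ?_)).trans (E_one ℓ τ h1)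
    rw [if_neg (p5 F), mul_one]
  linarith

/-- the fingerprint of a sample. -/
noncomputable def fp (idx : σ → Finset I) {ℓ : ℕ} (F : Fin ℓ → σ) : Finset σ :=
  (univ \ coll idx F).image F

lemma fp_inj (idx : σ → Finset I) (hne : ∀ s, (idx s).Nonempty) {ℓ : ℕ} (F : Fin ℓ → σ) :
    Set.InjOn F ((univ \ coll idx F : Finset (Fin ℓ)) : Set (Fin ℓ)) := by
  intro k hk k' hk' h
  by_contra hne'
  have hk2 : k ∉ coll idx F := (Finset.mem_sdiff.1 (Finset.mem_coe.1 hk)).2
  apply hk2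
  unfold coll
  rw [Finset.mem_filter]
  refine ⟨Finset.mem_univ _, k', fun h => hne' h.symm, ?_⟩
  rw [← h, Finset.disjoint_self_iff_empty]
  exact (hne (F k)).ne_empty

lemma fp_card (idx : σ → Finset I) (hne : ∀ s, (idx s).Nonempty) {ℓ : ℕ} (F : Fin ℓ → σ) :
    (fp idx F).card + (coll idx F).card = ℓ := by
  unfold fp
  rw [Finset.card_image_of_injOn (fp_inj idx hne F),
    Finset.card_sdiff_add_card_eq_card (Finset.subset_univ _), Finset.card_univ,
    Fintype.card_fin]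

lemma fp_disj (idx : σ → Finset I) {ℓ : ℕ} (F : Fin ℓ → σ) :
    ∀ s ∈ fp idx F, ∀ s' ∈ fp idx F, s ≠ s' → Disjoint (idx s) (idx s') := by
  intro s hs s' hs' hne
  unfold fp at hs hs'
  rw [Finset.mem_image] at hs hs'
  obtain ⟨k, hk, rfl⟩ := hs
  obtain ⟨k', hk', rfl⟩ := hs'
  by_contra hd
  have hk2 := (Finset.mem_sdiff.1 hk).2
  apply hk2
  unfold coll
  rw [Finset.mem_filter]
  refine ⟨Finset.mem_univ _, k', ?_, hd⟩
  rintro rfl
  exact hne rfl

lemma fp_inter_le (idx : σ → Finset I) {ℓ : ℕ} (F : Fin ℓ → σ) (A : Finset σ) :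
    (fp idx F ∩ A).card ≤ (univ.filter fun k => F k ∈ A).card := by
  have h1 : fp idx F ∩ A ⊆ (univ.filter fun k => F k ∈ A).image F := by
    intro s hs
    unfold fp at hs
    rw [Finset.mem_inter, Finset.mem_image] at hs
    obtain ⟨⟨k, _, rfl⟩, hA⟩ := hs
    exact Finset.mem_image_of_mem _ (Finset.mem_filter.2 ⟨Finset.mem_univ _, hA⟩)
  exact (Finset.card_le_card h1).trans Finset.card_image_le

lemma le_fp_inter (idx : σ → Finset I) (hne : ∀ s, (idx s).Nonempty) {ℓ : ℕ} (F : Fin ℓ → σ)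
    (A : Finset σ) :
    (univ.filter fun k => F k ∈ A).card ≤ (fp idx F ∩ A).card + (coll idx F).card := by
  have h1 : (univ.filter fun k => F k ∈ A) ⊆
      ((univ \ coll idx F).filter fun k => F k ∈ A) ∪ coll idx F := by
    intro k hk
    rw [Finset.mem_union, Finset.mem_filter, Finset.mem_sdiff]
    by_cases h : k ∈ coll idx F
    · exact Or.inr h
    · exact Or.inl ⟨⟨Finset.mem_univ _, h⟩, (Finset.mem_filter.1 hk).2⟩
  refine (Finset.card_le_card h1).trans ((Finset.card_union_le _ _).trans ?_)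
  refine Nat.add_le_add_right ?_ _
  have h2 : (((univ \ coll idx F).filter fun k => F k ∈ A).image F) ⊆ fp idx F ∩ A := by
    intro s hs
    rw [Finset.mem_image] at hs
    obtain ⟨k, hk, rfl⟩ := hs
    rw [Finset.mem_filter] at hk
    exact Finset.mem_inter.2 ⟨Finset.mem_image_of_mem _ hk.1, hk.2⟩
  refine le_trans (le_of_eq ?_) (Finset.card_le_card h2)
  rw [Finset.card_image_of_injOn]
  exact (fp_inj idx hne F).mono (by
    intro k hk
    exact (Finset.mem_filter.1 (Finset.mem_coe.1 hk)).1)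

end Samp

theorem samp_up {σ I β : Type*} [Fintype σ] [DecidableEq σ] [Fintype I] [DecidableEq I]
    [DecidableEq β] (idx : σ → Finset I) (a : ℕ) (ha : 1 ≤ a) (hidx : ∀ s, (idx s).card = a)
    (τ : σ → ℝ) (h0 : ∀ s, 0 ≤ τ s) (h1 : ∑ s, τ s = 1)
    (m : ℝ) (hm : ∀ i, ∑ s ∈ Finset.univ.filter (fun s => i ∈ idx s), τ s ≤ m)
    (ℓ : ℕ) (κ : ℝ) (hκ0 : 0 < κ) (hκ : 8 * (ℓ : ℝ) ^ 2 * a * m ≤ κ)
    (B : Finset β) (A : β → Finset σ) (t : ℝ) (ht : 16 ≤ t)
    (hA : ∀ b ∈ B, 2 * t ≤ ℓ * ∑ s ∈ A b, τ s) :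
    ∃ Φ : Finset σ, Φ.card ≤ ℓ ∧ (ℓ : ℝ) - κ ≤ Φ.card ∧
      (∀ s ∈ Φ, ∀ s' ∈ Φ, s ≠ s' → Disjoint (idx s) (idx s')) ∧
      (B.card : ℝ) ≤ 4 * ((B.filter (fun b => t - κ ≤ ((Φ ∩ A b).card : ℝ))).card : ℝ) := by
  have hne : ∀ s, (idx s).Nonempty := fun s => Finset.card_pos.1 (by rw [hidx s]; omega)
  have hw : ∀ F : Fin ℓ → σ, 0 ≤ ∏ k, τ (F k) := fun F => Finset.prod_nonneg (fun k _ => h0 _)
  obtain ⟨F, f1, f2⟩ := samp_core idx a hidx τ h0 h1 m hm ℓ κ hκ0 hκ B
    (fun b F => t ≤ ((univ.filter fun k => F k ∈ A b).card : ℝ)) (by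
      intro b hb
      set p : ℝ := ∑ s ∈ A b, τ s with hp
      have hp1 : p ≤ 1 := by
        rw [← h1, hp]
        exact Finset.sum_le_sum_of_subset_of_nonneg (Finset.subset_univ _) (fun s _ _ => h0 s)
      -- exponential moment
      have e1 : ∑ F : Fin ℓ → σ, (∏ k, τ (F k)) * ∏ k, (if F k ∈ A b then (1 / 2 : ℝ) else 1) =
          (1 - p / 2) ^ ℓ := by
        rw [prodE ℓ τ (fun _ s => if s ∈ A b then (1 / 2 : ℝ) else 1)]
        have : ∑ s, τ s * (if s ∈ A b then (1 / 2 : ℝ) else 1) = 1 - p / 2 := by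
          have e : ∀ s, τ s * (if s ∈ A b then (1 / 2 : ℝ) else 1) =
              τ s - (if s ∈ A b then τ s else 0) / 2 := by
            intro s
            split_ifs <;> ring
          simp only [e]
          rw [Finset.sum_sub_distrib, h1, ← Finset.sum_div, Finset.sum_ite_mem,
            Finset.univ_inter]
        simp only [this, Finset.prod_const, Finset.card_univ, Fintype.card_fin]
      have e2 : (1 - p / 2) ^ ℓ ≤ Real.exp (-t) := by
        have h3 : 1 - p / 2 ≤ Real.exp (-(p / 2)) := by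
          have := Real.add_one_le_exp (-(p / 2))
          linarith
        calc (1 - p / 2) ^ ℓ ≤ (Real.exp (-(p / 2))) ^ ℓ :=
              pow_le_pow_left₀ (by linarith) h3 ℓ
          _ = Real.exp (ℓ * (-(p / 2))) := by rw [← Real.exp_nat_mul]
          _ ≤ Real.exp (-t) := by
              refine Real.exp_le_exp.2 ?_
              have := hA b hb
              linarith
      have e3 : ∀ F : Fin ℓ → σ, (if t ≤ ((univ.filter fun k => F k ∈ A b).card : ℝ) then
          (0 : ℝ) else 1) ≤ Real.exp (t * Real.log 2) *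
            ∏ k, (if F k ∈ A b then (1 / 2 : ℝ) else 1) := by
        intro F
        have h3 : ∏ k, (if F k ∈ A b then (1 / 2 : ℝ) else 1) =
            (1 / 2) ^ (univ.filter fun k => F k ∈ A b).card := by
          rw [Finset.prod_ite, Finset.prod_const, Finset.prod_const_one, mul_one]
        rw [h3]
        split_ifs with h
        · positivity
        · push Not at h
          have h4 : ((1 : ℝ) / 2) ^ (univ.filter fun k => F k ∈ A b).card =
              Real.exp (-(((univ.filter fun k => F k ∈ A b).card : ℝ) * Real.log 2)) := by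
            rw [Real.exp_neg, Real.exp_nat_mul, Real.exp_log (by norm_num)]
            rw [one_div, inv_pow]
          rw [h4, ← Real.exp_add]
          refine Real.one_le_exp ?_
          have h5 : 0 < Real.log 2 := Real.log_pos (by norm_num)
          nlinarith
      calc ∑ F : Fin ℓ → σ, (∏ k, τ (F k)) *
            (if t ≤ ((univ.filter fun k => F k ∈ A b).card : ℝ) then (0 : ℝ) else 1)
          ≤ ∑ F : Fin ℓ → σ, (∏ k, τ (F k)) * (Real.exp (t * Real.log 2) *
            ∏ k, (if F k ∈ A b then (1 / 2 : ℝ) else 1)) :=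
            Finset.sum_le_sum (fun F _ => mul_le_mul_of_nonneg_left (e3 F) (hw F))
        _ = Real.exp (t * Real.log 2) * ∑ F : Fin ℓ → σ, (∏ k, τ (F k)) *
            ∏ k, (if F k ∈ A b then (1 / 2 : ℝ) else 1) := by
            rw [Finset.mul_sum]
            refine Finset.sum_congr rfl (fun F _ => ?_)
            ring
        _ ≤ Real.exp (t * Real.log 2) * Real.exp (-t) := by
            rw [e1]
            exact mul_le_mul_of_nonneg_left e2 (Real.exp_pos _).le
        _ = Real.exp (-(t * (1 - Real.log 2))) := by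
            rw [← Real.exp_add]
            congr 1
            ring
        _ ≤ Real.exp (-1) := by
            refine Real.exp_le_exp.2 ?_
            have := Real.log_two_lt_d9
            nlinarith
        _ ≤ 1 / 2 := by
            rw [Real.exp_neg, ← one_div]
            refine one_div_le_one_div_of_le (by norm_num) ?_
            have := Real.add_one_le_exp (1 : ℝ)
            linarith)
  refine ⟨fp idx F, ?_, ?_, fp_disj idx F, ?_⟩
  · have := fp_card idx hne F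
    omega
  · have h2 := fp_card idx hne F
    have h3 : ((fp idx F).card : ℝ) + (coll idx F).card = ℓ := by exact_mod_cast h2
    linarith
  · refine f2.trans ?_
    have h2 : (B.filter fun b => t ≤ ((univ.filter fun k => F k ∈ A b).card : ℝ)).card ≤
        (B.filter (fun b => t - κ ≤ ((fp idx F ∩ A b).card : ℝ))).card := by
      refine Finset.card_le_card ?_
      intro b hb
      rw [Finset.mem_filter] at hb ⊢
      refine ⟨hb.1, ?_⟩
      have h3 := le_fp_inter idx hne F (A b)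
      have h4 : ((univ.filter fun k => F k ∈ A b).card : ℝ) ≤
          ((fp idx F ∩ A b).card : ℝ) + ((coll idx F).card : ℝ) := by exact_mod_cast h3
      linarith [hb.2]
    have h3 : ((B.filter fun b => t ≤ ((univ.filter fun k => F k ∈ A b).card : ℝ)).card : ℝ) ≤
        ((B.filter (fun b => t - κ ≤ ((fp idx F ∩ A b).card : ℝ))).card : ℝ) := by
      exact_mod_cast h2
    linarith

theorem samp_low {σ I β : Type*} [Fintype σ] [DecidableEq σ] [Fintype I] [DecidableEq I]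
    [DecidableEq β] (idx : σ → Finset I) (a : ℕ) (ha : 1 ≤ a) (hidx : ∀ s, (idx s).card = a)
    (τ : σ → ℝ) (h0 : ∀ s, 0 ≤ τ s) (h1 : ∑ s, τ s = 1)
    (m : ℝ) (hm : ∀ i, ∑ s ∈ Finset.univ.filter (fun s => i ∈ idx s), τ s ≤ m)
    (ℓ : ℕ) (κ : ℝ) (hκ0 : 0 < κ) (hκ : 8 * (ℓ : ℝ) ^ 2 * a * m ≤ κ)
    (B : Finset β) (A : β → Finset σ) (t : ℝ) (ht : 0 < t)
    (hA : ∀ b ∈ B, ℓ * ∑ s ∈ A b, τ s ≤ t) :
    ∃ Φ : Finset σ, Φ.card ≤ ℓ ∧ (ℓ : ℝ) - κ ≤ Φ.card ∧
      (∀ s ∈ Φ, ∀ s' ∈ Φ, s ≠ s' → Disjoint (idx s) (idx s')) ∧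
      (B.card : ℝ) ≤ 4 * ((B.filter (fun b => ((Φ ∩ A b).card : ℝ) ≤ 2 * t)).card : ℝ) := by
  have hne : ∀ s, (idx s).Nonempty := fun s => Finset.card_pos.1 (by rw [hidx s]; omega)
  have hw : ∀ F : Fin ℓ → σ, 0 ≤ ∏ k, τ (F k) := fun F => Finset.prod_nonneg (fun k _ => h0 _)
  obtain ⟨F, f1, f2⟩ := samp_core idx a hidx τ h0 h1 m hm ℓ κ hκ0 hκ B
    (fun b F => ((univ.filter fun k => F k ∈ A b).card : ℝ) ≤ 2 * t) (by
      intro b hb
      set p : ℝ := ∑ s ∈ A b, τ s with hp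
      have e1 : ∑ F : Fin ℓ → σ, (∏ k, τ (F k)) * ((univ.filter fun k => F k ∈ A b).card : ℝ) =
          ℓ * p := by
        have h2 : ∀ F : Fin ℓ → σ, ((univ.filter fun k => F k ∈ A b).card : ℝ) =
            ∑ k, (if F k ∈ A b then (1 : ℝ) else 0) := by
          intro F
          rw [Finset.card_filter]
          push_cast
          rfl
        simp only [h2, Finset.mul_sum]
        rw [Finset.sum_comm]
        have h3 : ∀ k : Fin ℓ, ∑ F : Fin ℓ → σ, (∏ k, τ (F k)) *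
            (if F k ∈ A b then (1 : ℝ) else 0) = p := by
          intro k
          rw [E_single ℓ τ h1 k (fun s => if s ∈ A b then (1 : ℝ) else 0)]
          simp only [mul_ite, mul_one, mul_zero]
          rw [Finset.sum_ite_mem, Finset.univ_inter]
        rw [Finset.sum_congr rfl (fun k _ => h3 k), Finset.sum_const, Finset.card_univ,
          Fintype.card_fin, nsmul_eq_mul]
      have e2 : (∑ F : Fin ℓ → σ, (∏ k, τ (F k)) *
          (if ((univ.filter fun k => F k ∈ A b).card : ℝ) ≤ 2 * t then (0 : ℝ) else 1)) * (2 * t) ≤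
          ℓ * p := by
        rw [← e1, Finset.sum_mul]
        refine Finset.sum_le_sum (fun F _ => ?_)
        rw [mul_assoc]
        refine mul_le_mul_of_nonneg_left ?_ (hw F)
        split_ifs with h
        · rw [zero_mul]; positivity
        · rw [one_mul]
          push Not at h
          exact h.le
      have e3 := e2.trans (hA b hb)
      by_contra h4
      push Not at h4
      nlinarith)
  refine ⟨fp idx F, ?_, ?_, fp_disj idx F, ?_⟩
  · have := fp_card idx hne F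
    omega
  · have h2 := fp_card idx hne F
    have h3 : ((fp idx F).card : ℝ) + (coll idx F).card = ℓ := by exact_mod_cast h2
    linarith
  · refine f2.trans ?_
    have h2 : (B.filter fun b => ((univ.filter fun k => F k ∈ A b).card : ℝ) ≤ 2 * t).card ≤
        (B.filter (fun b => ((fp idx F ∩ A b).card : ℝ) ≤ 2 * t)).card := by
      refine Finset.card_le_card ?_
      intro b hb
      rw [Finset.mem_filter] at hb ⊢
      refine ⟨hb.1, ?_⟩
      have h3 := fp_inter_le idx F (A b)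
      have h4 : ((fp idx F ∩ A b).card : ℝ) ≤
          ((univ.filter fun k => F k ∈ A b).card : ℝ) := by exact_mod_cast h3
      linarith [hb.2]
    have h3 : ((B.filter fun b => ((univ.filter fun k => F k ∈ A b).card : ℝ) ≤ 2 * t).card : ℝ) ≤
        ((B.filter (fun b => ((fp idx F ∩ A b).card : ℝ) ≤ 2 * t)).card : ℝ) := by
      exact_mod_cast h2
    linarith

end Crest.Agent.R042.TLev333
end

-- ▼ part R042/TLevF_333
section

/-! Row 42 / S0059, T-level, part F: the sampling step (exceptional mass of a law). -/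

set_option autoImplicit false
set_option linter.unusedSectionVars false

namespace Crest.Agent.R042.TLev333

open Finset Function
open scoped Classical


namespace Sys

variable {I Ω σ : Type*} [Fintype Ω] [Fintype I] [DecidableEq I] [Fintype σ] [DecidableEq σ]
  {S : Sys I Ω σ}

lemma E_le {ℓ b : ℕ} (hb2 : b ≤ 2) :
    S.η * ℓ * S.ρ ^ 4 ≤ S.η * (ℓ * S.ρ ^ (S.a * b)) := by
  have hη0 := S.η0
  rw [mul_assoc]
  refine mul_le_mul_of_nonneg_left (mul_le_mul_of_nonneg_left ?_ (by positivity)) hη0.le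
  refine pow_le_pow_of_le_one S.ρ0.le S.ρ1 ?_
  have := S.a2
  nlinarith

/-- disjoint test sets with much dead mass are few. -/
theorem ts_up {ℓ r b : ℕ} {x : I → Ω} (hG : S.Good ℓ r x) (hgen : Gen S.perp S.ρ x univ)
    (hE : 1 ≤ S.η * ℓ * S.ρ ^ 4) (hb1 : 1 ≤ b) (hb2 : b ≤ 2)
    (τ : σ → ℝ) (h0 : ∀ s, 0 ≤ τ s) (h1 : ∑ s, τ s = 1)
    (m : ℝ) (hm0 : 0 ≤ m) (hm : ∀ i, ∑ s ∈ univ.filter (fun s => i ∈ S.idx s), τ s ≤ m)
    (hℓm : 2 * ℓ * m ≤ S.η * S.ρ ^ 4)
    (B : Finset (Finset I)) (hBc : ∀ T ∈ B, T.card = b)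
    (hBd : ∀ T ∈ B, ∀ T' ∈ B, T ≠ T' → Disjoint T T')
    (hB : ∀ T ∈ B, 32 * S.η * S.ρ ^ (S.a * b) ≤ ∑ s ∈ S.FA x T, τ s) :
    (B.card : ℝ) ≤ 8 * (ℓ + r) := by
  have hη0 := S.η0
  have hρ0 := S.ρ0
  have hEb := E_le (S := S) (ℓ := ℓ) hb2
  set W : ℝ := S.η * (ℓ * S.ρ ^ (S.a * b)) with hW
  have hℓ : 0 < ℓ := by
    rcases Nat.eq_zero_or_pos ℓ with rfl | h
    · simp at hE; linarith
    · exact h
  have hℓ0 : (0 : ℝ) < ℓ := by exact_mod_cast hℓ
  have ha2 : (S.a : ℝ) ≤ 2 := by exact_mod_cast S.a2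
  obtain ⟨Φ, f1, f2, f3, f4⟩ := samp_up S.idx S.a S.a1 S.card_idx τ h0 h1 m hm ℓ (8 * W)
    (by linarith) (by
      calc 8 * (ℓ : ℝ) ^ 2 * S.a * m ≤ 8 * (ℓ : ℝ) ^ 2 * 2 * m := by gcongr
        _ = 8 * ℓ * (2 * ℓ * m) := by ring
        _ ≤ 8 * ℓ * (S.η * S.ρ ^ 4) := by gcongr
        _ = 8 * (S.η * ℓ * S.ρ ^ 4) := by ring
        _ ≤ 8 * W := by linarith) B (fun T => S.FA x T) (16 * W) (by linarith) (by
      intro T hT
      have := mul_le_mul_of_nonneg_left (hB T hT) hℓ0.le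
      calc 2 * (16 * W) = ℓ * (32 * S.η * S.ρ ^ (S.a * b)) := by rw [hW]; ring
        _ ≤ _ := this)
  have hgU : Gen S.perp S.ρ x (S.U Φ) := fun J _ hJ8 => hgen J (Finset.subset_univ _) hJ8
  have h5 := few_exceptional hG Φ f1 f3
    (B.filter (fun b => 16 * W - 8 * W ≤ ((Φ ∩ S.FA x b).card : ℝ)))
    (fun T hT T' hT' => hBd T (Finset.mem_filter.1 hT).1 T' (Finset.mem_filter.1 hT').1) (by
      intro T hT
      rw [Finset.mem_filter] at hT
      by_contra hcon
      push Not at hcon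
      obtain ⟨_, c2, c3⟩ := hcon
      have h6 := FA_small Φ hgU hℓ T (hBc T hT.1) hb1 hb2 c2 c3
      rw [← hW] at h6
      have := hT.2
      linarith)
  have h6 : (((B.filter (fun b => 16 * W - 8 * W ≤ ((Φ ∩ S.FA x b).card : ℝ))).card : ℕ) : ℝ) ≤
      2 * ℓ + r + r := by exact_mod_cast h5
  linarith

/-- disjoint test sets with little perpendicular mass are few. -/
theorem ts_low {ℓ r b : ℕ} {x : I → Ω} (hG : S.Good ℓ r x) (hgen : Gen S.perp S.ρ x univ)
    (hE : 1 ≤ S.η * ℓ * S.ρ ^ 4) (hη : S.η ≤ 1 / 64) (hb1 : 1 ≤ b) (hb2 : b ≤ 2)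
    (τ : σ → ℝ) (h0 : ∀ s, 0 ≤ τ s) (h1 : ∑ s, τ s = 1)
    (m : ℝ) (hm0 : 0 ≤ m) (hm : ∀ i, ∑ s ∈ univ.filter (fun s => i ∈ S.idx s), τ s ≤ m)
    (hℓm : 2 * ℓ * m ≤ S.η * S.ρ ^ 4)
    (B : Finset (Finset I)) (hBc : ∀ T ∈ B, T.card = b)
    (hBd : ∀ T ∈ B, ∀ T' ∈ B, T ≠ T' → Disjoint T T')
    (hB : ∀ T ∈ B, ∑ s ∈ S.GA x T, τ s ≤ 1 / 16 * S.ρ ^ (S.a * b)) :
    (B.card : ℝ) ≤ 8 * (ℓ + r) := by
  have hη0 := S.η0
  have hρ0 := S.ρ0
  have hρ1 := S.ρ1
  have hℓ : 0 < ℓ := by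
    rcases Nat.eq_zero_or_pos ℓ with rfl | h
    · simp at hE; linarith
    · exact h
  have hℓ0 : (0 : ℝ) < ℓ := by exact_mod_cast hℓ
  have ha2 : (S.a : ℝ) ≤ 2 := by exact_mod_cast S.a2
  have hρ4 : S.ρ ^ 4 ≤ 1 := pow_le_one₀ hρ0.le hρ1
  obtain ⟨Φ, f1, f2, f3, f4⟩ := samp_low S.idx S.a S.a1 S.card_idx τ h0 h1 m hm ℓ (ℓ / 8)
    (by linarith) (by
      calc 8 * (ℓ : ℝ) ^ 2 * S.a * m ≤ 8 * (ℓ : ℝ) ^ 2 * 2 * m := by gcongr
        _ = 8 * ℓ * (2 * ℓ * m) := by ring
        _ ≤ 8 * ℓ * (S.η * S.ρ ^ 4) := by gcongr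
        _ ≤ 8 * ℓ * (1 / 64 * 1) := by gcongr
        _ = ℓ / 8 := by ring) B (fun T => S.GA x T) (ℓ * S.ρ ^ (S.a * b) / 16)
        (by positivity) (by
      intro T hT
      have := mul_le_mul_of_nonneg_left (hB T hT) hℓ0.le
      calc _ ≤ _ := this
        _ = _ := by ring)
  have hgU : Gen S.perp S.ρ x (S.U Φ) := fun J _ hJ8 => hgen J (Finset.subset_univ _) hJ8
  have h5 := few_exceptional hG Φ f1 f3
    (B.filter (fun b' => ((Φ ∩ S.GA x b').card : ℝ) ≤ 2 * (ℓ * S.ρ ^ (S.a * b) / 16)))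
    (fun T hT T' hT' => hBd T (Finset.mem_filter.1 hT).1 T' (Finset.mem_filter.1 hT').1) (by
      intro T hT
      rw [Finset.mem_filter] at hT
      by_contra hcon
      push Not at hcon
      obtain ⟨_, c2, c3⟩ := hcon
      have h6 := GA_large Φ hgU hℓ (by linarith) T (hBc T hT.1) hb1 hb2 c2 c3
      have := hT.2
      have h7 : 0 < ℓ * S.ρ ^ (S.a * b) := by positivity
      linarith)
  have h6 : (((B.filter (fun b' => ((Φ ∩ S.GA x b').card : ℝ) ≤
      2 * (ℓ * S.ρ ^ (S.a * b) / 16))).card : ℕ) : ℝ) ≤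
      2 * ℓ + r + r := by exact_mod_cast h5
  linarith

end Sys

end Crest.Agent.R042.TLev333
end

-- ▼ part R042/TLevG_333

/-! Row 42 / S0059, T-level, part G: THEOREM T. -/

set_option autoImplicit false
set_option linter.unusedSectionVars false

namespace Crest.Agent.R042.TLev333

open Finset Function
open scoped Classical

namespace Sys

variable {I Ω σ σ' : Type*} [Fintype Ω] [Fintype I] [DecidableEq I] [Fintype σ] [DecidableEq σ]
  [Fintype σ'] [DecidableEq σ']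

/-- mass of the pieces `s'` for which much mass of `τ` is dead. -/
theorem mass_up (S : Sys I Ω σ) (S' : Sys I Ω σ') {ℓ r : ℕ} {x : I → Ω}
    (hG : S.Good ℓ r x) (hgen : Gen S.perp S.ρ x univ)
    (hE : 1 ≤ S.η * ℓ * S.ρ ^ 4)
    (τ : σ → ℝ) (h0 : ∀ s, 0 ≤ τ s) (h1 : ∑ s, τ s = 1)
    (m : ℝ) (hm0 : 0 ≤ m) (hm : ∀ i, ∑ s ∈ univ.filter (fun s => i ∈ S.idx s), τ s ≤ m)
    (hℓm : 2 * ℓ * m ≤ S.η * S.ρ ^ 4)
    (τ' : σ' → ℝ) (h0' : ∀ s, 0 ≤ τ' s) (m' : ℝ) (hm0' : 0 ≤ m')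
    (hm' : ∀ i, ∑ s ∈ univ.filter (fun s => i ∈ S'.idx s), τ' s ≤ m') :
    ∑ s' ∈ univ.filter (fun s' : σ' => 32 * S.η * S.ρ ^ (S.a * S'.a) ≤
      ∑ s ∈ S.FA x (S'.idx s'), τ s), τ' s' ≤ 16 * (ℓ + r) * m' := by
  have h := mass_le S'.idx (fun s => by rw [S'.card_idx]; exact S'.a1)
    (fun s => by rw [S'.card_idx]; exact S'.a2) τ' h0' m' hm0' hm'
    (univ.filter (fun s' : σ' => 32 * S.η * S.ρ ^ (S.a * S'.a) ≤
      ∑ s ∈ S.FA x (S'.idx s'), τ s)) (8 * (ℓ + r)) (by
      intro B hB hBd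
      refine ts_up hG hgen hE S'.a1 S'.a2 τ h0 h1 m hm0 hm hℓm B ?_ hBd ?_
      · intro T hT
        obtain ⟨s, _, rfl⟩ := hB T hT
        exact S'.card_idx s
      · intro T hT
        obtain ⟨s, hs, rfl⟩ := hB T hT
        exact (Finset.mem_filter.1 hs).2)
  calc _ ≤ _ := h
    _ = _ := by ring

/-- mass of the pieces `s'` with little perpendicular mass. -/
theorem mass_low (S : Sys I Ω σ) (S' : Sys I Ω σ') {ℓ r : ℕ} {x : I → Ω}
    (hG : S.Good ℓ r x) (hgen : Gen S.perp S.ρ x univ)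
    (hE : 1 ≤ S.η * ℓ * S.ρ ^ 4) (hη : S.η ≤ 1 / 64)
    (τ : σ → ℝ) (h0 : ∀ s, 0 ≤ τ s) (h1 : ∑ s, τ s = 1)
    (m : ℝ) (hm0 : 0 ≤ m) (hm : ∀ i, ∑ s ∈ univ.filter (fun s => i ∈ S.idx s), τ s ≤ m)
    (hℓm : 2 * ℓ * m ≤ S.η * S.ρ ^ 4)
    (τ' : σ' → ℝ) (h0' : ∀ s, 0 ≤ τ' s) (m' : ℝ) (hm0' : 0 ≤ m')
    (hm' : ∀ i, ∑ s ∈ univ.filter (fun s => i ∈ S'.idx s), τ' s ≤ m') :
    ∑ s' ∈ univ.filter (fun s' : σ' => ∑ s ∈ S.GA x (S'.idx s'), τ s ≤
      1 / 16 * S.ρ ^ (S.a * S'.a)), τ' s' ≤ 16 * (ℓ + r) * m' := by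
  have h := mass_le S'.idx (fun s => by rw [S'.card_idx]; exact S'.a1)
    (fun s => by rw [S'.card_idx]; exact S'.a2) τ' h0' m' hm0' hm'
    (univ.filter (fun s' : σ' => ∑ s ∈ S.GA x (S'.idx s'), τ s ≤
      1 / 16 * S.ρ ^ (S.a * S'.a))) (8 * (ℓ + r)) (by
      intro B hB hBd
      refine ts_low hG hgen hE hη S'.a1 S'.a2 τ h0 h1 m hm0 hm hℓm B ?_ hBd ?_
      · intro T hT
        obtain ⟨s, _, rfl⟩ := hB T hT
        exact S'.card_idx s
      · intro T hT
        obtain ⟨s, hs, rfl⟩ := hB T hT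
        exact (Finset.mem_filter.1 hs).2)
  calc _ ≤ _ := h
    _ = _ := by ring

/-- `s` and `s'` are perpendicular and both alive. -/
def Live (S : Sys I Ω σ) (S' : Sys I Ω σ') (x : I → Ω) (s : σ) (s' : σ') : Prop :=
  (∀ i ∈ S.idx s, ∀ j ∈ S'.idx s', S.perp (x i) (x j)) ∧
    ¬ S.Dead x s (S'.idx s') ∧ ¬ S'.Dead x s' (S.idx s)

/-- THEOREM T. -/
theorem theoremT (S : Sys I Ω σ) (S' : Sys I Ω σ') (hperp : S'.perp = S.perp)
    (hρρ : S'.ρ = S.ρ) (hηη : S'.η = S.η) (hsymm : ∀ P Q, S.perp P Q → S.perp Q P)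
    {ℓ r : ℕ} {x : I → Ω}
    (hG : S.Good ℓ r x) (hG' : S'.Good ℓ r x) (hgen : Gen S.perp S.ρ x univ)
    (hE : 1 ≤ S.η * ℓ * S.ρ ^ 4) (hη : S.η ≤ 1 / 4096)
    (m : ℝ) (hm0 : 0 ≤ m) (hℓm : 4 * ℓ * m ≤ S.η * S.ρ ^ 4) (hrm : 256 * (ℓ + r) * m ≤ 1)
    (τ : σ → ℝ) (h0 : ∀ s, 0 ≤ τ s) (h1 : ∑ s, τ s = 1)
    (hm : ∀ i, ∑ s ∈ univ.filter (fun s => i ∈ S.idx s), τ s ≤ m)
    (τ' : σ' → ℝ) (h0' : ∀ s, 0 ≤ τ' s) (h1' : ∑ s, τ' s = 1)
    (hm' : ∀ i, ∑ s ∈ univ.filter (fun s => i ∈ S'.idx s), τ' s ≤ m) :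
    ∃ (G : Finset σ) (G' : Finset σ'), 15 / 16 ≤ ∑ s ∈ G, τ s ∧ 15 / 16 ≤ ∑ s ∈ G', τ' s ∧
      (∀ s' ∈ G', ∑ s ∈ S.FA x (S'.idx s'), τ s ≤ 32 * S.η * S.ρ ^ (S.a * S'.a)) ∧
      (∀ s ∈ G, ∑ s' ∈ S'.FA x (S.idx s), τ' s' ≤ 32 * S.η * S.ρ ^ (S.a * S'.a)) ∧
      S.ρ ^ (S.a * S'.a) / 32 ≤
        ∑ s ∈ G, ∑ s' ∈ G', (if Live S S' x s s' then τ s * τ' s' else 0) := by
  have hη0 := S.η0
  have hρ0 := S.ρ0
  set R : ℝ := S.ρ ^ (S.a * S'.a) with hR
  have hR0 : 0 < R := pow_pos hρ0 _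
  have hℓ0 : (0 : ℝ) ≤ ℓ := by positivity
  have hℓm0 : 0 ≤ ℓ * m := by positivity
  have hsmall : 16 * (ℓ + r) * m ≤ 1 / 16 := by linarith
  -- the two good sets
  set Bad' : Finset σ' := univ.filter (fun s' : σ' => 32 * S.η * R ≤
      ∑ s ∈ S.FA x (S'.idx s'), τ s) with hBad'
  set Bad : Finset σ := univ.filter (fun s : σ => 32 * S.η * R ≤
      ∑ s' ∈ S'.FA x (S.idx s), τ' s') with hBad
  have hb' : ∑ s' ∈ Bad', τ' s' ≤ 1 / 16 :=
    (mass_up S S' hG hgen hE τ h0 h1 m hm0 hm (by linarith) τ' h0' m hm0 hm').trans hsmall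
  have hb : ∑ s ∈ Bad, τ s ≤ 1 / 16 := by
    have h := mass_up S' S hG' (by rw [hperp, hρρ]; exact hgen) (by rw [hηη, hρρ]; exact hE)
      τ' h0' h1' m hm0 hm' (by rw [hηη, hρρ]; linarith) τ h0 m hm0 hm
    rw [hηη, hρρ, mul_comm S'.a S.a, ← hR] at h
    exact h.trans hsmall
  set G : Finset σ := univ \ Bad with hGdef
  set G' : Finset σ' := univ \ Bad' with hG'def
  have hGm : 15 / 16 ≤ ∑ s ∈ G, τ s := by
    have := Finset.sum_sdiff (f := τ) (Finset.subset_univ Bad)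
    rw [h1] at this
    rw [hGdef]
    linarith
  have hG'm : 15 / 16 ≤ ∑ s ∈ G', τ' s := by
    have := Finset.sum_sdiff (f := τ') (Finset.subset_univ Bad')
    rw [h1'] at this
    rw [hG'def]
    linarith
  have hGF : ∀ s ∈ G, ∑ s' ∈ S'.FA x (S.idx s), τ' s' ≤ 32 * S.η * R := by
    intro s hs
    rw [hGdef, Finset.mem_sdiff, hBad, Finset.mem_filter] at hs
    have := hs.2
    push Not at this
    exact (this (Finset.mem_univ _)).le
  have hG'F : ∀ s' ∈ G', ∑ s ∈ S.FA x (S'.idx s'), τ s ≤ 32 * S.η * R := by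
    intro s hs
    rw [hG'def, Finset.mem_sdiff, hBad', Finset.mem_filter] at hs
    have := hs.2
    push Not at this
    exact (this (Finset.mem_univ _)).le
  refine ⟨G, G', hGm, hG'm, hG'F, hGF, ?_⟩
  -- the restricted law
  set M : ℝ := ∑ s ∈ G, τ s with hM
  have hM0 : 0 < M := by linarith
  have hM1 : M ≤ 1 := by
    rw [← h1, hM]
    exact Finset.sum_le_sum_of_subset_of_nonneg (Finset.subset_univ _) (fun s _ _ => h0 s)
  set τr : σ → ℝ := fun s => if s ∈ G then τ s / M else 0 with hτr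
  have r0 : ∀ s, 0 ≤ τr s := by
    intro s
    rw [hτr]
    dsimp only
    split_ifs
    · exact div_nonneg (h0 s) hM0.le
    · exact le_rfl
  have r1 : ∑ s, τr s = 1 := by
    rw [hτr, ← Finset.sum_filter, Finset.filter_mem_eq_inter, Finset.univ_inter,
      ← Finset.sum_div, ← hM, div_self hM0.ne']
  have r2 : ∀ s, τr s ≤ 2 * τ s := by
    intro s
    rw [hτr]
    dsimp only
    have := h0 s
    split_ifs
    · rw [div_le_iff₀ hM0]
      nlinarith
    · linarith
  have r3 : ∀ i, ∑ s ∈ univ.filter (fun s => i ∈ S.idx s), τr s ≤ 2 * m := by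
    intro i
    calc _ ≤ ∑ s ∈ univ.filter (fun s => i ∈ S.idx s), 2 * τ s :=
          Finset.sum_le_sum (fun s _ => r2 s)
      _ = 2 * ∑ s ∈ univ.filter (fun s => i ∈ S.idx s), τ s := by rw [Finset.mul_sum]
      _ ≤ _ := by linarith [hm i]
  set Bad3 : Finset σ' := univ.filter (fun s' : σ' => ∑ s ∈ S.GA x (S'.idx s'), τr s ≤
      1 / 16 * R) with hBad3
  have hb3 : ∑ s' ∈ Bad3, τ' s' ≤ 1 / 16 :=
    (mass_low S S' hG hgen hE (by linarith) τr r0 r1 (2 * m) (by positivity) r3 (by linarith)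
      τ' h0' m hm0 hm').trans hsmall
  -- perpendicular mass
  have k1 : ∀ s' ∈ G' \ Bad3, M * (1 / 16 * R) ≤
      ∑ s ∈ G, (if ∀ i ∈ S.idx s, ∀ j ∈ S'.idx s', S.perp (x i) (x j) then τ s else 0) := by
    intro s' hs'
    rw [Finset.mem_sdiff, hBad3, Finset.mem_filter] at hs'
    have h3 := hs'.2
    push Not at h3
    have h4 := (h3 (Finset.mem_univ _)).le
    have h5 : M * ∑ s ∈ S.GA x (S'.idx s'), τr s =
        ∑ s ∈ G, (if ∀ i ∈ S.idx s, ∀ j ∈ S'.idx s', S.perp (x i) (x j) then τ s else 0) := by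
      rw [Finset.mul_sum, GA, Finset.sum_filter, ← Finset.sum_subset (Finset.subset_univ G)]
      · refine Finset.sum_congr rfl (fun s hs => ?_)
        have h6 : (∀ j ∈ S'.idx s', S.Sp x s (x j)) ↔
            ∀ i ∈ S.idx s, ∀ j ∈ S'.idx s', S.perp (x i) (x j) :=
          ⟨fun h i hi j hj => h j hj i hi, fun h j hj i hi => h i hi j hj⟩
        by_cases h7 : ∀ i ∈ S.idx s, ∀ j ∈ S'.idx s', S.perp (x i) (x j)
        · rw [if_pos (h6.2 h7), if_pos h7, hτr]
          dsimp only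
          rw [if_pos hs, mul_div_cancel₀ _ hM0.ne']
        · rw [if_neg (fun h => h7 (h6.1 h)), if_neg h7]
      · intro s _ hs
        have : τr s = 0 := by
          rw [hτr]
          dsimp only
          rw [if_neg hs]
        rw [this, mul_zero]
        simp
    rw [← h5]
    exact mul_le_mul_of_nonneg_left h4 hM0.le
  have k2 : M * (1 / 16 * R) * (14 / 16) ≤ ∑ s ∈ G, ∑ s' ∈ G',
      (if ∀ i ∈ S.idx s, ∀ j ∈ S'.idx s', S.perp (x i) (x j) then τ s * τ' s' else 0) := by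
    have h3 : 14 / 16 ≤ ∑ s' ∈ G' \ Bad3, τ' s' := by
      have e1 : ∑ s' ∈ G', τ' s' ≤ ∑ s' ∈ G' \ Bad3, τ' s' + ∑ s' ∈ Bad3, τ' s' := by
        have hsub : G' ⊆ (G' \ Bad3) ∪ Bad3 := by
          intro z hz
          rw [Finset.mem_union, Finset.mem_sdiff]
          by_cases h : z ∈ Bad3
          · exact Or.inr h
          · exact Or.inl ⟨hz, h⟩
        refine (Finset.sum_le_sum_of_subset_of_nonneg hsub (fun s _ _ => h0' s)).trans ?_
        exact le_of_eq (Finset.sum_union Finset.sdiff_disjoint)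
      linarith
    calc M * (1 / 16 * R) * (14 / 16) ≤ M * (1 / 16 * R) * ∑ s' ∈ G' \ Bad3, τ' s' :=
          mul_le_mul_of_nonneg_left h3 (by positivity)
      _ = ∑ s' ∈ G' \ Bad3, τ' s' * (M * (1 / 16 * R)) := by
          rw [← Finset.sum_mul, mul_comm]
      _ ≤ ∑ s' ∈ G' \ Bad3, τ' s' * ∑ s ∈ G,
          (if ∀ i ∈ S.idx s, ∀ j ∈ S'.idx s', S.perp (x i) (x j) then τ s else 0) :=
          Finset.sum_le_sum (fun s' hs' => mul_le_mul_of_nonneg_left (k1 s' hs') (h0' s'))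
      _ ≤ ∑ s' ∈ G', τ' s' * ∑ s ∈ G,
          (if ∀ i ∈ S.idx s, ∀ j ∈ S'.idx s', S.perp (x i) (x j) then τ s else 0) := by
          refine Finset.sum_le_sum_of_subset_of_nonneg Finset.sdiff_subset (fun s' _ _ => ?_)
          refine mul_nonneg (h0' s') (Finset.sum_nonneg (fun s _ => ?_))
          split_ifs
          · exact h0 s
          · exact le_rfl
      _ = _ := by
          rw [Finset.sum_comm]
          refine Finset.sum_congr rfl (fun s' _ => ?_)
          rw [Finset.mul_sum]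
          refine Finset.sum_congr rfl (fun s _ => ?_)
          split_ifs
          · ring
          · ring
  -- dead masses
  have k3 : ∑ s ∈ G, ∑ s' ∈ G', (if (∀ i ∈ S.idx s, ∀ j ∈ S'.idx s', S.perp (x i) (x j)) ∧
      S.Dead x s (S'.idx s') then τ s * τ' s' else 0) ≤ 32 * S.η * R := by
    rw [Finset.sum_comm]
    calc _ ≤ ∑ s' ∈ G', τ' s' * ∑ s ∈ S.FA x (S'.idx s'), τ s := by
          refine Finset.sum_le_sum (fun s' _ => ?_)
          rw [FA, Finset.sum_filter, Finset.mul_sum]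
          refine le_trans (Finset.sum_le_sum_of_subset_of_nonneg (Finset.subset_univ G)
            (fun s _ _ => ?_)) (Finset.sum_le_sum (fun s _ => ?_))
          · split_ifs
            · exact mul_nonneg (h0 s) (h0' s')
            · exact le_rfl
          · by_cases h7 : (∀ i ∈ S.idx s, ∀ j ∈ S'.idx s', S.perp (x i) (x j)) ∧
              S.Dead x s (S'.idx s')
            · rw [if_pos h7, if_pos ⟨fun j hj i hi => h7.1 i hi j hj, h7.2⟩, mul_comm]
            · rw [if_neg h7]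
              refine mul_nonneg (h0' s') ?_
              split_ifs
              · exact h0 s
              · exact le_rfl
      _ ≤ ∑ s' ∈ G', τ' s' * (32 * S.η * R) :=
          Finset.sum_le_sum (fun s' hs' => mul_le_mul_of_nonneg_left (hG'F s' hs') (h0' s'))
      _ = (∑ s' ∈ G', τ' s') * (32 * S.η * R) := by rw [Finset.sum_mul]
      _ ≤ 1 * (32 * S.η * R) := by
          refine mul_le_mul_of_nonneg_right ?_ (by positivity)
          rw [← h1']
          exact Finset.sum_le_sum_of_subset_of_nonneg (Finset.subset_univ _) (fun s _ _ => h0' s)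
      _ = _ := one_mul _
  have k4 : ∑ s ∈ G, ∑ s' ∈ G', (if (∀ i ∈ S.idx s, ∀ j ∈ S'.idx s', S.perp (x i) (x j)) ∧
      S'.Dead x s' (S.idx s) then τ s * τ' s' else 0) ≤ 32 * S.η * R := by
    calc _ ≤ ∑ s ∈ G, τ s * ∑ s' ∈ S'.FA x (S.idx s), τ' s' := by
          refine Finset.sum_le_sum (fun s _ => ?_)
          rw [FA, Finset.sum_filter, Finset.mul_sum]
          refine le_trans (Finset.sum_le_sum_of_subset_of_nonneg (Finset.subset_univ G')
            (fun s' _ _ => ?_)) (Finset.sum_le_sum (fun s' _ => ?_))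
          · split_ifs
            · exact mul_nonneg (h0 s) (h0' s')
            · exact le_rfl
          · by_cases h7 : (∀ i ∈ S.idx s, ∀ j ∈ S'.idx s', S.perp (x i) (x j)) ∧
              S'.Dead x s' (S.idx s)
            · rw [if_pos h7, if_pos]
              refine ⟨fun i hi j hj => ?_, h7.2⟩
              rw [hperp]
              exact hsymm _ _ (h7.1 i hi j hj)
            · rw [if_neg h7]
              refine mul_nonneg (h0 s) ?_
              split_ifs
              · exact h0' s'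
              · exact le_rfl
      _ ≤ ∑ s ∈ G, τ s * (32 * S.η * R) :=
          Finset.sum_le_sum (fun s hs => mul_le_mul_of_nonneg_left (hGF s hs) (h0 s))
      _ = M * (32 * S.η * R) := by rw [← Finset.sum_mul]
      _ ≤ 1 * (32 * S.η * R) := mul_le_mul_of_nonneg_right hM1 (by positivity)
      _ = _ := one_mul _
  have k5 : ∑ s ∈ G, ∑ s' ∈ G',
      (if ∀ i ∈ S.idx s, ∀ j ∈ S'.idx s', S.perp (x i) (x j) then τ s * τ' s' else 0) ≤
      ∑ s ∈ G, ∑ s' ∈ G', (if Live S S' x s s' then τ s * τ' s' else 0) +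
      (∑ s ∈ G, ∑ s' ∈ G', (if (∀ i ∈ S.idx s, ∀ j ∈ S'.idx s', S.perp (x i) (x j)) ∧
        S.Dead x s (S'.idx s') then τ s * τ' s' else 0)) +
      ∑ s ∈ G, ∑ s' ∈ G', (if (∀ i ∈ S.idx s, ∀ j ∈ S'.idx s', S.perp (x i) (x j)) ∧
        S'.Dead x s' (S.idx s) then τ s * τ' s' else 0) := by
    rw [← Finset.sum_add_distrib, ← Finset.sum_add_distrib]
    refine Finset.sum_le_sum (fun s _ => ?_)
    rw [← Finset.sum_add_distrib, ← Finset.sum_add_distrib]
    refine Finset.sum_le_sum (fun s' _ => ?_)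
    have hnn : 0 ≤ τ s * τ' s' := mul_nonneg (h0 s) (h0' s')
    unfold Live
    by_cases hp : ∀ i ∈ S.idx s, ∀ j ∈ S'.idx s', S.perp (x i) (x j)
    · by_cases hd : S.Dead x s (S'.idx s')
      · by_cases hd' : S'.Dead x s' (S.idx s)
        · rw [if_pos hp, if_neg (fun h => h.2.1 hd), if_pos ⟨hp, hd⟩, if_pos ⟨hp, hd'⟩]
          linarith
        · rw [if_pos hp, if_neg (fun h => h.2.1 hd), if_pos ⟨hp, hd⟩, if_neg (fun h => hd' h.2)]
          linarith
      · by_cases hd' : S'.Dead x s' (S.idx s)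
        · rw [if_pos hp, if_neg (fun h => h.2.2 hd'), if_neg (fun h => hd h.2),
            if_pos ⟨hp, hd'⟩]
          linarith
        · rw [if_pos hp, if_pos ⟨hp, hd, hd'⟩, if_neg (fun h => hd h.2),
            if_neg (fun h => hd' h.2)]
          linarith
    · rw [if_neg hp, if_neg (fun h => hp h.1), if_neg (fun h => hp h.1),
        if_neg (fun h => hp h.1)]
      linarith
  have k6 : 15 / 16 * (1 / 16 * R) * (14 / 16) ≤ M * (1 / 16 * R) * (14 / 16) := by
    have : 0 < 1 / 16 * R := by positivity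
    nlinarith
  have k7 : 64 * S.η * R ≤ 1 / 64 * R := by
    refine mul_le_mul_of_nonneg_right ?_ hR0.le
    linarith
  linarith

end Sys

end Crest.Agent.R042.TLev333
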