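import Crest.Agent.R042.SspAsm_375
import Crest.Agent.R042.TLevG_333

-- ▼ part R042/SspFin_375
section

/-! Row 42 / S0059: from weights on `V × V`, `V = ι × 𝓕` (type index × label), of the cross kind
to laws on (index pairs) × (label pairs), and back (consumes `SspAsm375.asm`). -/

set_option autoImplicit false
set_option linter.unusedSectionVars false

namespace Crest.Agent.R042.SspFin375

open Finset SspAsm375
open scoped Classical

variable {ι 𝓕 : Type*} [Fintype ι] [DecidableEq ι] [Fintype 𝓕]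

/-- ordered pairs of distinct type indices. -/
abbrev Jx (ι : Type*) := {p : ι × ι // p.1 ≠ p.2}

/-- the pair of vertices of an index pair and a label pair. -/
def ph (x : Jx ι × (𝓕 × 𝓕)) : (ι × 𝓕) × (ι × 𝓕) := ((x.1.1.1, x.2.1), (x.1.1.2, x.2.2))

lemma ph_inj : Function.Injective (ph (ι := ι) (𝓕 := 𝓕)) := by
  rintro ⟨⟨⟨i, i'⟩, h⟩, ⟨f, f'⟩⟩ ⟨⟨⟨j, j'⟩, h'⟩, ⟨g, g'⟩⟩ e
  simp only [ph, Prod.mk.injEq] at e
  obtain ⟨⟨rfl, rfl⟩, rfl, rfl⟩ := e
  rfl

lemma sum_ph (g : (ι × 𝓕) × (ι × 𝓕) → ℝ) (hg : ∀ z, g z ≠ 0 → z.1.1 ≠ z.2.1) :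
    ∑ z, g z = ∑ x : Jx ι × (𝓕 × 𝓕), g (ph x) := by
  rw [← Finset.sum_image (s := (univ : Finset (Jx ι × (𝓕 × 𝓕)))) (g := ph) (f := g)
    (fun x _ y _ h => ph_inj h)]
  symm
  refine Finset.sum_subset (Finset.subset_univ _) ?_
  intro z _ hz
  by_contra h
  apply hz
  rw [Finset.mem_image]
  exact ⟨(⟨(z.1.1, z.2.1), hg z h⟩, (z.1.2, z.2.2)), Finset.mem_univ _, rfl⟩

/-- index pairs containing `i`. -/
noncomputable def Ai (i : ι) : Finset (Jx ι) := univ.filter fun j => j.1.1 = i ∨ j.1.2 = i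

/-- conflict: all four cross pairs adjacent. -/
def Cf (E : ι × 𝓕 → ι × 𝓕 → Prop) (z z' : (ι × 𝓕) × (ι × 𝓕)) : Prop :=
  E z.1 z'.1 ∧ E z.1 z'.2 ∧ E z.2 z'.1 ∧ E z.2 z'.2

/-- admissible weights of the cross kind (666's `AdmP` with the kind clause). -/
structure AdmX (n : ℕ) (d : ℝ) (E : ι × 𝓕 → ι × 𝓕 → Prop) (w : (ι × 𝓕) × (ι × 𝓕) → ℝ) : Prop where
  nonneg : ∀ z, 0 ≤ w z
  supp : ∀ z, w z ≠ 0 → z.1.1 ≠ z.2.1 ∧ ¬ E z.1 z.2
  marg : ∀ a, ∑ b, w (a, b) + ∑ b, w (b, a) ≤ 1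
  cap : ∀ z, w z ≤ n / Fintype.card (ι × 𝓕)
  tot : ∑ z, w z = d * Fintype.card (ι × 𝓕)

/-- the law of an admissible weight. -/
noncomputable def law (d : ℝ) (w : (ι × 𝓕) × (ι × 𝓕) → ℝ) (x : Jx ι × (𝓕 × 𝓕)) : ℝ :=
  w (ph x) / (d * Fintype.card (ι × 𝓕))

variable {n : ℕ} {d : ℝ} {E : ι × 𝓕 → ι × 𝓕 → Prop} {w : (ι × 𝓕) × (ι × 𝓕) → ℝ}

lemma isP_law [Nonempty ι] [Nonempty 𝓕] (hd : 0 < d) (h : AdmX n d E w) : IsP (law d w) := by
  have hV : (0 : ℝ) < Fintype.card (ι × 𝓕) := by exact_mod_cast Fintype.card_pos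
  refine ⟨fun x => div_nonneg (h.nonneg _) (by positivity), ?_⟩
  unfold law
  rw [← Finset.sum_div, ← sum_ph w (fun z hz => (h.supp z hz).1), h.tot]
  exact div_self (by positivity)

lemma cap_law [Nonempty ι] [Nonempty 𝓕] (hd : 0 < d) (h : AdmX n d E w) (x : Jx ι × (𝓕 × 𝓕)) :
    law d w x * (Fintype.card (Jx ι) * Fintype.card (𝓕 × 𝓕)) ≤ n / d := by
  have hV : (0 : ℝ) < Fintype.card (ι × 𝓕) := by exact_mod_cast Fintype.card_pos
  have h1 : (Fintype.card (Jx ι) : ℝ) * Fintype.card (𝓕 × 𝓕) ≤ (Fintype.card (ι × 𝓕) : ℝ) ^ 2 := by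
    have h2 := Fintype.card_le_of_injective (ph (ι := ι) (𝓕 := 𝓕)) ph_inj
    rw [Fintype.card_prod, Fintype.card_prod (ι × 𝓕)] at h2
    rw [pow_two]
    exact_mod_cast h2
  have h3 : law d w x ≤ (n / Fintype.card (ι × 𝓕)) / (d * Fintype.card (ι × 𝓕)) := by
    unfold law
    exact div_le_div_of_nonneg_right (h.cap _) (by positivity)
  have h0 : 0 ≤ (n / Fintype.card (ι × 𝓕) : ℝ) / (d * Fintype.card (ι × 𝓕)) := by positivity
  calc law d w x * (Fintype.card (Jx ι) * Fintype.card (𝓕 × 𝓕)) ≤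
      (n / Fintype.card (ι × 𝓕)) / (d * Fintype.card (ι × 𝓕)) * (Fintype.card (ι × 𝓕) : ℝ) ^ 2 :=
        mul_le_mul h3 h1 (by positivity) h0
    _ = n / d := by field_simp

lemma marg_law [Nonempty ι] [Nonempty 𝓕] (hd : 0 < d) (h : AdmX n d E w) (i : ι) :
    ∑ j ∈ Ai i, ∑ y, law d w (j, y) ≤ 1 / (d * Fintype.card ι) := by
  have hι : (0 : ℝ) < Fintype.card ι := by exact_mod_cast Fintype.card_pos
  have h𝓕 : (0 : ℝ) < Fintype.card 𝓕 := by exact_mod_cast Fintype.card_pos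
  have hV : (0 : ℝ) < Fintype.card (ι × 𝓕) := by exact_mod_cast Fintype.card_pos
  -- the sum of the weights of the pairs touching type `i`
  have h1 : ∑ j ∈ Ai i, ∑ y, w (ph (j, y)) ≤ Fintype.card 𝓕 := by
    have e1 : ∑ j ∈ Ai i, ∑ y, w (ph (j, y)) =
        ∑ x : Jx ι × (𝓕 × 𝓕), (if x.1 ∈ Ai i then w (ph x) else 0) := by
      rw [Fintype.sum_prod_type]
      rw [← Finset.sum_filter_add_sum_filter_not univ (fun j : Jx ι => j ∈ Ai i)]
      have e2 : univ.filter (fun j : Jx ι => j ∈ Ai i) = Ai i := by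
        ext j
        simp
      rw [e2]
      have e3 : ∑ j ∈ univ.filter (fun j : Jx ι => ¬ j ∈ Ai i), ∑ y : 𝓕 × 𝓕,
          (if (j, y).1 ∈ Ai i then w (ph (j, y)) else 0) = 0 := by
        refine Finset.sum_eq_zero fun j hj => Finset.sum_eq_zero fun y _ => ?_
        rw [Finset.mem_filter] at hj
        exact if_neg hj.2
      rw [e3, add_zero]
      refine Finset.sum_congr rfl fun j hj => Finset.sum_congr rfl fun y _ => ?_
      exact (if_pos hj).symm
    have e4 : ∑ x : Jx ι × (𝓕 × 𝓕), (if x.1 ∈ Ai i then w (ph x) else 0) =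
        ∑ z : (ι × 𝓕) × (ι × 𝓕), (if z.1.1 = i ∨ z.2.1 = i then w z else 0) := by
      rw [sum_ph (fun z => if z.1.1 = i ∨ z.2.1 = i then w z else 0)]
      · refine Finset.sum_congr rfl fun x _ => ?_
        have : x.1 ∈ Ai i ↔ ((ph x).1.1 = i ∨ (ph x).2.1 = i) := by
          unfold Ai
          rw [Finset.mem_filter]
          simp [ph]
        simp only [this]
      · intro z hz
        split_ifs at hz with h5
        · exact (h.supp z hz).1
        · exact absurd rfl hz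
    have e5 : ∑ z : (ι × 𝓕) × (ι × 𝓕), (if z.1.1 = i ∨ z.2.1 = i then w z else 0) ≤
        ∑ f : 𝓕, (∑ b, w ((i, f), b) + ∑ b, w (b, (i, f))) := by
      have e6 : ∀ z : (ι × 𝓕) × (ι × 𝓕), (if z.1.1 = i ∨ z.2.1 = i then w z else 0) ≤
          (if z.1.1 = i then w z else 0) + (if z.2.1 = i then w z else 0) := by
        intro z
        have := h.nonneg z
        by_cases h1 : z.1.1 = i <;> by_cases h2 : z.2.1 = i <;> simp [h1, h2, this]
      refine (Finset.sum_le_sum fun z _ => e6 z).trans ?_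
      rw [Finset.sum_add_distrib, Finset.sum_add_distrib]
      refine add_le_add (le_of_eq ?_) (le_of_eq ?_)
      · rw [Fintype.sum_prod_type]
        rw [Fintype.sum_prod_type]
        rw [Finset.sum_comm]
        refine Finset.sum_congr rfl fun f _ => ?_
        rw [Finset.sum_comm]
        refine Finset.sum_congr rfl fun b _ => ?_
        rw [Finset.sum_ite_eq']
        simp
      · rw [Fintype.sum_prod_type, Finset.sum_comm, Fintype.sum_prod_type, Finset.sum_comm]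
        refine Finset.sum_congr rfl fun f _ => ?_
        rw [Finset.sum_comm]
        refine Finset.sum_congr rfl fun b _ => ?_
        rw [Finset.sum_ite_eq']
        simp
    rw [e1, e4]
    refine e5.trans ?_
    refine (Finset.sum_le_sum fun f _ => h.marg (i, f)).trans ?_
    simp
  have h2 : ∑ j ∈ Ai i, ∑ y, law d w (j, y) =
      (∑ j ∈ Ai i, ∑ y, w (ph (j, y))) / (d * Fintype.card (ι × 𝓕)) := by
    rw [Finset.sum_div]
    refine Finset.sum_congr rfl fun j _ => ?_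
    rw [Finset.sum_div]
    rfl
  rw [h2, Fintype.card_prod]
  push_cast
  rw [div_le_div_iff₀ (by positivity) (by positivity)]
  nlinarith [mul_le_mul_of_nonneg_left h1 (by positivity : (0:ℝ) ≤ d * Fintype.card ι)]


end Crest.Agent.R042.SspFin375
end

-- ▼ part R042/SspT_375

/-! Row 42 / S0059: `ssp_cross` with the type level input discharged by 333's Theorem T. -/

set_option autoImplicit false
set_option linter.unusedSectionVars false

namespace Crest.Agent.R042.SspT375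

open Finset SspAsm375 SspFin375 TLev333
open scoped Classical

variable {ι 𝓕 Ω : Type*} [Fintype ι] [DecidableEq ι] [Fintype 𝓕] [Fintype Ω]
  {Δ Θ : Type*} [Fintype Δ] [Fintype Θ]

/-- the index set of a piece. -/
def idx2 (s : Jx ι × Δ × Θ) : Finset ι := {s.1.1.1, s.1.1.2}

lemma card_idx2 (s : Jx ι × Δ × Θ) : (idx2 s).card = 2 := Finset.card_pair s.1.2

lemma mem_idx2 (i : ι) (s : Jx ι × Δ × Θ) : i ∈ idx2 s ↔ s.1 ∈ Ai i := by
  unfold idx2 Ai
  rw [Finset.mem_filter, Finset.mem_insert, Finset.mem_singleton]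
  constructor
  · rintro (h | h)
    · exact ⟨Finset.mem_univ _, Or.inl h.symm⟩
    · exact ⟨Finset.mem_univ _, Or.inr h.symm⟩
  · rintro ⟨_, h | h⟩
    · exact Or.inl h.symm
    · exact Or.inr h.symm

lemma sum_idx2 (t : Jx ι × Δ × Θ → ℝ) (i : ι) :
    ∑ s ∈ univ.filter (fun s => i ∈ idx2 s), t s = ∑ j ∈ Ai i, ∑ x : Δ × Θ, t (j, x) := by
  rw [Finset.sum_filter, Fintype.sum_prod_type]
  rw [← Finset.sum_filter_add_sum_filter_not univ (fun j : Jx ι => j ∈ Ai i)]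
  have e2 : univ.filter (fun j : Jx ι => j ∈ Ai i) = Ai i := by
    ext j
    simp
  rw [e2]
  have e3 : ∑ j ∈ univ.filter (fun j : Jx ι => ¬ j ∈ Ai i), ∑ y : Δ × Θ,
      (if i ∈ idx2 ((j, y) : Jx ι × Δ × Θ) then t (j, y) else 0) = 0 := by
    refine Finset.sum_eq_zero fun j hj => Finset.sum_eq_zero fun y _ => ?_
    rw [Finset.mem_filter] at hj
    rw [if_neg]
    rw [mem_idx2]
    exact hj.2
  rw [e3, add_zero]
  refine Finset.sum_congr rfl fun j hj => Finset.sum_congr rfl fun y _ => ?_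
  rw [if_pos]
  rw [mem_idx2]
  exact hj

/-- type level mass of the live pairs. -/
theorem liveMass [DecidableEq Δ] [DecidableEq Θ] (S : Sys ι Ω (Jx ι × Δ × Θ)) (hidx : S.idx = idx2) (ha : S.a = 2)
    (hsymm : ∀ P Q, S.perp P Q → S.perp Q P) {ℓ r : ℕ} {x : ι → Ω} (hGood : S.Good ℓ r x)
    (hgen : Gen S.perp S.ρ x univ) (hE : 1 ≤ S.η * ℓ * S.ρ ^ 4) (hη : S.η ≤ 1 / 4096)
    (m : ℝ) (hm0 : 0 ≤ m) (hℓm : 4 * ℓ * m ≤ S.η * S.ρ ^ 4) (hrm : 256 * (ℓ + r) * m ≤ 1)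
    (t₁ t₂ : Jx ι × Δ × Θ → ℝ) (h1 : IsP t₁) (h2 : IsP t₂)
    (hm1 : ∀ i, ∑ j ∈ Ai i, ∑ x : Δ × Θ, t₁ (j, x) ≤ m)
    (hm2 : ∀ i, ∑ j ∈ Ai i, ∑ x : Δ × Θ, t₂ (j, x) ≤ m) :
    S.ρ ^ 4 / 32 ≤ ∑ s, ∑ s', t₁ s * t₂ s' * (if Sys.Live S S x s s' then 1 else 0) := by
  obtain ⟨G, G', -, -, -, -, h⟩ := Sys.theoremT S S rfl rfl rfl hsymm hGood hGood hgen hE hη m hm0
    hℓm hrm t₁ h1.nonneg h1.sum (fun i => by
      rw [hidx, sum_idx2]
      exact hm1 i) t₂ h2.nonneg h2.sum (fun i => by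
      rw [hidx, sum_idx2]
      exact hm2 i)
  rw [ha] at h
  norm_num at h
  refine h.trans ?_
  have pos : ∀ s s', 0 ≤ t₁ s * t₂ s' * (if Sys.Live S S x s s' then (1 : ℝ) else 0) := by
    intro s s'
    refine mul_nonneg (mul_nonneg (h1.nonneg _) (h2.nonneg _)) ?_
    split_ifs
    · exact zero_le_one
    · exact le_rfl
  have e : ∀ s s', (if Sys.Live S S x s s' then t₁ s * t₂ s' else 0) =
      t₁ s * t₂ s' * (if Sys.Live S S x s s' then (1 : ℝ) else 0) := by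
    intro s s'
    split_ifs <;> simp
  refine (le_of_eq (Finset.sum_congr rfl fun s _ => Finset.sum_congr rfl fun s' _ => e s s')).trans ?_
  refine (Finset.sum_le_sum fun s _ => Finset.sum_le_sum_of_subset_of_nonneg
      (Finset.subset_univ _) (fun s' _ _ => pos s s')).trans ?_
  exact Finset.sum_le_sum_of_subset_of_nonneg (Finset.subset_univ _)
      (fun s _ _ => Finset.sum_nonneg fun s' _ => pos s s')


end Crest.Agent.R042.SspT375
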