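import Crest.Agent.R042.SspAsm_375
import Crest.Agent.R042.SspT_375

-- ▼ part R042/KLPush_375
section

/-! Row 42 / S0059: push-forward of laws along maps with equal fibres (the gadget costs only
budget, 927's remark). -/

set_option autoImplicit false
set_option linter.unusedSectionVars false

namespace Crest.Agent.R042.KLPush375

open Finset SspAsm375
open scoped Classical

variable {Y Z : Type*} [Fintype Y] [Fintype Z]

/-- push-forward of a weight. -/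
noncomputable def pf (p : Y → Z) (μ : Y → ℝ) (z : Z) : ℝ := ∑ y, if p y = z then μ y else 0

lemma sum_pf_mul (p : Y → Z) (μ : Y → ℝ) (g : Z → ℝ) :
    ∑ z, pf p μ z * g z = ∑ y, μ y * g (p y) := by
  unfold pf
  simp only [Finset.sum_mul]
  rw [Finset.sum_comm]
  refine Finset.sum_congr rfl fun y _ => ?_
  simp only [ite_mul, zero_mul]
  rw [Finset.sum_ite_eq]
  simp

lemma isP_pf (p : Y → Z) {μ : Y → ℝ} (h : IsP μ) : IsP (pf p μ) := by
  refine ⟨fun z => Finset.sum_nonneg fun y _ => ?_, ?_⟩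
  · split_ifs
    · exact h.nonneg y
    · exact le_rfl
  · have := sum_pf_mul p μ (fun _ => 1)
    simp only [mul_one] at this
    rw [this]
    exact h.sum


lemma pf_ne_zero (p : Y → Z) (μ : Y → ℝ) (z : Z) (h : pf p μ z ≠ 0) : ∃ y, p y = z ∧ μ y ≠ 0 := by
  by_contra hc
  push Not at hc
  apply h
  unfold pf
  refine Finset.sum_eq_zero fun y _ => ?_
  split_ifs with h1
  · exact hc y h1
  · rfl


/-- pair version. -/
lemma card_fiber_prod {Y₁ Y₂ Z₁ Z₂ : Type*} [Fintype Y₁] [Fintype Y₂] (p₁ : Y₁ → Z₁) (p₂ : Y₂ → Z₂)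
    (k₁ k₂ : ℕ) (h₁ : ∀ y, (univ.filter fun y' => p₁ y' = p₁ y).card = k₁)
    (h₂ : ∀ y, (univ.filter fun y' => p₂ y' = p₂ y).card = k₂) (y : Y₁ × Y₂) :
    (univ.filter fun y' : Y₁ × Y₂ => Prod.map p₁ p₂ y' = Prod.map p₁ p₂ y).card = k₁ * k₂ := by
  have e : (univ.filter fun y' : Y₁ × Y₂ => Prod.map p₁ p₂ y' = Prod.map p₁ p₂ y) =
      (univ.filter fun y' => p₁ y' = p₁ y.1) ×ˢ (univ.filter fun y' => p₂ y' = p₂ y.2) := by
    ext y'
    simp only [Finset.mem_filter, Finset.mem_univ, true_and, Finset.mem_product, Prod.map,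
      Prod.mk.injEq]
  rw [e, Finset.card_product, h₁, h₂]

/-- expectations over products of push-forwards. -/
lemma sum_pf_pf {Y₁ Y₂ Z₁ Z₂ : Type*} [Fintype Y₁] [Fintype Y₂] [Fintype Z₁] [Fintype Z₂]
    (p₁ : Y₁ → Z₁) (p₂ : Y₂ → Z₂) (μ₁ : Y₁ → ℝ) (μ₂ : Y₂ → ℝ) (g : Z₁ → Z₂ → ℝ) :
    ∑ z₁, ∑ z₂, pf p₁ μ₁ z₁ * pf p₂ μ₂ z₂ * g z₁ z₂ =
      ∑ y₁, ∑ y₂, μ₁ y₁ * μ₂ y₂ * g (p₁ y₁) (p₂ y₂) := by
  have h1 : ∀ z₁, ∑ z₂, pf p₁ μ₁ z₁ * pf p₂ μ₂ z₂ * g z₁ z₂ =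
      pf p₁ μ₁ z₁ * ∑ y₂, μ₂ y₂ * g z₁ (p₂ y₂) := by
    intro z₁
    rw [← sum_pf_mul p₂ μ₂ (fun z₂ => g z₁ z₂), Finset.mul_sum]
    exact Finset.sum_congr rfl fun _ _ => by ring
  rw [Finset.sum_congr rfl (fun z₁ _ => h1 z₁),
    sum_pf_mul p₁ μ₁ (fun z₁ => ∑ y₂, μ₂ y₂ * g z₁ (p₂ y₂))]
  refine Finset.sum_congr rfl fun y₁ _ => ?_
  rw [Finset.mul_sum]
  exact Finset.sum_congr rfl fun _ _ => by ring

end Crest.Agent.R042.KLPush375
end

-- ▼ part R042/SspG_375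

/-! Row 42 / S0059: the cross kind with the same-type gadget: raw labels `𝓕`, real labels `Lb`,
`pr i : 𝓕 → Lb` with fibres of equal size `k i`; the local statements are asked for laws on
`Lb × Lb` only. -/

set_option autoImplicit false
set_option linter.unusedSectionVars false

namespace Crest.Agent.R042.SspG375

open Finset SspAsm375 SspFin375 SspT375 TLev333 KLPush375
open scoped Classical

variable {ι 𝓕 Lb Ω : Type*} [Fintype ι] [DecidableEq ι] [Fintype 𝓕] [Fintype Lb] [Fintype Ω]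
  {Δ Θ : Type*} [Fintype Δ] [Fintype Θ]

/-- the pair of label maps of an index pair. -/
def pp (pr : ι → 𝓕 → Lb) (j : Jx ι) : 𝓕 × 𝓕 → Lb × Lb := Prod.map (pr j.1.1) (pr j.1.2)

/-- conflict in terms of a relation on labels. -/
def CfR (rel : ι → ι → Lb → Lb → Prop) (j j' : Jx ι) (y y' : Lb × Lb) : Prop :=
  rel j.1.1 j'.1.1 y.1 y'.1 ∧ rel j.1.1 j'.1.2 y.1 y'.2 ∧ rel j.1.2 j'.1.1 y.2 y'.1 ∧
    rel j.1.2 j'.1.2 y.2 y'.2

/-- the adjacency of raw vertices. -/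
def EE (pr : ι → 𝓕 → Lb) (rel : ι → ι → Lb → Lb → Prop) (a b : ι × 𝓕) : Prop :=
  rel a.1 b.1 (pr a.1 a.2) (pr b.1 b.2)


end Crest.Agent.R042.SspG375
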