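import Mathlib
import Crest.Prelude.Def_CliqueMinor

-- ▼ part R042/From59_822
section

/-! Row 42: S0057 follows from S0059 by counting (r42_doc sec 09). helper822. -/

set_option autoImplicit false
open Crest.CombinatoricsR.GraphMinor

namespace Crest.Agent.R042.From59822

/-- the literal text of S0059 -/
def S59A : Prop :=
    ∀ m₀ : ℕ, ∃ m : ℕ, m₀ ≤ m ∧ ∃ G : SimpleGraph (Fin m),
      Gᶜ.CliqueFree 3 ∧
      ∀ (k : ℕ) (e : Fin k → Fin m × Fin m),
        (∀ i, G.Adj (e i).1 (e i).2) →
        (∀ i j, i ≠ j → (e i).1 ≠ (e j).1 ∧ (e i).1 ≠ (e j).2 ∧ (e i).2 ≠ (e j).1 ∧ (e i).2 ≠ (e j).2) →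
        (∀ i j, i ≠ j →
          G.Adj (e i).1 (e j).1 ∨ G.Adj (e i).1 (e j).2 ∨ G.Adj (e i).2 (e j).1 ∨ G.Adj (e i).2 (e j).2) →
        100 * k < m

/-- the literal text of S0057 -/
def S57A : Prop :=
    ∀ m₀ : ℕ, ∃ m : ℕ, m₀ ≤ m ∧ ∃ G : SimpleGraph (Fin m),
      Gᶜ.CliqueFree 3 ∧ (m : ℝ) / 2 ≤ fractionalChromaticNumber G ∧
      ∀ (t : ℕ) (B : Fin t → Finset (Fin m)), IsCliqueMinorModel G B →
        (t : ℝ) < 26 * (m : ℝ) / 75 + 2 / 3 ∧ (t : ℝ) < fractionalChromaticNumber G

/-- independent sets of a graph with triangle free complement have at most two vertices -/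
lemma card_le_two {V : Type*} [DecidableEq V] (G : SimpleGraph V)
    (hG : Gᶜ.CliqueFree 3) (I : Finset V) (hI : G.IsIndepSet (I : Set V)) : I.card ≤ 2 := by
  by_contra hc
  push Not at hc
  obtain ⟨J, hJI, hJ⟩ := Finset.exists_subset_card_eq (show 3 ≤ I.card by omega)
  refine hG J ⟨?_, hJ⟩
  intro u hu v hv huv
  rw [SimpleGraph.compl_adj]
  exact ⟨huv, hI (hJI hu) (hJI hv) huv⟩

/-- the fractional chromatic number is at least half of the number of vertices -/
lemma half_le {V : Type*} [Fintype V] [DecidableEq V] (G : SimpleGraph V)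
    (hG : Gᶜ.CliqueFree 3) : (Fintype.card V : ℝ) / 2 ≤ fractionalChromaticNumber G := by
  unfold fractionalChromaticNumber
  apply le_csInf
  · refine ⟨_, fun I => if I.card = 1 then 1 else 0, ⟨?_, ?_, ?_⟩, rfl⟩
    · intro I
      show (0 : ℝ) ≤ if I.card = 1 then 1 else 0
      split_ifs <;> norm_num
    · intro I hI
      have h1 : I.card = 1 := by
        by_contra h
        exact hI (by simp [h])
      obtain ⟨a, rfl⟩ := Finset.card_eq_one.mp h1
      intro u hu v hv huv
      simp only [Finset.coe_singleton, Set.mem_singleton_iff] at hu hv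
      exact absurd (hu.trans hv.symm) huv
    · intro v
      have hmem : ({v} : Finset V) ∈ (Finset.univ : Finset (Finset V)).filter (fun I => v ∈ I) := by
        simp
      have := Finset.single_le_sum (f := fun I : Finset V => if I.card = 1 then (1 : ℝ) else 0)
        (s := (Finset.univ : Finset (Finset V)).filter (fun I => v ∈ I))
        (fun I _ => by split_ifs <;> norm_num) hmem
      simpa using this
  · rintro x ⟨w, ⟨hw0, hwI, hw1⟩, rfl⟩
    have h1 : (Fintype.card V : ℝ) ≤ ∑ v : V, ∑ I ∈ (Finset.univ : Finset (Finset V)).filter (fun I => v ∈ I), w I := by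
      calc (Fintype.card V : ℝ) = ∑ v : V, (1 : ℝ) := by simp
        _ ≤ _ := Finset.sum_le_sum (fun v _ => hw1 v)
    have h2 : ∑ v : V, ∑ I ∈ (Finset.univ : Finset (Finset V)).filter (fun I => v ∈ I), w I
        = ∑ I : Finset V, (I.card : ℝ) * w I := by
      simp_rw [Finset.sum_filter]
      rw [Finset.sum_comm]
      refine Finset.sum_congr rfl (fun I _ => ?_)
      rw [← Finset.sum_filter]
      simp
    have h3 : ∑ I : Finset V, (I.card : ℝ) * w I ≤ ∑ I : Finset V, 2 * w I := by
      refine Finset.sum_le_sum (fun I _ => ?_)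
      by_cases h : w I = 0
      · simp [h]
      · have hc : I.card ≤ 2 := card_le_two G hG I (hwI I h)
        have hc' : (I.card : ℝ) ≤ 2 := by exact_mod_cast hc
        exact mul_le_mul_of_nonneg_right hc' (hw0 I)
    rw [← Finset.mul_sum] at h3
    linarith

/-- the matching built from the small branch sets -/
lemma small_sets {m : ℕ} (G : SimpleGraph (Fin m))
    (hM : ∀ (k : ℕ) (e : Fin k → Fin m × Fin m),
        (∀ i, G.Adj (e i).1 (e i).2) →
        (∀ i j, i ≠ j → (e i).1 ≠ (e j).1 ∧ (e i).1 ≠ (e j).2 ∧ (e i).2 ≠ (e j).1 ∧ (e i).2 ≠ (e j).2) →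
        (∀ i j, i ≠ j →
          G.Adj (e i).1 (e j).1 ∨ G.Adj (e i).1 (e j).2 ∨ G.Adj (e i).2 (e j).1 ∨ G.Adj (e i).2 (e j).2) →
        100 * k < m)
    {t : ℕ} (B : Fin t → Finset (Fin m)) (hB : IsCliqueMinorModel G B) :
    100 * ((Finset.univ.filter (fun i => (B i).card = 1)).card / 2
      + (Finset.univ.filter (fun i => (B i).card = 2)).card) < m := by
  classical
  obtain ⟨hne, hdis, hcon, hadj⟩ := hB
  set S1 := Finset.univ.filter (fun i => (B i).card = 1) with hS1
  set S2 := Finset.univ.filter (fun i => (B i).card = 2) with hS2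
  have mS1 : ∀ i, i ∈ S1 → (B i).card = 1 := by intro i hi; simpa [hS1] using hi
  have mS2 : ∀ i, i ∈ S2 → (B i).card = 2 := by intro i hi; simpa [hS2] using hi
  -- the data of the matching
  have key : ∀ j : Fin (S1.card / 2 + S2.card), ∃ (i1 i2 : Fin t) (u v : Fin m),
      u ∈ B i1 ∧ v ∈ B i2 ∧ B i1 ⊆ {u, v} ∧ G.Adj u v ∧
      ((∃ h : j.val < S1.card / 2, i1 = S1.orderEmbOfFin rfl ⟨2 * j.val, by omega⟩ ∧
          i2 = S1.orderEmbOfFin rfl ⟨2 * j.val + 1, by omega⟩) ∨
       (∃ h : S1.card / 2 ≤ j.val, i1 = S2.orderEmbOfFin rfl ⟨j.val - S1.card / 2, by omega⟩ ∧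
          i2 = i1)) := by
    intro j
    by_cases hj : j.val < S1.card / 2
    · set i1 := S1.orderEmbOfFin rfl ⟨2 * j.val, by omega⟩ with hi1
      set i2 := S1.orderEmbOfFin rfl ⟨2 * j.val + 1, by omega⟩ with hi2
      have h1 : i1 ∈ S1 := Finset.orderEmbOfFin_mem _ _ _
      have h2 : i2 ∈ S1 := Finset.orderEmbOfFin_mem _ _ _
      have h12 : i1 ≠ i2 := by
        rw [hi1, hi2]
        intro h
        have := (S1.orderEmbOfFin rfl).injective h
        simp only [Fin.mk.injEq] at this
        omega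
      obtain ⟨u, hu⟩ := Finset.card_eq_one.mp (mS1 _ h1)
      obtain ⟨v, hv⟩ := Finset.card_eq_one.mp (mS1 _ h2)
      obtain ⟨a, ha, b, hb, hab⟩ := hadj i1 i2 h12
      rw [hu, Finset.mem_singleton] at ha
      rw [hv, Finset.mem_singleton] at hb
      subst ha hb
      refine ⟨i1, i2, a, b, by simp [hu], by simp [hv], ?_, hab, Or.inl ⟨hj, rfl, rfl⟩⟩
      rw [hu]
      simp
    · set i1 := S2.orderEmbOfFin rfl ⟨j.val - S1.card / 2, by omega⟩ with hi1
      have h1 : i1 ∈ S2 := Finset.orderEmbOfFin_mem _ _ _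
      obtain ⟨u, v, huv, hBuv⟩ := Finset.card_eq_two.mp (mS2 _ h1)
      have hmem : ∀ x ∈ B i1, x = u ∨ x = v := by
        intro x hx; rw [hBuv] at hx; simpa using hx
      have hadj' : G.Adj u v := by
        have hc := hcon i1
        have hmu : u ∈ (B i1 : Set (Fin m)) := by simp [hBuv]
        have hmv : v ∈ (B i1 : Set (Fin m)) := by simp [hBuv]
        have hr := hc.preconnected ⟨u, hmu⟩ ⟨v, hmv⟩
        obtain ⟨p⟩ := hr
        cases p with
        | nil => exact absurd rfl huv
        | cons hh q =>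
          rename_i w
          have hadjw : G.Adj u w.1 := hh
          rcases hmem w.1 w.2 with hw | hw
          · exact absurd hw.symm (G.ne_of_adj hadjw)
          · rw [hw] at hadjw; exact hadjw
      exact ⟨i1, i1, u, v, by simp [hBuv], by simp [hBuv], by rw [hBuv], hadj',
        Or.inr ⟨by omega, rfl, rfl⟩⟩
  choose i1 i2 u v hu hv hsub huv hcase using key
  -- the indices are different
  have hidx : ∀ j j', j ≠ j' → i1 j ≠ i1 j' ∧ i1 j ≠ i2 j' ∧ i2 j ≠ i1 j' ∧ i2 j ≠ i2 j' := by
    have hS12 : ∀ (a : Fin S1.card) (b : Fin S2.card),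
        S1.orderEmbOfFin rfl a ≠ S2.orderEmbOfFin rfl b := by
      intro a b hab
      have h1 : S1.orderEmbOfFin rfl a ∈ S1 := Finset.orderEmbOfFin_mem _ _ _
      have h2 : S2.orderEmbOfFin rfl b ∈ S2 := Finset.orderEmbOfFin_mem _ _ _
      rw [← hab] at h2
      have h3 := mS1 _ h1
      have h4 := mS2 _ h2
      omega
    intro j j' hjj'
    have hval : j.val ≠ j'.val := fun h => hjj' (Fin.ext h)
    rcases hcase j with ⟨h, ha, hb⟩ | ⟨h, ha, hb⟩ <;>
      rcases hcase j' with ⟨h', ha', hb'⟩ | ⟨h', ha', hb'⟩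
    · rw [ha, hb, ha', hb']
      refine ⟨?_, ?_, ?_, ?_⟩ <;>
      · intro heq
        have := (S1.orderEmbOfFin rfl).injective heq
        simp only [Fin.mk.injEq] at this
        omega
    · rw [hb', ha, hb, ha']
      exact ⟨hS12 _ _, hS12 _ _, hS12 _ _, hS12 _ _⟩
    · rw [hb, ha, ha', hb']
      exact ⟨(hS12 _ _).symm, (hS12 _ _).symm, (hS12 _ _).symm, (hS12 _ _).symm⟩
    · rw [hb, hb', ha, ha']
      have hh : S2.orderEmbOfFin rfl ⟨j.val - S1.card / 2, by omega⟩
          ≠ S2.orderEmbOfFin rfl ⟨j'.val - S1.card / 2, by omega⟩ := by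
        intro heq
        have := (S2.orderEmbOfFin rfl).injective heq
        simp only [Fin.mk.injEq] at this
        omega
      exact ⟨hh, hh, hh, hh⟩
  have hdd : ∀ {a b : Fin t} {x y : Fin m}, a ≠ b → x ∈ B a → y ∈ B b → x ≠ y := by
    intro a b x y hab hx hy hxy
    subst hxy
    exact (Finset.disjoint_left.mp (hdis a b hab)) hx hy
  refine hM _ (fun j => (u j, v j)) (fun j => huv j) ?_ ?_
  · intro j j' hjj'
    obtain ⟨h1, h2, h3, h4⟩ := hidx j j' hjj'
    exact ⟨hdd h1 (hu j) (hu j'), hdd h2 (hu j) (hv j'), hdd h3 (hv j) (hu j'), hdd h4 (hv j) (hv j')⟩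
  · intro j j' hjj'
    obtain ⟨h1, -, -, -⟩ := hidx j j' hjj'
    obtain ⟨x, hx, y, hy, hxy⟩ := hadj _ _ h1
    have hx' := hsub j hx
    have hy' := hsub j' hy
    simp only [Finset.mem_insert, Finset.mem_singleton] at hx' hy'
    rcases hx' with rfl | rfl <;> rcases hy' with rfl | rfl <;> tauto

lemma count {m : ℕ} (G : SimpleGraph (Fin m)) {t : ℕ} (B : Fin t → Finset (Fin m))
    (hB : IsCliqueMinorModel G B) :
    3 * t ≤ m + 2 * (Finset.univ.filter (fun i => (B i).card = 1)).card
      + (Finset.univ.filter (fun i => (B i).card = 2)).card := by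
  classical
  obtain ⟨hne, hdis, -, -⟩ := hB
  have h1 : ∑ i : Fin t, (B i).card ≤ m := by
    rw [← Finset.card_biUnion (fun i _ j _ hij => hdis i j hij)]
    calc _ ≤ (Finset.univ : Finset (Fin m)).card := Finset.card_le_univ _
      _ = m := by simp
  have h2 : ∑ i : Fin t, 3 ≤ ∑ i : Fin t, ((B i).card + 2 * (if (B i).card = 1 then 1 else 0)
      + (if (B i).card = 2 then 1 else 0)) := by
    refine Finset.sum_le_sum (fun i _ => ?_)
    have := (hne i).card_pos
    split_ifs <;> omega
  rw [Finset.sum_add_distrib, Finset.sum_add_distrib, ← Finset.mul_sum, ← Finset.card_filter,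
    ← Finset.card_filter] at h2
  simp only [Finset.sum_const, Finset.card_univ, Fintype.card_fin, smul_eq_mul] at h2
  omega

/-- **S0057 from S0059.** -/
theorem s57 (h : S59A) : S57A := by
  classical
  intro m₀
  obtain ⟨m, hm, G, hG, hM⟩ := h (max m₀ 5)
  have hm0 : m₀ ≤ m := le_trans (le_max_left _ _) hm
  have hm5 : 5 ≤ m := le_trans (le_max_right _ _) hm
  have hchi : (m : ℝ) / 2 ≤ fractionalChromaticNumber G := by
    have := half_le G hG
    simpa using this
  refine ⟨m, hm0, G, hG, hchi, ?_⟩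
  intro t B hB
  have h1 := small_sets G hM B hB
  have h2 := count G B hB
  have h3 : 75 * t < 26 * m + 50 := by omega
  have h4 : (75 : ℝ) * t < 26 * m + 50 := by exact_mod_cast h3
  have h5 : (5 : ℝ) ≤ m := by exact_mod_cast hm5
  constructor
  · linarith
  · refine lt_of_lt_of_le ?_ hchi
    linarith

end Crest.Agent.R042.From59822
end

-- ▼ part R042/S59Spine_883
section

/-! Row 42 / S0059, TOP SPINE.  `HJ s K` (helper169, with the independence clause of helper496): a
triangle-free graph in which every family of `≥ N/K` disjoint independent `≤ s`-sets has two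
completely joined members.  `HJ 2 200` gives the literal S0059 by blow-up. -/

set_option autoImplicit false
set_option linter.unusedSectionVars false

namespace Crest.Agent.R042.S59Spine883

open Finset

/-- triangle-free `F` on `N` vertices such that every family of pairwise disjoint nonempty
independent sets of size `≤ s`, no two of them completely joined, has fewer than `N / K` members. -/
def HJ (s K : ℕ) : Prop :=
  ∃ N : ℕ, 0 < N ∧ ∃ F : SimpleGraph (Fin N), F.CliqueFree 3 ∧
    ∀ S : Finset (Finset (Fin N)),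
      (∀ A ∈ S, A.Nonempty ∧ A.card ≤ s ∧ ∀ a ∈ A, ∀ b ∈ A, ¬ F.Adj a b) →
      (∀ A ∈ S, ∀ B ∈ S, A ≠ B → Disjoint A B) →
      (∀ A ∈ S, ∀ B ∈ S, A ≠ B → ∃ a ∈ A, ∃ b ∈ B, ¬ F.Adj a b) →
      K * S.card < N

lemma HJ.mono {s s' K K' : ℕ} (h : HJ s' K') (hs : s ≤ s') (hK : K ≤ K') : HJ s K := by
  obtain ⟨N, hN, F, hF, H⟩ := h
  refine ⟨N, hN, F, hF, ?_⟩
  intro S h1 h2 h3
  have := H S (fun A hA => ⟨(h1 A hA).1, (h1 A hA).2.1.trans hs, (h1 A hA).2.2⟩) h2 h3
  exact lt_of_le_of_lt (Nat.mul_le_mul_right _ hK) this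

/-- the blow-up of `F` along a map. -/
def blow {N m : ℕ} (F : SimpleGraph (Fin N)) (π : Fin m → Fin N) : SimpleGraph (Fin m) :=
  F.comap π

lemma blow_adj {N m : ℕ} {F : SimpleGraph (Fin N)} {π : Fin m → Fin N} {x y : Fin m} :
    (blow F π).Adj x y ↔ F.Adj (π x) (π y) := Iff.rfl

lemma blow_cliqueFree {N m : ℕ} {F : SimpleGraph (Fin N)} (hF : F.CliqueFree 3)
    (π : Fin m → Fin N) : (blow F π).CliqueFree 3 := by
  intro S hS
  rw [SimpleGraph.is3Clique_iff] at hS
  obtain ⟨a, b, c, hab, hac, hbc, _⟩ := hS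
  refine hF {π a, π b, π c} ?_
  rw [SimpleGraph.is3Clique_iff]
  exact ⟨π a, π b, π c, hab, hac, hbc, rfl⟩

/-- LEMMA 0 for matchings: the literal S0059 from `HJ 2 200`. -/
theorem s59_of_HJ (h : HJ 2 200) : From59822.S59A := by
  classical
  obtain ⟨N, hN, F, hF, H⟩ := h
  intro m₀
  set L : ℕ := m₀ + 1 with hL
  have hLpos : 0 < L := by omega
  let π : Fin (N * L) → Fin N := fun x => (finProdFinEquiv.symm x).1
  have hfib : ∀ i : Fin N, (Finset.univ.filter fun x => π x = i).card = L := by
    intro i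
    have : (Finset.univ.filter fun x => π x = i) =
        (Finset.univ : Finset (Fin L)).map
          ⟨fun l => finProdFinEquiv (i, l), fun l l' hll => by
            have := finProdFinEquiv.injective hll
            exact (Prod.mk.injEq _ _ _ _ ▸ this).2⟩ := by
      ext x
      simp only [Finset.mem_filter, Finset.mem_univ, true_and, Finset.mem_map]
      constructor
      · intro hx
        refine ⟨(finProdFinEquiv.symm x).2, ?_⟩
        rw [← hx]
        exact finProdFinEquiv.apply_symm_apply x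
      · rintro ⟨l, rfl⟩
        show (finProdFinEquiv.symm (finProdFinEquiv (i, l))).1 = i
        rw [Equiv.symm_apply_apply]
    rw [this, Finset.card_map, Finset.card_univ, Fintype.card_fin]
  refine ⟨N * L, ?_, (blow F π)ᶜ, ?_, ?_⟩
  · calc m₀ ≤ L := by omega
      _ = 1 * L := (one_mul L).symm
      _ ≤ N * L := Nat.mul_le_mul_right L hN
  · rw [compl_compl]
    exact blow_cliqueFree hF π
  intro k e he hdis hconn
  -- supports
  let sp : Fin k → Finset (Fin N) := fun i => {π (e i).1, π (e i).2}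
  have hsp1 : ∀ i, π (e i).1 ∈ sp i := fun i => by simp [sp]
  have hsp2 : ∀ i, π (e i).2 ∈ sp i := fun i => by simp [sp]
  -- a maximal set of indices with disjoint supports
  let P : Finset (Fin k) → Prop := fun I => ∀ i ∈ I, ∀ j ∈ I, i ≠ j → Disjoint (sp i) (sp j)
  obtain ⟨I, hI, hmax⟩ : ∃ I, P I ∧ ∀ J, P J → I ⊆ J → J = I := by
    have hne : ((Finset.univ : Finset (Finset (Fin k))).filter P).Nonempty :=
      ⟨∅, by simp [P]⟩
    obtain ⟨I, hI, hI2⟩ := Finset.exists_max_image _ Finset.card hne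
    rw [Finset.mem_filter] at hI
    refine ⟨I, hI.2, ?_⟩
    intro J hJ hIJ
    have := hI2 J (Finset.mem_filter.2 ⟨Finset.mem_univ _, hJ⟩)
    exact (Finset.eq_of_subset_of_card_le hIJ this).symm
  -- the family of supports
  have hinj : Set.InjOn sp (I : Set (Fin k)) := by
    intro i hi j hj hij
    by_contra hne
    have hd := hI i hi j hj hne
    rw [hij] at hd
    exact Finset.disjoint_left.1 hd (hsp1 j) (hsp1 j)
  have hcard : (I.image sp).card = I.card := Finset.card_image_of_injOn hinj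
  have hlt : 200 * I.card < N := by
    rw [← hcard]
    apply H
    · intro A hA
      rw [Finset.mem_image] at hA
      obtain ⟨i, hi, rfl⟩ := hA
      have hnadj : ¬ F.Adj (π (e i).1) (π (e i).2) := by
        have := he i
        rw [SimpleGraph.compl_adj, blow_adj] at this
        exact this.2
      refine ⟨⟨_, hsp1 i⟩, Finset.card_le_two, ?_⟩
      intro a ha b hb
      simp only [sp, Finset.mem_insert, Finset.mem_singleton] at ha hb
      rcases ha with rfl | rfl <;> rcases hb with rfl | rfl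
      · exact F.loopless.irrefl _
      · exact hnadj
      · exact fun hh => hnadj hh.symm
      · exact F.loopless.irrefl _
    · intro A hA B hB hAB
      rw [Finset.mem_image] at hA hB
      obtain ⟨i, hi, rfl⟩ := hA
      obtain ⟨j, hj, rfl⟩ := hB
      exact hI i hi j hj (fun hh => hAB (by rw [hh]))
    · intro A hA B hB hAB
      rw [Finset.mem_image] at hA hB
      obtain ⟨i, hi, rfl⟩ := hA
      obtain ⟨j, hj, rfl⟩ := hB
      have hij : i ≠ j := fun hh => hAB (by rw [hh])
      have key : ∀ x y : Fin (N * L), (blow F π)ᶜ.Adj x y → ¬ F.Adj (π x) (π y) := by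
        intro x y hxy
        rw [SimpleGraph.compl_adj, blow_adj] at hxy
        exact hxy.2
      rcases hconn i j hij with h1 | h1 | h1 | h1
      · exact ⟨_, hsp1 i, _, hsp1 j, key _ _ h1⟩
      · exact ⟨_, hsp1 i, _, hsp2 j, key _ _ h1⟩
      · exact ⟨_, hsp2 i, _, hsp1 j, key _ _ h1⟩
      · exact ⟨_, hsp2 i, _, hsp2 j, key _ _ h1⟩
  -- every edge meets the classes of the supports
  set U : Finset (Fin N) := I.biUnion sp with hU
  have hUc : U.card ≤ 2 * I.card := by
    refine Finset.card_biUnion_le.trans ?_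
    calc ∑ i ∈ I, (sp i).card ≤ ∑ _i ∈ I, 2 := Finset.sum_le_sum fun i _ => Finset.card_le_two
      _ = 2 * I.card := by rw [Finset.sum_const, smul_eq_mul, mul_comm]
  set T : Finset (Fin (N * L)) := Finset.univ.filter fun x => π x ∈ U with hT
  have hTc : T.card ≤ U.card * L := by
    have : T ⊆ U.biUnion fun i => Finset.univ.filter fun x => π x = i := by
      intro x hx
      rw [hT, Finset.mem_filter] at hx
      rw [Finset.mem_biUnion]
      exact ⟨π x, hx.2, Finset.mem_filter.2 ⟨Finset.mem_univ _, rfl⟩⟩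
    refine (Finset.card_le_card this).trans (Finset.card_biUnion_le.trans ?_)
    rw [Finset.sum_congr rfl fun i _ => hfib i, Finset.sum_const, smul_eq_mul]
  have hmeet : ∀ j, ∃ x, (x = (e j).1 ∨ x = (e j).2) ∧ π x ∈ U := by
    intro j
    by_cases hj : j ∈ I
    · exact ⟨_, Or.inl rfl, Finset.mem_biUnion.2 ⟨j, hj, hsp1 j⟩⟩
    by_contra hcon
    push Not at hcon
    have h1 : π (e j).1 ∉ U := hcon _ (Or.inl rfl)
    have h2 : π (e j).2 ∉ U := hcon _ (Or.inr rfl)
    have hPJ : P (insert j I) := by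
      intro a ha b hb hab
      have hdisj : ∀ i ∈ I, Disjoint (sp j) (sp i) := by
        intro i hi
        rw [Finset.disjoint_left]
        intro x hx hx'
        have hxU : x ∈ U := Finset.mem_biUnion.2 ⟨i, hi, hx'⟩
        simp only [sp, Finset.mem_insert, Finset.mem_singleton] at hx
        rcases hx with rfl | rfl
        · exact h1 hxU
        · exact h2 hxU
      rw [Finset.mem_insert] at ha hb
      rcases ha with rfl | ha <;> rcases hb with rfl | hb
      · exact absurd rfl hab
      · exact hdisj b hb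
      · exact (hdisj a ha).symm
      · exact hI a ha b hb hab
    have := hmax _ hPJ (Finset.subset_insert _ _)
    exact hj (this ▸ Finset.mem_insert_self j I)
  choose x hx1 hx2 using hmeet
  have hxinj : Function.Injective x := by
    intro i j hij
    by_contra hne
    obtain ⟨d1, d2, d3, d4⟩ := hdis i j hne
    rcases hx1 i with hi | hi <;> rcases hx1 j with hj | hj <;> rw [hi, hj] at hij
    · exact d1 hij
    · exact d2 hij
    · exact d3 hij
    · exact d4 hij
  have hk : k ≤ T.card := by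
    have : (Finset.univ.image x).card = k := by
      rw [Finset.card_image_of_injective _ hxinj, Finset.card_univ, Fintype.card_fin]
    rw [← this]
    refine Finset.card_le_card ?_
    intro y hy
    rw [Finset.mem_image] at hy
    obtain ⟨i, _, rfl⟩ := hy
    exact Finset.mem_filter.2 ⟨Finset.mem_univ _, hx2 i⟩
  have hk2 : k ≤ 2 * I.card * L := hk.trans (hTc.trans (Nat.mul_le_mul_right L hUc))
  calc 100 * k ≤ 100 * (2 * I.card * L) := Nat.mul_le_mul_left _ hk2
    _ = 200 * I.card * L := by ring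
    _ < N * L := Nat.mul_lt_mul_of_pos_right hlt hLpos

/-- the pairs `z` and `z'` are completely joined. -/
def Conf {V : Type*} (F : SimpleGraph V) (z z' : V × V) : Prop :=
  F.Adj z.1 z'.1 ∧ F.Adj z.1 z'.2 ∧ F.Adj z.2 z'.1 ∧ F.Adj z.2 z'.2





end Crest.Agent.R042.S59Spine883
end

-- ▼ part R042/HJB_883

/-! Row 42 / S0059, S0057, S0060: the frozen two-family pair form `HJB K` (helper840) and its
reduction to two matchings `PairConf2`. -/

set_option autoImplicit false
set_option linter.unusedSectionVars false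

namespace Crest.Agent.R042.S59Spine883

open Finset







/-- pairwise disjoint non-adjacent pairs. -/
def IsMat {V : Type*} (F : SimpleGraph V) (M : Finset (V × V)) : Prop :=
  (∀ z ∈ M, z.1 ≠ z.2 ∧ ¬ F.Adj z.1 z.2) ∧
    ∀ z ∈ M, ∀ z' ∈ M, z ≠ z' → z.1 ≠ z'.1 ∧ z.1 ≠ z'.2 ∧ z.2 ≠ z'.1 ∧ z.2 ≠ z'.2




end Crest.Agent.R042.S59Spine883
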