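import Crest.Agent.R042.TLevC_333
import Crest.Agent.R042.Fam_543

-- ▼ part R042/Gen_592
section

/-! Row 42 / S0059, T-level instance, part 1: 8-genericity of a random sample of types.
A type `P : Ω` has a vector `v P : W` over a finite field `K` (all fibres of `v` of the same size),
`perp P Q ↔ ω (v P) (v Q) = c` with `c ≠ 0`-or-not arbitrary, `ω` left-nondegenerate.
`LI v x k`: any `≤ k` of the vectors `v (x i)` are linearly independent; it implies the exact counts
`TLev333.Gen`, and it fails for at most `N^8 K^7 / |W|` of all samples. -/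

set_option autoImplicit false
set_option linter.unusedSectionVars false
set_option linter.unusedSimpArgs false

namespace Crest.Agent.R042.Gen592

open Finset Function
open scoped Classical
open Crest.Agent.R042.TLev333

section Lin

variable {K W : Type*} [Field K] [Fintype K] [AddCommGroup W] [Module K W] [Fintype W]

/-- a linearly independent finite family of functionals is jointly surjective. -/
lemma surj_of_indep {ι : Type*} [Fintype ι] (f : ι → (W →ₗ[K] K))
    (hf : LinearIndependent K f) : Function.Surjective (LinearMap.pi f) := by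
  classical
  rw [← LinearMap.range_eq_top]
  by_contra hne
  obtain ⟨g, hg0, hg⟩ := Submodule.exists_le_ker_of_lt_top _ (lt_top_iff_ne_top.mpr hne)
  apply hg0
  have h1 : ∑ i, g (fun j => if i = j then 1 else 0) • f i = 0 := by
    ext w
    have h2 : g (LinearMap.pi f w) = 0 := by
      have : LinearMap.pi f w ∈ LinearMap.range (LinearMap.pi f) := ⟨w, rfl⟩
      exact LinearMap.mem_ker.mp (hg this)
    rw [LinearMap.pi_apply_eq_sum_univ] at h2
    rw [LinearMap.sum_apply, LinearMap.zero_apply]
    refine Eq.trans (Finset.sum_congr rfl (fun i _ => ?_)) h2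
    simp only [LinearMap.smul_apply, smul_eq_mul, LinearMap.pi_apply]
    exact mul_comm _ _
  have h3 := Fintype.linearIndependent_iff.mp hf (fun i => g (fun j => if i = j then 1 else 0)) h1
  refine LinearMap.ext (fun w => ?_)
  rw [LinearMap.pi_apply_eq_sum_univ g w, LinearMap.zero_apply]
  exact Finset.sum_eq_zero (fun i _ => by rw [h3 i, smul_zero])

lemma card_fiber_mul {ι : Type*} [Fintype ι] (f : ι → (W →ₗ[K] K))
    (hf : LinearIndependent K f) (c : ι → K) :
    (univ.filter fun w : W => ∀ i, f i w = c i).card * Fintype.card K ^ Fintype.card ι =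
      Fintype.card W := by
  classical
  have hs := surj_of_indep f hf
  have h1 : ∀ c' : ι → K, (univ.filter fun w : W => LinearMap.pi f w = c').card =
      (univ.filter fun w : W => LinearMap.pi f w = c).card := by
    intro c'
    obtain ⟨a, ha⟩ := hs (c - c')
    refine Finset.card_bij (fun w _ => w + a) ?_ ?_ ?_
    · intro w hw
      rw [Finset.mem_filter] at hw ⊢
      refine ⟨Finset.mem_univ _, ?_⟩
      rw [map_add, hw.2, ha]
      abel
    · intro w _ w' _ h
      exact add_right_cancel h
    · intro w hw
      rw [Finset.mem_filter] at hw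
      refine ⟨w - a, ?_, by abel⟩
      rw [Finset.mem_filter]
      refine ⟨Finset.mem_univ _, ?_⟩
      rw [map_sub, hw.2, ha]
      abel
  have h2 : Fintype.card W = ∑ c' : ι → K, (univ.filter fun w : W => LinearMap.pi f w = c').card := by
    rw [← Finset.card_univ]
    exact Finset.card_eq_sum_card_fiberwise (fun w _ => Finset.mem_coe.mpr (Finset.mem_univ _))
  rw [h2, Finset.sum_congr rfl (fun c' _ => h1 c'), Finset.sum_const, Finset.card_univ,
    Fintype.card_fun, smul_eq_mul, mul_comm]
  congr 1
  refine congrArg Finset.card (Finset.filter_congr (fun w _ => ?_))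
  rw [funext_iff]
  rfl

end Lin

section Gen

variable {K W Ω I : Type*} [Field K] [Fintype K] [AddCommGroup W] [Module K W] [Fintype W]
  [Fintype Ω]

/-- any at most `k` of the sample vectors are linearly independent. -/
def LI (K : Type*) {W Ω I : Type*} [Field K] [AddCommGroup W] [Module K W] (v : Ω → W)
    (k : ℕ) (x : I → Ω) : Prop :=
  ∀ J : Finset I, J.card ≤ k → LinearIndependent K (fun i : J => v (x i))

/-- all fibres of `v` have `c` elements. -/
def Fib (v : Ω → W) (c : ℕ) : Prop := ∀ u, (univ.filter fun P : Ω => v P = u).card = c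

lemma card_pre {v : Ω → W} {c : ℕ} (hv : Fib v c) (p : W → Prop) :
    (univ.filter fun P : Ω => p (v P)).card = (univ.filter p).card * c := by
  classical
  rw [Finset.card_eq_sum_card_fiberwise (f := v) (t := univ.filter p)
    (fun P hP => by
      rw [Finset.mem_coe, Finset.mem_filter] at *
      exact ⟨Finset.mem_univ _, hP.2⟩)]
  have : ∀ u ∈ univ.filter p, ((univ.filter fun P : Ω => p (v P)).filter fun P => v P = u).card
      = c := by
    intro u hu
    rw [Finset.mem_filter] at hu
    rw [← hv u, Finset.filter_filter]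
    refine congrArg Finset.card (Finset.filter_congr (fun P _ => ?_))
    constructor
    · exact fun h => h.2
    · rintro rfl
      exact ⟨hu.2, rfl⟩
  rw [Finset.sum_congr rfl this, Finset.sum_const, smul_eq_mul]

lemma card_Om {v : Ω → W} {c : ℕ} (hv : Fib v c) : Fintype.card Ω = Fintype.card W * c := by
  have h := card_pre hv (fun _ => True)
  simpa using h

/-- linear independence implies the exact counts. -/
theorem gen_of_li {v : Ω → W} {c : ℕ} (hv : Fib v c) (ω : W →ₗ[K] W →ₗ[K] K)
    (hω : LinearMap.ker ω = ⊥) (c0 : K) (perp : Ω → Ω → Prop)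
    (hperp : ∀ P Q, perp P Q ↔ ω (v P) (v Q) = c0) {x : I → Ω} (hx : LI K v 8 x)
    (T : Finset I) : Gen perp ((Fintype.card K : ℝ)⁻¹) x T := by
  classical
  intro J _ hJ
  have hli : LinearIndependent K (fun i : J => ω (v (x i))) := (hx J hJ).map' ω hω
  have h1 := card_fiber_mul (fun i : J => ω (v (x i))) hli (fun _ => c0)
  have h2 : (univ.filter fun Q => ∀ i ∈ J, perp (x i) Q).card =
      (univ.filter fun w : W => ∀ i : J, ω (v (x i)) w = c0).card * c := by
    have h3 := card_pre hv (fun w => ∀ i : J, ω (v (x i)) w = c0)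
    have h4 : (univ.filter fun Q => ∀ i ∈ J, perp (x i) Q) =
        univ.filter fun Q => ∀ i : J, ω (v (x i)) (v Q) = c0 := by
      ext Q
      simp only [Finset.mem_filter, hperp, Subtype.forall]
    rw [h4]
    convert h3
  have hK : (0 : ℝ) < Fintype.card K := by exact_mod_cast Fintype.card_pos
  rw [card_Om hv, h2, ← h1, Fintype.card_coe]
  push_cast
  rw [inv_pow]
  field_simp




end Gen

end Crest.Agent.R042.Gen592
end

-- ▼ part R042/Inst_592

/-! Row 42 / S0059, T-level instance, part 2: the sample space of the frozen family (Fam_543).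
`Om K d L` = valid types, `vv` = the vector without the coordinate `none` (which is 1),
`ω` = the alternating part of `B`, `Perp P R ↔ ω (vv P) (vv R) = -1`; fibres of `vv` have equal size,
so `Gen_592` applies: 8-genericity with `ρ = 1 / |KK|` for all but `N^8 |KK|^7 / |KK|^(2d)` samples. -/

set_option autoImplicit false
set_option linter.unusedSectionVars false

namespace Crest.Agent.R042.Inst592

open Finset Function
open scoped Classical
open Crest.Agent.R042.TLev333 Crest.Agent.R042.Fam543 Crest.Agent.R042.Gen592

variable {k0 KK : Type} [Field k0] [Field KK] [Algebra k0 KK]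

/-- the space of the alternating part -/
abbrev WW (KK : Type) (d : ℕ) := Fin d × Bool → KK

/-- the sample space: valid types -/
abbrev Om (KK : Type) {k0 : Type} [Field k0] [Field KK] [Algebra k0 KK] (K : Set k0)
    (d L : ℕ) : Type := {R : Ty k0 KK d L // Valid K R}

/-- the part of the type which is not seen by `Perp` -/
abbrev Zz (KK : Type) {k0 : Type} [Field k0] [Field KK] [Algebra k0 KK] (K : Set k0)
    (L : ℕ) : Type := {l : KK // Algebra.trace k0 KK l = 1} × (Fin L → K)

/-- the vector of a type without the coordinate `none` -/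
def vv {K : Set k0} {d L : ℕ} (R : Om KK K d L) : WW KK d := fun j => R.1.b (some j)

/-- the sample space is a product -/
def omEquiv (K : Set k0) (d L : ℕ) : Om KK K d L ≃ WW KK d × Zz KK K L where
  toFun R := (vv R, ⟨R.1.lam, R.2.lam⟩, fun l => ⟨R.1.E l, R.2.E l⟩)
  invFun z := ⟨⟨fun o => o.elim 1 z.1, z.2.1.1, fun l => (z.2.2 l).1⟩,
    ⟨rfl, z.2.1.2, fun l => (z.2.2 l).2⟩⟩
  left_inv := by
    rintro ⟨R, hR⟩
    apply Subtype.ext
    apply Ty.ext
    · funext o
      rcases o with _ | j
      · exact hR.b0.symm
      · rfl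
    · rfl
    · rfl
  right_inv := by
    rintro ⟨w, l, E⟩
    rfl

/-- the alternating form -/
def om (d : ℕ) : WW KK d →ₗ[KK] WW KK d →ₗ[KK] KK :=
  LinearMap.mk₂ KK (fun x y => ∑ j : Fin d × Bool, x (j.1, !j.2) * y j)
    (by intro x x' y; simp only [Pi.add_apply, add_mul, sum_add_distrib])
    (by intro c x y; simp only [Pi.smul_apply, smul_eq_mul, mul_sum, mul_assoc])
    (by intro x y y'; simp only [Pi.add_apply, mul_add, sum_add_distrib])
    (by intro c x y
        simp only [Pi.smul_apply, smul_eq_mul, mul_sum]
        exact sum_congr rfl fun j _ => by ring)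

theorem om_apply {d : ℕ} (x y : WW KK d) : om d x y = ∑ j : Fin d × Bool, x (j.1, !j.2) * y j := rfl

theorem ker_om (d : ℕ) : LinearMap.ker (om (KK := KK) d) = ⊥ := by
  rw [LinearMap.ker_eq_bot']
  intro x hx
  funext j
  have h := LinearMap.congr_fun hx (Pi.single (j.1, !j.2) 1)
  rw [om_apply, LinearMap.zero_apply] at h
  rw [Finset.sum_eq_single (j.1, !j.2)] at h
  · simpa using h
  · intro i _ hi
    rw [Pi.single_eq_of_ne hi, mul_zero]
  · intro hh
    exact absurd (mem_univ _) hh

theorem B_eq {d : ℕ} (x y : Ix d → KK) :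
    B x y = x none * y none + om d (fun j => x (some j)) (fun j => y (some j)) := by
  unfold B
  rw [Fintype.sum_option, sw_none, om_apply]
  rfl

theorem perp_iff {K : Set k0} {d L : ℕ} (P R : Om KK K d L) :
    Perp P.1 R.1 ↔ om d (vv P) (vv R) = -1 := by
  unfold Perp
  rw [B_eq, P.2.b0, R.2.b0, mul_one, add_comm, add_eq_zero_iff_eq_neg]
  rfl

section Fin

variable [Fintype k0] [Fintype KK]

noncomputable instance instFintypeOm (K : Set k0) (d L : ℕ) : Fintype (Om KK K d L) :=
  Fintype.ofEquiv _ (omEquiv K d L).symm

theorem fib (K : Set k0) (d L : ℕ) :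
    Fib (vv : Om KK K d L → WW KK d) (Fintype.card (Zz KK K L)) := by
  intro u
  rw [← Finset.card_univ]
  refine Finset.card_bij (fun P _ => (omEquiv K d L P).2) ?_ ?_ ?_
  · intro P _
    exact mem_univ _
  · intro P hP P' hP' h
    have h1 := (@Finset.mem_filter _ _ (_) _ _).1 hP
    have h2 := (@Finset.mem_filter _ _ (_) _ _).1 hP'
    apply (omEquiv K d L).injective
    refine Prod.ext ?_ h
    show vv P = vv P'
    rw [h1.2, h2.2]
  · intro z _
    refine ⟨(omEquiv K d L).symm (u, z), ?_, ?_⟩
    · refine (@Finset.mem_filter _ _ (_) _ _).2 ⟨mem_univ _, ?_⟩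
      have : (omEquiv K d L ((omEquiv K d L).symm (u, z))).1 = u := by
        rw [Equiv.apply_symm_apply]
      exact this
    · rw [Equiv.apply_symm_apply]

theorem nonempty_Om {K : Set k0} (h1 : (1 : k0) ∈ K) (d L : ℕ) : Nonempty (Om KK K d L) := by
  obtain ⟨l, hl⟩ := Algebra.trace_surjective k0 KK 1
  exact ⟨(omEquiv K d L).symm (0, ⟨l, hl⟩, fun _ => ⟨1, h1⟩)⟩

/-- the relation of the sample space -/
def perp (K : Set k0) (d L : ℕ) (P R : Om KK K d L) : Prop := Perp P.1 R.1

theorem perp_symm {K : Set k0} {d L : ℕ} {P R : Om KK K d L} (h : perp K d L P R) :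
    perp K d L R P := Perp.symm h

/-- **8-generic samples**: `LI` implies `Gen`. -/
theorem gen {K : Set k0} {d L : ℕ} {I : Type*} {x : I → Om KK K d L} (hx : LI KK vv 8 x)
    (T : Finset I) : Gen (perp K d L) ((Fintype.card KK : ℝ)⁻¹) x T :=
  gen_of_li (fib K d L) (om d) (ker_om d) (-1) (perp K d L) perp_iff hx T

theorem card_WW (d : ℕ) : Fintype.card (WW KK d) = Fintype.card KK ^ (2 * d) := by
  rw [Fintype.card_fun, Fintype.card_prod, Fintype.card_fin, Fintype.card_bool, mul_comm]


/-- at most `8` of the vectors `b` of an 8-generic sample are linearly independent. -/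
theorem li_b {K : Set k0} {d L : ℕ} {I : Type*} {x : I → Om KK K d L} (hx : LI KK vv 8 x)
    (J : Finset I) (hJ : J.card ≤ 8) : LinearIndependent KK (fun i : J => (x i).1.b) := by
  have h := hx J hJ
  let f : (Ix d → KK) →ₗ[KK] WW KK d := LinearMap.funLeft KK KK some
  exact LinearIndependent.of_comp f h

/-- the `b`-parts of an 8-generic sample are distinct. -/
theorem b_injective {K : Set k0} {d L : ℕ} {I : Type*} {x : I → Om KK K d L}
    (hx : LI KK vv 8 x) : Injective (fun i => (x i).1.b) := by
  intro i j hij
  by_contra hne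
  have h := li_b hx {i, j} (by rw [card_pair hne]; norm_num)
  have := h.injective (a₁ := ⟨i, by simp⟩) (a₂ := ⟨j, by simp⟩) hij
  exact hne (congrArg Subtype.val this)

end Fin

end Crest.Agent.R042.Inst592
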