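import Crest.Agent.R042.SspT_375
import Crest.Agent.R042.Exist_592
import Crest.Agent.R042.Fam_543
import Crest.Agent.R042.DigitSZ_853
import Mathlib
import Crest.Agent.R042.Inst_592

-- ▼ part R042/SysOf_333
section

/-! Row 42 / S0059: constructor of a two-index system (`Sys`) from dead sets given on the level of
TYPES (not of samples), and elimination of `Live`. -/

set_option autoImplicit false
set_option linter.unusedSectionVars false

namespace Crest.Agent.R042.SysOf333

open Finset SspAsm375 SspFin375 SspT375 TLev333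
open scoped Classical

variable {ι Ω : Type*} [Fintype ι] [DecidableEq ι] [Fintype Ω] {Δ Θ : Type*}

/-- exact numbers of (common) neighbours of two types. -/
structure Cnt (perp : Ω → Ω → Prop) (ρ : ℝ) (P P' : Ω) : Prop where
  c1 : (((univ.filter fun Q => perp P Q).card : ℕ) : ℝ) = ρ * Fintype.card Ω
  c2 : (((univ.filter fun Q => perp P' Q).card : ℕ) : ℝ) = ρ * Fintype.card Ω
  c12 : (((univ.filter fun Q => perp P Q ∧ perp P' Q).card : ℕ) : ℝ) = ρ ^ 2 * Fintype.card Ω

lemma cnt_of_gen {perp : Ω → Ω → Prop} {ρ : ℝ} {x : ι → Ω} {i i' : ι} (hii : i ≠ i')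
    (h : Gen perp ρ x ({i, i'} : Finset ι)) : Cnt perp ρ (x i) (x i') := by
  have h1 := h {i, i'} (Finset.Subset.refl _) (by rw [Finset.card_pair hii]; norm_num)
  have h2 := h {i} (by simp) (by simp)
  have h3 := h {i'} (by simp) (by simp)
  rw [Finset.card_pair hii] at h1
  rw [Finset.card_singleton, pow_one] at h2 h3
  refine ⟨?_, ?_, ?_⟩
  · rw [← h2]
    refine congrArg _ (congrArg _ ?_)
    ext Q
    refine Iff.trans (@Finset.mem_filter _ _ (_) _ _)
      (Iff.trans (and_congr_right (fun _ => ?_)) (@Finset.mem_filter _ _ (_) _ _).symm)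
    simp
  · rw [← h3]
    refine congrArg _ (congrArg _ ?_)
    ext Q
    refine Iff.trans (@Finset.mem_filter _ _ (_) _ _)
      (Iff.trans (and_congr_right (fun _ => ?_)) (@Finset.mem_filter _ _ (_) _ _).symm)
    simp
  · rw [← h1]
    refine congrArg _ (congrArg _ ?_)
    ext Q
    refine Iff.trans (@Finset.mem_filter _ _ (_) _ _)
      (Iff.trans (and_congr_right (fun _ => ?_)) (@Finset.mem_filter _ _ (_) _ _).symm)
    constructor
    · rintro ⟨h2, h3⟩ j hj
      rw [Finset.mem_insert, Finset.mem_singleton] at hj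
      rcases hj with rfl | rfl
      · exact h2
      · exact h3
    · intro h2
      exact ⟨h2 i (by simp), h2 i' (by simp)⟩

/-- conversely, `Cnt` is genericity of the pair. -/
lemma gen_of_cnt {perp : Ω → Ω → Prop} {ρ : ℝ} {P P' : Ω} (h : Cnt perp ρ P P') :
    Gen perp ρ (![P, P'] : Fin 2 → Ω) univ := by
  intro J _ _
  have key : J = ∅ ∨ J = {0} ∨ J = {1} ∨ J = {0, 1} := by
    revert J
    decide
  rcases key with rfl | rfl | rfl | rfl
  · simp
  · rw [Finset.card_singleton, pow_one, ← h.c1]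
    refine congrArg _ (congrArg _ ?_)
    ext Q
    refine Iff.trans (@Finset.mem_filter _ _ (_) _ _)
      (Iff.trans (and_congr_right (fun _ => ?_)) (@Finset.mem_filter _ _ (_) _ _).symm)
    simp
  · rw [Finset.card_singleton, pow_one, ← h.c2]
    refine congrArg _ (congrArg _ ?_)
    ext Q
    refine Iff.trans (@Finset.mem_filter _ _ (_) _ _)
      (Iff.trans (and_congr_right (fun _ => ?_)) (@Finset.mem_filter _ _ (_) _ _).symm)
    simp
  · rw [Finset.card_pair (by decide), ← h.c12]
    refine congrArg _ (congrArg _ ?_)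
    ext Q
    refine Iff.trans (@Finset.mem_filter _ _ (_) _ _)
      (Iff.trans (and_congr_right (fun _ => ?_)) (@Finset.mem_filter _ _ (_) _ _).symm)
    simp

/-- data of a system on the level of types. -/
structure TData (Ω Δ Θ : Type*) [Fintype Ω] where
  perp : Ω → Ω → Prop
  ρ : ℝ
  η : ℝ
  θ : ℝ
  ρ0 : 0 < ρ
  ρ1 : ρ ≤ 1
  η0 : 0 < η
  η1 : η ≤ 1
  θ0 : 0 ≤ θ
  /-- one-end dead sets -/
  D1 : Ω → Ω → Δ → Θ → Ω → Prop
  /-- two-end dead sets -/
  D2 : Ω → Ω → Δ → Θ → Ω → Ω → Prop
  D1_le : ∀ P P' δ ϑ, Cnt perp ρ P P' →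
    (((univ.filter fun Q => (perp P Q ∧ perp P' Q) ∧ D1 P P' δ ϑ Q).card : ℕ) : ℝ) ≤
      η ^ 2 * ρ ^ 2 * Fintype.card Ω
  D2_le : ∀ P P' δ ϑ, Cnt perp ρ P P' → ∀ Q,
    (((univ.filter fun Q' => D2 P P' δ ϑ Q Q').card : ℕ) : ℝ) ≤ θ * Fintype.card Ω

namespace TData

variable (T : TData Ω Δ Θ) [Fintype Δ] [Fintype Θ]

/-- the two-index system. -/
def sys : Sys ι Ω (Jx ι × Δ × Θ) where
  perp := T.perp
  idx := idx2
  dead := fun s x Q => T.D1 (x s.1.1.1) (x s.1.1.2) s.2.1 s.2.2 Q
  dead2 := fun s x Q Q' => T.D2 (x s.1.1.1) (x s.1.1.2) s.2.1 s.2.2 Q Q'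
  a := 2
  ρ := T.ρ
  η := T.η
  θ := T.θ
  θ0 := T.θ0
  a1 := by norm_num
  a2 := le_rfl
  ρ0 := T.ρ0
  ρ1 := T.ρ1
  η0 := T.η0
  η1 := T.η1
  card_idx := card_idx2
  loc := by
    intro s x y h
    have h1 := h s.1.1.1 (by unfold idx2; simp)
    have h2 := h s.1.1.2 (by unfold idx2; simp)
    rw [h1, h2]
  loc2 := by
    intro s x y h
    have h1 := h s.1.1.1 (by unfold idx2; simp)
    have h2 := h s.1.1.2 (by unfold idx2; simp)
    rw [h1, h2]
  dead_le := by
    intro s x hG
    have h1 := T.D1_le (x s.1.1.1) (x s.1.1.2) s.2.1 s.2.2 (cnt_of_gen s.1.2 hG)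
    refine le_trans (Nat.cast_le.2 (Finset.card_le_card ?_)) h1
    intro Q hQ
    have hQ' := (@Finset.mem_filter _ _ (_) _ _).1 hQ
    exact (@Finset.mem_filter _ _ (_) _ _).2 ⟨Finset.mem_univ _,
      ⟨hQ'.2.1 _ (by unfold idx2; simp), hQ'.2.1 _ (by unfold idx2; simp)⟩, hQ'.2.2⟩
  dead2_le := by
    intro s x hG Q
    exact T.D2_le (x s.1.1.1) (x s.1.1.2) s.2.1 s.2.2 (cnt_of_gen s.1.2 hG) Q

@[simp] lemma sys_perp : (T.sys (ι := ι)).perp = T.perp := rfl
@[simp] lemma sys_idx : (T.sys (ι := ι)).idx = idx2 := rfl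
@[simp] lemma sys_a : (T.sys (ι := ι)).a = 2 := rfl
@[simp] lemma sys_ρ : (T.sys (ι := ι)).ρ = T.ρ := rfl
@[simp] lemma sys_η : (T.sys (ι := ι)).η = T.η := rfl
@[simp] lemma sys_θ : (T.sys (ι := ι)).θ = T.θ := rfl

/-- alive: all consequences of `Live`. -/
structure Alive (x : ι → Ω) (s s' : Jx ι × Δ × Θ) : Prop where
  p11 : T.perp (x s.1.1.1) (x s'.1.1.1)
  p12 : T.perp (x s.1.1.1) (x s'.1.1.2)
  p21 : T.perp (x s.1.1.2) (x s'.1.1.1)
  p22 : T.perp (x s.1.1.2) (x s'.1.1.2)
  a1 : ¬ T.D1 (x s.1.1.1) (x s.1.1.2) s.2.1 s.2.2 (x s'.1.1.1)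
  a2 : ¬ T.D1 (x s.1.1.1) (x s.1.1.2) s.2.1 s.2.2 (x s'.1.1.2)
  b1 : ¬ T.D1 (x s'.1.1.1) (x s'.1.1.2) s'.2.1 s'.2.2 (x s.1.1.1)
  b2 : ¬ T.D1 (x s'.1.1.1) (x s'.1.1.2) s'.2.1 s'.2.2 (x s.1.1.2)
  a12 : ¬ T.D2 (x s.1.1.1) (x s.1.1.2) s.2.1 s.2.2 (x s'.1.1.1) (x s'.1.1.2)
  a21 : ¬ T.D2 (x s.1.1.1) (x s.1.1.2) s.2.1 s.2.2 (x s'.1.1.2) (x s'.1.1.1)
  b12 : ¬ T.D2 (x s'.1.1.1) (x s'.1.1.2) s'.2.1 s'.2.2 (x s.1.1.1) (x s.1.1.2)
  b21 : ¬ T.D2 (x s'.1.1.1) (x s'.1.1.2) s'.2.1 s'.2.2 (x s.1.1.2) (x s.1.1.1)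

theorem alive {x : ι → Ω} {s s' : Jx ι × Δ × Θ} (h : Sys.Live T.sys T.sys x s s') :
    T.Alive x s s' := by
  obtain ⟨hp, h1, h2⟩ := h
  have m1 : ∀ s : Jx ι × Δ × Θ, s.1.1.1 ∈ idx2 s := fun s => by unfold idx2; simp
  have m2 : ∀ s : Jx ι × Δ × Θ, s.1.1.2 ∈ idx2 s := fun s => by unfold idx2; simp
  unfold Sys.Dead at h1 h2
  push Not at h1 h2
  exact ⟨hp _ (m1 s) _ (m1 s'), hp _ (m1 s) _ (m2 s'), hp _ (m2 s) _ (m1 s'),
    hp _ (m2 s) _ (m2 s'), h1.1 _ (m1 s'), h1.1 _ (m2 s'), h2.1 _ (m1 s), h2.1 _ (m2 s),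
    h1.2 _ (m1 s') _ (m2 s') s'.1.2, h1.2 _ (m2 s') _ (m1 s') (Ne.symm s'.1.2),
    h2.2 _ (m1 s) _ (m2 s) s.1.2, h2.2 _ (m2 s) _ (m1 s) (Ne.symm s.1.2)⟩

end TData

/-- density of a union of two dead sets. -/
lemma card_or_le (perp : Ω → Ω → Prop) (P P' : Ω) (A B : Ω → Prop) (a b : ℝ)
    (hA : (((univ.filter fun Q => (perp P Q ∧ perp P' Q) ∧ A Q).card : ℕ) : ℝ) ≤ a)
    (hB : (((univ.filter fun Q => (perp P Q ∧ perp P' Q) ∧ B Q).card : ℕ) : ℝ) ≤ b) :
    (((univ.filter fun Q => (perp P Q ∧ perp P' Q) ∧ (A Q ∨ B Q)).card : ℕ) : ℝ) ≤ a + b := by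
  have h : (univ.filter fun Q => (perp P Q ∧ perp P' Q) ∧ (A Q ∨ B Q)) ⊆
      (univ.filter fun Q => (perp P Q ∧ perp P' Q) ∧ A Q) ∪
      (univ.filter fun Q => (perp P Q ∧ perp P' Q) ∧ B Q) := by
    intro Q hQ
    rw [Finset.mem_filter] at hQ
    rw [Finset.mem_union, Finset.mem_filter, Finset.mem_filter]
    rcases hQ.2.2 with h | h
    · exact Or.inl ⟨Finset.mem_univ _, hQ.2.1, h⟩
    · exact Or.inr ⟨Finset.mem_univ _, hQ.2.1, h⟩
  have h2 := (Finset.card_le_card h).trans (Finset.card_union_le _ _)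
  have h3 : (((univ.filter fun Q => (perp P Q ∧ perp P' Q) ∧ (A Q ∨ B Q)).card : ℕ) : ℝ) ≤
      (((univ.filter fun Q => (perp P Q ∧ perp P' Q) ∧ A Q).card : ℕ) : ℝ) +
      (((univ.filter fun Q => (perp P Q ∧ perp P' Q) ∧ B Q).card : ℕ) : ℝ) := by
    exact_mod_cast h2
  linarith


end Crest.Agent.R042.SysOf333
end

-- ▼ part R042/SysFam_333
section

/-! Row 42 / S0059: `Cnt` in the frozen family gives linear independence. -/

set_option autoImplicit false
set_option linter.unusedSectionVars false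

namespace Crest.Agent.R042.SysOf333

open Finset
open scoped Classical
open Crest.Agent.R042.TLev333 Crest.Agent.R042.Fam543 Crest.Agent.R042.Gen592
open Crest.Agent.R042.Inst592

variable {k0 KK : Type} [Field k0] [Field KK] [Algebra k0 KK] [Fintype k0] [Fintype KK]


theorem li_b_of_cnt {K : Set k0} (h1 : (1 : k0) ∈ K) {d L : ℕ} {P P' : Om KK K d L}
    (h : Cnt (perp K d L) ((Fintype.card KK : ℝ)⁻¹) P P') :
    LinearIndependent KK ![P.1.b, P'.1.b] := by
  have := Exist592.li_b_of_gen h1 (gen_of_cnt h) (Finset.mem_univ (0 : Fin 2))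
    (Finset.mem_univ (1 : Fin 2)) (by decide)
  exact this

end Crest.Agent.R042.SysOf333
end

-- ▼ part R042/PhiSZ_543
section

/-!
# Schwartz-Zippel on the Segre-Frobenius points of the frozen family (row 42 / S0059)

* `sz_N` : a `KK`-functional of the tensors which does not vanish on the product tensors with
  factors in `N` vanishes at `Φ b` for at most a fraction `1/(Q-1)` of the `b ∈ N`, `b none = 1`;
* `T_span` : the tensors killed by the contractions with `B (p k) ·` in all blocks are spanned by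
  the product tensors with factors in the common kernel.
-/

set_option autoImplicit false
set_option linter.unusedSectionVars false

namespace Crest.Agent.R042.PhiSZ543

open Finset Crest.Agent.R042.Fam543

section BD

open MvPolynomial

variable {KK : Type*} [Field KK] {V : Type*} [Fintype V] {k : ℕ}

/-- block degrees -/
def BD (D : Fin k → ℕ) (h : MvPolynomial (V × Fin k) KK) : Prop :=
  ∀ m ∈ h.support, ∀ i, ∑ v, m (v, i) ≤ D i

theorem BD.mono {D D' : Fin k → ℕ} {f : MvPolynomial (V × Fin k) KK} (h : BD D f)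
    (hD : ∀ i, D i ≤ D' i) : BD D' f := fun m hm i => (h m hm i).trans (hD i)

theorem BD.add {D : Fin k → ℕ} {f g : MvPolynomial (V × Fin k) KK} (h : BD D f) (h' : BD D g) :
    BD D (f + g) := by
  classical
  intro m hm
  rcases mem_union.1 (MvPolynomial.support_add hm) with h1 | h1
  · exact h m h1
  · exact h' m h1

theorem BD_zero (D : Fin k → ℕ) : BD D (0 : MvPolynomial (V × Fin k) KK) := by
  intro m hm
  simp at hm

theorem BD.sum {D : Fin k → ℕ} {ι : Type*} (s : Finset ι) (f : ι → MvPolynomial (V × Fin k) KK)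
    (h : ∀ a ∈ s, BD D (f a)) : BD D (∑ a ∈ s, f a) := by
  classical
  induction s using Finset.induction_on with
  | empty => rw [Finset.sum_empty]; exact BD_zero D
  | insert a s ha ih =>
    rw [Finset.sum_insert ha]
    exact (h a (mem_insert_self a s)).add (ih fun b hb => h b (mem_insert_of_mem hb))

theorem BD.mul {D D' : Fin k → ℕ} {f g : MvPolynomial (V × Fin k) KK} (h : BD D f)
    (h' : BD D' g) : BD (fun i => D i + D' i) (f * g) := by
  classical
  intro m hm i
  obtain ⟨a, ha, b, hb, rfl⟩ := Finset.mem_add.1 (MvPolynomial.support_mul f g hm)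
  simp only [Finsupp.add_apply, sum_add_distrib]
  exact add_le_add (h a ha i) (h' b hb i)

theorem BD_C (D : Fin k → ℕ) (a : KK) : BD D (C a : MvPolynomial (V × Fin k) KK) := by
  classical
  intro m hm i
  rw [mem_support_iff, coeff_C] at hm
  by_cases h : 0 = m
  · subst h; simp
  · rw [if_neg h] at hm; exact absurd rfl hm

theorem BD_X (v : V) (i : Fin k) :
    BD (fun j => if j = i then 1 else 0) (X (v, i) : MvPolynomial (V × Fin k) KK) := by
  classical
  intro m hm j
  rw [mem_support_iff, coeff_X] at hm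
  by_cases h : Finsupp.single (v, i) 1 = m
  · subst h
    dsimp only
    by_cases hj : j = i
    · subst hj
      rw [if_pos rfl, Finset.sum_eq_single v]
      · simp
      · intro v' _ hv'
        rw [Finsupp.single_apply, if_neg]
        intro h'; exact hv' (Prod.mk.inj h').1.symm
      · intro h'; exact absurd (mem_univ _) h'
    · rw [if_neg hj]
      refine le_of_eq (Finset.sum_eq_zero fun v' _ => ?_)
      rw [Finsupp.single_apply, if_neg]
      intro h'; exact hj (Prod.mk.inj h').2.symm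
  · rw [if_neg h] at hm; exact absurd rfl hm

theorem BD.prod {ι : Type*} (s : Finset ι) (D : ι → Fin k → ℕ)
    (f : ι → MvPolynomial (V × Fin k) KK) (h : ∀ a ∈ s, BD (D a) (f a)) :
    BD (fun i => ∑ a ∈ s, D a i) (∏ a ∈ s, f a) := by
  classical
  induction s using Finset.induction_on with
  | empty =>
    rw [Finset.prod_empty, ← C_1]
    exact BD_C _ _
  | insert a s ha ih =>
    rw [Finset.prod_insert ha]
    have := (h a (mem_insert_self a s)).mul (ih fun b hb => h b (mem_insert_of_mem hb))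
    refine this.mono fun i => ?_
    rw [Finset.sum_insert ha]

variable {A : Type*} [Fintype A] [DecidableEq A]

/-- the polynomial of a functional of the tensors -/
noncomputable def pol (Q : ℕ) (c : (Fin k → A) → KK) (b0 : A → KK) (e : V → A → KK) :
    MvPolynomial (V × Fin k) KK :=
  ∑ al : Fin k → A, C (c al) *
    ∏ i : Fin k, (C ((b0 (al i)) ^ (Q ^ (i : ℕ))) +
      ∑ v, C ((e v (al i)) ^ (Q ^ (i : ℕ))) * X (v, i))

theorem BD_pol (Q : ℕ) (c : (Fin k → A) → KK) (b0 : A → KK) (e : V → A → KK) :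
    BD (fun _ => 1) (pol Q c b0 e) := by
  classical
  refine BD.sum _ _ fun al _ => ?_
  have h1 := BD.prod (univ : Finset (Fin k)) (fun i j => if j = i then 1 else 0)
    (fun i : Fin k => (C ((b0 (al i)) ^ (Q ^ (i : ℕ))) +
      ∑ v, C ((e v (al i)) ^ (Q ^ (i : ℕ))) * X (v, i) : MvPolynomial (V × Fin k) KK))
    (fun i _ => ((BD_C _ _).add (BD.sum _ _ fun v _ => by
      have := (BD_C (V := V) (fun _ : Fin k => 0) ((e v (al i)) ^ (Q ^ (i : ℕ)))).mul (BD_X v i)
      refine this.mono fun j => ?_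
      simp)))
  have h2 := (BD_C (V := V) (fun _ : Fin k => 0) (c al)).mul h1
  refine h2.mono fun j => ?_
  simp

theorem eval_pol (Q : ℕ) (c : (Fin k → A) → KK) (b0 : A → KK) (e : V → A → KK)
    (y : V × Fin k → KK) :
    eval y (pol Q c b0 e) = ∑ al : Fin k → A, c al *
      ∏ i : Fin k, ((b0 (al i)) ^ (Q ^ (i : ℕ)) +
        ∑ v, (e v (al i)) ^ (Q ^ (i : ℕ)) * y (v, i)) := by
  unfold pol
  rw [map_sum]
  refine Finset.sum_congr rfl fun al _ => ?_
  rw [map_mul, eval_C, map_prod]
  congr 1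
  refine Finset.prod_congr rfl fun i _ => ?_
  rw [map_add, eval_C, map_sum]
  congr 1
  refine Finset.sum_congr rfl fun v _ => ?_
  rw [map_mul, eval_C, eval_X]

theorem eval_pol_pow [CharP KK 2] (e' : ℕ) (c : (Fin k → A) → KK) (b0 : A → KK)
    (e : V → A → KK) (x : Fin k → V → KK) :
    eval (fun p : V × Fin k => x p.2 p.1 ^ ((2 ^ e') ^ (p.2 : ℕ))) (pol (2 ^ e') c b0 e) =
      ∑ al : Fin k → A, c al *
        ∏ i : Fin k, (b0 (al i) + ∑ v, x i v * e v (al i)) ^ ((2 ^ e') ^ (i : ℕ)) := by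
  rw [eval_pol]
  refine Finset.sum_congr rfl fun al _ => ?_
  congr 1
  refine Finset.prod_congr rfl fun i _ => ?_
  rw [← pow_mul, add_pow_char_pow, sum_pow_char_pow]
  congr 1
  refine Finset.sum_congr rfl fun v _ => ?_
  rw [mul_pow, mul_comm, ← pow_mul]

/-- digit Schwartz-Zippel for the functionals of the tensors, in coordinates -/
theorem sz_blocks [CharP KK 2] [Fintype KK] [DecidableEq KK] [DecidableEq V] (e' : ℕ)
    (he : 0 < e') (hcard : Fintype.card KK = (2 ^ e') ^ k)
    (c : (Fin k → A) → KK) (b0 : A → KK) (e : V → A → KK)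
    (hne : ∃ x : Fin k → V → KK, ∑ al : Fin k → A, c al *
        ∏ i : Fin k, (b0 (al i) + ∑ v, x i v * e v (al i)) ^ ((2 ^ e') ^ (i : ℕ)) ≠ 0) :
    (univ.filter fun x : V → KK => ∑ al : Fin k → A, c al *
        ∏ i : Fin k, (b0 (al i) + ∑ v, x v * e v (al i)) ^ ((2 ^ e') ^ (i : ℕ)) = 0).card *
          (2 ^ e' - 1) ≤ Fintype.card KK ^ Fintype.card V := by
  obtain ⟨x, hx⟩ := hne
  have hQ : 1 < 2 ^ e' := Nat.one_lt_two_pow (by omega)
  have hp : pol (2 ^ e') c b0 e ≠ 0 := by
    intro h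
    apply hx
    rw [← eval_pol_pow, h, map_zero]
  have h1 := DigitSZ_853.digit_sz (Q := 2 ^ e') (D := 1) hQ hcard (pol (2 ^ e') c b0 e) hp
    (BD_pol _ _ _ _)
  rw [one_mul] at h1
  refine le_trans (le_of_eq ?_) h1
  congr 2
  ext y
  simp only [mem_filter, mem_univ, true_and]
  rw [← eval_pol_pow e' c b0 e (fun _ => y)]

end BD

section N

variable {KK : Type} [Field KK] {d kp : ℕ}

/-- product tensor of independent factors -/
def PhiV (Q : ℕ) (h : Fin kp → Ix d → KK) : U0 KK d kp := fun al => ∏ i, (h i (al i)) ^ (Q ^ (i : ℕ))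

theorem Phi_eq (Q : ℕ) (b : Ix d → KK) : (Phi Q b : U0 KK d kp) = PhiV Q (fun _ => b) := rfl

theorem apply_eq_sum (W : U0 KK d kp →ₗ[KK] KK) (t : U0 KK d kp) :
    W t = ∑ al, W (Pi.single al 1) * t al := by
  have h : t = ∑ al, t al • (Pi.single al (1 : KK) : U0 KK d kp) := by
    funext be
    rw [Finset.sum_apply]
    simp [Pi.single_apply]
  conv_lhs => rw [h]
  rw [map_sum]
  refine sum_congr rfl fun al _ => ?_
  rw [map_smul, smul_eq_mul, mul_comm]

variable [CharP KK 2]

theorem PhiV_update_add (e' : ℕ) (h : Fin kp → Ix d → KK) (i : Fin kp) (x y : Ix d → KK) (a : KK) :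
    PhiV (2 ^ e') (Function.update h i (x + a • y)) = PhiV (2 ^ e') (Function.update h i x) +
      (a ^ ((2 ^ e') ^ (i : ℕ))) • PhiV (2 ^ e') (Function.update h i y) := by
  classical
  funext al
  simp only [PhiV, Pi.add_apply, Pi.smul_apply, smul_eq_mul]
  rw [← mul_prod_erase univ _ (mem_univ i), ← mul_prod_erase univ _ (mem_univ i),
    ← mul_prod_erase univ (fun i' => (Function.update h i y i' (al i')) ^ _) (mem_univ i)]
  simp only [Function.update_self]
  have h1 : ∀ z : Ix d → KK, ∏ i' ∈ univ.erase i, (Function.update h i z i' (al i')) ^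
      ((2 ^ e') ^ (i' : ℕ)) = ∏ i' ∈ univ.erase i, (h i' (al i')) ^ ((2 ^ e') ^ (i' : ℕ)) := by
    intro z
    refine prod_congr rfl fun i' hi' => ?_
    rw [Function.update_of_ne (ne_of_mem_erase hi')]
  rw [h1, h1, h1]
  simp only [Pi.add_apply, Pi.smul_apply, smul_eq_mul]
  rw [← pow_mul, add_pow_char_pow, mul_pow]
  ring

/-- reduction to normalised factors -/
theorem exists_norm (e' : ℕ) (N : Submodule KK (Ix d → KK)) {b0 : Ix d → KK} (hb0 : b0 ∈ N)
    (hb1 : b0 none = 1) (W : U0 KK d kp →ₗ[KK] KK)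
    (hW : ∀ h : Fin kp → Ix d → KK, (∀ i, h i ∈ N) → (∀ i, h i none = 1) →
      W (PhiV (2 ^ e') h) = 0) :
    ∀ h : Fin kp → Ix d → KK, (∀ i, h i ∈ N) → W (PhiV (2 ^ e') h) = 0 := by
  classical
  have key : ∀ s : Finset (Fin kp), ∀ h : Fin kp → Ix d → KK, (∀ i, h i ∈ N) →
      (∀ i, i ∉ s → h i none = 1) → W (PhiV (2 ^ e') h) = 0 := by
    intro s
    induction s using Finset.induction_on with
    | empty => intro h h1 h2; exact hW h h1 fun i => h2 i (notMem_empty i)
    | insert i s hi ih =>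
      intro h h1 h2
      set a : KK := h i none - 1 with ha
      set x : Ix d → KK := h i - a • b0 with hx
      have hxN : x ∈ N := N.sub_mem (h1 i) (N.smul_mem a hb0)
      have hx1 : x none = 1 := by
        simp only [hx, Pi.sub_apply, Pi.smul_apply, smul_eq_mul, hb1, ha]; ring
      have hh : h = Function.update h i (x + a • b0) := by
        have : x + a • b0 = h i := by rw [hx]; abel
        rw [this, Function.update_eq_self]
      rw [hh, PhiV_update_add, map_add, map_smul]
      have e1 : W (PhiV (2 ^ e') (Function.update h i x)) = 0 := by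
        refine ih _ (fun i' => ?_) (fun i' hi' => ?_)
        · by_cases h' : i' = i
          · subst h'; rw [Function.update_self]; exact hxN
          · rw [Function.update_of_ne h']; exact h1 i'
        · by_cases h' : i' = i
          · subst h'; rw [Function.update_self]; exact hx1
          · rw [Function.update_of_ne h']; exact h2 i' (by simp [h', hi'])
      have e2 : W (PhiV (2 ^ e') (Function.update h i b0)) = 0 := by
        refine ih _ (fun i' => ?_) (fun i' hi' => ?_)
        · by_cases h' : i' = i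
          · subst h'; rw [Function.update_self]; exact hb0
          · rw [Function.update_of_ne h']; exact h1 i'
        · by_cases h' : i' = i
          · subst h'; rw [Function.update_self]; exact hb1
          · rw [Function.update_of_ne h']; exact h2 i' (by simp [h', hi'])
      rw [e1, e2, smul_zero, add_zero]
  intro h h1
  exact key univ h h1 fun i hi => absurd (mem_univ i) hi

variable [Fintype KK] [DecidableEq KK]

open Classical in
/-- **Schwartz-Zippel** on the normalised points of a subspace `N` -/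
theorem sz_N (e' : ℕ) (he : 0 < e') (hcard : Fintype.card KK = (2 ^ e') ^ kp)
    (N : Submodule KK (Ix d → KK)) {b0 : Ix d → KK} (hb0 : b0 ∈ N) (hb1 : b0 none = 1)
    (W : U0 KK d kp →ₗ[KK] KK)
    (hW : ∃ h : Fin kp → Ix d → KK, (∀ i, h i ∈ N) ∧ W (PhiV (2 ^ e') h) ≠ 0) :
    (univ.filter fun b : Ix d → KK => (b ∈ N ∧ b none = 1) ∧ W (Phi (2 ^ e') b) = 0).card *
      (2 ^ e' - 1) ≤ (univ.filter fun b : Ix d → KK => b ∈ N ∧ b none = 1).card := by
  obtain ⟨h, hh1, hh2, hh3⟩ : ∃ h : Fin kp → Ix d → KK, (∀ i, h i ∈ N) ∧ (∀ i, h i none = 1) ∧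
      W (PhiV (2 ^ e') h) ≠ 0 := by
    by_contra hcon
    push Not at hcon
    obtain ⟨h, h1, h2⟩ := hW
    exact h2 (exists_norm e' N hb0 hb1 W hcon h h1)
  -- the linear part
  let H0 : Submodule KK (Ix d → KK) := N ⊓ LinearMap.ker (LinearMap.proj (R := KK) none)
  have memH0 : ∀ x : Ix d → KK, x ∈ H0 ↔ x ∈ N ∧ x none = 0 := by
    intro x
    simp [H0, LinearMap.mem_ker]
  let bs := Module.finBasis KK H0
  let e : Fin (Module.finrank KK H0) → Ix d → KK := fun v => (bs v : Ix d → KK)
  let f : (Fin (Module.finrank KK H0) → KK) → (Ix d → KK) := fun x =>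
    b0 + ((bs.equivFun.symm x : H0) : Ix d → KK)
  have hf : ∀ x, f x = fun j => b0 j + ∑ v, x v * e v j := by
    intro x
    funext j
    simp only [f, Pi.add_apply, e]
    congr 1
    rw [Module.Basis.equivFun_symm_apply]
    rw [Submodule.coe_sum, Finset.sum_apply]
    rfl
  have hfinj : Function.Injective f := by
    intro x y hxy
    have : ((bs.equivFun.symm x : H0) : Ix d → KK) = ((bs.equivFun.symm y : H0) : Ix d → KK) :=
      add_left_cancel hxy
    exact bs.equivFun.symm.injective (Subtype.ext this)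
  have hfN : ∀ x, f x ∈ N ∧ f x none = 1 := by
    intro x
    have h0 := (memH0 _).1 (bs.equivFun.symm x : H0).2
    refine ⟨N.add_mem hb0 h0.1, ?_⟩
    show b0 none + _ = 1
    rw [h0.2, hb1, add_zero]
  have hfsurj : ∀ b : Ix d → KK, b ∈ N → b none = 1 → ∃ x, f x = b := by
    intro b hb hb'
    have h0 : b - b0 ∈ H0 := (memH0 _).2 ⟨N.sub_mem hb hb0, by
      rw [Pi.sub_apply, hb', hb1, sub_self]⟩
    refine ⟨bs.equivFun ⟨b - b0, h0⟩, ?_⟩
    simp only [f, LinearEquiv.symm_apply_apply]
    abel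
  -- the value
  have hval : ∀ x : Fin kp → Fin (Module.finrank KK H0) → KK,
      W (PhiV (2 ^ e') fun i => f (x i)) = ∑ al : Fin kp → Ix d, W (Pi.single al 1) *
        ∏ i : Fin kp, (b0 (al i) + ∑ v, x i v * e v (al i)) ^ ((2 ^ e') ^ (i : ℕ)) := by
    intro x
    rw [apply_eq_sum]
    refine sum_congr rfl fun al _ => ?_
    congr 1
    simp only [PhiV]
    exact prod_congr rfl fun i _ => by rw [hf]
  have hne : ∃ x : Fin kp → Fin (Module.finrank KK H0) → KK,
      ∑ al : Fin kp → Ix d, W (Pi.single al 1) *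
        ∏ i : Fin kp, (b0 (al i) + ∑ v, x i v * e v (al i)) ^ ((2 ^ e') ^ (i : ℕ)) ≠ 0 := by
    choose x hx using fun i => hfsurj (h i) (hh1 i) (hh2 i)
    refine ⟨x, ?_⟩
    rw [← hval]
    simpa [hx] using hh3
  have h1 := sz_blocks e' he hcard (fun al => W (Pi.single al 1)) b0 e hne
  have hc1 : (univ.filter fun b : Ix d → KK => b ∈ N ∧ b none = 1).card =
      Fintype.card KK ^ Module.finrank KK H0 := by
    have : (univ.filter fun b : Ix d → KK => b ∈ N ∧ b none = 1) = univ.image f := by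
      ext b
      simp only [mem_filter, mem_univ, true_and, mem_image]
      constructor
      · rintro ⟨h1, h2⟩; exact hfsurj b h1 h2
      · rintro ⟨x, rfl⟩; exact hfN x
    rw [this, card_image_of_injective _ hfinj, card_univ, Fintype.card_fun, Fintype.card_fin]
  have hc2 : (univ.filter fun b : Ix d → KK => (b ∈ N ∧ b none = 1) ∧
      W (Phi (2 ^ e') b) = 0).card = (univ.filter fun x : Fin (Module.finrank KK H0) → KK =>
        ∑ al : Fin kp → Ix d, W (Pi.single al 1) *
        ∏ i : Fin kp, (b0 (al i) + ∑ v, x v * e v (al i)) ^ ((2 ^ e') ^ (i : ℕ)) = 0).card := by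
    symm
    refine card_bij (fun x _ => f x) ?_ (fun x _ y _ hxy => hfinj hxy) ?_
    · intro x hx
      have hx' := (mem_filter.1 hx).2
      rw [mem_filter]
      refine ⟨mem_univ _, hfN x, ?_⟩
      have := hval (fun _ => x)
      rw [Phi_eq, this]
      exact hx'
    · intro b hb
      obtain ⟨_, ⟨h1, h2⟩, h3⟩ := mem_filter.1 hb
      obtain ⟨x, rfl⟩ := hfsurj b h1 h2
      refine ⟨x, mem_filter.2 ⟨mem_univ _, ?_⟩, rfl⟩
      have := hval (fun _ => x)
      rw [← this]
      exact h3
  rw [hc1, hc2]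
  rw [Fintype.card_fin] at h1
  exact h1

end N

section span

theorem sum_update {A B : Type*} [Fintype A] [DecidableEq A] [Fintype B]
    {M : Type*} [AddCommMonoid M] (i : A) (F : (A → B) → M) :
    ∑ be : A → B, ∑ j : B, F (Function.update be i j) =
      Fintype.card B • ∑ be : A → B, F be := by
  classical
  rw [← Fintype.sum_prod_type' (f := fun (be : A → B) (j : B) => F (Function.update be i j))]
  rw [← Equiv.sum_comp (⟨fun p : (A → B) × B => (Function.update p.1 i p.2, p.1 i),
    fun p => (Function.update p.1 i p.2, p.1 i), fun p => by simp, fun p => by simp⟩ :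
      (A → B) × B ≃ (A → B) × B)]
  simp only [Equiv.coe_fn_mk, Function.update_idem, Function.update_eq_self]
  rw [Fintype.sum_prod_type]
  simp [Finset.smul_sum]

variable {KK : Type} [Field KK] [CharP KK 2] {d kp : ℕ}

theorem card_Ix (d : ℕ) : ((Fintype.card (Ix d) : ℕ) : KK) = 1 := by
  have : Fintype.card (Ix d) = d * 2 + 1 := by
    rw [Fintype.card_option, Fintype.card_prod, Fintype.card_fin, Fintype.card_bool]
  rw [this]
  push_cast
  rw [CharTwo.two_eq_zero, mul_zero, zero_add]

/-- a contraction that vanishes kills every sum that does not see the block `i` -/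
theorem sum_contr_zero (Q : ℕ) {h : Ix d → KK} {i : Fin kp} {t : U0 KK d kp}
    (ht : contr Q h i t = 0) (G : (Fin kp → Ix d) → KK)
    (hG : ∀ be j, G (Function.update be i j) = G be) :
    ∑ be, G be * ((h (sw (be i))) ^ (Q ^ (i : ℕ)) * t be) = 0 := by
  have h1 := sum_update i (fun be => G be * ((h (sw (be i))) ^ (Q ^ (i : ℕ)) * t be))
  rw [nsmul_eq_mul, card_Ix, one_mul] at h1
  rw [← h1]
  refine sum_eq_zero fun be _ => ?_
  have h2 : ∀ j, G (Function.update be i j) *
      ((h (sw (Function.update be i j i))) ^ (Q ^ (i : ℕ)) * t (Function.update be i j)) =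
      G be * ((h (sw j)) ^ (Q ^ (i : ℕ)) * t (Function.update be i j)) := by
    intro j
    rw [hG, Function.update_self]
  rw [sum_congr rfl fun j _ => h2 j, ← mul_sum]
  have h3 : contr Q h i t be = 0 := by rw [ht]; rfl
  have h4 : ∑ j, (h (sw j)) ^ (Q ^ (i : ℕ)) * t (Function.update be i j) = 0 := h3
  rw [h4, mul_zero]

variable {κ : Type*} [Fintype κ]

/-- the projection matrix -/
def pm (p g : κ → Ix d → KK) (b : Ix d) : Ix d → KK :=
  fun a => (if a = b then 1 else 0) + ∑ k, p k (sw b) * g k a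

/-- **the common kernel of the contractions is spanned by product tensors** -/
theorem T_span (e' : ℕ) (p g : κ → Ix d → KK) {t : U0 KK d kp}
    (ht : ∀ k, t ∈ T1 (2 ^ e') (p k)) :
    t = ∑ be, t be • (PhiV (2 ^ e') fun i => pm p g (be i)) := by
  have key : ∀ s : Finset (Fin kp), ∀ al : Fin kp → Ix d,
      ∑ be, (∏ i, if i ∈ s then (pm p g (be i) (al i)) ^ ((2 ^ e') ^ (i : ℕ))
        else (if al i = be i then 1 else 0)) * t be = t al := by
    intro s
    induction s using Finset.induction_on with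
    | empty =>
      intro al
      simp only [notMem_empty, if_false]
      rw [sum_eq_single al]
      · simp
      · intro be _ hbe
        obtain ⟨i, hi⟩ := Function.ne_iff.1 hbe
        rw [prod_eq_zero (mem_univ i), zero_mul]
        rw [if_neg (Ne.symm hi)]
      · intro h; exact absurd (mem_univ _) h
    | insert i s hi ih =>
      intro al
      rw [← ih al]
      -- split off the factor `i`
      let M : (Fin kp → Ix d) → Fin kp → KK := fun be i' =>
        if i' ∈ s then (pm p g (be i') (al i')) ^ ((2 ^ e') ^ (i' : ℕ))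
          else (if al i' = be i' then 1 else 0)
      let G : (Fin kp → Ix d) → KK := fun be => ∏ i' ∈ univ.erase i, M be i'
      have hG : ∀ be j, G (Function.update be i j) = G be := by
        intro be j
        refine prod_congr rfl fun i' hi' => ?_
        simp only [M]
        rw [Function.update_of_ne (ne_of_mem_erase hi')]
      have hM : ∀ be, ∏ i', M be i' = (if al i = be i then 1 else 0) * G be := by
        intro be
        rw [← mul_prod_erase univ _ (mem_univ i)]
        congr 1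
        simp only [M]
        rw [if_neg hi]
      have hM' : ∀ be : Fin kp → Ix d,
          (∏ i', if i' ∈ insert i s then (pm p g (be i') (al i')) ^ ((2 ^ e') ^ (i' : ℕ))
            else (if al i' = be i' then 1 else 0)) =
          (pm p g (be i) (al i)) ^ ((2 ^ e') ^ (i : ℕ)) * G be := by
        intro be
        rw [← mul_prod_erase univ _ (mem_univ i)]
        rw [if_pos (mem_insert_self i s)]
        congr 1
        refine prod_congr rfl fun i' hi' => ?_
        simp only [M]
        have hne := ne_of_mem_erase hi'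
        by_cases h' : i' ∈ s
        · rw [if_pos (mem_insert_of_mem h'), if_pos h']
        · rw [if_neg h', if_neg]
          rw [mem_insert]; tauto
      have hpm : ∀ be : Fin kp → Ix d, (pm p g (be i) (al i)) ^ ((2 ^ e') ^ (i : ℕ)) =
          (if al i = be i then 1 else 0) +
            ∑ k, (g k (al i)) ^ ((2 ^ e') ^ (i : ℕ)) * (p k (sw (be i))) ^ ((2 ^ e') ^ (i : ℕ)) := by
        intro be
        unfold pm
        have hpos : 2 ^ (e' * (i : ℕ)) ≠ 0 := pow_ne_zero _ two_ne_zero
        rw [← pow_mul, add_pow_char_pow, sum_pow_char_pow]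
        congr 1
        · by_cases h' : al i = be i
          · rw [if_pos h', one_pow]
          · rw [if_neg h', zero_pow hpos]
        · exact sum_congr rfl fun k _ => by rw [mul_pow, mul_comm]
      have hL : ∀ be : Fin kp → Ix d,
          (∏ i', if i' ∈ insert i s then (pm p g (be i') (al i')) ^ ((2 ^ e') ^ (i' : ℕ))
            else (if al i' = be i' then 1 else 0)) * t be =
          (∏ i', M be i') * t be + ∑ k, (g k (al i)) ^ ((2 ^ e') ^ (i : ℕ)) *
            (G be * ((p k (sw (be i))) ^ ((2 ^ e') ^ (i : ℕ)) * t be)) := by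
        intro be
        rw [hM', hM, hpm, add_mul, add_mul, sum_mul, sum_mul]
        congr 1
        exact sum_congr rfl fun k _ => by ring
      rw [sum_congr rfl fun be _ => hL be, sum_add_distrib, sum_comm]
      rw [sum_eq_zero (f := fun k => ∑ be, (g k (al i)) ^ ((2 ^ e') ^ (i : ℕ)) *
            (G be * ((p k (sw (be i))) ^ ((2 ^ e') ^ (i : ℕ)) * t be))), add_zero]
      intro k _
      rw [← mul_sum, sum_contr_zero (2 ^ e') (mem_T1.1 (ht k) i) G hG, mul_zero]
  funext al
  rw [Finset.sum_apply]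
  rw [← key univ al]
  refine sum_congr rfl fun be _ => ?_
  simp only [mem_univ, if_true, Pi.smul_apply, smul_eq_mul, PhiV]
  rw [mul_comm]

/-- a functional that does not vanish on the common kernel does not vanish on a product tensor -/
theorem exists_PhiV (e' : ℕ) (p g : κ → Ix d → KK) {t : U0 KK d kp}
    (ht : ∀ k, t ∈ T1 (2 ^ e') (p k)) (W : U0 KK d kp →ₗ[KK] KK) (hW : W t ≠ 0) :
    ∃ be : Fin kp → Ix d, W (PhiV (2 ^ e') fun i => pm p g (be i)) ≠ 0 := by
  by_contra hcon
  push Not at hcon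
  apply hW
  rw [T_span e' p g ht, map_sum]
  refine sum_eq_zero fun be _ => ?_
  rw [map_smul, hcon be, smul_zero]

/-- orthonormal case: `pm` maps to the common kernel -/
theorem B_pm [DecidableEq κ] (p g : κ → Ix d → KK)
    (hg : ∀ k k', B (p k) (g k') = if k = k' then 1 else 0) (b : Ix d) (k : κ) : B (p k) (pm p g b) = 0 := by
  have h1 : pm p g b = (Pi.single b 1 : Ix d → KK) + ∑ k', p k' (sw b) • g k' := by
    funext a
    simp [pm, Pi.single_apply, Finset.sum_apply]
  have h2 : ∀ y z : Ix d → KK, B (p k) (y + z) = B (p k) y + B (p k) z := by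
    intro y z
    rw [B_comm, B_add_left, B_comm y, B_comm z]
  have h3 : ∀ s : Finset κ, B (p k) (∑ k' ∈ s, p k' (sw b) • g k') =
      ∑ k' ∈ s, p k' (sw b) * B (p k) (g k') := by
    intro s
    induction s using Finset.induction_on with
    | empty => simp [B]
    | insert a s ha ih =>
      rw [sum_insert ha, sum_insert ha, h2, ih, B_comm, B_smul_left, B_comm]
  rw [h1, h2, h3]
  have h4 : B (p k) (Pi.single b 1) = p k (sw b) := by
    unfold B
    rw [sum_eq_single b]
    · simp
    · intro j _ hj; simp [hj]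
    · intro h; exact absurd (mem_univ _) h
  rw [h4]
  simp only [hg, mul_ite, mul_one, mul_zero]
  rw [sum_ite_eq univ k, if_pos (mem_univ k)]
  exact CharTwo.add_self_eq_zero _

end span

end Crest.Agent.R042.PhiSZ543
end

-- ▼ part R042/Tower_767
section

/-!
Row 42, S0059: the tower of alphabets of helper332 (#26575).  `Q j = 2^(4^j)`,
`kk (j+1) = kk j * (Q j ^ 2 + 1)`.  In every field `F` with `Q j` elements the group
`{x | x ^ kk j = 1}` is sum-free and complete.
-/

set_option autoImplicit false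

namespace Crest.Agent.R042.Tower767

section step
variable {L : Type*} [Field L] [Fintype L] [CharP L 2] (n : ℕ)

/-- `x ↦ x^(2^n)` -/
noncomputable def ph : L →+* L := iterateFrobenius L 2 n

lemma ph_apply (x : L) : ph n x = x ^ 2 ^ n := iterateFrobenius_def 2 n x

/-- the norm of `L / E` -/
noncomputable def Nm (x : L) : L := x * ph n (ph n x)

lemma Nm_pow (x : L) : Nm n x = x ^ ((2 ^ n) ^ 2 + 1) := by
  have h : (2 ^ n) ^ 2 = 2 ^ n * 2 ^ n := pow_two _
  rw [Nm, ph_apply, ph_apply, ← pow_mul, h, pow_succ x (2 ^ n * 2 ^ n), mul_comm]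

lemma Nm_mul (x y : L) : Nm n (x * y) = Nm n x * Nm n y := by
  simp only [Nm, map_mul]; ring

variable (hL : Fintype.card L = 2 ^ (4 * n))

include hL in
lemma ph4 (x : L) : ph n (ph n (ph n (ph n x))) = x := by
  rw [ph_apply, ph_apply, ph_apply, ph_apply, ← pow_mul, ← pow_mul, ← pow_mul]
  have : 2 ^ n * (2 ^ n * (2 ^ n * 2 ^ n)) = Fintype.card L := by rw [hL]; ring
  rw [this, FiniteField.pow_card]

include hL in
lemma ph_Nm (x : L) : ph n (ph n (Nm n x)) = Nm n x := by
  rw [Nm, map_mul, map_mul, ph4 n hL, mul_comm]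

variable (k : ℕ) (hk : k ∣ 2 ^ n - 1)

include hk in
lemma fix_of {x : L} (hx : x ^ k = 1) : ph n x = x := by
  obtain ⟨m, hm⟩ := hk
  have h1 : 2 ^ n = k * m + 1 := by have := Nat.one_le_two_pow (n := n); omega
  rw [ph_apply, h1, pow_succ, pow_mul, hx, one_pow, one_mul]

variable (hS : ∀ x y : L, x ^ k = 1 → y ^ k = 1 → (x + y) ^ k ≠ 1)

include hL hk hS in
/-- **step, sum-free** -/
theorem step_sumfree (x y : L) (hx : Nm n x ^ k = 1) (hy : Nm n y ^ k = 1) :
    Nm n (x + y) ^ k ≠ 1 := by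
  intro hc
  have h2 : (2 : L) = 0 := CharTwo.two_eq_zero
  have ha' := fix_of n k hk hx
  have hb' := fix_of n k hk hy
  have hc' := fix_of n k hk hc
  obtain ⟨a, ha⟩ : ∃ a, a = Nm n x := ⟨_, rfl⟩
  obtain ⟨b, hb⟩ : ∃ b, b = Nm n y := ⟨_, rfl⟩
  obtain ⟨c, hcd⟩ : ∃ c, c = Nm n (x + y) := ⟨_, rfl⟩
  rw [← ha] at hx ha'
  rw [← hb] at hy hb'
  rw [← hcd] at hc hc'
  obtain ⟨ξ, hξ⟩ : ∃ ξ, ξ = x * ph n (ph n y) := ⟨_, rfl⟩
  have hξ' : ph n (ph n ξ) = ph n (ph n x) * y := by
    rw [hξ, map_mul, map_mul, ph4 n hL]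
  have hsum : ξ + ph n (ph n ξ) = a + b + c := by
    rw [hξ', hξ, ha, hb, hcd]
    simp only [Nm, map_add]
    linear_combination (-(x * ph n (ph n x)) - y * ph n (ph n y)) * h2
  have hprod : ξ * ph n (ph n ξ) = a * b := by
    rw [hξ', hξ, ha, hb]; simp only [Nm]; ring
  have hroot : ξ ^ 2 + (a + b + c) * ξ + a * b = 0 := by
    rw [← hsum, ← hprod]
    linear_combination (ξ ^ 2 + ξ * ph n (ph n ξ)) * h2
  have hroot2 : (ph n ξ) ^ 2 + (a + b + c) * ph n ξ + a * b = 0 := by
    have := congrArg (ph n) hroot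
    simp only [map_add, map_mul, map_pow, map_zero, ha', hb', hc'] at this
    exact this
  have hmul : (ξ + ph n ξ) * (ξ + ph n ξ + (a + b + c)) = 0 := by
    linear_combination hroot + hroot2 + (ξ * ph n ξ - a * b) * h2
  have hfix : ph n (ph n ξ) = ξ := by
    rcases mul_eq_zero.mp hmul with h | h
    · have h3 : ph n ξ = ξ := by linear_combination h - ξ * h2
      rw [h3, h3]
    · have h3 : ph n ξ = ξ + (a + b + c) := by linear_combination h - (ξ + (a + b + c)) * h2
      rw [h3, map_add, map_add, map_add, ha', hb', hc', h3]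
      linear_combination (a + b + c) * h2
  rw [hfix] at hsum
  have h4 : a + b = c := by linear_combination (ξ - c) * h2 - hsum
  exact hS a b hx hy (by rw [h4]; exact hc)

/-- `℘ t = t^2 + t` -/
def wp (t : L) : L := t ^ 2 + t

lemma wp_add (s t : L) : wp (s + t) = wp s + wp t := by
  have h2 : (2 : L) = 0 := CharTwo.two_eq_zero
  simp only [wp]; linear_combination (s * t) * h2

lemma wp_eq {s t : L} (h : wp s = wp t) : s = t ∨ s = t + 1 := by
  have h2 : (2 : L) = 0 := CharTwo.two_eq_zero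
  have h3 : (s + t) * (s + t + 1) = 0 := by
    simp only [wp] at h
    linear_combination h + (s * t + t ^ 2 + t) * h2
  rcases mul_eq_zero.mp h3 with h | h
  · left; linear_combination h - t * h2
  · right; linear_combination h - (t + 1) * h2

/-- the fixed points of `ψ` -/
def fixAdd (ψ : L →+* L) : AddSubgroup L where
  carrier := {x | ψ x = x}
  add_mem' := fun {a b} ha hb => by
    show ψ (a + b) = a + b
    rw [map_add, show ψ a = a from ha, show ψ b = b from hb]
  zero_mem' := map_zero ψ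
  neg_mem' := fun {a} ha => by show ψ (-a) = -a; rw [map_neg, show ψ a = a from ha]

/-- `℘` on the fixed points of `ψ` -/
noncomputable def wpH (ψ : L →+* L) : fixAdd ψ →+ fixAdd ψ where
  toFun := fun x => ⟨wp x.1, by
    show ψ (wp x.1) = wp x.1
    have hx : ψ x.1 = x.1 := x.2
    simp only [wp, map_add, map_pow, hx]⟩
  map_zero' := Subtype.ext (by simp [wp])
  map_add' := fun x y => Subtype.ext (wp_add x.1 y.1)

lemma wpH_index (ψ : L →+* L) : (wpH ψ).range.index = 2 := by
  rw [AddSubgroup.index_range]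
  have h1 : ψ (1 : L) = 1 := map_one ψ
  have hset : ((wpH ψ).ker : Set (fixAdd ψ)) = {0, ⟨1, h1⟩} := by
    ext x
    rw [SetLike.mem_coe, AddMonoidHom.mem_ker, Set.mem_insert_iff, Set.mem_singleton_iff]
    constructor
    · intro h
      have h3 : wp x.1 = wp (0 : L) := by
        have := congrArg Subtype.val h
        rw [show ((wpH ψ) x).1 = wp x.1 from rfl] at this
        rw [this]; simp [wp]
      rcases wp_eq h3 with h4 | h4
      · left; exact Subtype.ext h4
      · right; exact Subtype.ext (by rw [h4, zero_add])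
    · rintro (h | h)
      · rw [h, map_zero]
      · apply Subtype.ext
        rw [show ((wpH ψ) x).1 = wp x.1 from rfl, h]
        show (1 : L) ^ 2 + 1 = 0
        have h2 : (2 : L) = 0 := CharTwo.two_eq_zero
        linear_combination h2
  have hne : (0 : fixAdd ψ) ≠ ⟨1, h1⟩ := by
    intro h
    have := congrArg Subtype.val h
    exact zero_ne_one this
  have : Nat.card (wpH ψ).ker = Set.ncard ((wpH ψ).ker : Set (fixAdd ψ)) := rfl
  rw [this, hset, Set.ncard_pair hne]

include hL in
/-- there is `t` with `t + conj t = 1` -/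
lemma exists_tr_one : ∃ t : L, t + ph n (ph n t) = 1 := by
  -- the trace map and its kernel
  let T : L →+ L := AddMonoidHom.id L + ((ph n).comp (ph n)).toAddMonoidHom
  have hT : ∀ t : L, T t = t + ph n (ph n t) := fun t => rfl
  have hpsi : ∀ t : L, ph n (ph n t) = t ^ ((2 ^ n) ^ 2) := fun t => by
    rw [ph_apply, ph_apply, ← pow_mul, ← pow_two]
  have hbound : Nat.card (fixAdd ((ph n).comp (ph n) : L →+* L)) ≤ (2 ^ n) ^ 2 := by
    classical
    have hq : 1 < (2 ^ n) ^ 2 ∨ n = 0 := by
      rcases Nat.eq_zero_or_pos n with h | h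
      · right; exact h
      · left; rw [← pow_mul]; exact Nat.one_lt_two_pow (by omega)
    rcases hq with hq | hq
    · let p : Polynomial L := Polynomial.X ^ ((2 ^ n) ^ 2) - Polynomial.X
      have hp : p.natDegree = (2 ^ n) ^ 2 := FiniteField.X_pow_card_sub_X_natDegree_eq L hq
      have hp0 : p ≠ 0 := FiniteField.X_pow_card_sub_X_ne_zero L hq
      have hsub : ((fixAdd ((ph n).comp (ph n) : L →+* L) : Set L)) ⊆ (p.roots.toFinset : Set L) := by
        intro x hx
        rw [Finset.mem_coe, Multiset.mem_toFinset, Polynomial.mem_roots hp0]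
        have hx' : x ^ ((2 ^ n) ^ 2) = x := by rw [← hpsi]; exact hx
        simp [p, hx']
      have h1 : Nat.card (fixAdd ((ph n).comp (ph n) : L →+* L))
          = Set.ncard ((fixAdd ((ph n).comp (ph n) : L →+* L) : Set L)) := rfl
      rw [h1]
      refine (Set.ncard_le_ncard hsub (Finset.finite_toSet _)).trans ?_
      rw [Set.ncard_coe_finset]
      refine (Multiset.toFinset_card_le _).trans ?_
      rw [← hp]; exact Polynomial.card_roots' p
    · exfalso
      rw [hq] at hL
      have := Fintype.one_lt_card (α := L)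
      rw [hL] at this
      norm_num at this
  -- the kernel of `T` is the fixed field
  have hker : T.ker = fixAdd ((ph n).comp (ph n) : L →+* L) := by
    ext x
    rw [AddMonoidHom.mem_ker, hT]
    constructor
    · intro h
      show ph n (ph n x) = x
      have h2 : (2 : L) = 0 := CharTwo.two_eq_zero
      linear_combination h - x * h2
    · intro h
      have h' : ph n (ph n x) = x := h
      rw [h']; exact CharTwo.add_self_eq_zero x
  have hrange : T.range ≤ fixAdd ((ph n).comp (ph n) : L →+* L) := by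
    rintro _ ⟨x, rfl⟩
    show ph n (ph n (T x)) = T x
    rw [hT, map_add, map_add, ph4 n hL, add_comm]
  have hcard : Nat.card T.ker * Nat.card T.range = 2 ^ (4 * n) := by
    rw [← hL, ← Nat.card_eq_fintype_card, ← AddSubgroup.card_mul_index T.ker,
      AddSubgroup.index_ker]
  have hge : (2 ^ n) ^ 2 ≤ Nat.card T.range := by
    rw [hker] at hcard
    have h1 : 2 ^ (4 * n) = (2 ^ n) ^ 2 * (2 ^ n) ^ 2 := by ring
    rw [h1] at hcard
    have h2 : 0 < (2 ^ n) ^ 2 := by positivity
    by_contra hcon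
    push Not at hcon
    have h3 : Nat.card (fixAdd ((ph n).comp (ph n) : L →+* L)) * Nat.card T.range
        ≤ (2 ^ n) ^ 2 * Nat.card T.range := Nat.mul_le_mul_right _ hbound
    have h4 : (2 ^ n) ^ 2 * Nat.card T.range < (2 ^ n) ^ 2 * (2 ^ n) ^ 2 :=
      Nat.mul_lt_mul_of_pos_left hcon h2
    omega
  have heq : T.range = fixAdd ((ph n).comp (ph n) : L →+* L) := by
    apply AddSubgroup.eq_of_le_of_card_ge hrange
    exact hbound.trans hge
  have h1 : (1 : L) ∈ fixAdd ((ph n).comp (ph n) : L →+* L) := by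
    show ph n (ph n (1 : L)) = 1
    rw [map_one, map_one]
  rw [← heq] at h1
  obtain ⟨t, ht⟩ := h1
  exact ⟨t, by rw [← hT]; exact ht⟩

variable (hC : ∀ z : L, ph n z = z → z ^ k ≠ 1 → ∃ x y, x ^ k = 1 ∧ y ^ k = 1 ∧ x + y = z)

include hL hk hC in
/-- for `h ∈ E \ F0` some `a ∈ K0` has `a h ∉ ℘ E` -/
lemma exists_a (hn : 1 ≤ n) (h : L) (hE : ph n (ph n h) = h) (hF : ph n h ≠ h) :
    ∃ a : L, a ^ k = 1 ∧ ∀ s : L, ph n (ph n s) = s → wp s ≠ a * h := by
  by_contra hcon
  push Not at hcon
  have h2 : (2 : L) = 0 := CharTwo.two_eq_zero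
  -- then every `x ∈ F0` has `x h ∈ ℘ E`
  have key : ∀ x : L, ph n x = x → ∃ s : L, ph n (ph n s) = s ∧ wp s = x * h := by
    intro x hx
    by_cases hxk : x ^ k = 1
    · exact hcon x hxk
    · obtain ⟨u, v, hu, hv, huv⟩ := hC x hx hxk
      obtain ⟨s, hs, hs'⟩ := hcon u hu
      obtain ⟨s1, hs1, hs1'⟩ := hcon v hv
      refine ⟨s + s1, by rw [map_add, map_add, hs, hs1], ?_⟩
      rw [wp_add, hs', hs1', ← huv]; ring
  -- apply `φ` and add
  have hd : h + ph n h ≠ 0 := by
    intro h0; apply hF; linear_combination h0 - h * h2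
  have hdF : ph n (h + ph n h) = h + ph n h := by rw [map_add, hE, add_comm]
  have surj : ∀ y : L, ph n y = y → ∃ s : L, ph n s = s ∧ wp s = y := by
    intro y hy
    obtain ⟨s, hs, hs'⟩ := key (y / (h + ph n h)) (by rw [map_div₀, hy, hdF])
    refine ⟨s + ph n s, by rw [map_add, hs, add_comm], ?_⟩
    have e1 : wp (ph n s) = y / (h + ph n h) * ph n h := by
      have := congrArg (ph n) hs'
      rw [map_mul, map_div₀, hy, hdF] at this
      rw [← this]; simp only [wp, map_add, map_pow]
    rw [wp_add, hs', e1, ← mul_add]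
    field_simp
  -- but the range of `℘` on `F0` has index two
  have hidx := wpH_index (ph n : L →+* L)
  have htop : (wpH (ph n : L →+* L)).range = ⊤ := by
    rw [eq_top_iff]
    rintro ⟨y, hy⟩ _
    obtain ⟨s, hs, hs'⟩ := surj y hy
    exact ⟨⟨s, hs⟩, Subtype.ext hs'⟩
  rw [htop, AddSubgroup.index_top] at hidx
  norm_num at hidx

include hL hk hC in
/-- **step, complete** -/
theorem step_complete (hn : 1 ≤ n) (z : L) (hz : Nm n z ^ k ≠ 1) :
    ∃ x y : L, Nm n x ^ k = 1 ∧ Nm n y ^ k = 1 ∧ x + y = z := by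
  have h2 : (2 : L) = 0 := CharTwo.two_eq_zero
  by_cases hz0 : z = 0
  · refine ⟨1, 1, ?_, ?_, by rw [hz0]; exact CharTwo.add_self_eq_zero 1⟩ <;> simp [Nm]
  have hg0 : Nm n z ≠ 0 := by
    rw [Nm_pow]; exact pow_ne_zero _ hz0
  by_cases hF : ph n (Nm n z) = Nm n z
  · obtain ⟨a, b, ha, hb, hab⟩ := hC _ hF hz
    have root : ∀ w : L, ph n w = w → ∃ u : L, ph n u = u ∧ u ^ 2 = w := by
      intro w hw
      refine ⟨w ^ 2 ^ (n - 1), by rw [map_pow, hw], ?_⟩
      rw [← pow_mul, ← pow_succ, Nat.sub_add_cancel hn, ← ph_apply]; exact hw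
    have ha' := fix_of n k hk ha
    have hb' := fix_of n k hk hb
    obtain ⟨u, hu, hu2⟩ := root (a / Nm n z) (by rw [map_div₀, ha', hF])
    obtain ⟨v, hv, hv2⟩ := root (b / Nm n z) (by rw [map_div₀, hb', hF])
    have huN : Nm n (u * z) = a := by
      rw [Nm_mul]
      have : Nm n u = u ^ 2 := by rw [Nm, hu, hu, pow_two]
      rw [this, hu2]; field_simp
    have hvN : Nm n (v * z) = b := by
      rw [Nm_mul]
      have : Nm n v = v ^ 2 := by rw [Nm, hv, hv, pow_two]
      rw [this, hv2]; field_simp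
    have huv : (u + v + 1) ^ 2 = 0 := by
      have e : a / Nm n z + b / Nm n z = 1 := by rw [← add_div, hab, div_self hg0]
      linear_combination hu2 + hv2 + e + (u * v + u + v + 1) * h2
    have huv' : u + v = 1 := by
      have := pow_eq_zero_iff (two_ne_zero) |>.mp huv
      linear_combination this - h2
    refine ⟨u * z, v * z, by rw [huN]; exact ha, by rw [hvN]; exact hb, ?_⟩
    rw [← add_mul, huv', one_mul]
  · have hE := ph_Nm n hL z
    obtain ⟨a, ha, hna⟩ := exists_a n hL k hk hC hn (Nm n z)⁻¹ (by rw [map_inv₀, map_inv₀, hE])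
      (by rw [map_inv₀]; intro h; exact hF (inv_injective h))
    have ha' := fix_of n k hk ha
    obtain ⟨t1, ht1⟩ := exists_tr_one n hL
    -- γ = ℘ t1 ∈ E \ ℘ E
    have ht1' : ph n (ph n t1) = t1 + 1 := by linear_combination ht1 - t1 * h2
    have hγE : ph n (ph n (wp t1)) = wp t1 := by
      simp only [wp, map_add, map_pow, ht1']
      linear_combination (t1 + 1) * h2
    have hγ : ∀ s : L, ph n (ph n s) = s → wp s ≠ wp t1 := by
      intro s hs h
      rcases wp_eq h with h' | h'
      · rw [h', ht1'] at hs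
        exact one_ne_zero (α := L) (by linear_combination hs)
      · rw [h', map_add, map_add, map_one, map_one, ht1'] at hs
        exact one_ne_zero (α := L) (by linear_combination hs)
    have hidx := wpH_index ((ph n).comp (ph n) : L →+* L)
    have hβE : ph n (ph n (a * (Nm n z)⁻¹)) = a * (Nm n z)⁻¹ := by
      rw [map_mul, map_mul, ha', ha', map_inv₀, map_inv₀, hE]
    have hmem := AddSubgroup.add_mem_iff_of_index_two hidx
      (a := (⟨a * (Nm n z)⁻¹, hβE⟩ : fixAdd ((ph n).comp (ph n) : L →+* L)))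
      (b := ⟨wp t1, hγE⟩)
    have h3 : (⟨a * (Nm n z)⁻¹, hβE⟩ : fixAdd ((ph n).comp (ph n) : L →+* L))
        ∉ (wpH ((ph n).comp (ph n) : L →+* L)).range := by
      rintro ⟨s, hs⟩
      exact hna s.1 s.2 (congrArg Subtype.val hs)
    have h4 : (⟨wp t1, hγE⟩ : fixAdd ((ph n).comp (ph n) : L →+* L))
        ∉ (wpH ((ph n).comp (ph n) : L →+* L)).range := by
      rintro ⟨s, hs⟩
      exact hγ s.1 s.2 (congrArg Subtype.val hs)
    obtain ⟨e, he⟩ := hmem.mpr (iff_of_false h3 h4)
    have he1 : wp e.1 = a * (Nm n z)⁻¹ + wp t1 := congrArg Subtype.val he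
    have he2 : ph n (ph n e.1) = e.1 := e.2
    obtain ⟨t, ht⟩ : ∃ t, t = t1 + e.1 := ⟨_, rfl⟩
    have htr : ph n (ph n t) = t + 1 := by
      rw [ht, map_add, map_add, ht1', he2]; ring
    have hwt : wp t = a * (Nm n z)⁻¹ := by
      rw [ht, wp_add, he1]; linear_combination (wp t1) * h2
    have hN1 : Nm n (t * z) = a := by
      rw [Nm_mul]
      have : Nm n t = wp t := by rw [Nm, htr, wp]; ring
      rw [this, hwt]; field_simp
    have hN2 : Nm n ((t + 1) * z) = a := by
      rw [Nm_mul]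
      have : Nm n (t + 1) = wp t := by
        rw [Nm, map_add, map_add, map_one, map_one, htr, wp]
        linear_combination (t + 1) * h2
      rw [this, hwt]; field_simp
    refine ⟨t * z, (t + 1) * z, by rw [hN1]; exact ha, by rw [hN2]; exact ha, ?_⟩
    linear_combination (t * z) * h2

end step

/-- the field sizes -/
def Q (j : ℕ) : ℕ := 2 ^ 4 ^ j

/-- the group orders -/
def kk : ℕ → ℕ
  | 0 => 1
  | j + 1 => kk j * (Q j ^ 2 + 1)

lemma Q_succ (j : ℕ) : Q (j + 1) = Q j ^ 4 := by
  rw [Q, Q, ← pow_mul, ← pow_succ]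

lemma two_le_Q (j : ℕ) : 2 ≤ Q j := by
  rw [Q]
  calc 2 = 2 ^ 1 := rfl
    _ ≤ 2 ^ 4 ^ j := Nat.pow_le_pow_right (by norm_num) (Nat.one_le_pow _ _ (by norm_num))

lemma kk_dvd (j : ℕ) : kk j ∣ Q j - 1 := by
  induction j with
  | zero => exact one_dvd _
  | succ j ih =>
    have h : Q (j + 1) - 1 = (Q j - 1) * ((Q j ^ 2 + 1) * (Q j + 1)) := by
      rw [Q_succ]
      obtain ⟨a, ha⟩ : ∃ a, Q j = a + 1 := ⟨Q j - 1, by have := two_le_Q j; omega⟩
      rw [ha]
      simp only [Nat.add_sub_cancel]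
      have : (a + 1) ^ 4 = a * (((a + 1) ^ 2 + 1) * (a + 1 + 1)) + 1 := by ring
      omega
    rw [h, kk, ← mul_assoc]
    exact Dvd.dvd.mul_right (mul_dvd_mul ih dvd_rfl) _

lemma kk_pos (j : ℕ) : 0 < kk j := by
  induction j with
  | zero => exact Nat.one_pos
  | succ j ih => rw [kk]; positivity

lemma kk_cube (j : ℕ) : kk j ^ 3 ≤ Q j * (Q j - 1) := by
  rcases j with _ | j
  · decide
  induction j with
  | zero => decide
  | succ j ih =>
    have h16 : 16 ≤ Q (j + 1) := by
      rw [Q_succ]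
      calc 16 = 2 ^ 4 := by norm_num
        _ ≤ Q j ^ 4 := Nat.pow_le_pow_left (two_le_Q j) 4
    rw [Q_succ (j + 1), kk, mul_pow]
    obtain ⟨a, ha⟩ : ∃ a, Q (j + 1) = a + 1 := ⟨Q (j + 1) - 1, by omega⟩
    rw [ha] at ih h16 ⊢
    simp only [Nat.add_sub_cancel] at ih
    have e1 : (a + 1) ^ 4 - 1 = a * (((a + 1) ^ 2 + 1) * (a + 1 + 1)) := by
      have : (a + 1) ^ 4 = a * (((a + 1) ^ 2 + 1) * (a + 1 + 1)) + 1 := by ring
      omega
    rw [e1]
    have e2 : ((a + 1) ^ 2 + 1) ^ 2 ≤ (a + 1) ^ 3 * (a + 1 + 1) := by nlinarith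
    calc kk (j + 1) ^ 3 * ((a + 1) ^ 2 + 1) ^ 3
        ≤ ((a + 1) * a) * ((a + 1) ^ 2 + 1) ^ 3 := Nat.mul_le_mul_right _ ih
      _ = (a + 1) * a * ((a + 1) ^ 2 + 1) * ((a + 1) ^ 2 + 1) ^ 2 := by ring
      _ ≤ (a + 1) * a * ((a + 1) ^ 2 + 1) * ((a + 1) ^ 3 * (a + 1 + 1)) :=
          Nat.mul_le_mul_left _ e2
      _ = (a + 1) ^ 4 * (a * (((a + 1) ^ 2 + 1) * (a + 1 + 1))) := by ring

/-- the two properties of the group of `k`-th roots of unity -/
def Good (F : Type) [Field F] (k : ℕ) : Prop :=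
  (∀ x y : F, x ^ k = 1 → y ^ k = 1 → (x + y) ^ k ≠ 1) ∧
    ∀ z : F, z ^ k ≠ 1 → ∃ x y : F, x ^ k = 1 ∧ y ^ k = 1 ∧ x + y = z

/-- **the tower** -/
theorem tower (j : ℕ) : ∀ (F : Type) [Field F] [Fintype F], Fintype.card F = Q j →
    Good F (kk j) := by
  induction j with
  | zero =>
    intro F _ _ hF
    have hF2 : Fintype.card F = 2 ^ 1 := by rw [hF]; rfl
    have : CharP F 2 := charP_of_card_eq_prime_pow hF2
    constructor
    · intro x y hx hy h
      rw [kk, pow_one] at hx hy h
      rw [hx, hy, CharTwo.add_self_eq_zero] at h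
      exact zero_ne_one h
    · intro z hz
      rw [kk, pow_one] at hz
      refine ⟨1, 1, one_pow _, one_pow _, ?_⟩
      rw [CharTwo.add_self_eq_zero]
      by_contra h0
      classical
      have h3 : ({0, 1, z} : Finset F).card = 3 := by
        rw [Finset.card_eq_three]
        exact ⟨0, 1, z, zero_ne_one, h0, fun h => hz h.symm, rfl⟩
      have := Finset.card_le_univ ({0, 1, z} : Finset F)
      rw [h3, hF2] at this
      norm_num at this
  | succ j ih =>
    intro L _ _ hL
    obtain ⟨n, hn⟩ : ∃ n, n = 4 ^ j := ⟨_, rfl⟩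
    have hn1 : 1 ≤ n := by rw [hn]; exact Nat.one_le_pow _ _ (by norm_num)
    have hQn : Q j = 2 ^ n := by rw [hn]; rfl
    have hL' : Fintype.card L = 2 ^ (4 * n) := by
      rw [hL, Q_succ, hQn, ← pow_mul, mul_comm]
    have : CharP L 2 := charP_of_card_eq_prime_pow hL'
    letI : Algebra (ZMod 2) L := ZMod.algebra L 2
    letI : Fintype (GaloisField 2 n) := Fintype.ofFinite _
    have hcard0 : Fintype.card (GaloisField 2 n) = 2 ^ n := by
      rw [← Nat.card_eq_fintype_card, GaloisField.card 2 n (by omega)]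
    have hG := ih (GaloisField 2 n) (by rw [hcard0, hQn])
    have hfr : Module.finrank (ZMod 2) (GaloisField 2 n) ∣ Module.finrank (ZMod 2) L := by
      rw [GaloisField.finrank 2 (by omega)]
      have h1 : Fintype.card L = 2 ^ Module.finrank (ZMod 2) L := by
        rw [Module.card_eq_pow_finrank (K := ZMod 2) (V := L), ZMod.card]
      rw [hL'] at h1
      rw [← Nat.pow_right_injective (le_refl 2) h1]
      exact dvd_mul_left _ _
    obtain ⟨i⟩ := FiniteField.nonempty_algHom_of_finrank_dvd hfr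
    have hinj : Function.Injective i := i.injective
    have hk : kk j ∣ 2 ^ n - 1 := by rw [← hQn]; exact kk_dvd j
    -- the fixed points of `x ↦ x^(2^n)` are the image
    have hfix : ∀ x : L, ph n x = x → ∃ y, i y = x := by
      classical
      intro x hx
      have hq : 1 < 2 ^ n := Nat.one_lt_two_pow (by omega)
      let p : Polynomial L := Polynomial.X ^ (2 ^ n) - Polynomial.X
      have hp : p.natDegree = 2 ^ n := FiniteField.X_pow_card_sub_X_natDegree_eq L hq
      have hp0 : p ≠ 0 := FiniteField.X_pow_card_sub_X_ne_zero L hq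
      have hsub : (Finset.univ.image i) ⊆ p.roots.toFinset := by
        intro z hz
        rw [Finset.mem_image] at hz
        obtain ⟨y, _, rfl⟩ := hz
        rw [Multiset.mem_toFinset, Polynomial.mem_roots hp0]
        have : (i y) ^ 2 ^ n = i y := by rw [← map_pow, ← hcard0, FiniteField.pow_card]
        simp [p, this]
      have heq : Finset.univ.image i = p.roots.toFinset := by
        apply Finset.eq_of_subset_of_card_le hsub
        rw [Finset.card_image_of_injective _ hinj, Finset.card_univ, hcard0]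
        refine (Multiset.toFinset_card_le _).trans ?_
        rw [← hp]; exact Polynomial.card_roots' p
      have hxm : x ∈ p.roots.toFinset := by
        rw [Multiset.mem_toFinset, Polynomial.mem_roots hp0]
        rw [ph_apply] at hx
        simp [p, hx]
      rw [← heq, Finset.mem_image] at hxm
      obtain ⟨y, _, hy⟩ := hxm
      exact ⟨y, hy⟩
    have hS : ∀ x y : L, x ^ kk j = 1 → y ^ kk j = 1 → (x + y) ^ kk j ≠ 1 := by
      intro x y hx hy hxy
      obtain ⟨a, rfl⟩ := hfix x (fix_of n _ hk hx)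
      obtain ⟨b, rfl⟩ := hfix y (fix_of n _ hk hy)
      refine hG.1 a b (hinj ?_) (hinj ?_) (hinj ?_)
      · rw [map_pow, hx, map_one]
      · rw [map_pow, hy, map_one]
      · rw [map_pow, map_add, hxy, map_one]
    have hC : ∀ z : L, ph n z = z → z ^ kk j ≠ 1 →
        ∃ x y, x ^ kk j = 1 ∧ y ^ kk j = 1 ∧ x + y = z := by
      intro z hz hzk
      obtain ⟨c, rfl⟩ := hfix z hz
      obtain ⟨a, b, ha, hb, hab⟩ := hG.2 c (fun h => hzk (by rw [← map_pow, h, map_one]))
      exact ⟨i a, i b, by rw [← map_pow, ha, map_one], by rw [← map_pow, hb, map_one],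
        by rw [← map_add, hab]⟩
    have hN : ∀ x : L, x ^ kk (j + 1) = Nm n x ^ kk j := by
      intro x
      rw [Nm_pow, kk, hQn, ← pow_mul x, mul_comm]
    constructor
    · intro x y hx hy
      rw [hN] at hx hy ⊢
      exact step_sumfree n hL' _ hk hS x y hx hy
    · intro z hz
      rw [hN] at hz
      obtain ⟨x, y, hx, hy, hxy⟩ := step_complete n hL' _ hk hC hn1 z hz
      exact ⟨x, y, by rw [hN]; exact hx, by rw [hN]; exact hy, hxy⟩

/-- **final form** for `F` with `q^2` elements, `q = Q j ^ 2`, `k = kk j`: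
the group `{x | (x^(q+1))^k = 1}` is sum-free and complete. -/
theorem alphabet (j : ℕ) (F : Type) [Field F] [Fintype F] (hF : Fintype.card F = Q (j + 1)) :
    Fintype.card F = (Q j ^ 2) ^ 2 ∧ kk j ∣ Q j ^ 2 - 1 ∧
    (∀ x y : F, (x ^ (Q j ^ 2 + 1)) ^ kk j = 1 → (y ^ (Q j ^ 2 + 1)) ^ kk j = 1 →
      ((x + y) ^ (Q j ^ 2 + 1)) ^ kk j ≠ 1) ∧
    ∀ z : F, (z ^ (Q j ^ 2 + 1)) ^ kk j ≠ 1 →
      ∃ x y : F, (x ^ (Q j ^ 2 + 1)) ^ kk j = 1 ∧ (y ^ (Q j ^ 2 + 1)) ^ kk j = 1 ∧ x + y = z := by
  have e : ∀ x : F, (x ^ (Q j ^ 2 + 1)) ^ kk j = x ^ kk (j + 1) := fun x => by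
    rw [kk, ← pow_mul, mul_comm]
  obtain ⟨h1, h2⟩ := tower (j + 1) F hF
  refine ⟨by rw [hF, Q_succ, ← pow_mul], ?_, ?_, ?_⟩
  · refine (kk_dvd j).trans ⟨Q j + 1, ?_⟩
    obtain ⟨a, ha⟩ : ∃ a, Q j = a + 1 := ⟨Q j - 1, by have := two_le_Q j; omega⟩
    rw [ha]
    simp only [Nat.add_sub_cancel]
    have : (a + 1) ^ 2 = a * (a + 1 + 1) + 1 := by ring
    omega
  · intro x y hx hy
    rw [e] at hx hy ⊢
    exact h1 x y hx hy
  · intro z hz
    rw [e] at hz
    obtain ⟨x, y, hx, hy, hxy⟩ := h2 z hz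
    exact ⟨x, y, by rw [e]; exact hx, by rw [e]; exact hy, hxy⟩

/-- fields of these sizes exist -/
theorem exists_field (j : ℕ) : ∃ (F : Type) (_ : Field F) (_ : Fintype F), Fintype.card F = Q j := by
  letI : Fintype (GaloisField 2 (4 ^ j)) := Fintype.ofFinite _
  refine ⟨GaloisField 2 (4 ^ j), inferInstance, inferInstance, ?_⟩
  rw [← Nat.card_eq_fintype_card, GaloisField.card 2 _ (by positivity)]
  rfl

end Crest.Agent.R042.Tower767
private theorem rz_a5b97b87b5 : type_of% @_root_.Crest.Agent.R042.Tower767.kk.eq_def := @_root_.Crest.Agent.R042.Tower767.kk.eq_def -- L372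
private theorem rz_e0c0a327c2 : type_of% @_root_.Crest.Agent.R042.Tower767.kk.eq_1 := @_root_.Crest.Agent.R042.Tower767.kk.eq_1 -- L372
end

-- ▼ part R042/Tor_44
section

/-!
# Torus isolation and richness for helper341's alphabet (S0059, #23911 (2)-(4))

`F` finite field with `q ^ 2` elements, `N x = x ^ (q + 1)`.  Words are multilinear in the torus
coordinates: `ev c a = ∑ S, c S * ∏ i ∈ S, a i`.
-/

set_option linter.unusedSectionVars false
set_option autoImplicit false

open scoped BigOperators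
open Finset

namespace Crest.Agent.R042.Tor44

section fibre

variable {F : Type*} [Field F] [Fintype F] [DecidableEq F] {q : ℕ}

theorem two_le_q (hF : Fintype.card F = q ^ 2) : 2 ≤ q := by
  have h1 : 1 < Fintype.card F := Fintype.one_lt_card
  rw [hF] at h1
  by_contra h
  have : q = 0 ∨ q = 1 := by omega
  rcases this with h | h <;> simp [h] at h1


/-- values of the norm -/
theorem N_pow (hF : Fintype.card F = q ^ 2) {x : F} (hx : x ≠ 0) : (x ^ (q + 1)) ^ (q - 1) = 1 := by
  rw [← pow_mul]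
  have h2 := two_le_q hF
  have : (q + 1) * (q - 1) = Fintype.card F - 1 := by
    rw [hF]
    obtain ⟨k, rfl⟩ : ∃ k, q = k + 1 := ⟨q - 1, by omega⟩
    simp only [Nat.add_sub_cancel]
    have : (k + 1) ^ 2 = (k + 1 + 1) * k + 1 := by ring
    rw [this, Nat.add_sub_cancel]
  rw [this]
  exact FiniteField.pow_card_sub_one_eq_one x hx

theorem card_pow_eq_le (n : ℕ) (hn : 0 < n) (η : F) :
    (univ.filter (fun x : F => x ^ n = η)).card ≤ n := by
  classical
  have h : univ.filter (fun x : F => x ^ n = η) ⊆ (Polynomial.nthRoots n η).toFinset := by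
    intro x hx
    rw [Multiset.mem_toFinset, Polynomial.mem_nthRoots hn]
    exact (mem_filter.1 hx).2
  calc (univ.filter (fun x : F => x ^ n = η)).card ≤ ((Polynomial.nthRoots n η).toFinset).card :=
        card_le_card h
    _ ≤ Multiset.card (Polynomial.nthRoots n η) := Multiset.toFinset_card_le _
    _ ≤ n := Polynomial.card_nthRoots n η

/-- **(T1)** the norm fibres have exactly `q + 1` elements -/
theorem card_fibre (hF : Fintype.card F = q ^ 2) {η : F} (hη : η ^ (q - 1) = 1) :
    (univ.filter (fun x : F => x ^ (q + 1) = η)).card = q + 1 := by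
  have h2 := two_le_q hF
  set H : Finset F := univ.filter (fun x : F => x ^ (q - 1) = 1) with hH
  have hHc : H.card ≤ q - 1 := card_pow_eq_le (q - 1) (by omega) 1
  have hmaps : ∀ x ∈ (univ.filter (fun x : F => x ≠ 0)), x ^ (q + 1) ∈ H := by
    intro x hx
    rw [hH, mem_filter]
    exact ⟨mem_univ _, N_pow hF (mem_filter.1 hx).2⟩
  have hsum := Finset.card_eq_sum_card_fiberwise (f := fun x : F => x ^ (q + 1))
    (s := univ.filter (fun x : F => x ≠ 0)) (t := H) hmaps
  have hcard : (univ.filter (fun x : F => x ≠ 0)).card = (q - 1) * (q + 1) := by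
    have : (univ.filter (fun x : F => x ≠ 0)) = univ.erase 0 := by
      ext x; simp
    rw [this, card_erase_of_mem (mem_univ _), card_univ, hF]
    obtain ⟨k, rfl⟩ : ∃ k, q = k + 1 := ⟨q - 1, by omega⟩
    simp only [Nat.add_sub_cancel]
    have : (k + 1) ^ 2 = k * (k + 1 + 1) + 1 := by ring
    rw [this, Nat.add_sub_cancel]
  have hle : ∀ b ∈ H, ((univ.filter (fun x : F => x ≠ 0)).filter (fun x => x ^ (q + 1) = b)).card
      ≤ q + 1 := by
    intro b hb
    refine (card_le_card ?_).trans (card_pow_eq_le (q + 1) (by omega) b)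
    intro x hx
    rw [mem_filter] at hx ⊢
    exact ⟨mem_univ _, hx.2⟩
  have hηH : η ∈ H := by rw [hH, mem_filter]; exact ⟨mem_univ _, hη⟩
  have hη0 : η ≠ 0 := by
    intro h
    rw [h, zero_pow (by omega)] at hη
    exact zero_ne_one hη
  have heq : ((univ.filter (fun x : F => x ≠ 0)).filter (fun x => x ^ (q + 1) = η)) =
      univ.filter (fun x : F => x ^ (q + 1) = η) := by
    ext x
    simp only [mem_filter, mem_univ, true_and]
    constructor
    · exact fun h => h.2
    · intro h
      refine ⟨?_, h⟩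
      intro hx
      rw [hx, zero_pow (by omega)] at h
      exact hη0 h.symm
  rw [← heq]
  apply le_antisymm (hle η hηH)
  by_contra hlt
  push Not at hlt
  have : ∑ b ∈ H, ((univ.filter (fun x : F => x ≠ 0)).filter (fun x => x ^ (q + 1) = b)).card <
      ∑ b ∈ H, (q + 1) := Finset.sum_lt_sum hle ⟨η, hηH, hlt⟩
  rw [← hsum, sum_const, smul_eq_mul, hcard] at this
  have h3 : H.card * (q + 1) ≤ (q - 1) * (q + 1) := Nat.mul_le_mul_right _ hHc
  omega

/-- conjugation on a norm fibre -/
theorem conj_fibre {x η : F} (hη : η ≠ 0) (h : x ^ (q + 1) = η) : x ≠ 0 ∧ x ^ q * x = η := by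
  constructor
  · intro hx
    rw [hx, zero_pow (by omega)] at h
    exact hη h.symm
  · rw [← pow_succ]; exact h

theorem add_pow_q (hF : Fintype.card F = q ^ 2) (x y : F) : (x + y) ^ q = x ^ q + y ^ q := by
  obtain ⟨p, hc, n, hp, hn⟩ := FiniteField.card' F
  have hpf : Fact p.Prime := ⟨hp⟩
  have hd : q ∣ p ^ (n : ℕ) := by
    rw [← hn, hF]; exact dvd_pow_self q (by norm_num)
  obtain ⟨m, -, hm⟩ := (Nat.dvd_prime_pow hp).1 hd
  rw [hm]
  exact add_pow_char_pow x y p m

theorem quad_roots {a b c : F} (ha : a ≠ 0) :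
    (univ.filter (fun x : F => a * x ^ 2 + b * x + c = 0)).card ≤ 2 := by
  classical
  set P : Polynomial F := Polynomial.C a * Polynomial.X ^ 2 + Polynomial.C b * Polynomial.X +
    Polynomial.C c with hP
  have hdeg : P.natDegree = 2 := Polynomial.natDegree_quadratic ha
  have hP0 : P ≠ 0 := by
    intro h
    rw [h] at hdeg
    simp at hdeg
  have h : univ.filter (fun x : F => a * x ^ 2 + b * x + c = 0) ⊆ P.roots.toFinset := by
    intro x hx
    rw [Multiset.mem_toFinset, Polynomial.mem_roots hP0, Polynomial.IsRoot.def]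
    simp only [hP, Polynomial.eval_add, Polynomial.eval_mul, Polynomial.eval_C,
      Polynomial.eval_pow, Polynomial.eval_X]
    exact (mem_filter.1 hx).2
  calc _ ≤ (P.roots.toFinset).card := card_le_card h
    _ ≤ Multiset.card P.roots := Multiset.toFinset_card_le _
    _ ≤ P.natDegree := Polynomial.card_roots' _
    _ = 2 := hdeg

/-- the quadratic equation on a norm fibre -/
theorem quad_count (hF : Fintype.card F = q ^ 2) {α β η : F} (d : F) (hα : α ≠ 0) (hβ : β ≠ 0)
    (hη : η ≠ 0) :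
    (univ.filter (fun x : F => x ^ (q + 1) = η ∧ (α + x * β) ^ (q + 1) = d)).card ≤ 2 := by
  refine (card_le_card ?_).trans (quad_roots (a := α ^ q * β)
    (b := α ^ q * α + η * (β ^ q * β) - d) (c := η * (β ^ q * α)) (mul_ne_zero (pow_ne_zero _ hα) hβ))
  intro x hx
  obtain ⟨h1, h2⟩ := (mem_filter.1 hx).2
  rw [mem_filter]
  refine ⟨mem_univ _, ?_⟩
  obtain ⟨hx0, hxη⟩ := conj_fibre hη h1
  have e1 : (α + x * β) ^ q = α ^ q + x ^ q * β ^ q := by
    rw [add_pow_q hF, mul_pow]
  rw [pow_succ, e1] at h2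
  linear_combination x * h2 - (β ^ q * (α + x * β)) * hxη

theorem quad_count_D (hF : Fintype.card F = q ^ 2) {α β η : F} (D : Finset F) (hα : α ≠ 0)
    (hβ : β ≠ 0) (hη : η ≠ 0) :
    (univ.filter (fun x : F => x ^ (q + 1) = η ∧ (α + x * β) ^ (q + 1) ∈ D)).card ≤ 2 * D.card := by
  classical
  have : univ.filter (fun x : F => x ^ (q + 1) = η ∧ (α + x * β) ^ (q + 1) ∈ D) =
      D.biUnion (fun d => univ.filter (fun x : F => x ^ (q + 1) = η ∧ (α + x * β) ^ (q + 1) = d)) := by
    ext x
    simp only [mem_filter, mem_univ, true_and, mem_biUnion]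
    constructor
    · rintro ⟨a, b⟩; exact ⟨_, b, a, rfl⟩
    · rintro ⟨d, b, a, rfl⟩; exact ⟨a, b⟩
  rw [this]
  calc _ ≤ ∑ d ∈ D, (univ.filter (fun x : F => x ^ (q + 1) = η ∧ (α + x * β) ^ (q + 1) = d)).card :=
        card_biUnion_le
    _ ≤ ∑ d ∈ D, 2 := sum_le_sum fun d _ => quad_count hF d hα hβ hη
    _ = 2 * D.card := by rw [sum_const, smul_eq_mul, mul_comm]

end fibre

/-! ## multilinear words -/

section words

variable {R : Type*} [CommRing R] {ι : Type*} [Fintype ι] [DecidableEq ι]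

/-- value of the multilinear polynomial with coefficients `c` -/
def ev (c : Finset ι → R) (a : ι → R) : R := ∑ S : Finset ι, c S * ∏ i ∈ S, a i







end words

/-! ## Schwartz-Zippel for multilinear words -/

section sz

variable {F : Type*} [Field F] [DecidableEq F] {J : ℕ}

/-- exponent of a squarefree monomial -/
noncomputable def ind (S : Finset (Fin J)) : Fin J →₀ ℕ := Finsupp.equivFunOnFinite.symm (fun i => if i ∈ S then 1 else 0)

theorem ind_apply (S : Finset (Fin J)) (i : Fin J) : ind S i = if i ∈ S then 1 else 0 := rfl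

theorem ind_inj {S T : Finset (Fin J)} (h : ind S = ind T) : S = T := by
  ext i
  have := DFunLike.congr_fun h i
  rw [ind_apply, ind_apply] at this
  by_cases h1 : i ∈ S <;> by_cases h2 : i ∈ T <;> simp_all

theorem ind_sum (S : Finset (Fin J)) : ∑ i, ind S i = S.card := by
  simp [ind_apply]

/-- the multilinear polynomial -/
noncomputable def pol (c : Finset (Fin J) → F) : MvPolynomial (Fin J) F :=
  ∑ S : Finset (Fin J), MvPolynomial.monomial (ind S) (c S)

theorem eval_pol (c : Finset (Fin J) → F) (a : Fin J → F) : MvPolynomial.eval a (pol c) = ev c a := by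
  unfold pol ev
  rw [map_sum]
  refine sum_congr rfl fun S _ => ?_
  rw [MvPolynomial.eval_monomial]
  congr 1
  rw [Finsupp.prod_fintype _ _ (fun i => pow_zero _)]
  simp only [ind_apply]
  rw [← Finset.prod_subset (Finset.subset_univ S)]
  · refine prod_congr rfl fun i hi => ?_
    simp [hi]
  · intro i _ hi
    simp [hi]

theorem coeff_pol (c : Finset (Fin J) → F) (S : Finset (Fin J)) :
    MvPolynomial.coeff (ind S) (pol c) = c S := by
  unfold pol
  rw [MvPolynomial.coeff_sum]
  simp only [MvPolynomial.coeff_monomial]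
  rw [Finset.sum_eq_single S]
  · simp
  · intro T _ hT
    rw [if_neg]
    intro h
    exact hT (ind_inj h)
  · intro h; exact absurd (mem_univ _) h

theorem support_pol (c : Finset (Fin J) → F) {s : Fin J →₀ ℕ} (hs : s ∈ (pol c).support) :
    ∃ S, c S ≠ 0 ∧ s = ind S := by
  rw [MvPolynomial.mem_support_iff] at hs
  unfold pol at hs
  rw [MvPolynomial.coeff_sum] at hs
  obtain ⟨S, -, hS⟩ := Finset.exists_ne_zero_of_sum_ne_zero hs
  rw [MvPolynomial.coeff_monomial] at hS
  by_cases h : ind S = s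
  · rw [if_pos h] at hS; exact ⟨S, hS, h.symm⟩
  · rw [if_neg h] at hS; exact absurd rfl hS

/-- Schwartz-Zippel for multilinear words of degree at most `m` on a grid of side `M` -/
theorem sz {c : Finset (Fin J) → F} (hc : c ≠ 0) {m : ℕ} (hm : ∀ S, m < S.card → c S = 0)
    (T : Fin J → Finset F) {M : ℕ} (hM : 0 < M) (hT : ∀ i, (T i).card = M) (hJ : 0 < J) :
    ((Fintype.piFinset T).filter (fun a => ev c a = 0)).card ≤ m * M ^ (J - 1) := by
  have hp : pol c ≠ 0 := by
    intro h
    apply hc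
    funext S
    rw [← coeff_pol c S, h]
    simp
  have h := MvPolynomial.schwartz_zippel_sup_sum hp T
  simp only [eval_pol] at h
  have hle : ((pol c).support.sup fun s ↦ ∑ i, ((s i : ℚ≥0) / ((T i).card : ℚ≥0))) ≤
      (m : ℚ≥0) / M := by
    refine Finset.sup_le fun s hs => ?_
    obtain ⟨S, hS, rfl⟩ := support_pol c hs
    have h1 : S.card ≤ m := by
      by_contra hlt
      exact hS (hm S (by omega))
    simp only [hT]
    rw [← Finset.sum_div]
    have h2 : (∑ i, ((ind S i : ℕ) : ℚ≥0)) = (S.card : ℚ≥0) := by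
      rw [← Nat.cast_sum, ind_sum]
    rw [h2]
    gcongr
  have h' := h.trans hle
  have hM' : (0 : ℚ≥0) < M := by exact_mod_cast hM
  have hprod : (∏ i, ((T i).card : ℚ≥0)) = (M : ℚ≥0) ^ J := by
    simp [hT]
  rw [hprod, div_le_iff₀ (pow_pos hM' J)] at h'
  have hJ' : (M : ℚ≥0) ^ J = M ^ (J - 1) * M := by
    rw [← pow_succ]; congr 1; omega
  have h3 : (m : ℚ≥0) / M * M ^ J = m * M ^ (J - 1) := by
    rw [hJ']; field_simp
  rw [h3] at h'
  exact_mod_cast h'

end sz

/-! ## isolation -/

section iso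

variable {F : Type*} [Field F] [Fintype F] [DecidableEq F] {q J : ℕ}






/-- **(T3)** a monomial word `x * a^S` -/
def mono (x : F) (S : Finset (Fin J)) : Finset (Fin J) → F := fun T => if T = S then x else 0



/-- `K = {x | N x ^ k = 1}` -/
def KK (F : Type*) [Field F] [Fintype F] [DecidableEq F] (q k : ℕ) : Finset F :=
  univ.filter (fun x : F => (x ^ (q + 1)) ^ k = 1)

theorem mem_KK {k : ℕ} {x : F} : x ∈ KK F q k ↔ (x ^ (q + 1)) ^ k = 1 := by
  simp [KK]



end iso

/-! ## richness (second moment) -/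

section rich


variable {G : Type*} [CommGroup G] [Fintype G] [DecidableEq G] {J : ℕ}

/-- multiply the coordinate `j` by `t` -/
def shift (j : Fin J) (t : G) : Equiv.Perm (Fin J → G) where
  toFun y := Function.update y j (t * y j)
  invFun y := Function.update y j (t⁻¹ * y j)
  left_inv y := by
    funext i
    by_cases h : i = j
    · subst h; simp
    · simp [h]
  right_inv y := by
    funext i
    by_cases h : i = j
    · subst h; simp
    · simp [h]





/-- number of representations of `g` as a product of exactly `r` coordinates -/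
def X (r : ℕ) (g : G) (y : Fin J → G) : ℕ :=
  ((powersetCard r (univ : Finset (Fin J))).filter (fun S => ∏ i ∈ S, y i = g)).card



theorem X_ne {r : ℕ} {g : G} {y : Fin J → G} (h : X r g y ≠ 0) :
    ∃ S : Finset (Fin J), S.card = r ∧ ∏ i ∈ S, y i = g := by
  obtain ⟨S, hS⟩ := card_pos.1 (Nat.pos_of_ne_zero h)
  obtain ⟨h1, h2⟩ := mem_filter.1 hS
  exact ⟨S, (mem_powersetCard.1 h1).2, h2⟩

/-- covered quotients: all pairs of values are taken by one word `c * a^S` -/
theorem rich {r : ℕ} {a b : Fin J → G} (h : ∀ g, X r g (fun i => a i / b i) ≠ 0) (g g' : G) :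
    ∃ (c : G) (S : Finset (Fin J)), S.card = r ∧ c * ∏ i ∈ S, a i = g ∧ c * ∏ i ∈ S, b i = g' := by
  obtain ⟨S, hS, hp⟩ := X_ne (h (g / g'))
  rw [Finset.prod_div_distrib] at hp
  refine ⟨g' * (∏ i ∈ S, b i)⁻¹, S, hS, ?_, by group⟩
  have : ∏ i ∈ S, a i = g / g' * ∏ i ∈ S, b i := by rw [← hp, div_mul_cancel]
  rw [this, div_eq_mul_inv]
  calc g' * (∏ i ∈ S, b i)⁻¹ * (g * g'⁻¹ * ∏ i ∈ S, b i)
      = g * (g' * g'⁻¹) * ((∏ i ∈ S, b i)⁻¹ * ∏ i ∈ S, b i) := by
        simp only [mul_comm, mul_left_comm, mul_assoc]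
    _ = g := by group


end rich

end Crest.Agent.R042.Tor44
end

-- ▼ part R042/Alph_767
section

/-!
Row 42, S0059: the alphabet in the form consumed by the construction (`Tower_767` + `Tor_44`).
-/

set_option autoImplicit false

namespace Crest.Agent.R042.Alph767

open Finset Tower767 Tor44

/-- a digit field `k0` of characteristic two with a small sum-free complete group `K` -/
structure Alph (k0 : Type) [Field k0] [Fintype k0] [DecidableEq k0] (K : Finset k0) (β : ℝ) :
    Prop where
  one : (1 : k0) ∈ K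
  mul : ∀ x ∈ K, ∀ y ∈ K, x * y ∈ K
  inv : ∀ x ∈ K, x⁻¹ ∈ K
  zero : (0 : k0) ∉ K
  neg : ∀ x ∈ K, -x ∈ K
  sumfree : ∀ x ∈ K, ∀ y ∈ K, x + y ∉ K
  complete : ∀ z, z ∉ K → ∃ x ∈ K, ∃ y ∈ K, x + y = z
  small : (K.card : ℝ) ≤ β * Fintype.card k0
  trans : ∀ l c : k0, l ≠ 0 → c ≠ 0 → (((K.filter fun u => l * u + c ∈ K).card : ℕ) : ℝ) ≤ β * K.card
  big : 1 ≤ β * K.card

section
variable {F : Type} [Field F] [Fintype F] [DecidableEq F]

lemma card_KK_le {q k : ℕ} (hk : 0 < k) : (KK F q k).card ≤ k * (q + 1) := by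
  have h : KK F q k ⊆ univ.filter (fun x : F => x ^ ((q + 1) * k) = 1) := by
    intro x hx
    rw [mem_KK] at hx
    rw [mem_filter]
    exact ⟨mem_univ _, by rw [pow_mul]; exact hx⟩
  refine (card_le_card h).trans ((card_pow_eq_le _ (by positivity) 1).trans ?_)
  rw [mul_comm]

lemma card_KK_ge {q k : ℕ} (hF : Fintype.card F = q ^ 2) : q + 1 ≤ (KK F q k).card := by
  rw [← card_fibre hF (η := (1 : F)) (one_pow _)]
  apply card_le_card
  intro x hx
  rw [mem_filter] at hx
  rw [mem_KK, hx.2, one_pow]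

lemma trans_KK {q k : ℕ} (hF : Fintype.card F = q ^ 2) (hk : 0 < k) (l c : F) (hl : l ≠ 0)
    (hc : c ≠ 0) : ((KK F q k).filter fun u => l * u + c ∈ KK F q k).card ≤ 2 * k ^ 2 := by
  set D : Finset F := univ.filter (fun x : F => x ^ k = 1) with hD
  have hDc : D.card ≤ k := card_pow_eq_le k hk 1
  have hsub : ((KK F q k).filter fun u => l * u + c ∈ KK F q k)
      ⊆ D.biUnion fun η => univ.filter fun x : F => x ^ (q + 1) = η ∧ (c + x * l) ^ (q + 1) ∈ D := by
    intro u hu
    rw [mem_filter, mem_KK, mem_KK] at hu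
    rw [mem_biUnion]
    refine ⟨u ^ (q + 1), ?_, ?_⟩
    · rw [hD, mem_filter]; exact ⟨mem_univ _, hu.1⟩
    · rw [mem_filter]
      refine ⟨mem_univ _, rfl, ?_⟩
      rw [hD, mem_filter]
      refine ⟨mem_univ _, ?_⟩
      have e : c + u * l = l * u + c := by ring
      rw [e]; exact hu.2
  refine (card_le_card hsub).trans (card_biUnion_le.trans ?_)
  calc ∑ η ∈ D, (univ.filter fun x : F => x ^ (q + 1) = η ∧ (c + x * l) ^ (q + 1) ∈ D).card
      ≤ ∑ _η ∈ D, 2 * k := by
        apply sum_le_sum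
        intro η hη
        have hη0 : η ≠ 0 := by
          rintro rfl
          rw [hD, mem_filter, zero_pow hk.ne'] at hη
          exact zero_ne_one hη.2
        exact (quad_count_D hF D hc hl hη0).trans (Nat.mul_le_mul_left 2 hDc)
    _ = D.card * (2 * k) := by rw [sum_const, smul_eq_mul]
    _ ≤ k * (2 * k) := Nat.mul_le_mul_right _ hDc
    _ = 2 * k ^ 2 := by ring

end

lemma le_Q (j : ℕ) : j ≤ Q j := by
  rw [Q]
  exact (Nat.lt_pow_self (by norm_num : 1 < 4)).le.trans (Nat.lt_two_pow_self).le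

/-- **the face**: every field with `Q (j+1)` elements -/
theorem alph_of (β : ℝ) (hβ : 0 < β) (hβ1 : β ≤ 1) (j : ℕ) (hj : 8 / β ^ 3 ≤ j)
    (F : Type) [Field F] [Fintype F] [DecidableEq F] (hF : Fintype.card F = Q (j + 1)) :
    Alph F (KK F (Q j ^ 2) (kk j)) β := by
  obtain ⟨hF2, _, hsf, hco⟩ := alphabet j F hF
  have hchar : CharP F 2 := charP_of_card_eq_prime_pow (f := 4 ^ (j + 1)) hF
  have hk0 := kk_pos j
  obtain ⟨q, hq⟩ : ∃ q, q = Q j ^ 2 := ⟨_, rfl⟩
  obtain ⟨k, hk⟩ : ∃ k, k = kk j := ⟨_, rfl⟩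
  rw [← hq, ← hk] at hsf hco ⊢
  rw [← hq] at hF2
  rw [← hk] at hk0
  have hk3 : k ^ 3 ≤ q := by
    rw [hk, hq, pow_two]
    exact (kk_cube j).trans (Nat.mul_le_mul_left _ (Nat.sub_le _ _))
  have hk3' : (k : ℝ) ^ 3 ≤ q := by exact_mod_cast hk3
  have hQ2 := two_le_Q j
  have hqj : (j : ℝ) ≤ q := by
    have : j ≤ q := by rw [hq]; nlinarith [le_Q j]
    exact_mod_cast this
  have hq8 : 8 ≤ β ^ 3 * q := by
    have h3 : 8 / β ^ 3 ≤ q := hj.trans hqj
    rw [div_le_iff₀ (by positivity)] at h3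
    linarith
  have hq1 : (1 : ℝ) ≤ q := by
    have : 1 ≤ q := by rw [hq]; nlinarith
    exact_mod_cast this
  have hkr : (0 : ℝ) < k := by exact_mod_cast hk0
  -- `2 k ≤ β q`
  have h2k : 2 * (k : ℝ) ≤ β * q := by
    have h1 : (2 * (k : ℝ)) ^ 3 ≤ (β * q) ^ 3 := by
      have e1 : (2 * (k : ℝ)) ^ 3 = 8 * (k : ℝ) ^ 3 := by ring
      have e2 : (β * q) ^ 3 = (β ^ 3 * q) * (q * q) := by ring
      rw [e1, e2]
      have h3 : (8 : ℝ) * (k : ℝ) ^ 3 ≤ 8 * q := by linarith
      have h4 : (8 : ℝ) * q ≤ (β ^ 3 * q) * (q * q) := by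
        have h5 : (q : ℝ) ≤ q * q := by nlinarith
        have h6 : (0 : ℝ) ≤ q := by linarith
        calc (8 : ℝ) * q ≤ (β ^ 3 * q) * q := mul_le_mul_of_nonneg_right hq8 h6
          _ ≤ (β ^ 3 * q) * (q * q) := mul_le_mul_of_nonneg_left h5 (by positivity)
      linarith
    exact le_of_pow_le_pow_left₀ (by norm_num) (by positivity) h1
  have h2k2 : 2 * (k : ℝ) ^ 2 ≤ β * q := by
    have h1 : (2 * (k : ℝ) ^ 2) ^ 3 ≤ (β * q) ^ 3 := by
      have e1 : (2 * (k : ℝ) ^ 2) ^ 3 = 8 * ((k : ℝ) ^ 3 * (k : ℝ) ^ 3) := by ring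
      have e2 : (β * q) ^ 3 = (β ^ 3 * q) * (q * q) := by ring
      rw [e1, e2]
      have h3 : (k : ℝ) ^ 3 * (k : ℝ) ^ 3 ≤ q * q := mul_le_mul hk3' hk3' (by positivity) (by linarith)
      calc (8 : ℝ) * ((k : ℝ) ^ 3 * (k : ℝ) ^ 3) ≤ (β ^ 3 * q) * ((k : ℝ) ^ 3 * (k : ℝ) ^ 3) :=
            mul_le_mul_of_nonneg_right hq8 (by positivity)
        _ ≤ (β ^ 3 * q) * (q * q) := mul_le_mul_of_nonneg_left h3 (by positivity)
    exact le_of_pow_le_pow_left₀ (by norm_num) (by positivity) h1
  have hge : ((q : ℝ) + 1) ≤ (KK F q k).card := by exact_mod_cast card_KK_ge (k := k) hF2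
  have hle : ((KK F q k).card : ℝ) ≤ k * (q + 1) := by exact_mod_cast card_KK_le (F := F) (q := q) hk0
  refine ⟨?_, ?_, ?_, ?_, ?_, ?_, ?_, ?_, ?_, ?_⟩
  · rw [mem_KK, one_pow, one_pow]
  · intro x hx y hy
    rw [mem_KK] at *
    rw [mul_pow, mul_pow, hx, hy, mul_one]
  · intro x hx
    rw [mem_KK] at *
    rw [inv_pow, inv_pow, hx, inv_one]
  · rw [mem_KK, zero_pow (by omega), zero_pow hk0.ne']
    exact zero_ne_one
  · intro x hx
    rwa [CharTwo.neg_eq]
  · intro x hx y hy
    rw [mem_KK] at *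
    exact hsf x y hx hy
  · intro z hz
    rw [mem_KK] at hz
    obtain ⟨x, y, hx, hy, hxy⟩ := hco z hz
    exact ⟨x, mem_KK.mpr hx, y, mem_KK.mpr hy, hxy⟩
  · rw [hF2]
    push_cast
    calc ((KK F q k).card : ℝ) ≤ k * (q + 1) := hle
      _ ≤ k * (2 * q) := mul_le_mul_of_nonneg_left (by linarith) hkr.le
      _ = (2 * k) * q := by ring
      _ ≤ (β * q) * q := mul_le_mul_of_nonneg_right h2k (by linarith)
      _ = β * (q : ℝ) ^ 2 := by ring
  · intro l c hl hc
    have h1 : (((KK F q k).filter fun u => l * u + c ∈ KK F q k).card : ℝ) ≤ 2 * (k : ℝ) ^ 2 := by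
      exact_mod_cast trans_KK hF2 hk0 l c hl hc
    refine h1.trans (h2k2.trans (mul_le_mul_of_nonneg_left (by linarith) hβ.le))
  · have h1 : 1 ≤ β * q := by nlinarith [h2k, (by exact_mod_cast hk0 : (1 : ℝ) ≤ k)]
    exact h1.trans (mul_le_mul_of_nonneg_left (by linarith) hβ.le)

/-- **existence** with an explicit shape of the field size -/
theorem exists_alph (β : ℝ) (hβ : 0 < β) (hβ1 : β ≤ 1) :
    ∃ (k0 : Type) (_ : Field k0) (_ : Fintype k0) (_ : DecidableEq k0) (K : Finset k0),
      CharP k0 2 ∧ Alph k0 K β := by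
  classical
  obtain ⟨j, hj⟩ := exists_nat_ge (8 / β ^ 3)
  obtain ⟨F, hf, hft, hF⟩ := exists_field (j + 1)
  exact ⟨F, hf, hft, Classical.decEq F, _, charP_of_card_eq_prime_pow (f := 4 ^ (j + 1)) hF,
    @alph_of β hβ hβ1 j hj F hf hft (Classical.decEq F) hF⟩

end Crest.Agent.R042.Alph767
end

-- ▼ part R042/Iso_543
section

/-!
# Isolation for the frozen family (row 42 / S0059)

`P ⟂ P'`, `w` a `k0`-functional of the window `U_{P,P'}` which is not in `S`
(i.e. not of the form `c * tau_l`, `c ∈ K`): for all but a fraction `3 β` of the types `R ⟂ P, P'`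
the value `w (u_R)` is not in `K`.
-/

set_option autoImplicit false
set_option linter.unusedSectionVars false

namespace Crest.Agent.R042.Iso543

open Finset Crest.Agent.R042.Fam543 Crest.Agent.R042.RowWin543

/-! ## Double counting on a box -/

section box

variable {ι A : Type*} [Fintype ι] [DecidableEq ι] [DecidableEq A]

/-- resampling one coordinate -/
theorem resample (K : Finset A) (l : ι) (p : (ι → A) → Prop) [DecidablePred p] :
    ∑ E ∈ Fintype.piFinset (fun _ : ι => K), (K.filter fun u => p (Function.update E l u)).card =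
      K.card * ((Fintype.piFinset (fun _ : ι => K)).filter p).card := by
  set EE := Fintype.piFinset (fun _ : ι => K) with hEE
  have h1 : ∑ E ∈ EE, (K.filter fun u => p (Function.update E l u)).card =
      ((EE ×ˢ K).filter fun x : (ι → A) × A => p (Function.update x.1 l x.2)).card := by
    rw [card_filter, sum_product]
    exact sum_congr rfl fun E _ => by rw [card_filter]
  have h2 : K.card * (EE.filter p).card = ((EE ×ˢ K).filter fun x : (ι → A) × A => p x.1).card := by
    have h3 : ((EE ×ˢ K).filter fun x : (ι → A) × A => p x.1) = (EE.filter p) ×ˢ K := by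
      ext x
      simp only [mem_filter, mem_product]
      tauto
    rw [h3, card_product, mul_comm]
  rw [h1, h2]
  refine card_bij' (fun x _ => (Function.update x.1 l x.2, x.1 l))
    (fun x _ => (Function.update x.1 l x.2, x.1 l)) ?_ ?_ ?_ ?_
  · rintro ⟨E, u⟩ hx
    simp only [mem_filter, mem_product, hEE, Fintype.mem_piFinset] at hx ⊢
    refine ⟨⟨fun i => ?_, hx.1.1 l⟩, hx.2⟩
    by_cases hi : i = l
    · subst hi; simpa using hx.1.2
    · rw [Function.update_of_ne hi]; exact hx.1.1 i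
  · rintro ⟨E, u⟩ hx
    simp only [mem_filter, mem_product, hEE, Fintype.mem_piFinset] at hx ⊢
    refine ⟨⟨fun i => ?_, hx.1.1 l⟩, ?_⟩
    · by_cases hi : i = l
      · subst hi; simpa using hx.1.2
      · rw [Function.update_of_ne hi]; exact hx.1.1 i
    · simpa using hx.2
  · rintro ⟨E, u⟩ _
    simp
  · rintro ⟨E, u⟩ _
    simp

theorem resample_le (K : Finset A) (l : ι) (p : (ι → A) → Prop) [DecidablePred p] (c : ℝ)
    (h : ∀ E ∈ Fintype.piFinset (fun _ : ι => K),
      ((K.filter fun u => p (Function.update E l u)).card : ℝ) ≤ c * K.card) (hK : 0 < K.card) :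
    (((Fintype.piFinset (fun _ : ι => K)).filter p).card : ℝ) ≤
      c * (Fintype.piFinset (fun _ : ι => K)).card := by
  have h1 := resample K l p
  have h2 : (K.card : ℝ) * ((Fintype.piFinset (fun _ : ι => K)).filter p).card ≤
      (Fintype.piFinset (fun _ : ι => K)).card * (c * K.card) := by
    have : ((K.card * ((Fintype.piFinset (fun _ : ι => K)).filter p).card : ℕ) : ℝ) ≤
        (Fintype.piFinset (fun _ : ι => K)).card * (c * K.card) := by
      rw [← h1]
      push_cast
      calc ∑ E ∈ Fintype.piFinset (fun _ : ι => K),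
            ((K.filter fun u => p (Function.update E l u)).card : ℝ)
          ≤ ∑ _E ∈ Fintype.piFinset (fun _ : ι => K), c * K.card := sum_le_sum h
        _ = _ := by rw [sum_const, nsmul_eq_mul]
    exact_mod_cast this
  have hK' : (0 : ℝ) < K.card := by exact_mod_cast hK
  nlinarith

end box

/-! ## Linear words over `K ^ L` -/

section lin

variable {k0 : Type} [Field k0] [DecidableEq k0] {L : ℕ}

theorem lin_two (K : Finset k0) (β : ℝ)
    (h2 : (1 : ℝ) ≤ β * K.card)
    (h4 : ∀ c r : k0, c ≠ 0 → r ≠ 0 → ((K.filter fun u => c * u + r ∈ K).card : ℝ) ≤ β * K.card)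
    (c : Fin L → k0) {l₁ l₂ : Fin L} (hl : l₁ ≠ l₂) (hc₁ : c l₁ ≠ 0) (hc₂ : c l₂ ≠ 0)
    (hK : 0 < K.card) :
    (((Fintype.piFinset (fun _ : Fin L => K)).filter fun E => ∑ l, c l * E l ∈ K).card : ℝ) ≤
      2 * β * (Fintype.piFinset (fun _ : Fin L => K)).card := by
  set EE := Fintype.piFinset (fun _ : Fin L => K) with hEE
  -- the rest
  let r : (Fin L → k0) → k0 := fun E => ∑ l ∈ univ.erase l₁, c l * E l
  have hr1 : ∀ E u, r (Function.update E l₁ u) = r E := by
    intro E u
    refine sum_congr rfl fun l hl => ?_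
    rw [Function.update_of_ne (ne_of_mem_erase hl)]
  have hsum : ∀ E : Fin L → k0, ∑ l, c l * E l = c l₁ * E l₁ + r E := by
    intro E
    rw [← add_sum_erase univ _ (mem_univ l₁)]
  have hr2 : ∀ E u, r (Function.update E l₂ u) =
      c l₂ * u + ∑ l ∈ (univ.erase l₁).erase l₂, c l * E l := by
    intro E u
    show ∑ l ∈ univ.erase l₁, c l * Function.update E l₂ u l = _
    rw [← add_sum_erase (univ.erase l₁) _ (mem_erase.2 ⟨hl.symm, mem_univ l₂⟩),
      Function.update_self]
    congr 1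
    refine sum_congr rfl fun l hl => ?_
    rw [Function.update_of_ne (ne_of_mem_erase hl)]
  have b1 : ((EE.filter fun E => r E = 0).card : ℝ) ≤ β * EE.card := by
    refine resample_le K l₂ _ β ?_ hK
    intro E _
    refine le_trans ?_ h2
    have : (K.filter fun u => r (Function.update E l₂ u) = 0).card ≤ 1 := by
      rw [card_le_one]
      intro u hu v hv
      have e1 := (mem_filter.1 hu).2
      have e2 := (mem_filter.1 hv).2
      rw [hr2] at e1 e2
      have : c l₂ * u = c l₂ * v := by linear_combination e1 - e2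
      exact mul_left_cancel₀ hc₂ this
    exact_mod_cast this
  have b2 : ((EE.filter fun E => r E ≠ 0 ∧ ∑ l, c l * E l ∈ K).card : ℝ) ≤ β * EE.card := by
    refine resample_le K l₁ _ β ?_ hK
    intro E _
    by_cases h0 : r E = 0
    · have : (K.filter fun u => r (Function.update E l₁ u) ≠ 0 ∧
          ∑ l, c l * Function.update E l₁ u l ∈ K) = ∅ := by
        refine filter_eq_empty_iff.2 fun u _ h => h.1 ?_
        rw [hr1]; exact h0
      rw [this, card_empty, Nat.cast_zero]
      linarith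
    · refine le_trans ?_ (h4 (c l₁) (r E) hc₁ h0)
      have : (K.filter fun u => r (Function.update E l₁ u) ≠ 0 ∧
          ∑ l, c l * Function.update E l₁ u l ∈ K) ⊆ K.filter fun u => c l₁ * u + r E ∈ K := by
        intro u hu
        obtain ⟨hu1, _, hu3⟩ := mem_filter.1 hu
        rw [hsum, Function.update_self, hr1] at hu3
        exact mem_filter.2 ⟨hu1, hu3⟩
      exact_mod_cast card_le_card this
  have hsub : (EE.filter fun E => ∑ l, c l * E l ∈ K) ⊆
      (EE.filter fun E => r E = 0) ∪ (EE.filter fun E => r E ≠ 0 ∧ ∑ l, c l * E l ∈ K) := by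
    intro E hE
    obtain ⟨h1, h2⟩ := mem_filter.1 hE
    by_cases h0 : r E = 0
    · exact mem_union_left _ (mem_filter.2 ⟨h1, h0⟩)
    · exact mem_union_right _ (mem_filter.2 ⟨h1, h0, h2⟩)
  have h5 := (card_le_card hsub).trans (card_union_le _ _)
  have h6 : ((EE.filter fun E => ∑ l, c l * E l ∈ K).card : ℝ) ≤
      (EE.filter fun E => r E = 0).card +
        (EE.filter fun E => r E ≠ 0 ∧ ∑ l, c l * E l ∈ K).card := by exact_mod_cast h5
  linarith

/-- a linear word of `K ^ L` which is not a word of `S` takes few values in `K` -/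
theorem lin_all (K : Finset k0) (hK : Alph (K : Set k0)) (β : ℝ)
    (h2 : (1 : ℝ) ≤ β * K.card)
    (h4 : ∀ c r : k0, c ≠ 0 → r ≠ 0 → ((K.filter fun u => c * u + r ∈ K).card : ℝ) ≤ β * K.card)
    (c : Fin L → k0) (hc : ¬ ∃ l, c l ∈ K ∧ ∀ l', l' ≠ l → c l' = 0) :
    (((Fintype.piFinset (fun _ : Fin L => K)).filter fun E => ∑ l, c l * E l ∈ K).card : ℝ) ≤
      2 * β * (Fintype.piFinset (fun _ : Fin L => K)).card := by
  have hKc : 0 < K.card := card_pos.2 ⟨1, hK.one⟩
  have hβ : 0 ≤ β := by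
    have : (0 : ℝ) < K.card := by exact_mod_cast hKc
    by_contra h
    push Not at h
    nlinarith
  by_cases h : ∃ l₁ l₂, l₁ ≠ l₂ ∧ c l₁ ≠ 0 ∧ c l₂ ≠ 0
  · obtain ⟨l₁, l₂, hl, h1, h3⟩ := h
    exact lin_two K β h2 h4 c hl h1 h3 hKc
  · push Not at h
    have hempty : ((Fintype.piFinset (fun _ : Fin L => K)).filter
        fun E => ∑ l, c l * E l ∈ K) = ∅ := by
      refine filter_eq_empty_iff.2 fun E hE hs => ?_
      rw [Fintype.mem_piFinset] at hE
      by_cases h0 : ∃ l, c l ≠ 0
      · obtain ⟨l, hl⟩ := h0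
        have hz : ∀ l', l' ≠ l → c l' = 0 := fun l' h' => h l l' (Ne.symm h') hl
        have hsum : ∑ l', c l' * E l' = c l * E l := by
          refine sum_eq_single l (fun l' _ h' => by rw [hz l' h', zero_mul]) ?_
          intro h'; exact absurd (mem_univ _) h'
        rw [hsum] at hs
        refine hc ⟨l, ?_, hz⟩
        have hE0 : E l ≠ 0 := hK.ne_zero (hE l)
        have := hK.mul _ hs _ (hK.inv _ (hE l))
        rwa [mul_assoc, mul_inv_cancel₀ hE0, mul_one] at this
      · push Not at h0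
        rw [sum_eq_zero fun l _ => by rw [h0 l, zero_mul]] at hs
        exact hK.ne_zero hs rfl
    rw [hempty, card_empty, Nat.cast_zero]
    positivity

end lin

/-! ## The trace -/

section trace

variable {k0 KK : Type} [Field k0] [Field KK] [Algebra k0 KK] [Fintype k0] [Fintype KK]

theorem exists_tr {V : Type*} [AddCommGroup V] [Module KK V] [Module k0 V]
    [IsScalarTower k0 KK V] (φ : V →ₗ[k0] k0) :
    ∃ W : V →ₗ[KK] KK, ∀ v, Algebra.trace k0 KK (W v) = φ v := by
  have hnd := traceForm_nondegenerate k0 KK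
  let D := (Algebra.traceForm k0 KK).toDual hnd
  let ψ : V → Module.Dual k0 KK := fun v =>
    { toFun := fun c => φ (c • v)
      map_add' := fun a b => by rw [add_smul, map_add]
      map_smul' := fun a b => by rw [smul_assoc, map_smul]; rfl }
  have hψ : ∀ v c, ψ v c = φ (c • v) := fun _ _ => rfl
  have key : ∀ v c, Algebra.trace k0 KK (D.symm (ψ v) * c) = φ (c • v) := by
    intro v c
    have h := LinearMap.BilinForm.apply_toDual_symm_apply (hB := hnd) (ψ v) c
    rw [Algebra.traceForm_apply] at h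
    rw [← hψ]
    exact h
  have uniq : ∀ x y : KK, (∀ c, Algebra.trace k0 KK (x * c) = Algebra.trace k0 KK (y * c)) →
      x = y := by
    intro x y h
    apply D.injective
    refine LinearMap.ext fun c => ?_
    have h1 : D x c = Algebra.traceForm k0 KK x c := LinearMap.BilinForm.toDual_def hnd
    have h2 : D y c = Algebra.traceForm k0 KK y c := LinearMap.BilinForm.toDual_def hnd
    rw [h1, h2, Algebra.traceForm_apply, Algebra.traceForm_apply]
    exact h c
  refine ⟨{ toFun := fun v => D.symm (ψ v), map_add' := ?_, map_smul' := ?_ }, ?_⟩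
  · intro v v'
    apply uniq
    intro c
    rw [add_mul, map_add, key, key, key, smul_add, map_add]
  · intro a v
    apply uniq
    intro c
    rw [key, RingHom.id_apply, smul_eq_mul]
    have : a * D.symm (ψ v) * c = D.symm (ψ v) * (c * a) := by ring
    rw [this, key, mul_smul]
  · intro v
    have := key v 1
    rw [mul_one, one_smul] at this
    exact this

variable [DecidableEq k0] [DecidableEq KK]

theorem lam_count (G : KK) (hG : ∀ c : k0, algebraMap k0 KK c ≠ G) (K : Finset k0) :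
    (univ.filter fun lam : KK => Algebra.trace k0 KK lam = 1 ∧
      Algebra.trace k0 KK (lam * G) ∈ K).card * Fintype.card k0 =
      K.card * (univ.filter fun lam : KK => Algebra.trace k0 KK lam = 1).card := by
  let T : KK →ₗ[k0] k0 × k0 := (Algebra.trace k0 KK).prod
    ((Algebra.trace k0 KK).comp (LinearMap.mulRight k0 G))
  have hT : ∀ x, T x = (Algebra.trace k0 KK x, Algebra.trace k0 KK (x * G)) := fun _ => rfl
  have hsurj : Function.Surjective T := by
    rw [← LinearMap.range_eq_top]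
    by_contra hne
    obtain ⟨g, hg0, hg⟩ := Submodule.exists_le_ker_of_lt_top _ (lt_top_iff_ne_top.mpr hne)
    -- `g (a, b) = g1 a + g2 b`
    set g1 := g (1, 0) with hg1
    set g2 := g (0, 1) with hg2
    have hgab : ∀ a b : k0, g (a, b) = g1 * a + g2 * b := by
      intro a b
      have : (a, b) = a • ((1, 0) : k0 × k0) + b • ((0, 1) : k0 × k0) := by
        ext <;> simp
      rw [this, map_add, map_smul, map_smul, smul_eq_mul, smul_eq_mul]
      ring
    have hz : ∀ x : KK, Algebra.trace k0 KK ((g1 • (1 : KK) + g2 • G) * x) = 0 := by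
      intro x
      have h1 : g (T x) = 0 := by
        have : T x ∈ LinearMap.range T := ⟨x, rfl⟩
        exact LinearMap.mem_ker.mp (hg this)
      rw [hT, hgab] at h1
      have h2 : (g1 • (1 : KK) + g2 • G) * x = g1 • x + g2 • (x * G) := by
        rw [add_mul, smul_mul_assoc, one_mul, smul_mul_assoc, mul_comm G x]
      rw [h2, map_add, map_smul, map_smul, smul_eq_mul, smul_eq_mul]
      exact h1
    have h3 : g1 • (1 : KK) + g2 • G = 0 := by
      have hnd := traceForm_nondegenerate k0 KK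
      exact hnd.1 _ fun x => by rw [Algebra.traceForm_apply]; exact hz x
    by_cases h4 : g2 = 0
    · rw [h4, zero_smul, add_zero, smul_eq_zero] at h3
      rcases h3 with h3 | h3
      · apply hg0
        refine LinearMap.ext fun x => ?_
        obtain ⟨a, b⟩ := x
        rw [hgab, h3, h4]; simp
      · exact one_ne_zero h3
    · apply hG (-(g2⁻¹ * g1))
      have h5 : G = -((g2⁻¹ * g1) • (1 : KK)) := by
        have : g2⁻¹ • (g1 • (1 : KK) + g2 • G) = 0 := by rw [h3, smul_zero]
        rw [smul_add, smul_smul, smul_smul, inv_mul_cancel₀ h4, one_smul] at this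
        exact eq_neg_of_add_eq_zero_right this
      rw [h5, map_neg, Algebra.algebraMap_eq_smul_one]
  have hfib : ∀ a b : k0, (univ.filter fun x : KK => T x = (a, b)).card *
      Fintype.card (k0 × k0) = Fintype.card KK := fun a b =>
    card_fibre T.toAddMonoidHom hsurj (a, b)
  have hpos : 0 < Fintype.card (k0 × k0) := Fintype.card_pos
  obtain ⟨f, hf⟩ : ∃ f, ∀ a b : k0, (univ.filter fun x : KK => T x = (a, b)).card = f := by
    refine ⟨(univ.filter fun x : KK => T x = (0, 0)).card, fun a b => ?_⟩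
    exact Nat.eq_of_mul_eq_mul_right hpos ((hfib a b).trans (hfib 0 0).symm)
  have hcount : ∀ S : Finset k0, (univ.filter fun lam : KK => Algebra.trace k0 KK lam = 1 ∧
      Algebra.trace k0 KK (lam * G) ∈ S).card = S.card * f := by
    intro S
    rw [card_eq_sum_card_fiberwise (f := fun lam => Algebra.trace k0 KK (lam * G)) (t := S)
      (fun x hx => (mem_filter.1 hx).2.2)]
    rw [sum_congr rfl (g := fun _ => f), sum_const, smul_eq_mul]
    intro b hb
    rw [← hf 1 b]
    congr 1
    ext x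
    simp only [mem_filter, mem_univ, true_and, hT, Prod.mk.injEq]
    constructor
    · rintro ⟨⟨h1, _⟩, h2⟩; exact ⟨h1, h2⟩
    · rintro ⟨h1, h2⟩; exact ⟨⟨h1, by rw [h2]; exact hb⟩, h2⟩
  have h1 := hcount K
  have h2 := hcount univ
  have h3 : (univ.filter fun lam : KK => Algebra.trace k0 KK lam = 1 ∧
      Algebra.trace k0 KK (lam * G) ∈ (univ : Finset k0)).card =
      (univ.filter fun lam : KK => Algebra.trace k0 KK lam = 1).card := by
    congr 1; ext x; simp
  rw [h3] at h2
  rw [h1, h2, card_univ]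
  ring

end trace

/-! ## The common perp of two perpendicular types -/

section perp

variable {KK : Type} [Field KK] {d kp : ℕ}

theorem B_add_right (x y z : Ix d → KK) : B x (y + z) = B x y + B x z := by
  rw [B_comm, B_add_left, B_comm y, B_comm z]

theorem B_smul_right (c : KK) (x y : Ix d → KK) : B x (c • y) = c * B x y := by
  rw [B_comm, B_smul_left, B_comm]

/-- the common perp -/
def NN (p p' : Ix d → KK) : Submodule KK (Ix d → KK) where
  carrier := {h | B p h = 0 ∧ B p' h = 0}
  add_mem' := by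
    rintro a b ⟨h1, h2⟩ ⟨h3, h4⟩
    exact ⟨by rw [B_add_right, h1, h3, add_zero], by rw [B_add_right, h2, h4, add_zero]⟩
  zero_mem' := ⟨by simp [B], by simp [B]⟩
  smul_mem' := by
    rintro c a ⟨h1, h2⟩
    exact ⟨by rw [B_smul_right, h1, mul_zero], by rw [B_smul_right, h2, mul_zero]⟩


/-- the pair as a family -/
def pf (p p' : Ix d → KK) : Bool → Ix d → KK := fun c => cond c p p'

variable [CharP KK 2]

theorem pf_ortho {p p' : Ix d → KK} (hp : p none = 1) (hp' : p' none = 1) (h : B p p' = 0)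
    (k k' : Bool) : B (pf p p' k) (pf p p' k') = if k = k' then 1 else 0 := by
  rcases k with _ | _ <;> rcases k' with _ | _
  · simp [pf, B_self, hp']
  · simp [pf, B_comm p' p, h]
  · simp [pf, h]
  · simp [pf, B_self, hp]

theorem pm_mem_NN {p p' : Ix d → KK} (hp : p none = 1) (hp' : p' none = 1) (h : B p p' = 0)
    (b : Ix d) : PhiSZ543.pm (pf p p') (pf p p') b ∈ NN p p' :=
  ⟨PhiSZ543.B_pm (pf p p') (pf p p') (pf_ortho hp hp' h) b true,
    PhiSZ543.B_pm (pf p p') (pf p p') (pf_ortho hp hp' h) b false⟩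

theorem pm_none {p p' : Ix d → KK} (hp : p none = 1) (hp' : p' none = 1) :
    PhiSZ543.pm (pf p p') (pf p p') none none = 1 := by
  unfold PhiSZ543.pm
  rw [Fintype.sum_bool, sw_none]
  simp only [pf, cond_true, cond_false, hp, hp', if_true, mul_one]
  rw [CharTwo.add_self_eq_zero, add_zero]

variable [Fintype KK]

open Classical in
theorem sz_T (e : ℕ) (he : 0 < e) (hcard : Fintype.card KK = (2 ^ e) ^ kp)
    {p p' : Ix d → KK} (hp : p none = 1) (hp' : p' none = 1) (h : B p p' = 0)
    (W : U0 KK d kp →ₗ[KK] KK) {t : U0 KK d kp} (ht : t ∈ T1 (2 ^ e) p) (ht' : t ∈ T1 (2 ^ e) p')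
    (hW : W t ≠ 0) :
    (univ.filter fun b : Ix d → KK => (b ∈ NN p p' ∧ b none = 1) ∧ W (Phi (2 ^ e) b) = 0).card *
      (2 ^ e - 1) ≤ (univ.filter fun b : Ix d → KK => b ∈ NN p p' ∧ b none = 1).card := by
  obtain ⟨be, hbe⟩ := PhiSZ543.exists_PhiV e (pf p p') (pf p p') (t := t)
    (fun k => by rcases k with _ | _ <;> assumption) W hW
  exact PhiSZ543.sz_N e he hcard (NN p p') (pm_mem_NN hp hp' h none) (pm_none hp hp') W
    ⟨_, fun i => pm_mem_NN hp hp' h (be i), hbe⟩

end perp

/-! ## The main theorem -/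

section main

open scoped Classical
open Crest.Agent.R042.Inst592

variable {k0 KK : Type} [Field k0] [Field KK] [Algebra k0 KK] [Fintype k0] [Fintype KK]
  [DecidableEq k0] {d L kp : ℕ}

theorem famAlph {K : Finset k0} {β : ℝ} (hK : Alph767.Alph k0 K β) : Fam543.Alph (K : Set k0) where
  one := hK.one
  mul := hK.mul
  inv := hK.inv
  neg := hK.neg
  sumfree := hK.sumfree
  complete := hK.complete

/-- counting in the product -/
theorem card_Om (K : Finset k0) (φ : (Ix d → KK) → KK → (Fin L → k0) → Prop)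
    [∀ b lam E, Decidable (φ b lam E)] (X : Finset (Ix d → KK)) (hX : ∀ b lam E, φ b lam E → b none = 1 → b ∈ X)
    (hX' : ∀ b ∈ X, b none = 1) :
    (univ.filter fun R : Om KK (K : Set k0) d L => φ R.1.b R.1.lam R.1.E).card =
      (((X ×ˢ (univ.filter fun lam : KK => Algebra.trace k0 KK lam = 1)) ×ˢ
        (Fintype.piFinset fun _ : Fin L => K)).filter fun z => φ z.1.1 z.1.2 z.2).card := by
  refine card_bij (fun R _ => ((R.1.b, R.1.lam), R.1.E)) ?_ ?_ ?_
  · intro R hR
    have hR' := (mem_filter.1 hR).2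
    refine mem_filter.2 ⟨mem_product.2 ⟨mem_product.2 ⟨hX _ _ _ hR' R.2.b0,
      mem_filter.2 ⟨mem_univ _, R.2.lam⟩⟩, ?_⟩, hR'⟩
    rw [Fintype.mem_piFinset]
    exact fun l => mem_coe.1 (R.2.E l)
  · intro R _ R' _ h
    obtain ⟨h1, h2⟩ := Prod.mk.inj h
    obtain ⟨h3, h4⟩ := Prod.mk.inj h1
    exact Subtype.ext (Ty.ext h3 h4 h2)
  · rintro ⟨⟨b, lam⟩, E⟩ hz
    obtain ⟨h1, h2⟩ := mem_filter.1 hz
    obtain ⟨h3, h4⟩ := mem_product.1 h1
    obtain ⟨h5, h6⟩ := mem_product.1 h3
    rw [Fintype.mem_piFinset] at h4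
    refine ⟨⟨⟨b, lam, E⟩, ⟨hX' b h5, (mem_filter.1 h6).2, fun l => mem_coe.2 (h4 l)⟩⟩, ?_, rfl⟩
    exact mem_filter.2 ⟨mem_univ _, h2⟩

variable [CharP KK 2]

theorem iso {K : Finset k0} {β : ℝ} (hK : Alph767.Alph k0 K β) (e : ℕ) (he : 0 < e)
    (hcard : Fintype.card KK = (2 ^ e) ^ kp)
    (hQ : (Fintype.card k0 : ℝ) ≤ β * ((2 : ℝ) ^ e - 1))
    (P P' : Om KK (K : Set k0) d L) (hPP : Perp P.1 P'.1)
    (w : U KK d kp L →ₗ[k0] k0)
    (hw : ¬ ∃ c ∈ K, ∃ l, ∀ z ∈ UPQ (2 ^ e) kp P.1 P'.1, w z = c * tau k0 (z l)) :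
    ((univ.filter fun R : Om KK (K : Set k0) d L => (Perp P.1 R.1 ∧ Perp P'.1 R.1) ∧
      w (uvec (2 ^ e) kp R.1) ∈ K).card : ℝ) ≤ 3 * β *
      (univ.filter fun R : Om KK (K : Set k0) d L => Perp P.1 R.1 ∧ Perp P'.1 R.1).card := by
  have hFK := famAlph hK
  have hKc : 0 < K.card := card_pos.2 ⟨1, hK.one⟩
  have hKr : (0 : ℝ) < K.card := by exact_mod_cast hKc
  have hβ : 0 ≤ β := by
    have := hK.big
    by_contra h
    push Not at h
    nlinarith
  have hq0 : (0 : ℝ) < Fintype.card k0 := by exact_mod_cast Fintype.card_pos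
  set p := P.1.b with hp
  set p' := P'.1.b with hp'
  have hpn : p none = 1 := P.2.b0
  have hpn' : p' none = 1 := P'.2.b0
  have hB : B p p' = 0 := hPP
  -- the words as `KK`-functionals
  have hWex : ∀ l : Fin L, ∃ W : U0 KK d kp →ₗ[KK] KK,
      ∀ t, Algebra.trace k0 KK (W t) = w (Pi.single l t) := by
    intro l
    exact exists_tr (k0 := k0) (KK := KK) (w.comp (LinearMap.single k0 (fun _ : Fin L => U0 KK d kp) l))
  choose W hW using hWex
  have hwsum : ∀ z : U KK d kp L, w z = ∑ l, Algebra.trace k0 KK (W l (z l)) := by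
    intro z
    have hz : z = ∑ l, Pi.single l (z l) := (Finset.univ_sum_single z).symm
    conv_lhs => rw [hz]
    rw [map_sum]
    exact sum_congr rfl fun l _ => (hW l _).symm
  let WE : (Fin L → k0) → (U0 KK d kp →ₗ[KK] KK) := fun E => ∑ l, algebraMap k0 KK (E l) • W l
  have hWE : ∀ E t, WE E t = ∑ l, algebraMap k0 KK (E l) * W l t := by
    intro E t
    simp only [WE, LinearMap.sum_apply, LinearMap.smul_apply, smul_eq_mul]
  have hval : ∀ R : Ty k0 KK d L, w (uvec (2 ^ e) kp R) =
      Algebra.trace k0 KK (R.lam * WE R.E (Phi (2 ^ e) R.b)) := by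
    intro R
    rw [hwsum, hWE, mul_sum, map_sum]
    refine sum_congr rfl fun l _ => ?_
    congr 1
    simp only [uvec, map_smul, smul_eq_mul]
    ring
  -- the sets
  set X := univ.filter fun b : Ix d → KK => b ∈ NN p p' ∧ b none = 1 with hX
  set Lam := univ.filter fun lam : KK => Algebra.trace k0 KK lam = 1 with hLam
  set EE := Fintype.piFinset fun _ : Fin L => K with hEE
  have hXn : (0 : ℝ) ≤ X.card := Nat.cast_nonneg _
  have hLn : (0 : ℝ) ≤ Lam.card := Nat.cast_nonneg _
  have hEn : (0 : ℝ) ≤ EE.card := Nat.cast_nonneg _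
  have c1 : (univ.filter fun R : Om KK (K : Set k0) d L => (Perp P.1 R.1 ∧ Perp P'.1 R.1) ∧
      w (uvec (2 ^ e) kp R.1) ∈ K).card = (((X ×ˢ Lam) ×ˢ EE).filter fun z =>
        Algebra.trace k0 KK (z.1.2 * WE z.2 (Phi (2 ^ e) z.1.1)) ∈ K).card := by
    have h1 := card_Om K (fun (b : Ix d → KK) lam E => (B p b = 0 ∧ B p' b = 0) ∧
      Algebra.trace k0 KK (lam * WE E (Phi (2 ^ e) b)) ∈ K) X
      (fun b lam E h h' => mem_filter.2 ⟨mem_univ _, h.1, h'⟩) (fun b hb => (mem_filter.1 hb).2.2)
    have h2 : (univ.filter fun R : Om KK (K : Set k0) d L => (Perp P.1 R.1 ∧ Perp P'.1 R.1) ∧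
        w (uvec (2 ^ e) kp R.1) ∈ K) = (univ.filter fun R : Om KK (K : Set k0) d L =>
        (B p R.1.b = 0 ∧ B p' R.1.b = 0) ∧
        Algebra.trace k0 KK (R.1.lam * WE R.1.E (Phi (2 ^ e) R.1.b)) ∈ K) := by
      ext R
      simp only [mem_filter, mem_univ, true_and, hval]
      rfl
    rw [h2, h1]
    congr 1
    refine filter_congr fun z hz => ?_
    have hz' := (mem_filter.1 (mem_product.1 (mem_product.1 hz).1).1).2.1
    exact ⟨fun h => h.2, fun h => ⟨hz', h⟩⟩
  have c2 : (univ.filter fun R : Om KK (K : Set k0) d L => Perp P.1 R.1 ∧ Perp P'.1 R.1).card =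
      X.card * Lam.card * EE.card := by
    have h1 := card_Om (L := L) K (fun (b : Ix d → KK) (lam : KK) (E : Fin L → k0) =>
      B p b = 0 ∧ B p' b = 0) X
      (fun b lam E h h' => mem_filter.2 ⟨mem_univ _, h, h'⟩) (fun b hb => (mem_filter.1 hb).2.2)
    have h2 : (univ.filter fun R : Om KK (K : Set k0) d L => Perp P.1 R.1 ∧ Perp P'.1 R.1) =
        (univ.filter fun R : Om KK (K : Set k0) d L => B p R.1.b = 0 ∧ B p' R.1.b = 0) := rfl
    rw [h2, h1, filter_true_of_mem, card_product, card_product]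
    intro z hz
    exact (mem_filter.1 (mem_product.1 (mem_product.1 hz).1).1).2.1
  rw [c1, c2]
  push_cast
  by_cases hA : ∀ l, ∃ c : k0, ∀ t ∈ T1 (2 ^ e) p ⊓ T1 (2 ^ e) p',
      W l t = algebraMap k0 KK c * t fun _ => none
  · -- Case B: a word of the coordinates `E`
    choose c hc using hA
    have hwz : ∀ z ∈ UPQ (2 ^ e) kp P.1 P'.1, w z = ∑ l, c l * tau k0 (z l) := by
      intro z hz
      rw [hwsum]
      refine sum_congr rfl fun l _ => ?_
      have hz' := Submodule.mem_inf.1 hz
      rw [hc l (z l) (Submodule.mem_inf.2 ⟨mem_UP.1 hz'.1 l, mem_UP.1 hz'.2 l⟩)]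
      rw [← Algebra.smul_def, map_smul, smul_eq_mul, tau_apply]
    have hc' : ¬ ∃ l, c l ∈ K ∧ ∀ l', l' ≠ l → c l' = 0 := by
      rintro ⟨l, hl, hl'⟩
      refine hw ⟨c l, hl, l, fun z hz => ?_⟩
      rw [hwz z hz]
      refine sum_eq_single l (fun l' _ h' => by rw [hl' l' h', zero_mul]) ?_
      intro h'; exact absurd (mem_univ _) h'
    have hcount := lin_all K hFK β hK.big hK.trans c hc'
    have hvalE : ∀ z ∈ (X ×ˢ Lam) ×ˢ EE,
        Algebra.trace k0 KK (z.1.2 * WE z.2 (Phi (2 ^ e) z.1.1)) = ∑ l, c l * z.2 l := by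
      rintro ⟨⟨b, lam⟩, E⟩ hz
      obtain ⟨h3, _⟩ := mem_product.1 hz
      obtain ⟨h5, h6⟩ := mem_product.1 h3
      have h7 := (mem_filter.1 h5).2
      have h8 := (mem_filter.1 h6).2
      dsimp only
      have h9 : ∀ l, W l (Phi (2 ^ e) b) = algebraMap k0 KK (c l) := by
        intro l
        rw [hc l _ (Submodule.mem_inf.2 ⟨Phi_mem_T1 e h7.1.1, Phi_mem_T1 e h7.1.2⟩),
          Phi_none b h7.2, mul_one]
      rw [hWE, mul_sum, map_sum]
      refine sum_congr rfl fun l _ => ?_
      rw [h9]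
      have : lam * (algebraMap k0 KK (E l) * algebraMap k0 KK (c l)) = (c l * E l) • lam := by
        rw [Algebra.smul_def, map_mul]; ring
      rw [this, map_smul, h8, smul_eq_mul, mul_one]
    rw [filter_congr fun z hz => by rw [hvalE z hz]]
    have h10 : (((X ×ˢ Lam) ×ˢ EE).filter fun z => ∑ l, c l * z.2 l ∈ K) =
        (X ×ˢ Lam) ×ˢ (EE.filter fun E => ∑ l, c l * E l ∈ K) := by
      ext z
      simp only [mem_filter, mem_product]
      tauto
    rw [h10, card_product, card_product]
    push_cast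
    have h11 : (0 : ℝ) ≤ (X.card : ℝ) * Lam.card := mul_nonneg hXn hLn
    have h13 := mul_le_mul_of_nonneg_left hcount h11
    have h14 : (0 : ℝ) ≤ β * (X.card * Lam.card * EE.card) :=
      mul_nonneg hβ (mul_nonneg h11 hEn)
    nlinarith
  · -- Case A
    push Not at hA
    obtain ⟨l0, hl0⟩ := hA
    -- bad `E`
    let bad : (Fin L → k0) → Prop := fun E => ∃ c : k0, ∀ t ∈ T1 (2 ^ e) p ⊓ T1 (2 ^ e) p',
      WE E t = algebraMap k0 KK c * t fun _ => none
    have hbad : ((EE.filter bad).card : ℝ) ≤ β * EE.card := by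
      refine resample_le K l0 bad β ?_ hKc
      intro E _
      refine le_trans ?_ hK.big
      have : (K.filter fun u => bad (Function.update E l0 u)).card ≤ 1 := by
        rw [card_le_one]
        intro u hu v hv
        obtain ⟨a, ha⟩ := (mem_filter.1 hu).2
        obtain ⟨a', ha'⟩ := (mem_filter.1 hv).2
        by_contra huv
        have huv' : u - v ≠ 0 := sub_ne_zero.2 huv
        obtain ⟨t, ht, htne⟩ := hl0 ((a - a') / (u - v))
        apply htne
        have e1 := ha t ht
        have e2 := ha' t ht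
        rw [hWE, ← add_sum_erase univ _ (mem_univ l0), Function.update_self] at e1 e2
        have e3 : ∀ x : k0, ∑ l ∈ univ.erase l0,
            algebraMap k0 KK (Function.update E l0 x l) * W l t =
            ∑ l ∈ univ.erase l0, algebraMap k0 KK (E l) * W l t := by
          intro x
          refine sum_congr rfl fun l hl => ?_
          rw [Function.update_of_ne (ne_of_mem_erase hl)]
        rw [e3] at e1 e2
        have hne : algebraMap k0 KK (u - v) ≠ 0 := by
          rw [Ne, map_eq_zero]; exact huv'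
        have e4 : algebraMap k0 KK (u - v) * W l0 t =
            algebraMap k0 KK (a - a') * t fun _ => none := by
          rw [map_sub, map_sub]
          linear_combination e1 - e2
        rw [map_div₀]
        field_simp
        linear_combination e4
      exact_mod_cast this
    -- the count for one good `E`
    let cnt : (Fin L → k0) → ℕ := fun E => ((X ×ˢ Lam).filter fun z =>
      Algebra.trace k0 KK (z.2 * WE E (Phi (2 ^ e) z.1)) ∈ K).card
    have hcnt1 : ∀ E, (cnt E : ℝ) ≤ X.card * Lam.card := by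
      intro E
      have := card_filter_le (X ×ˢ Lam) fun z =>
        Algebra.trace k0 KK (z.2 * WE E (Phi (2 ^ e) z.1)) ∈ K
      rw [card_product] at this
      exact_mod_cast this
    have hcnt2 : ∀ E, ¬ bad E → (cnt E : ℝ) ≤ 2 * β * (X.card * Lam.card) := by
      intro E hE
      have hE' : ∀ c : k0, ∃ t ∈ T1 (2 ^ e) p ⊓ T1 (2 ^ e) p',
          WE E t ≠ algebraMap k0 KK c * t fun _ => none := by
        intro c
        by_contra hcon
        push Not at hcon
        exact hE ⟨c, hcon⟩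
      -- the `b` with value in `k0`
      have hb1 : ∀ c : k0, ((X.filter fun b => WE E (Phi (2 ^ e) b) = algebraMap k0 KK c).card : ℝ) *
          ((2 : ℝ) ^ e - 1) ≤ X.card := by
        intro c
        obtain ⟨t, ht, htne⟩ := hE' c
        obtain ⟨ht1, ht2⟩ := Submodule.mem_inf.1 ht
        have h1 := sz_T e he hcard hpn hpn' hB
          (WE E - (algebraMap k0 KK c) • (LinearMap.proj (fun _ => none) : U0 KK d kp →ₗ[KK] KK))
          ht1 ht2 (by
            rw [LinearMap.sub_apply, LinearMap.smul_apply, LinearMap.proj_apply, smul_eq_mul]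
            exact sub_ne_zero.2 htne)
        have h2 : (X.filter fun b => WE E (Phi (2 ^ e) b) = algebraMap k0 KK c) =
            (univ.filter fun b : Ix d → KK => (b ∈ NN p p' ∧ b none = 1) ∧
              (WE E - (algebraMap k0 KK c) •
                (LinearMap.proj (fun _ => none) : U0 KK d kp →ₗ[KK] KK)) (Phi (2 ^ e) b) = 0) := by
          ext b
          simp only [hX, mem_filter, mem_univ, true_and]
          refine and_congr_right fun hb => ?_
          rw [LinearMap.sub_apply, LinearMap.smul_apply, LinearMap.proj_apply, smul_eq_mul,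
            Phi_none b hb.2, mul_one, sub_eq_zero]
        rw [h2]
        have h3 : 1 ≤ 2 ^ e := Nat.one_le_two_pow
        have h4 : (((univ.filter fun b : Ix d → KK => (b ∈ NN p p' ∧ b none = 1) ∧
              (WE E - (algebraMap k0 KK c) •
                (LinearMap.proj (fun _ => none) : U0 KK d kp →ₗ[KK] KK)) (Phi (2 ^ e) b) = 0).card *
              (2 ^ e - 1) : ℕ) : ℝ) ≤ X.card := by exact_mod_cast h1
        rw [Nat.cast_mul, Nat.cast_sub h3] at h4
        push_cast at h4
        exact h4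
      have hb2 : ((X.filter fun b => ∃ c : k0, algebraMap k0 KK c = WE E (Phi (2 ^ e) b)).card : ℝ) ≤
          β * X.card := by
        have h1 : (X.filter fun b => ∃ c : k0, algebraMap k0 KK c = WE E (Phi (2 ^ e) b)) ⊆
            (univ : Finset k0).biUnion fun c =>
              X.filter fun b => WE E (Phi (2 ^ e) b) = algebraMap k0 KK c := by
          intro b hb
          obtain ⟨hb', c, hc⟩ := mem_filter.1 hb
          exact mem_biUnion.2 ⟨c, mem_univ _, mem_filter.2 ⟨hb', hc.symm⟩⟩
        have h2 : ((X.filter fun b => ∃ c : k0, algebraMap k0 KK c = WE E (Phi (2 ^ e) b)).card : ℝ) ≤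
            ∑ c : k0, ((X.filter fun b => WE E (Phi (2 ^ e) b) = algebraMap k0 KK c).card : ℝ) := by
          exact_mod_cast (card_le_card h1).trans card_biUnion_le
        have h3 : (∑ c : k0, ((X.filter fun b =>
            WE E (Phi (2 ^ e) b) = algebraMap k0 KK c).card : ℝ)) * ((2 : ℝ) ^ e - 1) ≤
            Fintype.card k0 * X.card := by
          rw [sum_mul]
          refine (sum_le_sum fun c _ => hb1 c).trans ?_
          rw [sum_const, card_univ, nsmul_eq_mul]
        have h4 : (1 : ℝ) < (2 : ℝ) ^ e := one_lt_pow₀ (by norm_num) (by omega)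
        have h5 : (0 : ℝ) < (2 : ℝ) ^ e - 1 := by linarith
        have h6 : (Fintype.card k0 : ℝ) * X.card ≤ β * ((2 : ℝ) ^ e - 1) * X.card :=
          mul_le_mul_of_nonneg_right hQ hXn
        have h7 : ((X.filter fun b => ∃ c : k0, algebraMap k0 KK c =
            WE E (Phi (2 ^ e) b)).card : ℝ) * ((2 : ℝ) ^ e - 1) ≤
            (β * X.card) * ((2 : ℝ) ^ e - 1) := by
          calc _ ≤ (∑ c : k0, ((X.filter fun b =>
            WE E (Phi (2 ^ e) b) = algebraMap k0 KK c).card : ℝ)) * ((2 : ℝ) ^ e - 1) :=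
                mul_le_mul_of_nonneg_right h2 h5.le
            _ ≤ _ := h3.trans h6
            _ = _ := by ring
        exact le_of_mul_le_mul_right h7 h5
      have hsum : (cnt E : ℝ) = ∑ b ∈ X, ((Lam.filter fun lam =>
          Algebra.trace k0 KK (lam * WE E (Phi (2 ^ e) b)) ∈ K).card : ℝ) := by
        simp only [cnt]
        rw [card_filter, sum_product]
        push_cast
        refine sum_congr rfl fun b _ => ?_
        rw [card_filter]
        push_cast
        rfl
      have hterm : ∀ b ∈ X, ((Lam.filter fun lam =>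
          Algebra.trace k0 KK (lam * WE E (Phi (2 ^ e) b)) ∈ K).card : ℝ) ≤
          (if ∃ c : k0, algebraMap k0 KK c = WE E (Phi (2 ^ e) b) then (Lam.card : ℝ) else 0) +
            β * Lam.card := by
        intro b _
        by_cases h : ∃ c : k0, algebraMap k0 KK c = WE E (Phi (2 ^ e) b)
        · rw [if_pos h]
          have h1 : ((Lam.filter fun lam =>
              Algebra.trace k0 KK (lam * WE E (Phi (2 ^ e) b)) ∈ K).card : ℝ) ≤ Lam.card := by
            exact_mod_cast card_filter_le _ _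
          have h2 : 0 ≤ β * Lam.card := mul_nonneg hβ hLn
          linarith
        · rw [if_neg h, zero_add]
          push Not at h
          have h1 := lam_count (WE E (Phi (2 ^ e) b)) h K
          have h2 : (Lam.filter fun lam =>
              Algebra.trace k0 KK (lam * WE E (Phi (2 ^ e) b)) ∈ K) =
              (univ.filter fun lam : KK => Algebra.trace k0 KK lam = 1 ∧
                Algebra.trace k0 KK (lam * WE E (Phi (2 ^ e) b)) ∈ K) := by
            ext lam
            simp only [hLam, mem_filter, mem_univ, true_and]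
          rw [h2]
          have h3 : (((univ.filter fun lam : KK => Algebra.trace k0 KK lam = 1 ∧
                Algebra.trace k0 KK (lam * WE E (Phi (2 ^ e) b)) ∈ K).card : ℝ)) *
                Fintype.card k0 = K.card * Lam.card := by exact_mod_cast h1
          have h4 : (K.card : ℝ) * Lam.card ≤ (β * Lam.card) * Fintype.card k0 := by
            have := mul_le_mul_of_nonneg_right hK.small hLn
            linarith
          rw [← h3] at h4
          exact le_of_mul_le_mul_right h4 hq0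
      have h1 := sum_le_sum hterm
      rw [← hsum, sum_add_distrib, sum_const, nsmul_eq_mul] at h1
      have h2 : ∑ b ∈ X, (if ∃ c : k0, algebraMap k0 KK c = WE E (Phi (2 ^ e) b)
          then (Lam.card : ℝ) else 0) =
          (X.filter fun b => ∃ c : k0, algebraMap k0 KK c = WE E (Phi (2 ^ e) b)).card * Lam.card := by
        rw [← sum_filter, sum_const, nsmul_eq_mul]
      rw [h2] at h1
      have h3 := mul_le_mul_of_nonneg_right hb2 hLn
      nlinarith
    -- the total
    have htot : ((((X ×ˢ Lam) ×ˢ EE).filter fun z =>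
        Algebra.trace k0 KK (z.1.2 * WE z.2 (Phi (2 ^ e) z.1.1)) ∈ K).card : ℝ) =
        ∑ E ∈ EE, (cnt E : ℝ) := by
      rw [card_filter, sum_product_right]
      push_cast
      refine sum_congr rfl fun E _ => ?_
      simp only [cnt]
      rw [card_filter]
      push_cast
      rfl
    rw [htot]
    have hXL : (0 : ℝ) ≤ (X.card : ℝ) * Lam.card := mul_nonneg hXn hLn
    have h1 : ∀ E ∈ EE, (cnt E : ℝ) ≤ (if bad E then (X.card : ℝ) * Lam.card else 0) +
        2 * β * (X.card * Lam.card) := by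
      intro E _
      by_cases h : bad E
      · rw [if_pos h]
        have := hcnt1 E
        have h2 : 0 ≤ 2 * β * (X.card * Lam.card) := mul_nonneg (by linarith) hXL
        linarith
      · rw [if_neg h, zero_add]
        exact hcnt2 E h
    have h2 := sum_le_sum h1
    rw [sum_add_distrib, sum_const, nsmul_eq_mul, ← sum_filter, sum_const, nsmul_eq_mul] at h2
    have h3 := mul_le_mul_of_nonneg_right hbad hXL
    nlinarith

end main

end Crest.Agent.R042.Iso543
end

-- ▼ part R042/IsoD_543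

/-!
# Isolation in the shape of `TData` (row 42 / S0059)
-/

set_option autoImplicit false
set_option linter.unusedSectionVars false

namespace Crest.Agent.R042.IsoD543

open Finset Crest.Agent.R042.Fam543 Crest.Agent.R042.RowWin543
open Crest.Agent.R042.Inst592 Crest.Agent.R042.Iso543 Crest.Agent.R042.SysOf333
open scoped Classical

variable {k0 KK : Type} [Field k0] [Field KK] [Algebra k0 KK] {d L kp : ℕ}

/-- the word `w` is not in `S` on the window of `P, P'` -/
def NotS (K : Set k0) (Q kp : ℕ) (P P' : Ty k0 KK d L) (w : U KK d kp L →ₗ[k0] k0) : Prop :=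
  ¬ ∃ c ∈ K, ∃ l, ∀ z ∈ UPQ Q kp P P', w z = c * tau k0 (z l)

/-- `R` is dead for the word `w` -/
def Diso (K : Set k0) (Q kp : ℕ) (P P' : Ty k0 KK d L) (w : U KK d kp L →ₗ[k0] k0)
    (R : Ty k0 KK d L) : Prop :=
  Perp P P' ∧ NotS K Q kp P P' w ∧ w (uvec Q kp R) ∈ K

/-- the difference word of two labels -/
def dword (Q kp : ℕ) (P P' : Ty k0 KK d L) (f f' : Label k0 KK d kp L) :
    U KK d kp L →ₗ[k0] k0 := f.1 (uvec Q kp P') - f'.1 (uvec Q kp P)

theorem dword_apply (Q kp : ℕ) (P P' : Ty k0 KK d L) (f f' : Label k0 KK d kp L)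
    (z : U KK d kp L) : dword Q kp P P' f f' z = f.1 (uvec Q kp P') z - f'.1 (uvec Q kp P) z :=
  LinearMap.sub_apply _ _ _

/-- not adjacent and perpendicular: the difference word is not in `S` -/
theorem notS_of_not_rel (K : Set k0) (Q kp : ℕ) (P P' : Ty k0 KK d L)
    (f f' : Label k0 KK d kp L) (hPP : Perp P P') (h : ¬ Rel K Q kp P P' f f') :
    NotS K Q kp P P' (dword Q kp P P' f f') := by
  rintro ⟨c, hc, l, hz⟩
  exact h ⟨hPP, c, hc, l, fun z hz' => by rw [← dword_apply]; exact hz z hz'⟩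



variable [Fintype k0] [Fintype KK] [DecidableEq k0] [CharP KK 2]

/-- **isolation**, `TData.D1_le` shape -/
theorem diso_le {K : Finset k0} {β : ℝ} (hK : Alph767.Alph k0 K β) (e : ℕ) (he : 0 < e)
    (hcard : Fintype.card KK = (2 ^ e) ^ kp)
    (hQ : (Fintype.card k0 : ℝ) ≤ β * ((2 : ℝ) ^ e - 1))
    (P P' : Om KK (K : Set k0) d L) (w : U KK d kp L →ₗ[k0] k0)
    (hc : Cnt (perp (K : Set k0) d L) ((Fintype.card KK : ℝ)⁻¹) P P') :
    (((univ.filter fun R : Om KK (K : Set k0) d L =>
      (perp (K : Set k0) d L P R ∧ perp (K : Set k0) d L P' R) ∧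
        Diso (K : Set k0) (2 ^ e) kp P.1 P'.1 w R.1).card : ℕ) : ℝ) ≤
      3 * β * ((Fintype.card KK : ℝ)⁻¹) ^ 2 * Fintype.card (Om KK (K : Set k0) d L) := by
  have hKc : 0 < K.card := card_pos.2 ⟨1, hK.one⟩
  have hKr : (0 : ℝ) < K.card := by exact_mod_cast hKc
  have hβ : 0 ≤ β := by
    have := hK.big
    by_contra h
    push Not at h
    nlinarith
  by_cases h : Perp P.1 P'.1 ∧ NotS (K : Set k0) (2 ^ e) kp P.1 P'.1 w
  · have h1 := iso hK e he hcard hQ P P' h.1 w h.2
    have h2 : (((univ.filter fun R : Om KK (K : Set k0) d L =>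
        Perp P.1 R.1 ∧ Perp P'.1 R.1).card : ℕ) : ℝ) =
        ((Fintype.card KK : ℝ)⁻¹) ^ 2 * Fintype.card (Om KK (K : Set k0) d L) := hc.c12
    rw [h2, ← mul_assoc] at h1
    refine le_trans ?_ h1
    have h3 : (univ.filter fun R : Om KK (K : Set k0) d L =>
        (perp (K : Set k0) d L P R ∧ perp (K : Set k0) d L P' R) ∧
          Diso (K : Set k0) (2 ^ e) kp P.1 P'.1 w R.1) ⊆
        (univ.filter fun R : Om KK (K : Set k0) d L => (Perp P.1 R.1 ∧ Perp P'.1 R.1) ∧
          w (uvec (2 ^ e) kp R.1) ∈ K) := by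
      intro R hR
      obtain ⟨_, h4, h5⟩ := mem_filter.1 hR
      exact mem_filter.2 ⟨mem_univ _, h4, mem_coe.1 h5.2.2⟩
    exact_mod_cast card_le_card h3
  · have h3 : (univ.filter fun R : Om KK (K : Set k0) d L =>
        (perp (K : Set k0) d L P R ∧ perp (K : Set k0) d L P' R) ∧
          Diso (K : Set k0) (2 ^ e) kp P.1 P'.1 w R.1) = ∅ :=
      filter_eq_empty_iff.2 fun R _ h5 => h ⟨h5.2.1, h5.2.2.1⟩
    rw [h3, card_empty, Nat.cast_zero]
    positivity

end Crest.Agent.R042.IsoD543
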