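import Mathlib

/-!
# FOUR DIGITS (helper730): special functionals are transversal

`pure c` is the product tensor with blocks `c i`; `spec m p` is the span of the product tensors with
at least `m` blocks equal to those of `p`.  If `p i`, `q i` are linearly independent for every `i` and
`k < 2 m`, then `spec m p ⊓ spec m q = ⊥`.
-/

open scoped BigOperators

namespace Crest.Agent.R042.Spec730

variable {F : Type*} [Field F] {k : ℕ} {ι : Type*}

/-- the product tensor with blocks `c i` -/
def pure (c : Fin k → ι → F) : (Fin k → ι) → F := fun al => ∏ i, c i (al i)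

/-- the span of the product tensors with at least `m` blocks equal to those of `p` -/
def spec (m : ℕ) (p : Fin k → ι → F) : Submodule F ((Fin k → ι) → F) :=
  Submodule.span F {t | ∃ c : Fin k → ι → F, ∃ s : Finset (Fin k), m ≤ s.card ∧
    (∀ i ∈ s, c i = p i) ∧ t = pure c}

variable [Fintype ι] [DecidableEq ι]

/-- the operator `⊗ A i` on tensors -/
noncomputable def op (A : Fin k → (ι → F) →ₗ[F] (ι → F)) :
    ((Fin k → ι) → F) →ₗ[F] ((Fin k → ι) → F) where
  toFun t := fun al => ∑ be : Fin k → ι, (∏ i, A i (Pi.single (be i) 1) (al i)) * t be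
  map_add' s t := by
    funext al; simp [mul_add, Finset.sum_add_distrib]
  map_smul' c t := by
    funext al; simp only [Pi.smul_apply, smul_eq_mul, RingHom.id_apply, Finset.mul_sum]
    exact Finset.sum_congr rfl fun be _ => by ring

theorem op_pure (A : Fin k → (ι → F) →ₗ[F] (ι → F)) (c : Fin k → ι → F) :
    op A (pure c) = pure (fun i => A i (c i)) := by
  funext al
  have h : ∀ i, A i (c i) (al i) = ∑ x : ι, A i (Pi.single x 1) (al i) * c i x := by
    intro i
    have hc : c i = ∑ x : ι, c i x • (Pi.single x (1 : F) : ι → F) := by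
      funext y
      simp [Finset.sum_apply, Pi.single_apply]
    conv_lhs => rw [hc]
    simp only [map_sum, map_smul, Finset.sum_apply, Pi.smul_apply, smul_eq_mul]
    exact Finset.sum_congr rfl fun x _ => by ring
  simp only [op, LinearMap.coe_mk, AddHom.coe_mk, pure]
  simp_rw [h]
  rw [Finset.prod_univ_sum]
  rw [Fintype.piFinset_univ]
  exact Finset.sum_congr rfl fun be _ => by rw [Finset.prod_mul_distrib]

theorem op_pure_zero (A : Fin k → (ι → F) →ₗ[F] (ι → F)) (c : Fin k → ι → F) (i : Fin k)
    (h : A i (c i) = 0) : op A (pure c) = 0 := by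
  rw [op_pure]
  funext al
  exact Finset.prod_eq_zero (Finset.mem_univ i) (by simp [h])

/-- the operators of all colourings sum to the identity -/
theorem sum_op (C : Type*) [Fintype C] [DecidableEq C]
    (A : C → Fin k → (ι → F) →ₗ[F] (ι → F)) (hA : ∀ i, ∑ c, A c i = LinearMap.id)
    (t : (Fin k → ι) → F) : ∑ χ : Fin k → C, op (fun i => A (χ i) i) t = t := by
  funext al
  simp only [Finset.sum_apply, op, LinearMap.coe_mk, AddHom.coe_mk]
  rw [Finset.sum_comm]
  have h1 : ∀ be : Fin k → ι, ∑ χ : Fin k → C, (∏ i, A (χ i) i (Pi.single (be i) 1) (al i)) * t be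
      = if be = al then t be else 0 := by
    intro be
    rw [← Finset.sum_mul]
    have h2 : ∑ χ : Fin k → C, (∏ i, A (χ i) i (Pi.single (be i) 1) (al i))
        = ∏ i, ∑ c : C, A c i (Pi.single (be i) 1) (al i) := by
      rw [Finset.prod_univ_sum, Fintype.piFinset_univ]
    rw [h2]
    have h3 : ∀ i, ∑ c : C, A c i (Pi.single (be i) 1) (al i) = if be i = al i then 1 else 0 := by
      intro i
      have h4 := congrFun (LinearMap.congr_fun (hA i) (Pi.single (be i) 1)) (al i)
      simp only [LinearMap.sum_apply, Finset.sum_apply, LinearMap.id_apply, Pi.single_apply] at h4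
      rw [h4]
      simp only [eq_comm]
    simp_rw [h3]
    by_cases hb : be = al
    · subst hb; simp
    · rw [if_neg hb]
      obtain ⟨i, hi⟩ := Function.ne_iff.1 hb
      rw [Finset.prod_eq_zero (Finset.mem_univ i) (by simp [hi]), zero_mul]
  simp_rw [h1]
  simp

/-- **(F1)** the special functionals of two blockwise independent families are transversal. -/
theorem spec_disjoint (m m' : ℕ) (hm : k < m + m') (p q : Fin k → ι → F)
    (hpq : ∀ i, LinearIndependent F ![p i, q i]) : Disjoint (spec m p) (spec m' q) := by
  classical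
  rw [Submodule.disjoint_def]
  intro t htp htq
  -- dual functionals
  have hd : ∀ i, ∃ α β : (ι → F) →ₗ[F] F, α (p i) = 1 ∧ α (q i) = 0 ∧ β (p i) = 0 ∧ β (q i) = 1 := by
    intro i
    obtain ⟨g, hg⟩ := LinearMap.exists_leftInverse_of_injective
        (Fintype.linearCombination F ![p i, q i])
        (by
          rw [LinearMap.ker_eq_bot]
          exact (hpq i).fintypeLinearCombination_injective)
    have e0 : g (p i) = Pi.single 0 1 := by
      have := LinearMap.congr_fun hg (Pi.single 0 1)
      simpa [Fintype.linearCombination_apply_single] using this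
    have e1 : g (q i) = Pi.single 1 1 := by
      have := LinearMap.congr_fun hg (Pi.single 1 1)
      simpa [Fintype.linearCombination_apply_single] using this
    refine ⟨(LinearMap.proj 0).comp g, (LinearMap.proj 1).comp g, ?_, ?_, ?_, ?_⟩ <;>
      simp [e0, e1]
  choose α β hαp hαq hβp hβq using hd
  let A : Fin 3 → Fin k → (ι → F) →ₗ[F] (ι → F) := fun c i =>
    if c = 0 then (α i).smulRight (p i) else if c = 1 then (β i).smulRight (q i)
      else LinearMap.id - (α i).smulRight (p i) - (β i).smulRight (q i)
  have hA : ∀ i, ∑ c, A c i = LinearMap.id := by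
    intro i
    simp [A, Fin.sum_univ_three]
  have hAp : ∀ c i, c ≠ 0 → A c i (p i) = 0 := by
    intro c i hc
    fin_cases c <;> simp_all [A]
  have hAq : ∀ c i, c ≠ 1 → A c i (q i) = 0 := by
    intro c i hc
    fin_cases c <;> simp_all [A]
  rw [← sum_op (Fin 3) A hA t]
  refine Finset.sum_eq_zero fun χ _ => ?_
  -- the two colour classes
  by_cases hP : m ≤ (Finset.univ.filter fun i => χ i = 0).card
  · have hQ : (Finset.univ.filter fun i => χ i = 1).card < m' := by
      by_contra hcon
      push Not at hcon
      have hdis : Disjoint (Finset.univ.filter fun i => χ i = 0)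
          (Finset.univ.filter fun i => χ i = 1) := by
        rw [Finset.disjoint_filter]
        intro i _ h0 h1
        rw [h0] at h1
        exact absurd h1 (by decide)
      have := Finset.card_union_of_disjoint hdis
      have h2 : ((Finset.univ.filter fun i => χ i = 0) ∪
          (Finset.univ.filter fun i => χ i = 1)).card ≤ k := by
        simpa using Finset.card_le_univ ((Finset.univ.filter fun i => χ i = 0) ∪
          (Finset.univ.filter fun i => χ i = 1))
      omega
    refine Submodule.span_induction (p := fun t _ => op (fun i => A (χ i) i) t = 0)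
      ?_ ?_ ?_ ?_ htq
    · rintro x ⟨c, s, hs, hc, rfl⟩
      have : ∃ i ∈ s, χ i ≠ 1 := by
        by_contra hcon
        push Not at hcon
        have : s ⊆ Finset.univ.filter fun i => χ i = 1 := fun i hi => by
          simp [hcon i hi]
        exact absurd (Finset.card_le_card this) (by omega)
      obtain ⟨i, his, hi⟩ := this
      exact op_pure_zero _ _ i (by rw [hc i his]; exact hAq _ _ hi)
    · simp
    · intro x y _ _ hx hy; rw [map_add, hx, hy, add_zero]
    · intro a x _ hx; rw [map_smul, hx, smul_zero]
  · refine Submodule.span_induction (p := fun t _ => op (fun i => A (χ i) i) t = 0)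
      ?_ ?_ ?_ ?_ htp
    · rintro x ⟨c, s, hs, hc, rfl⟩
      have : ∃ i ∈ s, χ i ≠ 0 := by
        by_contra hcon
        push Not at hcon
        have : s ⊆ Finset.univ.filter fun i => χ i = 0 := fun i hi => by
          simp [hcon i hi]
        exact hP (le_trans hs (Finset.card_le_card this))
      obtain ⟨i, his, hi⟩ := this
      exact op_pure_zero _ _ i (by rw [hc i his]; exact hAp _ _ hi)
    · simp
    · intro x y _ _ hx hy; rw [map_add, hx, hy, add_zero]
    · intro a x _ hx; rw [map_smul, hx, smul_zero]

/-- **(F2)** abstract gluing: the two special parts are transversal, the digits of one side lie in the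
special part of the other side. -/
theorem four_digits {R M : Type*} [Ring R] [AddCommGroup M] [Module R M]
    (SX SY DX DY : Submodule R M) (h : Disjoint SX SY) (hX : DX ≤ SY) (hY : DY ≤ SX) :
    (SX ⊔ DX) ⊓ (SY ⊔ DY) = DX ⊔ DY := by
  apply le_antisymm
  · intro e he
    obtain ⟨he1, he2⟩ := Submodule.mem_inf.1 he
    obtain ⟨s, hs, d, hd, rfl⟩ := Submodule.mem_sup.1 he1
    obtain ⟨s', hs', d', hd', he'⟩ := Submodule.mem_sup.1 he2
    have h0 : s - d' = 0 := by
      refine Submodule.disjoint_def.1 h _ (SX.sub_mem hs (hY hd')) ?_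
      have : s - d' = s' - d := by
        rw [sub_eq_sub_iff_add_eq_add, ← he']
      rw [this]
      exact SY.sub_mem hs' (hX hd)
    rw [sub_eq_zero] at h0
    rw [h0, add_comm]
    exact Submodule.add_mem_sup hd hd'
  · refine sup_le (le_inf le_sup_right (le_trans hX le_sup_left)) ?_
    exact le_inf (le_trans hY le_sup_left) le_sup_right

section fam

variable {k0 : Type*} [Field k0]

/-- product of four windows: the controlled parts of the two sides meet exactly in the digits -/
theorem four_digits_pi {J : Type*} {W : J → Type*} [∀ i, AddCommGroup (W i)]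
    [∀ i, Module k0 (W i)] (SX SY : ∀ i, Submodule k0 (W i)) (hd : ∀ i, Disjoint (SX i) (SY i))
    (DX DY : Set (∀ i, W i)) (hX : ∀ D ∈ DX, ∀ i, D i ∈ SY i) (hY : ∀ D ∈ DY, ∀ i, D i ∈ SX i) :
    (Submodule.pi Set.univ SX ⊔ Submodule.span k0 DX) ⊓
      (Submodule.pi Set.univ SY ⊔ Submodule.span k0 DY) =
        Submodule.span k0 (DX ∪ DY) := by
  rw [Submodule.span_union]
  refine four_digits _ _ _ _ ?_ ?_ ?_
  · rw [Submodule.disjoint_def]
    intro x hx hy
    funext i
    exact Submodule.disjoint_def.1 (hd i) (x i) (hx i (Set.mem_univ i)) (hy i (Set.mem_univ i))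
  · rw [Submodule.span_le]
    intro D hD
    exact fun i _ => hX D hD i
  · rw [Submodule.span_le]
    intro D hD
    exact fun i _ => hY D hD i



end fam

end Crest.Agent.R042.Spec730
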