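import Crest.Agent.R042.Fam_543
import Crest.Agent.R042.Spec_730

/-!
# Four digits in the frozen family (helper730)

Instance of `Spec_730` for `Fam_543`: the special subspaces of the four windows of a pair
`(P, P')` against a pair `(Q, Q')` and the common kernel of the digits.
-/

set_option autoImplicit false
set_option linter.unusedSectionVars false

namespace Crest.Agent.R042.SpecFam730

open Crest.Agent.R042.Fam543 Crest.Agent.R042.Spec730

variable {k0 KK : Type} [Field k0] [Field KK] [Algebra k0 KK]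

/-- the conjugates of a vector -/
def tw (Q : ℕ) {d : ℕ} (kp : ℕ) (b : Ix d → KK) : Fin kp → Ix d → KK :=
  fun i j => b j ^ (Q ^ (i : ℕ))

theorem Phi_eq (Q : ℕ) {d kp : ℕ} (b : Ix d → KK) :
    (Phi Q b : U0 KK d kp) = pure (tw Q kp b) := rfl

theorem tw_indep [CharP KK 2] [Finite KK] (e : ℕ) {d kp : ℕ} (p q : Ix d → KK)
    (h : LinearIndependent KK ![p, q]) (i : Fin kp) :
    LinearIndependent KK ![tw (2 ^ e) kp p i, tw (2 ^ e) kp q i] := by
  have : ExpChar KK 2 := ExpChar.prime Nat.prime_two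
  rw [LinearIndependent.pair_iff] at h ⊢
  intro s t hst
  have hb : Function.Bijective (iterateFrobenius KK 2 (e * i)) := by
    rw [coe_iterateFrobenius]
    exact (Finite.injective_iff_bijective.1 (frobenius_inj KK 2)).iterate _
  obtain ⟨s', hs'⟩ := hb.2 s
  obtain ⟨t', ht'⟩ := hb.2 t
  have hpw : ∀ x : KK, x ^ (2 ^ e) ^ (i : ℕ) = iterateFrobenius KK 2 (e * i) x := by
    intro x
    rw [iterateFrobenius_def, ← pow_mul]
  have h0 : s' • p + t' • q = 0 := by
    funext j
    have h1 := congrFun hst j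
    simp only [tw, Pi.add_apply, Pi.smul_apply, smul_eq_mul, Pi.zero_apply, hpw, ← hs', ← ht',
      ← map_mul, ← map_add] at h1 ⊢
    exact (map_eq_zero_iff _ hb.1).1 h1
  obtain ⟨h1, h2⟩ := h s' t' h0
  subst h1; subst h2
  simp only [map_zero] at hs' ht'
  exact ⟨hs'.symm, ht'.symm⟩

/-- special part of `U` : all coordinates have at least `m` blocks equal to those of `p` -/
def specU (k0 : Type) {KK : Type} [Field k0] [Field KK] [Algebra k0 KK] (Q m : ℕ) {d : ℕ}
    (kp L : ℕ) (p : Ix d → KK) : Submodule k0 (U KK d kp L) where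
  carrier := {x | ∀ l, x l ∈ spec m (tw Q kp p)}
  add_mem' := fun hx hy l => Submodule.add_mem _ (hx l) (hy l)
  zero_mem' := fun l => Submodule.zero_mem _
  smul_mem' := by
    intro c x hx l
    have h1 : (c • x) l = (algebraMap k0 KK c) • x l := by
      simp [Pi.smul_apply, algebraMap_smul]
    rw [h1]
    exact Submodule.smul_mem _ _ (hx l)

theorem mem_specU {Q m d kp L : ℕ} {p : Ix d → KK} {x : U KK d kp L} :
    x ∈ specU k0 Q m kp L p ↔ ∀ l, x l ∈ spec m (tw Q kp p) := Iff.rfl

theorem specU_disjoint [CharP KK 2] [Finite KK] (e m m' : ℕ) {d kp L : ℕ}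
    (hm : kp < m + m') (p q : Ix d → KK) (h : LinearIndependent KK ![p, q]) :
    Disjoint (specU k0 (2 ^ e) m kp L p) (specU k0 (2 ^ e) m' kp L q) := by
  rw [Submodule.disjoint_def]
  intro x hx hy
  funext l
  exact Submodule.disjoint_def.1
    (spec_disjoint m m' hm (tw (2 ^ e) kp p) (tw (2 ^ e) kp q) (tw_indep e p q h)) (x l) (hx l) (hy l)

theorem Phi_mem_spec (Q m : ℕ) {d kp : ℕ} (hm : m ≤ kp) (b : Ix d → KK) :
    (Phi Q b : U0 KK d kp) ∈ spec m (tw Q kp b) :=
  Submodule.subset_span ⟨tw Q kp b, Finset.univ, by simpa using hm, fun _ _ => rfl, rfl⟩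

theorem uvec_mem_specU (Q m : ℕ) {d kp L : ℕ} (hm : m ≤ kp) (R : Ty k0 KK d L) :
    uvec Q kp R ∈ specU k0 Q m kp L R.b :=
  fun _ => Submodule.smul_mem _ _ (Phi_mem_spec Q m hm R.b)

/-- the part of `P'` perpendicular to `P` (`B P P = 1`) -/
def aop {d : ℕ} (b b' : Ix d → KK) : Ix d → KK := b' - B b b' • b

theorem aop_of_perp {d : ℕ} {b b' : Ix d → KK} (h : B b b' = 0) : aop b b' = b' := by
  simp [aop, h]

theorem aop_indep {d : ℕ} (p p' q q' : Ix d → KK)
    (h : LinearIndependent KK ![p, p', q, q']) : LinearIndependent KK ![aop p p', aop q q'] := by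
  rw [LinearIndependent.pair_iff]
  intro s t hst
  rw [Fintype.linearIndependent_iff] at h
  have h1 := h ![-(s * B p p'), s, -(t * B q q'), t] (by
    simp only [Fin.sum_univ_four, Matrix.cons_val_zero, Matrix.cons_val_one, Matrix.cons_val,
      aop] at hst ⊢
    rw [← hst]
    module)
  exact ⟨by simpa using h1 1, by simpa using h1 3⟩

/-! ### The four windows -/

section windows

variable {d L : ℕ}

/-- window `(i, j)` of `(X false, X true)` against `(Y false, Y true)` -/
abbrev win (Q kp : ℕ) (X Y : Bool → Ty k0 KK d L) (w : Bool × Bool) :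
    Submodule k0 (U KK d kp L) :=
  UPQ Q kp (X w.1) (Y w.2)

/-- special part of the window `(i, j)` for the side `X` -/
def SX (Q m kp : ℕ) (X Y : Bool → Ty k0 KK d L) (w : Bool × Bool) :
    Submodule k0 (win Q kp X Y w) :=
  (specU k0 Q m kp L (aop (X w.1).b (X (!w.1)).b)).comap (win Q kp X Y w).subtype

/-- special part of the window `(i, j)` for the side `Y` -/
def SY (Q m kp : ℕ) (X Y : Bool → Ty k0 KK d L) (w : Bool × Bool) :
    Submodule k0 (win Q kp X Y w) :=
  (specU k0 Q m kp L (aop (Y w.2).b (Y (!w.2)).b)).comap (win Q kp X Y w).subtype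

/-- digits coming from the symmetry of the labels of `X i` : `(u_{Q'}, -u_Q)` at `(i, ·)` -/
def DX (Q kp : ℕ) (X Y : Bool → Ty k0 KK d L) : Set (∀ w, win Q kp X Y w) :=
  {D | Perp (Y false) (Y true) ∧ ∃ i : Bool, ∀ w, ((D w : win Q kp X Y w) : U KK d kp L) =
    if w.1 = i then (if w.2 then -uvec Q kp (Y false) else uvec Q kp (Y true)) else 0}

/-- digits coming from the symmetry of the labels of `Y j` : `(u_{P'}, -u_P)` at `(·, j)` -/
def DY (Q kp : ℕ) (X Y : Bool → Ty k0 KK d L) : Set (∀ w, win Q kp X Y w) :=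
  {D | Perp (X false) (X true) ∧ ∃ j : Bool, ∀ w, ((D w : win Q kp X Y w) : U KK d kp L) =
    if w.2 = j then (if w.1 then -uvec Q kp (X false) else uvec Q kp (X true)) else 0}

theorem DX_mem_SY (Q m kp : ℕ) (hm : m ≤ kp) (X Y : Bool → Ty k0 KK d L)
    (D : ∀ w, win Q kp X Y w) (hD : D ∈ DX Q kp X Y) (w : Bool × Bool) :
    D w ∈ SY Q m kp X Y w := by
  obtain ⟨hp, i, hi⟩ := hD
  rw [SY, Submodule.mem_comap, Submodule.subtype_apply, hi w]
  by_cases h1 : w.1 = i
  · rw [if_pos h1]
    rcases h2 : w.2 with _ | _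
    · simp only [Bool.false_eq_true, if_false, Bool.not_false]
      rw [aop_of_perp hp]
      exact uvec_mem_specU Q m hm _
    · simp only [if_true, Bool.not_true]
      rw [aop_of_perp hp.symm]
      exact Submodule.neg_mem _ (uvec_mem_specU Q m hm _)
  · rw [if_neg h1]
    exact Submodule.zero_mem _

theorem DY_mem_SX (Q m kp : ℕ) (hm : m ≤ kp) (X Y : Bool → Ty k0 KK d L)
    (D : ∀ w, win Q kp X Y w) (hD : D ∈ DY Q kp X Y) (w : Bool × Bool) :
    D w ∈ SX Q m kp X Y w := by
  obtain ⟨hp, i, hi⟩ := hD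
  rw [SX, Submodule.mem_comap, Submodule.subtype_apply, hi w]
  by_cases h1 : w.2 = i
  · rw [if_pos h1]
    rcases h2 : w.1 with _ | _
    · simp only [Bool.false_eq_true, if_false, Bool.not_false]
      rw [aop_of_perp hp]
      exact uvec_mem_specU Q m hm _
    · simp only [if_true, Bool.not_true]
      rw [aop_of_perp hp.symm]
      exact Submodule.neg_mem _ (uvec_mem_specU Q m hm _)
  · rw [if_neg h1]
    exact Submodule.zero_mem _

/-- independence of the four vectors -/
def Indep4 (X Y : Bool → Ty k0 KK d L) : Prop :=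
  LinearIndependent KK ![(X false).b, (X true).b, (Y false).b, (Y true).b]

theorem indep_aop (X Y : Bool → Ty k0 KK d L) (h : Indep4 X Y) (i j : Bool) :
    LinearIndependent KK ![aop (X i).b (X (!i)).b, aop (Y j).b (Y (!j)).b] := by
  have key : ∀ p p' q q' : Ix d → KK, LinearIndependent KK ![p, p', q, q'] →
      LinearIndependent KK ![p', p, q, q'] ∧ LinearIndependent KK ![p, p', q', q] ∧
      LinearIndependent KK ![p', p, q', q] := by
    intro p p' q q' h
    refine ⟨?_, ?_, ?_⟩
    · have := h.comp ![1, 0, 2, 3] (by decide)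
      convert this using 1
      funext i; fin_cases i <;> rfl
    · have := h.comp ![0, 1, 3, 2] (by decide)
      convert this using 1
      funext i; fin_cases i <;> rfl
    · have := h.comp ![1, 0, 3, 2] (by decide)
      convert this using 1
      funext i; fin_cases i <;> rfl
  obtain ⟨h1, h2, h3⟩ := key _ _ _ _ h
  cases i <;> cases j
  · exact aop_indep _ _ _ _ h
  · exact aop_indep _ _ _ _ h2
  · exact aop_indep _ _ _ _ h1
  · exact aop_indep _ _ _ _ h3

theorem SX_SY_disjoint [CharP KK 2] [Finite KK] (e m m' kp : ℕ) (hm : kp < m + m')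
    (X Y : Bool → Ty k0 KK d L) (h : Indep4 X Y) (w : Bool × Bool) :
    Disjoint (SX (2 ^ e) m kp X Y w) (SY (2 ^ e) m' kp X Y w) := by
  rw [Submodule.disjoint_def]
  intro x hx hy
  apply Subtype.ext
  exact Submodule.disjoint_def.1 (specU_disjoint (k0 := k0) (L := L) e m m' hm _ _
    (indep_aop X Y h w.1 w.2)) (x : U KK d kp L) hx hy

/-- controlled part of the side `X` -/
def CX (Q m kp : ℕ) (X Y : Bool → Ty k0 KK d L) : Submodule k0 (∀ w, win Q kp X Y w) :=
  Submodule.pi Set.univ (SX Q m kp X Y) ⊔ Submodule.span k0 (DX Q kp X Y)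

/-- controlled part of the side `Y` -/
def CY (Q m kp : ℕ) (X Y : Bool → Ty k0 KK d L) : Submodule k0 (∀ w, win Q kp X Y w) :=
  Submodule.pi Set.univ (SY Q m kp X Y) ⊔ Submodule.span k0 (DY Q kp X Y)

/-- **four digits in the family** -/
theorem CX_inf_CY [CharP KK 2] [Finite KK] (e m m' kp : ℕ) (hm : kp < m + m') (h1 : m ≤ kp)
    (h2 : m' ≤ kp) (X Y : Bool → Ty k0 KK d L) (h : Indep4 X Y) :
    CX (2 ^ e) m kp X Y ⊓ CY (2 ^ e) m' kp X Y =
      Submodule.span k0 (DX (2 ^ e) kp X Y ∪ DY (2 ^ e) kp X Y) :=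
  four_digits_pi _ _ (SX_SY_disjoint e m m' kp hm X Y h) _ _
    (fun D hD w => DX_mem_SY _ m' kp h2 X Y D hD w) (fun D hD w => DY_mem_SX _ m kp h1 X Y D hD w)











end windows

end Crest.Agent.R042.SpecFam730
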