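import Crest.Agent.R042.LocFam_958
import Crest.Agent.R042.SymInst_695
import Crest.Agent.R042.SpecFam_730

/-!
# Row 42 / S0059: one word quadruple per class, and the digits of `SpecFam_730`
-/

set_option autoImplicit false
set_option linter.unusedSectionVars false

namespace Crest.Agent.R042.LocFam958

open Finset Crest.Agent.R042.RowWin543 Crest.Agent.R042.Fam543

variable {k0 KK : Type} [Field k0] [Field KK] [Algebra k0 KK] {d kp L : ℕ}

section

variable [CharP KK 2]


theorem digP_coe {e : ℕ} {P R : Bool → Ty k0 KK d L} (hPR : ∀ a b, Perp (P a) (R b))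
    (h : Perp (P false) (P true)) (b : Bool) (w : Bool × Bool) :
    ((digP e kp P R hPR h b w : WW (2 ^ e) kp P R w) : U KK d kp L) =
      if w.2 = b then (if w.1 then -uvec (2 ^ e) kp (P false) else uvec (2 ^ e) kp (P true))
      else 0 := by
  unfold digP one
  rcases w with ⟨a, b'⟩
  simp only [Pi.sub_apply]
  by_cases hb : b' = b
  · subst hb
    cases a
    · rw [Pi.single_eq_same, Pi.single_eq_of_ne (by simp)]
      simp
    · rw [Pi.single_eq_same, Pi.single_eq_of_ne (by simp)]
      simp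
  · rw [Pi.single_eq_of_ne (by simp [hb]), Pi.single_eq_of_ne (by simp [hb])]
    simp [hb]

theorem digR_coe {e : ℕ} {P R : Bool → Ty k0 KK d L} (hPR : ∀ a b, Perp (P a) (R b))
    (h : Perp (R false) (R true)) (a : Bool) (w : Bool × Bool) :
    ((digR e kp P R hPR h a w : WW (2 ^ e) kp P R w) : U KK d kp L) =
      if w.1 = a then (if w.2 then -uvec (2 ^ e) kp (R false) else uvec (2 ^ e) kp (R true))
      else 0 := by
  unfold digR one
  rcases w with ⟨a', b⟩
  simp only [Pi.sub_apply]
  by_cases hb : a' = a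
  · subst hb
    cases b
    · rw [Pi.single_eq_same, Pi.single_eq_of_ne (by simp)]
      simp
    · rw [Pi.single_eq_same, Pi.single_eq_of_ne (by simp)]
      simp
  · rw [Pi.single_eq_of_ne (by simp [hb]), Pi.single_eq_of_ne (by simp [hb])]
    simp [hb]

/-- the digits of `SpecFam_730` are the digits of `LocFam_958` -/
theorem span_le_Dg {e : ℕ} {P R : Bool → Ty k0 KK d L} (hPR : ∀ a b, Perp (P a) (R b)) :
    Submodule.span k0 (SpecFam730.DX (2 ^ e) kp P R ∪ SpecFam730.DY (2 ^ e) kp P R) ≤
      Dg e kp P R hPR := by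
  rw [Submodule.span_le]
  rintro D (⟨h, i, hi⟩ | ⟨h, j, hj⟩)
  · refine Submodule.subset_span (Or.inr ⟨h, i, ?_⟩)
    funext w
    apply Subtype.ext
    rw [digR_coe, hi w]
  · refine Submodule.subset_span (Or.inl ⟨h, j, ?_⟩)
    funext w
    apply Subtype.ext
    rw [digP_coe, hj w]

/-- **transversality**: the controlled functionals of the two sides have only the existing digits
in common -/
theorem nn_inf_le [Finite KK] {e m m' : ℕ} (hm : kp < m + m') (h1 : m ≤ kp) (h2 : m' ≤ kp)
    {P R : Bool → Ty k0 KK d L} (hPR : ∀ a b, Perp (P a) (R b)) (h : SpecFam730.Indep4 P R)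
    (C C' : Submodule k0 (Module.Dual k0 (VV k0 KK d kp L)))
    (hC : NN (winX (2 ^ e) kp P R) C ≤ SpecFam730.CX (2 ^ e) m kp P R)
    (hC' : NN (winY (2 ^ e) kp P R) C' ≤ SpecFam730.CY (2 ^ e) m' kp P R) :
    NN (winX (2 ^ e) kp P R) C ⊓ NN (winY (2 ^ e) kp P R) C' ≤ Dg e kp P R hPR := by
  refine (inf_le_inf hC hC').trans ?_
  rw [SpecFam730.CX_inf_CY e m m' kp hm h1 h2 P R h]
  exact span_le_Dg hPR

end

end Crest.Agent.R042.LocFam958
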