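import Crest.Agent.R042.Cont2_666
import Crest.Agent.R042.HJB_883
import Crest.Agent.R042.HJK_883
import Crest.Agent.R042.FamV_220
import Mathlib
import Crest.Agent.R042.Fam_543
import Crest.Agent.R042.Inst_592
import Crest.Agent.R042.DigitSZ_853
import Crest.Agent.R042.Spec_730
import Crest.Agent.R042.SspB_375
import Crest.Agent.R042.IsoD_543_Mg
import Crest.Agent.R042.LocC_958

-- ▼ part R042/Cont3_666
section

set_option autoImplicit false
set_option linter.unusedSectionVars false
open Finset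

/-!
S0059 (row 42): the sampling / container theorem, part 3: the mean of the matching number of a
container without admissible weight, tails, fibres.
-/

namespace Crest.Agent.R042.Cont666

section Mean

variable {V : Type*} [Fintype V] [DecidableEq V] {ι : Type*} [Fintype ι] [DecidableEq ι] {s : ℕ}

/-- multiplicity of `a` in the tuple `z` -/
def mult (a : V) (z : Fin s → V) : ℝ := ((univ.filter fun j => z j = a).card : ℝ)

/-- admissible weights on `s`-tuples: `∑_j ∑_{z, z j = a} w z ≤ 1`, `w z ≤ (n/N)^(s-1)`,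
total mass `δ N`. -/
def AdmS (n : ℕ) (δ : ℝ) (W : Finset (Fin s → V)) (w : (Fin s → V) → ℝ) : Prop :=
  Adm (fun a z => mult a z) (((n : ℝ) / (Fintype.card V : ℝ)) ^ (s - 1))
    (δ * (Fintype.card V : ℝ)) W w

/-- summed indicator -/
noncomputable def w0 (C : Finset (Fin s → V)) (ι : Type*) [Fintype ι] [DecidableEq ι]
    (z : Fin s → V) : ℝ :=
  ∑ Y : ι → V, ∑ e ∈ mm C Y, if (fun j => Y (e j)) = z then (1 : ℝ) else 0

theorem sum_w0 (C : Finset (Fin s → V)) (f : (Fin s → V) → ℝ) :
    ∑ z, f z * w0 C ι z = ∑ Y : ι → V, ∑ e ∈ mm C Y, f (fun j => Y (e j)) := by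
  unfold w0
  simp_rw [Finset.mul_sum]
  rw [Finset.sum_comm]
  refine Finset.sum_congr rfl fun Y _ => ?_
  rw [Finset.sum_comm]
  refine Finset.sum_congr rfl fun e _ => ?_
  simp

theorem w0_nonneg (C : Finset (Fin s → V)) (z : Fin s → V) : 0 ≤ w0 C ι z :=
  Finset.sum_nonneg fun Y _ => Finset.sum_nonneg fun e _ => by split_ifs <;> norm_num

theorem w0_supp (C : Finset (Fin s → V)) (z : Fin s → V) (h : w0 C ι z ≠ 0) : z ∈ C := by
  by_contra hz
  apply h
  refine Finset.sum_eq_zero fun Y _ => Finset.sum_eq_zero fun e he => ?_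
  rw [if_neg]
  intro h1
  exact hz (h1 ▸ (mem_fam.1 (mm_mem C Y)).2 e he)

theorem w0_row (C : Finset (Fin s → V)) (a : V) {k : ℕ} (hk : Fintype.card ι = k) :
    (∑ z, mult a z * w0 C ι z) * (Fintype.card V : ℝ) ≤
      (k : ℝ) * (Fintype.card V : ℝ) ^ k := by
  classical
  rw [sum_w0]
  have h1 : ∀ Y : ι → V, ∑ e ∈ mm C Y, mult a (fun j => Y (e j)) ≤
      ((univ.filter fun i => Y i = a).card : ℝ) := by
    intro Y
    have h2 : ∑ e ∈ mm C Y, mult a (fun j => Y (e j)) =
        ((((mm C Y) ×ˢ (univ : Finset (Fin s))).filter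
          (fun p => Y (p.1 p.2) = a)).card : ℝ) := by
      rw [Finset.card_filter, Finset.sum_product]
      push_cast
      refine Finset.sum_congr rfl fun e _ => ?_
      unfold mult
      rw [Finset.card_filter]
      push_cast
      rfl
    rw [h2]
    have h3 := (mem_fam.1 (mm_mem C Y)).1
    have h4 : (((mm C Y) ×ˢ (univ : Finset (Fin s))).filter
          (fun p => Y (p.1 p.2) = a)).card ≤ (univ.filter fun i => Y i = a).card := by
      refine Finset.card_le_card_of_injOn (fun p => p.1 p.2) ?_ ?_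
      · intro p hp
        simp only [Finset.coe_filter, Finset.mem_product, Set.mem_ofPred_eq] at hp
        simp only [Finset.coe_filter, Set.mem_ofPred_eq, Finset.mem_univ, true_and]
        exact hp.2
      · rintro ⟨e, j⟩ hp ⟨e', j'⟩ hp' heq
        simp only [Finset.coe_filter, Finset.mem_product, Set.mem_ofPred_eq] at hp hp'
        simp only at heq
        by_cases hee : e = e'
        · subst hee
          have := h3.1 e hp.1.1 heq
          rw [this]
        · exact absurd heq (h3.2 e hp.1.1 e' hp'.1.1 hee j j')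
    exact_mod_cast h4
  have h5 : ∑ Y : ι → V, ∑ e ∈ mm C Y, mult a (fun j => Y (e j)) ≤
      ∑ Y : ι → V, ((univ.filter fun i => Y i = a).card : ℝ) :=
    Finset.sum_le_sum fun Y _ => h1 Y
  have h6 : (∑ Y : ι → V, ((univ.filter fun i => Y i = a).card : ℝ)) *
      (Fintype.card V : ℝ) = (k : ℝ) * (Fintype.card V : ℝ) ^ k := by
    have h7 : ∑ Y : ι → V, ((univ.filter fun i => Y i = a).card : ℝ) =
        ∑ i : ι, ((univ.filter fun Y : ι → V => Y i = a).card : ℝ) := by
      simp_rw [Finset.card_filter]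
      push_cast
      rw [Finset.sum_comm]
    rw [h7, Finset.sum_mul]
    have h8 : ∀ i : ι, ((univ.filter fun Y : ι → V => Y i = a).card : ℝ) *
        (Fintype.card V : ℝ) = (Fintype.card V : ℝ) ^ k := by
      intro i
      have := card_pt_mul hk i a
      exact_mod_cast this
    rw [Finset.sum_congr rfl fun i _ => h8 i, Finset.sum_const, Finset.card_univ, hk,
      nsmul_eq_mul]
  rw [← h6]
  exact mul_le_mul_of_nonneg_right h5 (Nat.cast_nonneg _)

theorem w0_cap (C : Finset (Fin s → V)) (z : Fin s → V) {k : ℕ} (hk : Fintype.card ι = k) :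
    w0 C ι z * (Fintype.card V : ℝ) ^ s ≤ (k : ℝ) ^ s * (Fintype.card V : ℝ) ^ k := by
  classical
  have h1 : w0 C ι z ≤ ∑ Y : ι → V, ∑ e ∈ univ.filter (fun e : Fin s → ι =>
      Function.Injective e), if (fun j => Y (e j)) = z then (1 : ℝ) else 0 := by
    refine Finset.sum_le_sum fun Y _ => ?_
    refine Finset.sum_le_sum_of_subset_of_nonneg ?_ ?_
    · intro e he
      rw [Finset.mem_filter]
      exact ⟨Finset.mem_univ _, (mem_fam.1 (mm_mem C Y)).1.1 e he⟩
    · intro e _ _
      split_ifs <;> norm_num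
  rw [Finset.sum_comm] at h1
  have h2 : ∀ e ∈ univ.filter (fun e : Fin s → ι => Function.Injective e),
      (∑ Y : ι → V, if (fun j => Y (e j)) = z then (1 : ℝ) else 0) *
        (Fintype.card V : ℝ) ^ s = (Fintype.card V : ℝ) ^ k := by
    intro e he
    have h3 := card_val_mul hk e (Finset.mem_filter.1 he).2 z
    rw [Finset.card_filter] at h3
    exact_mod_cast h3
  have h3 : (∑ e ∈ univ.filter (fun e : Fin s → ι => Function.Injective e),
      ∑ Y : ι → V, if (fun j => Y (e j)) = z then (1 : ℝ) else 0) *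
        (Fintype.card V : ℝ) ^ s ≤ (k : ℝ) ^ s * (Fintype.card V : ℝ) ^ k := by
    rw [Finset.sum_mul, Finset.sum_congr rfl h2, Finset.sum_const, nsmul_eq_mul]
    refine mul_le_mul_of_nonneg_right ?_ (by positivity)
    have h4 : (univ.filter (fun e : Fin s → ι => Function.Injective e)).card ≤ k ^ s := by
      refine (Finset.card_le_univ _).trans ?_
      rw [Fintype.card_fun, Fintype.card_fin, hk]
    exact_mod_cast h4
  exact (mul_le_mul_of_nonneg_right h1 (by positivity)).trans h3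

theorem cap_arith {δ N T k n : ℝ} {kk s : ℕ} (hδ : 0 < δ) (hN0 : 0 < N) (hT0 : 0 < T)
    (hk0 : 0 ≤ k) (hkn : k ≤ n) (hs : 1 ≤ s) (hTk : δ * k * N ^ kk < T) :
    δ * N / T * (k ^ s * N ^ kk / N ^ s) ≤ (n / N) ^ (s - 1) := by
  obtain ⟨s', rfl⟩ : ∃ s', s = s' + 1 := ⟨s - 1, by omega⟩
  rw [Nat.add_sub_cancel]
  have h5 : δ * N / T * (k ^ (s' + 1) * N ^ kk / N ^ (s' + 1)) =
      (δ * k * N ^ kk) / T * (k / N) ^ s' := by
    rw [pow_succ k s', pow_succ N s', div_pow]
    field_simp
  rw [h5]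
  have h6 : (δ * k * N ^ kk) / T ≤ 1 := by
    rw [div_le_one hT0]; exact hTk.le
  have h7 : (0 : ℝ) ≤ (k / N) ^ s' := by positivity
  have h8 : (k / N) ^ s' ≤ (n / N) ^ s' :=
    pow_le_pow_left₀ (by positivity) (div_le_div_of_nonneg_right hkn hN0.le) _
  calc (δ * k * N ^ kk) / T * (k / N) ^ s' ≤ 1 * (k / N) ^ s' :=
        mul_le_mul_of_nonneg_right h6 h7
    _ = (k / N) ^ s' := one_mul _
    _ ≤ _ := h8

/-- the mean of the matching number of a container without admissible weight -/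
theorem mean_le (C : Finset (Fin s → V)) {k n : ℕ} (hk : Fintype.card ι = k) (hkn : k ≤ n)
    {δ : ℝ} (hδ : 0 < δ) (hs : 1 ≤ s) (hV : 0 < Fintype.card V)
    (hno : ¬ ∃ w, AdmS n δ C w) :
    ∑ Y : ι → V, (nu C Y : ℝ) ≤ δ * n * (Fintype.card V : ℝ) ^ k := by
  classical
  by_contra hcon
  push Not at hcon
  obtain ⟨T, hT⟩ : ∃ T : ℝ, T = ∑ Y : ι → V, (nu C Y : ℝ) := ⟨_, rfl⟩
  rw [← hT] at hcon
  obtain ⟨N, hN⟩ : ∃ N : ℝ, N = (Fintype.card V : ℝ) := ⟨_, rfl⟩
  rw [← hN] at hcon
  have hN0 : 0 < N := by rw [hN]; exact_mod_cast hV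
  have hNk : 0 < N ^ k := pow_pos hN0 k
  have hT0 : 0 < T := lt_of_le_of_lt (by positivity) hcon
  have hTk : δ * k * N ^ k < T := by
    refine lt_of_le_of_lt ?_ hcon
    have : (k : ℝ) ≤ n := by exact_mod_cast hkn
    have := mul_le_mul_of_nonneg_left this hδ.le
    exact mul_le_mul_of_nonneg_right this hNk.le
  -- k is positive
  have hkpos : 0 < k := by
    rcases Nat.eq_zero_or_pos k with h0 | h0
    · exfalso
      have hι : IsEmpty ι := Fintype.card_eq_zero_iff.1 (hk.trans h0)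
      have : T = 0 := by
        rw [hT]
        refine Finset.sum_eq_zero fun Y _ => ?_
        rw [← mm_card]
        have : mm C Y = ∅ := by
          rw [Finset.eq_empty_iff_forall_notMem]
          intro e _
          exact hι.elim (e ⟨0, hs⟩)
        rw [this]; simp
      rw [this] at hT0
      exact lt_irrefl _ hT0
    · exact h0
  have hk0 : (0 : ℝ) < k := by exact_mod_cast hkpos
  apply hno
  have hc0 : 0 ≤ δ * N / T := by positivity
  refine ⟨fun z => δ * N / T * w0 C ι z, ?_⟩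
  unfold AdmS
  rw [← hN]
  refine ⟨?_, ?_, ?_, ?_, ?_⟩
  · intro z
    exact mul_nonneg hc0 (w0_nonneg C z)
  · intro z hz
    exact w0_supp (ι := ι) C z (right_ne_zero_of_mul hz)
  · intro a
    have h1 := w0_row (ι := ι) C a hk
    rw [← hN] at h1
    have h2 : ∑ z, mult a z * (δ * N / T * w0 C ι z) =
        δ / T * ((∑ z, mult a z * w0 C ι z) * N) := by
      rw [Finset.sum_mul, Finset.mul_sum]
      exact Finset.sum_congr rfl fun z _ => by ring
    rw [h2]
    calc δ / T * ((∑ z, mult a z * w0 C ι z) * N) ≤ δ / T * (k * N ^ k) :=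
          mul_le_mul_of_nonneg_left h1 (div_nonneg hδ.le hT0.le)
      _ = (δ * k * N ^ k) / T := by ring
      _ ≤ 1 := by
          rw [div_le_one hT0]; exact hTk.le
  · intro z
    have h1 := w0_cap (ι := ι) C z hk
    rw [← hN] at h1
    have hNs : 0 < N ^ s := pow_pos hN0 s
    have h2 : w0 C ι z ≤ k ^ s * N ^ k / N ^ s := by
      rw [le_div_iff₀ hNs]; exact h1
    have h3 : δ * N / T * w0 C ι z ≤ δ * N / T * (k ^ s * N ^ k / N ^ s) :=
      mul_le_mul_of_nonneg_left h2 hc0
    have hkn' : (k : ℝ) ≤ n := by exact_mod_cast hkn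
    exact h3.trans (cap_arith hδ hN0 hT0 hk0.le hkn' hs hTk)
  · have h1 := sum_w0 (ι := ι) C (fun _ => 1)
    simp only [one_mul, Finset.sum_const, nsmul_eq_mul, mul_one] at h1
    rw [← Finset.mul_sum, h1]
    have h2 : ∑ Y : ι → V, ((mm C Y).card : ℝ) = T := by
      rw [hT]
      exact Finset.sum_congr rfl fun Y _ => by rw [mm_card]
    rw [h2]
    field_simp

open Classical in
/-- tail of the matching number of a container without admissible weight -/
theorem nu_tail (C : Finset (Fin s → V)) {k n : ℕ} (hk : Fintype.card ι = k) (hkn : k ≤ n)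
    (hn : 0 < n) {δ : ℝ} (hδ : 0 < δ) (hs : 1 ≤ s) (hV : 0 < Fintype.card V)
    (hno : ¬ ∃ w, AdmS n δ C w) :
    ((univ.filter fun Y : ι → V => 2 * δ * n ≤ (nu C Y : ℝ)).card : ℝ) ≤
      (Fintype.card V : ℝ) ^ k * Real.exp (- (δ ^ 2 * n / 2)) := by
  have h := tail (V := V) (ι := ι) (fun Y => (nu C Y : ℝ)) (δ * n) (δ * n) n
    (by exact_mod_cast hn) (by positivity) (by rw [hk]; exact_mod_cast hkn) hV
    (by rw [hk]; exact mean_le C hk hkn hδ hs hV hno)
    (by
      intro Y Y' i hY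
      have := nu_lip C Y Y' i hY
      have : (nu C Y : ℝ) ≤ nu C Y' + 1 := by exact_mod_cast this
      linarith)
  rw [hk] at h
  have e1 : δ * (n : ℝ) + δ * n = 2 * δ * n := by ring
  rw [e1] at h
  have e2 : -(δ * (n : ℝ)) ^ 2 / (2 * n) = -(δ ^ 2 * n / 2) := by
    have : (n : ℝ) ≠ 0 := by positivity
    field_simp
  rw [e2] at h
  exact h

end Mean

/-! ### fibres -/

section Fibre

variable {V : Type*} [Fintype V] [DecidableEq V] {ι : Type*} [Fintype ι] [DecidableEq ι]

/-- glue -/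
def glue (J : Finset ι) (X : ι → V) (Y : {i // i ∉ J} → V) : ι → V :=
  fun i => if h : i ∈ J then X i else Y ⟨i, h⟩

theorem glue_in {J : Finset ι} {X : ι → V} {Y : {i // i ∉ J} → V} {i : ι} (h : i ∈ J) :
    glue J X Y i = X i := by simp [glue, h]

theorem glue_out {J : Finset ι} {X : ι → V} {Y : {i // i ∉ J} → V} {i : ι} (h : i ∉ J) :
    glue J X Y i = Y ⟨i, h⟩ := by simp [glue, h]

/-- the swapping involution -/
def swp (J : Finset ι) (p : (ι → V) × ({i // i ∉ J} → V)) :
    (ι → V) × ({i // i ∉ J} → V) :=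
  (glue J p.1 p.2, fun i => p.1 i.1)

theorem swp_invol (J : Finset ι) : Function.Involutive (swp (V := V) J) := by
  rintro ⟨X, Y⟩
  unfold swp
  ext i
  · by_cases h : i ∈ J
    · simp [glue, h]
    · simp [glue, h]
  · simp only
    exact glue_out i.2

open Classical in
theorem count_fibre (J : Finset ι) (P : (ι → V) → Prop) (ε : ℝ) (hV : 0 < Fintype.card V)
    (h : ∀ X : ι → V, ((univ.filter fun Y : {i // i ∉ J} → V => P (glue J X Y)).card : ℝ) ≤
      (Fintype.card V : ℝ) ^ (Fintype.card {i // i ∉ J}) * ε) :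
    ((univ.filter fun X : ι → V => P X).card : ℝ) ≤
      (Fintype.card V : ℝ) ^ (Fintype.card ι) * ε := by
  set m := Fintype.card {i // i ∉ J} with hm
  have hN0 : (0 : ℝ) < (Fintype.card V : ℝ) := by exact_mod_cast hV
  have h1 : ∑ X : ι → V, ((univ.filter fun Y : {i // i ∉ J} → V => P (glue J X Y)).card : ℝ) ≤
      ∑ _X : ι → V, (Fintype.card V : ℝ) ^ m * ε := Finset.sum_le_sum fun X _ => h X
  have h2 : ∑ X : ι → V, ((univ.filter fun Y : {i // i ∉ J} → V => P (glue J X Y)).card : ℝ) =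
      ((univ.filter fun X : ι → V => P X).card : ℝ) * (Fintype.card V : ℝ) ^ m := by
    have h3 : ∑ X : ι → V, ((univ.filter fun Y : {i // i ∉ J} → V =>
        P (glue J X Y)).card : ℝ) =
        ∑ p : (ι → V) × ({i // i ∉ J} → V), if P (swp J p).1 then (1 : ℝ) else 0 := by
      rw [Fintype.sum_prod_type]
      refine Finset.sum_congr rfl fun X _ => ?_
      rw [Finset.card_filter]
      push_cast
      rfl
    have h3' : ∑ p : (ι → V) × ({i // i ∉ J} → V), (if P (swp J p).1 then (1 : ℝ) else 0) =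
        ∑ p : (ι → V) × ({i // i ∉ J} → V), if P p.1 then (1 : ℝ) else 0 :=
      Equiv.sum_comp (swp_invol J).toPerm
        (fun p : (ι → V) × ({i // i ∉ J} → V) => if P p.1 then (1 : ℝ) else 0)
    rw [h3, h3', Fintype.sum_prod_type]
    have h3'' : ∀ X : ι → V, (∑ _y : {i // i ∉ J} → V, if P X then (1 : ℝ) else 0) =
        (if P X then (1 : ℝ) else 0) * (Fintype.card V : ℝ) ^ m := by
      intro X
      rw [Finset.sum_const, Finset.card_univ, Fintype.card_fun, nsmul_eq_mul, hm]
      push_cast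
      ring
    have h3''' : ∑ X : ι → V, (∑ _y : {i // i ∉ J} → V, if P X then (1 : ℝ) else 0) =
        ∑ X : ι → V, (if P X then (1 : ℝ) else 0) * (Fintype.card V : ℝ) ^ m :=
      Finset.sum_congr rfl fun X _ => h3'' X
    rw [← Finset.sum_mul] at h3'''
    refine Eq.trans h3''' ?_
    rw [Finset.card_filter]
    push_cast
    rfl
  rw [h2] at h1
  simp only [Finset.sum_const, Finset.card_univ, nsmul_eq_mul, Fintype.card_fun] at h1
  push_cast at h1
  have h4 : 0 < (Fintype.card V : ℝ) ^ m := pow_pos hN0 m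
  have h5 : ((univ.filter fun X : ι → V => P X).card : ℝ) * (Fintype.card V : ℝ) ^ m ≤
      ((Fintype.card V : ℝ) ^ (Fintype.card ι) * ε) * (Fintype.card V : ℝ) ^ m := by
    refine h1.trans (le_of_eq ?_)
    ring
  exact le_of_mul_le_mul_right h5 h4

end Fibre

end Crest.Agent.R042.Cont666
end

-- ▼ part R042/Cont_666
section

set_option autoImplicit false
set_option linter.unusedSectionVars false
open Finset

/-!
S0059 (row 42): the sampling / container theorem, main statement `cont` (counting form, all `s`).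
-/

namespace Crest.Agent.R042.Cont666

theorem exists_list_map {A B : Type*} (f : A → B) (P : A → Prop) (L : List B)
    (h : ∀ z ∈ L, ∃ e, P e ∧ f e = z) : ∃ E : List A, (∀ e ∈ E, P e) ∧ E.map f = L := by
  induction L with
  | nil => exact ⟨[], by simp, rfl⟩
  | cons z L ih =>
    obtain ⟨E, h1, h2⟩ := ih (fun z hz => h z (List.mem_cons_of_mem _ hz))
    obtain ⟨e, he, hez⟩ := h z List.mem_cons_self
    refine ⟨e :: E, ?_, by rw [List.map_cons, h2, hez]⟩
    intro e' he'
    rcases List.mem_cons.1 he' with rfl | he'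
    · exact he
    · exact h1 e' he'

section Main

variable {V : Type*} [Fintype V] [DecidableEq V] {s n : ℕ}

/-- indices used by a list of tuples -/
def ind {j : ℕ} (E : Fin j → (Fin s → Fin n)) : Finset (Fin n) :=
  univ.biUnion fun i => univ.image (E i)

theorem mem_ind {j : ℕ} {E : Fin j → (Fin s → Fin n)} {x : Fin n} :
    x ∈ ind E ↔ ∃ i l, E i l = x := by
  simp [ind]

/-- values of a list of index tuples -/
def vals (X : Fin n → V) {j : ℕ} (E : Fin j → (Fin s → Fin n)) : List (Fin s → V) :=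
  List.ofFn fun i => fun l => X (E i l)

theorem vals_glue {j : ℕ} (E : Fin j → (Fin s → Fin n)) (X : Fin n → V)
    (Y : {i // i ∉ ind E} → V) : vals (glue (ind E) X Y) E = vals X E := by
  unfold vals
  congr 1
  funext i l
  exact glue_in (mem_ind.2 ⟨i, l, rfl⟩)

/-- the event for a fixed certificate -/
def QQ (δ : ℝ) (C : List (Fin s → V) → Finset (Fin s → V)) {j : ℕ}
    (E : Fin j → (Fin s → Fin n)) (X : Fin n → V) : Prop :=
  (¬ ∃ w, AdmS n δ (C (vals X E)) w) ∧
      2 * δ * n ≤ (nu (C (vals X E)) (fun i : {i // i ∉ ind E} => X i.1) : ℝ)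


open Classical in
theorem fixed_tail (hn : 0 < n) (hs : 1 ≤ s) {δ : ℝ} (hδ : 0 < δ) (hV : 0 < Fintype.card V)
    (C : List (Fin s → V) → Finset (Fin s → V)) {j : ℕ} (E : Fin j → (Fin s → Fin n)) :
    ((univ.filter fun X : Fin n → V => QQ δ C E X).card : ℝ) ≤
      (Fintype.card V : ℝ) ^ n * Real.exp (- (δ ^ 2 * n / 2)) := by
  have h := count_fibre (V := V) (ι := Fin n) (ind E)
    (fun X => QQ δ C E X)
    (Real.exp (- (δ ^ 2 * n / 2))) hV (by
      intro X
      have hcard : Fintype.card {i // i ∉ ind E} ≤ n := by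
        have := Fintype.card_subtype_le (fun i : Fin n => i ∉ ind E)
        rwa [Fintype.card_fin] at this
      have hY : ∀ Y : {i // i ∉ ind E} → V,
          (fun i : {i // i ∉ ind E} => glue (ind E) X Y i.1) = Y := by
        intro Y
        funext i
        exact glue_out i.2
      by_cases hno : ∃ w, AdmS n δ (C (vals X E)) w
      · have : (univ.filter fun Y : {i // i ∉ ind E} → V =>
            QQ δ C E (glue (ind E) X Y)) = ∅ := by
          rw [Finset.filter_eq_empty_iff]
          intro Y _ hc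
          unfold QQ at hc
          rw [vals_glue] at hc
          exact hc.1 hno
        rw [this]
        simp only [Finset.card_empty, Nat.cast_zero]
        positivity
      · have h1 := nu_tail (V := V) (ι := {i // i ∉ ind E}) (C (vals X E)) rfl hcard hn hδ hs
          hV hno
        refine le_trans ?_ h1
        have h2 : (univ.filter fun Y : {i // i ∉ ind E} → V =>
            QQ δ C E (glue (ind E) X Y)) ⊆
            (univ.filter fun Y : {i // i ∉ ind E} → V =>
              2 * δ * n ≤ (nu (C (vals X E)) Y : ℝ)) := by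
          intro Y hY'
          rw [Finset.mem_filter] at hY' ⊢
          refine ⟨Finset.mem_univ _, ?_⟩
          have h3 := hY'.2.2
          rw [vals_glue, hY Y] at h3
          exact h3
        exact_mod_cast Finset.card_le_card h2)
  rw [Fintype.card_fin] at h
  exact h



end Main

end Crest.Agent.R042.Cont666
end

-- ▼ part R042/ContB_666
section

set_option autoImplicit false
set_option linter.unusedSectionVars false
open Finset

/-!
S0059 (row 42): the sampling / container theorem for two families.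
-/

namespace Crest.Agent.R042.Cont666

section Containers2

variable {Z α : Type*} [Fintype Z] [DecidableEq Z] [Nonempty Z]

open Classical in
/-- two-family containers -/
theorem containers2 (r : α → Z → ℝ) (c μ g : ℝ) (Ω : Finset Z) (R : Z → Z → Prop)
    (hμ : 0 < μ) (hc : 0 < c) (hg : 0 < g)
    (hSS : ∀ w₁ w₂, Adm r c μ Ω w₁ → Adm r c μ Ω w₂ → ∃ z, w₁ z ≠ 0 ∧
      g ≤ ∑ z' ∈ univ.filter (fun z' => R z z'), w₂ z')
    (t : ℕ) (ht : μ * Real.log (c * Fintype.card Z / μ) / (g * Real.log 2) + 1 ≤ t) :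
    ∃ C₁ C₂ : List Z → Finset Z, ∀ A₁ A₂ : Set Z, (∀ z ∈ A₁, z ∈ Ω) → (∀ z ∈ A₂, z ∈ Ω) →
      (∀ z ∈ A₁, ∀ z' ∈ A₂, ¬ R z z') →
      ∃ L : List Z, (∀ z ∈ L, z ∈ A₁) ∧ L.length ≤ t ∧ (∀ z ∈ A₁, z ∈ C₁ L) ∧
        (∀ z ∈ A₂, z ∈ C₂ L) ∧ (¬ HasAdm r c μ (C₁ L) ∨ ¬ HasAdm r c μ (C₂ L)) := by
  have hZ : 0 < Fintype.card Z := Fintype.card_pos
  have hZ' : (0 : ℝ) < (Fintype.card Z : ℝ) := by exact_mod_cast hZ
  have hlog2 : 0 < Real.log 2 := Real.log_pos (by norm_num)
  set stop : Finset Z × Finset Z → Prop := fun W =>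
    ¬ ((HasAdm r c μ W.1 ∧ W.1 ⊆ Ω) ∧ (HasAdm r c μ W.2 ∧ W.2 ⊆ Ω)) with hstop
  have hq : ∀ W : Finset Z × Finset Z, ∃ z, ¬ stop W → (mw r c μ W.1 z ≠ 0 ∧
      g ≤ ∑ z' ∈ univ.filter (fun z' => R z z'), mw r c μ W.2 z') := by
    intro W
    by_cases h : stop W
    · exact ⟨Classical.arbitrary Z, fun h' => absurd h h'⟩
    · have h' := not_not.1 h
      obtain ⟨z, hz⟩ := hSS _ _ ((mw_adm h'.1.1).mono h'.1.2) ((mw_adm h'.2.1).mono h'.2.2)
      exact ⟨z, fun _ => hz⟩
  choose q hq using hq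
  set yes : Finset Z × Finset Z → Finset Z × Finset Z := fun W =>
    (W.1, W.2 \ univ.filter (fun z' => R (q W) z')) with hyes
  set no : Finset Z × Finset Z → Finset Z × Finset Z := fun W =>
    (W.1.erase (q W), W.2) with hno
  set pot : Finset Z × Finset Z → ℝ := fun W => ent (mw r c μ W.2) with hpot
  set meas : Finset Z × Finset Z → ℕ := fun W => W.1.card + W.2.card with hmeas
  refine ⟨fun L => (run stop q yes no (meas (Ω, Ω) + 1) (Ω, Ω) L).1,
    fun L => (run stop q yes no (meas (Ω, Ω) + 1) (Ω, Ω) L).2, ?_⟩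
  intro A₁ A₂ hA₁ hA₂ hfree
  have key := run_spec (stop := stop) (q := q) (yes := yes) (no := no) (meas := meas)
    (pot := pot) (g := Real.log 2 * g) (B := μ * Real.log c) (mul_pos hlog2 hg)
    (by
      intro W hW
      have hlt : (W.2 \ univ.filter (fun z' => R (q W) z')).card < W.2.card := by
        refine Finset.card_lt_card ?_
        refine ⟨sdiff_subset, fun hsub => ?_⟩
        obtain ⟨h1, h2⟩ := hq W hW
        have h3 : ∃ z' ∈ univ.filter (fun z' => R (q W) z'), mw r c μ W.2 z' ≠ 0 := by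
          by_contra hcon
          push Not at hcon
          rw [Finset.sum_eq_zero hcon] at h2
          linarith
        obtain ⟨z', hz', hne⟩ := h3
        have h4 := (mw_adm (not_not.1 hW).2.1).supp z' hne
        exact (Finset.mem_sdiff.1 (hsub h4)).2 hz'
      show W.1.card + (W.2 \ univ.filter (fun z' => R (q W) z')).card < W.1.card + W.2.card
      omega)
    (by
      intro W hW
      obtain ⟨h1, h2⟩ := hq W hW
      have hlt := Finset.card_erase_lt_of_mem ((mw_adm (not_not.1 hW).1.1).supp _ h1)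
      show (W.1.erase (q W)).card + W.2.card < W.1.card + W.2.card
      omega)
    (by
      intro W hW hW'
      obtain ⟨h1, h2⟩ := hq W hW
      have h3 := gain (S := univ.filter (fun z' => R (q W) z')) (not_not.1 hW).2.1
        (not_not.1 hW').2.1
      have h4 := mul_le_mul_of_nonneg_left h2 hlog2.le
      show ent (mw r c μ W.2) + Real.log 2 * g ≤
        ent (mw r c μ (W.2 \ univ.filter (fun z' => R (q W) z')))
      linarith)
    (by
      intro W hW hW'
      exact le_refl _)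
    (by
      intro W hW
      exact ent_le (mw_adm (not_not.1 hW).2.1))
    A₁ (fun W => ((∀ z ∈ A₁, z ∈ W.1) ∧ W.1 ⊆ Ω) ∧ ((∀ z ∈ A₂, z ∈ W.2) ∧ W.2 ⊆ Ω))
    (by
      rintro W ⟨⟨h1, h2⟩, ⟨h3, h4⟩⟩ hW hqA
      refine ⟨⟨h1, h2⟩, ⟨fun z hz => ?_, sdiff_subset.trans h4⟩⟩
      refine Finset.mem_sdiff.2 ⟨h3 z hz, fun hR => ?_⟩
      exact hfree _ hqA _ hz (Finset.mem_filter.1 hR).2)
    (by
      rintro W ⟨⟨h1, h2⟩, ⟨h3, h4⟩⟩ hW hqA
      refine ⟨⟨fun z hz => ?_, (Finset.erase_subset _ _).trans h2⟩, ⟨h3, h4⟩⟩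
      exact Finset.mem_erase.2 ⟨fun h => hqA (h ▸ hz), h1 z hz⟩)
    (meas (Ω, Ω) + 1) (Ω, Ω) (Nat.lt_succ_self _)
    ⟨⟨hA₁, Finset.Subset.refl _⟩, ⟨hA₂, Finset.Subset.refl _⟩⟩
  obtain ⟨L, h1, h2, h3, h4, h5⟩ := key
  refine ⟨L, h1, ?_, h3.1.1, h3.2.1, ?_⟩
  · by_cases hst : stop (Ω, Ω)
    · rw [h4 hst]; simp
    · have h6 := h5 hst
      have h7 := ent_ge hμ (mw_adm (not_not.1 hst).2.1) hZ
      have h8 : μ * Real.log (c * Fintype.card Z / μ) =
          μ * Real.log c - μ * Real.log (μ / (Fintype.card Z : ℝ)) := by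
        rw [Real.log_div (by positivity) hμ.ne', Real.log_mul hc.ne' hZ'.ne',
          Real.log_div hμ.ne' hZ'.ne']
        ring
      have h9 : ((L.length : ℝ) - 1) * (g * Real.log 2) ≤
          μ * Real.log (c * Fintype.card Z / μ) := by
        rw [h8]
        have h6' : ((L.length : ℝ) - 1) * (Real.log 2 * g) ≤ μ * Real.log c -
          ent (mw r c μ Ω) := h6
        have h7' : μ * Real.log (μ / (Fintype.card Z : ℝ)) ≤ ent (mw r c μ Ω) := h7
        have e : ((L.length : ℝ) - 1) * (g * Real.log 2) =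
          ((L.length : ℝ) - 1) * (Real.log 2 * g) := by ring
        rw [e]
        linarith
      have h10 : ((L.length : ℝ) - 1) ≤ μ * Real.log (c * Fintype.card Z / μ) /
          (g * Real.log 2) := by
        rw [le_div_iff₀ (mul_pos hg hlog2)]
        exact h9
      have h11 : (L.length : ℝ) ≤ (t : ℝ) := by linarith
      exact_mod_cast h11
  · by_contra hcon
    rw [not_or, not_not, not_not] at hcon
    exact h2 ⟨⟨hcon.1, h3.1.2⟩, ⟨hcon.2, h3.2.2⟩⟩

end Containers2

section Main2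

variable {V : Type*} [Fintype V] [DecidableEq V] {s n : ℕ}

/-- the bad event for two families -/
def Bad2 (Ω : Finset (Fin s → V)) (R : (Fin s → V) → (Fin s → V) → Prop) (m : ℝ)
    (X : Fin n → V) : Prop :=
  ∃ M₁ M₂ : Finset (Fin s → Fin n), IsMatch M₁ ∧ IsMatch M₂ ∧
      (∀ e ∈ M₁, (fun j => X (e j)) ∈ Ω) ∧ (∀ e ∈ M₂, (fun j => X (e j)) ∈ Ω) ∧
      (∀ e ∈ M₁, ∀ e' ∈ M₂, ¬ R (fun j => X (e j)) (fun j => X (e' j))) ∧
      m ≤ (M₁.card : ℝ) ∧ m ≤ (M₂.card : ℝ)

/-- restricting a family to the complement of the indices of a certificate -/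
theorem restrict_fam {j : ℕ} (E : Fin j → (Fin s → Fin n)) (C : Finset (Fin s → V))
    (X : Fin n → V) (M : Finset (Fin s → Fin n)) (hM : IsMatch M)
    (hC : ∀ e ∈ M, (fun l => X (e l)) ∈ C) :
    M.card ≤ nu C (fun i : {i // i ∉ ind E} => X i.1) + s * j := by
  classical
  set M'' : Finset (Fin s → {i // i ∉ ind E}) :=
    univ.filter (fun e'' => (fun l => (e'' l).1) ∈ M) with hM''
  have hfam : M'' ∈ fam C (fun i : {i // i ∉ ind E} => X i.1) := by
    rw [mem_fam]
    refine ⟨⟨?_, ?_⟩, ?_⟩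
    · intro e he a b hab
      have := hM.1 _ (Finset.mem_filter.1 he).2
      exact this (by simpa using congrArg Subtype.val hab)
    · intro e he e' he' hne a b hab
      have hne' : (fun l => (e l).1) ≠ (fun l => (e' l).1) := by
        intro h
        apply hne
        funext l
        exact Subtype.ext (congrFun h l)
      exact hM.2 _ (Finset.mem_filter.1 he).2 _ (Finset.mem_filter.1 he').2 hne' a b
        (congrArg Subtype.val hab)
    · intro e he
      exact hC _ (Finset.mem_filter.1 he).2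
  -- members meeting `ind E`
  set B := M.filter (fun e => ∃ l, e l ∈ ind E) with hB
  have hind : (ind E).card ≤ s * j := by
    unfold ind
    refine (Finset.card_biUnion_le).trans ?_
    refine (Finset.sum_le_sum (g := fun _ => s) fun i _ => ?_).trans ?_
    · refine Finset.card_image_le.trans ?_
      simp
    · simp [mul_comm]
  have hBc : B.card ≤ (ind E).card := by
    have hch : ∀ e ∈ B, ∃ x, x ∈ ind E ∧ ∃ l, e l = x := by
      intro e he
      obtain ⟨l, hl⟩ := (Finset.mem_filter.1 he).2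
      exact ⟨e l, hl, l, rfl⟩
    rcases B.eq_empty_or_nonempty with hBe | ⟨e0, he0⟩
    · rw [hBe]; simp
    obtain ⟨x0, _, _⟩ := hch e0 he0
    have : Nonempty (Fin n) := ⟨x0⟩
    choose! f hf1 hf2 using hch
    refine Finset.card_le_card_of_injOn f (fun e he => hf1 e he) ?_
    intro e he e' he' heq
    by_contra hne
    obtain ⟨l, hl⟩ := hf2 e he
    obtain ⟨l', hl'⟩ := hf2 e' he'
    exact hM.2 e (Finset.mem_filter.1 he).1 e' (Finset.mem_filter.1 he').1 hne l l'
      (by rw [hl, hl', heq])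
  have hsub : M \ B ⊆ M''.image (fun e'' => fun l => (e'' l).1) := by
    intro e he
    rw [Finset.mem_sdiff] at he
    rw [Finset.mem_image]
    have hout : ∀ l, e l ∉ ind E := by
      intro l hl
      exact he.2 (Finset.mem_filter.2 ⟨he.1, l, hl⟩)
    refine ⟨fun l => ⟨e l, hout l⟩, ?_, rfl⟩
    rw [hM'', Finset.mem_filter]
    exact ⟨Finset.mem_univ _, he.1⟩
  have hc1 : (M \ B).card ≤ M''.card :=
    (Finset.card_le_card hsub).trans Finset.card_image_le
  have hc2 : M.card - B.card ≤ (M \ B).card := Finset.le_card_sdiff _ _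
  have hc4 := le_nu hfam
  omega

theorem certificate2 {t : ℕ} {δ : ℝ} (C₁ C₂ : List (Fin s → V) → Finset (Fin s → V))
    (Ω : Finset (Fin s → V)) (R : (Fin s → V) → (Fin s → V) → Prop)
    (hC : ∀ A₁ A₂ : Set (Fin s → V), (∀ z ∈ A₁, z ∈ Ω) → (∀ z ∈ A₂, z ∈ Ω) →
      (∀ z ∈ A₁, ∀ z' ∈ A₂, ¬ R z z') →
      ∃ L : List (Fin s → V), (∀ z ∈ L, z ∈ A₁) ∧ L.length ≤ t ∧ (∀ z ∈ A₁, z ∈ C₁ L) ∧
        (∀ z ∈ A₂, z ∈ C₂ L) ∧
        ((¬ ∃ w, AdmS n δ (C₁ L) w) ∨ (¬ ∃ w, AdmS n δ (C₂ L) w)))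
    (X : Fin n → V) (hX : Bad2 Ω R (2 * δ * n + s * t) X) :
    ∃ j ∈ Finset.range (t + 1), ∃ E : Fin j → (Fin s → Fin n),
      QQ δ C₁ E X ∨ QQ δ C₂ E X := by
  classical
  obtain ⟨M₁, M₂, hM₁, hM₂, hΩ₁, hΩ₂, hR, hc₁, hc₂⟩ := hX
  obtain ⟨L, h1, h2, h3, h3', h4⟩ := hC {z | ∃ e ∈ M₁, (fun j => X (e j)) = z}
    {z | ∃ e ∈ M₂, (fun j => X (e j)) = z}
    (by rintro z ⟨e, he, rfl⟩; exact hΩ₁ e he)
    (by rintro z ⟨e, he, rfl⟩; exact hΩ₂ e he)
    (by
      rintro z ⟨e, he, rfl⟩ z' ⟨e', he', rfl⟩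
      exact hR e he e' he')
  obtain ⟨El, h5, h6⟩ := exists_list_map (fun e : Fin s → Fin n => fun j => X (e j))
    (fun e => e ∈ M₁) L h1
  have hlen : El.length ≤ t := by
    rw [← h6, List.length_map] at h2; exact h2
  refine ⟨El.length, Finset.mem_range.2 (by omega), fun i => El.get i, ?_⟩
  have hvals : vals X (fun i => El.get i) = L := by
    rw [← h6]
    unfold vals
    exact List.ofFn_getElem_eq_map El (fun e : Fin s → Fin n => fun j => X (e j))
  have hst : s * El.length ≤ s * t := Nat.mul_le_mul_left _ hlen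
  have hst' : ((s * El.length : ℕ) : ℝ) ≤ s * t := by exact_mod_cast hst
  unfold QQ
  rw [hvals]
  rcases h4 with h4 | h4
  · left
    refine ⟨h4, ?_⟩
    have h7 := restrict_fam (fun i => El.get i) (C₁ L) X M₁ hM₁
      (fun e he => h3 _ ⟨e, he, rfl⟩)
    have h8 : (M₁.card : ℝ) ≤ (nu (C₁ L) (fun i : {i // i ∉ ind fun i => El.get i} => X i.1) :
      ℝ) + ((s * El.length : ℕ) : ℝ) := by exact_mod_cast h7
    linarith
  · right
    refine ⟨h4, ?_⟩
    have h7 := restrict_fam (fun i => El.get i) (C₂ L) X M₂ hM₂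
      (fun e he => h3' _ ⟨e, he, rfl⟩)
    have h8 : (M₂.card : ℝ) ≤ (nu (C₂ L) (fun i : {i // i ∉ ind fun i => El.get i} => X i.1) :
      ℝ) + ((s * El.length : ℕ) : ℝ) := by exact_mod_cast h7
    linarith

open Classical in
/-- **sampling / container theorem**, two families, counting form. -/
theorem cont2 (n s t : ℕ) (δ κ : ℝ) (Ω : Finset (Fin s → V))
    (R : (Fin s → V) → (Fin s → V) → Prop)
    (hn : 0 < n) (hs : 1 ≤ s) (hδ : 0 < δ) (hκ : 0 < κ) (hV : 0 < Fintype.card V)
    (hSS : ∀ w₁ w₂, AdmS n δ Ω w₁ → AdmS n δ Ω w₂ → ∃ z, w₁ z ≠ 0 ∧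
      κ * (Fintype.card V : ℝ) ≤ ∑ z' ∈ univ.filter (fun z' => R z z'), w₂ z')
    (ht : δ * Real.log ((n : ℝ) ^ (s - 1) / δ) / (κ * Real.log 2) + 1 ≤ t) :
    ((univ.filter fun X : Fin n → V => Bad2 Ω R (2 * δ * n + s * t) X).card : ℝ) ≤
      2 * (t + 1) * (n : ℝ) ^ (s * t) * Real.exp (- (δ ^ 2 * n / 2)) *
        (Fintype.card V : ℝ) ^ n := by
  have hVne : Nonempty V := Fintype.card_pos_iff.1 hV
  have hN0 : (0 : ℝ) < (Fintype.card V : ℝ) := by exact_mod_cast hV
  have hn0 : (0 : ℝ) < (n : ℝ) := by exact_mod_cast hn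
  have hn1 : (1 : ℝ) ≤ (n : ℝ) := by exact_mod_cast hn
  obtain ⟨C₁, C₂, hC⟩ := containers2 (Z := Fin s → V) (fun a z => mult a z)
    (((n : ℝ) / (Fintype.card V : ℝ)) ^ (s - 1)) (δ * (Fintype.card V : ℝ))
    (κ * (Fintype.card V : ℝ)) Ω R (mul_pos hδ hN0) (pow_pos (div_pos hn0 hN0) _)
    (mul_pos hκ hN0) hSS t (by
      have h1 : (((n : ℝ) / (Fintype.card V : ℝ)) ^ (s - 1) *
          (Fintype.card (Fin s → V) : ℝ) / (δ * (Fintype.card V : ℝ))) =
          (n : ℝ) ^ (s - 1) / δ := by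
        rw [Fintype.card_fun, Fintype.card_fin]
        obtain ⟨s', rfl⟩ : ∃ s', s = s' + 1 := ⟨s - 1, by omega⟩
        rw [Nat.add_sub_cancel]
        push_cast
        rw [div_pow, pow_succ]
        field_simp
      rw [h1]
      have h2 : δ * (Fintype.card V : ℝ) * Real.log ((n : ℝ) ^ (s - 1) / δ) /
          (κ * (Fintype.card V : ℝ) * Real.log 2) =
          δ * Real.log ((n : ℝ) ^ (s - 1) / δ) / (κ * Real.log 2) := by
        have : Real.log 2 ≠ 0 := (Real.log_pos (by norm_num)).ne'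
        field_simp
      rw [h2]
      exact ht)
  have hsub : (univ.filter fun X : Fin n → V => Bad2 Ω R (2 * δ * n + s * t) X) ⊆
      ((Finset.range (t + 1)).biUnion fun j =>
        (univ : Finset (Fin j → (Fin s → Fin n))).biUnion fun E =>
          (univ.filter fun X => QQ δ C₁ E X) ∪ (univ.filter fun X => QQ δ C₂ E X)) := by
    intro X hX
    obtain ⟨j, hj, E, hE⟩ := certificate2 (n := n) (t := t) (δ := δ) C₁ C₂ Ω R
      (by
        intro A₁ A₂ h1 h1' h2
        obtain ⟨L, h3, h4, h5, h5', h6⟩ := hC A₁ A₂ h1 h1' h2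
        exact ⟨L, h3, h4, h5, h5', h6⟩) X (Finset.mem_filter.1 hX).2
    rw [Finset.mem_biUnion]
    refine ⟨j, hj, ?_⟩
    rw [Finset.mem_biUnion]
    refine ⟨E, Finset.mem_univ _, ?_⟩
    rw [Finset.mem_union]
    rcases hE with hE | hE
    · exact Or.inl (Finset.mem_filter.2 ⟨Finset.mem_univ _, hE⟩)
    · exact Or.inr (Finset.mem_filter.2 ⟨Finset.mem_univ _, hE⟩)
  set ε : ℝ := Real.exp (- (δ ^ 2 * n / 2)) with hε
  have hε0 : 0 < ε := Real.exp_pos _
  have h8 : ((Finset.range (t + 1)).biUnion fun j =>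
      (univ : Finset (Fin j → (Fin s → Fin n))).biUnion fun E =>
        (univ.filter fun X => QQ δ C₁ E X) ∪ (univ.filter fun X => QQ δ C₂ E X)).card ≤
    ∑ j ∈ Finset.range (t + 1), ∑ E : Fin j → (Fin s → Fin n),
      ((univ.filter fun X => QQ δ C₁ E X).card + (univ.filter fun X => QQ δ C₂ E X).card) :=
    Finset.card_biUnion_le.trans (Finset.sum_le_sum fun j _ => Finset.card_biUnion_le.trans
      (Finset.sum_le_sum fun E _ => Finset.card_union_le _ _))
  have h9 : (((Finset.range (t + 1)).biUnion fun j =>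
      (univ : Finset (Fin j → (Fin s → Fin n))).biUnion fun E =>
        (univ.filter fun X => QQ δ C₁ E X) ∪ (univ.filter fun X => QQ δ C₂ E X)).card : ℝ) ≤
    ∑ j ∈ Finset.range (t + 1), ∑ E : Fin j → (Fin s → Fin n),
      (((univ.filter fun X => QQ δ C₁ E X).card : ℝ) +
        ((univ.filter fun X => QQ δ C₂ E X).card : ℝ)) := by exact_mod_cast h8
  have h7 : ∑ j ∈ Finset.range (t + 1), ∑ E : Fin j → (Fin s → Fin n),
      (((univ.filter fun X => QQ δ C₁ E X).card : ℝ) +
        ((univ.filter fun X => QQ δ C₂ E X).card : ℝ)) ≤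
      ∑ j ∈ Finset.range (t + 1), ∑ _E : Fin j → (Fin s → Fin n),
        (2 * ((Fintype.card V : ℝ) ^ n * ε)) := by
    refine Finset.sum_le_sum fun j _ => Finset.sum_le_sum fun E _ => ?_
    have e1 := fixed_tail hn hs hδ hV C₁ E
    have e2 := fixed_tail hn hs hδ hV C₂ E
    rw [two_mul]
    exact add_le_add e1 e2
  have h10 : ∑ j ∈ Finset.range (t + 1), ∑ _E : Fin j → (Fin s → Fin n),
      (2 * ((Fintype.card V : ℝ) ^ n * ε)) ≤
      ∑ _j ∈ Finset.range (t + 1), (n : ℝ) ^ (s * t) *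
        (2 * ((Fintype.card V : ℝ) ^ n * ε)) := by
    refine Finset.sum_le_sum fun j hj => ?_
    rw [Finset.sum_const, Finset.card_univ, nsmul_eq_mul]
    refine mul_le_mul_of_nonneg_right ?_ (by positivity)
    rw [Fintype.card_fun, Fintype.card_fun, Fintype.card_fin, Fintype.card_fin,
      Fintype.card_fin]
    push_cast
    rw [← pow_mul]
    refine pow_le_pow_right₀ hn1 ?_
    have : j ≤ t := by
      have := Finset.mem_range.1 hj
      omega
    exact Nat.mul_le_mul_left s this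
  rw [Finset.sum_const, Finset.card_range, nsmul_eq_mul] at h10
  have h11 : ((univ.filter fun X : Fin n → V => Bad2 Ω R (2 * δ * n + s * t) X).card : ℝ) ≤
      (((Finset.range (t + 1)).biUnion fun j =>
        (univ : Finset (Fin j → (Fin s → Fin n))).biUnion fun E =>
          (univ.filter fun X => QQ δ C₁ E X) ∪ (univ.filter fun X => QQ δ C₂ E X)).card :
          ℝ) := by
    exact_mod_cast Finset.card_le_card hsub
  refine h11.trans (h9.trans (h7.trans (h10.trans (le_of_eq ?_))))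
  push_cast
  ring

end Main2

end Crest.Agent.R042.Cont666
end

-- ▼ part R042/ContP_666
section

set_option autoImplicit false
set_option linter.unusedSectionVars false
open Finset

/-!
S0059 (row 42): from average conflict density of admissible weights to `PairConf2` (883).
-/

namespace Crest.Agent.R042.Cont666

/-! ### numbers -/


/-! ### the interface for the construction -/

section Interface

variable {V : Type*} [Fintype V] [DecidableEq V]

/-- admissible weights on pairs. -/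
structure AdmP (n : ℕ) (δ : ℝ) (E : V → V → Prop) (w : V × V → ℝ) : Prop where
  nonneg : ∀ z, 0 ≤ w z
  supp : ∀ a b, w (a, b) ≠ 0 → ¬ E a b
  row : ∀ a, ∑ b, w (a, b) + ∑ b, w (b, a) ≤ 1
  cap : ∀ z, w z ≤ (n : ℝ) / (Fintype.card V : ℝ)
  mass : ∑ z, w z = δ * (Fintype.card V : ℝ)


/-- conflict of two pairs given as functions on `Fin 2` -/
def conf2 (E : V → V → Prop) (z z' : Fin 2 → V) : Prop :=
  E (z 0) (z' 0) ∧ E (z 0) (z' 1) ∧ E (z 1) (z' 0) ∧ E (z 1) (z' 1)

/-- pairs as functions on `Fin 2` -/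
theorem sum_fin2 (f : (Fin 2 → V) → ℝ) : ∑ z : Fin 2 → V, f z = ∑ p : V × V, f ![p.1, p.2] := by
  rw [← (finTwoArrowEquiv V).symm.sum_comp]
  rfl

theorem admP_of_admS {n : ℕ} {δ : ℝ} {E : V → V → Prop} {Ω : Finset (Fin 2 → V)}
    (hΩ : ∀ z, z ∈ Ω ↔ ¬ E (z 0) (z 1)) {w : (Fin 2 → V) → ℝ} (h : AdmS n δ Ω w) :
    AdmP n δ E (fun p => w ![p.1, p.2]) := by
  refine ⟨fun z => h.nonneg _, ?_, ?_, ?_, ?_⟩
  · intro a b hab
    have := (hΩ _).1 (h.supp _ hab)
    simpa using this
  · intro a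
    have h1 := h.row a
    rw [sum_fin2 (fun z => mult a z * w z)] at h1
    have h2 : ∀ p : V × V, mult a ![p.1, p.2] =
        (if p.1 = a then (1 : ℝ) else 0) + (if p.2 = a then (1 : ℝ) else 0) := by
      intro p
      unfold mult
      rw [Finset.card_filter, Fin.sum_univ_two, Nat.cast_add, Nat.cast_ite, Nat.cast_ite]
      simp
    simp_rw [h2, add_mul, Finset.sum_add_distrib] at h1
    rw [Fintype.sum_prod_type, Fintype.sum_prod_type] at h1
    simp only [ite_mul, one_mul, zero_mul, Finset.sum_ite_eq', Finset.mem_univ, if_true] at h1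
    rw [Finset.sum_comm] at h1
    simp only [Finset.sum_ite_eq', Finset.mem_univ, if_true] at h1
    exact h1
  · intro z
    have := h.cap ![z.1, z.2]
    simpa using this
  · have := h.mass
    rw [sum_fin2 w] at this
    exact this


end Interface

end Crest.Agent.R042.Cont666
end

-- ▼ part R042/SampK_666
section

set_option autoImplicit false
set_option linter.unusedSectionVars false
open Finset

/-!
S0059 / S0060 (row 42): sampling with two kinds of pairs, ending in `PairConfK` (883).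
-/

namespace Crest.Agent.R042.Cont666

theorem numbers8 (δ : ℝ) (hδ : 0 < δ) (hδ1 : δ ≤ 1) : ∃ n0 : ℕ, ∀ n : ℕ, n0 ≤ n → 0 < n ∧
    ∃ t : ℕ, δ * Real.log ((n : ℝ) ^ (2 - 1) / δ) /
        ((n : ℝ) ^ (-(99 : ℝ) / 100) * Real.log 2) + 1 ≤ t ∧ (t : ℝ) ≤ δ * n ∧
      2 * (t + 1) * (n : ℝ) ^ (2 * t) * Real.exp (- (δ ^ 2 * n / 2)) < 1 / 8 ∧
      (n : ℝ) * Real.exp (- (δ ^ 2 * n / 4)) < 1 / 8 := by
  obtain ⟨A, hA⟩ : ∃ A : ℝ, A = 2 * δ * (400 + |Real.log δ|) + 2 := ⟨_, rfl⟩
  have habs := abs_nonneg (Real.log δ)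
  have hA2 : 2 ≤ A := by
    rw [hA]
    have : 0 ≤ 2 * δ * (400 + |Real.log δ|) := by positivity
    linarith
  obtain ⟨y0, hy0⟩ : ∃ y0 : ℝ, y0 = 1 + 802 * (2 * A + 1) / δ ^ 2 + (A + 1) / δ := ⟨_, rfl⟩
  have hy0a : 0 ≤ 802 * (2 * A + 1) / δ ^ 2 := by positivity
  have hy0b : 0 ≤ (A + 1) / δ := by positivity
  have hy01 : 1 ≤ y0 := by rw [hy0]; linarith
  refine ⟨⌈y0 ^ (400 : ℝ)⌉₊, fun n hn => ?_⟩
  have hn' : y0 ^ (400 : ℝ) ≤ n := (Nat.le_ceil _).trans (by exact_mod_cast hn)
  have hn1 : (1 : ℝ) ≤ n := (Real.one_le_rpow hy01 (by norm_num)).trans hn'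
  have hn0 : (0 : ℝ) < n := by linarith
  have hnpos : 0 < n := by exact_mod_cast hn0
  refine ⟨hnpos, ?_⟩
  obtain ⟨y, hy⟩ : ∃ y : ℝ, y = (n : ℝ) ^ ((1 : ℝ) / 400) := ⟨_, rfl⟩
  obtain ⟨P, hP⟩ : ∃ P : ℝ, P = (n : ℝ) ^ ((99 : ℝ) / 100) := ⟨_, rfl⟩
  have hypos : 0 < y := by rw [hy]; exact Real.rpow_pos_of_pos hn0 _
  have hPpos : 0 < P := by rw [hP]; exact Real.rpow_pos_of_pos hn0 _
  have hP1 : 1 ≤ P := by rw [hP]; exact Real.one_le_rpow hn1 (by norm_num)
  have hy4 : y ^ 4 = (n : ℝ) ^ ((1 : ℝ) / 100) := by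
    rw [hy, ← Real.rpow_natCast, ← Real.rpow_mul hn0.le]
    norm_num
  have hPy : P * y ^ 4 = n := by
    rw [hy4, hP, ← Real.rpow_add hn0]
    norm_num
  have hyy0 : y0 ≤ y := by
    have h1 : (y0 ^ (400 : ℝ)) ^ ((1 : ℝ) / 400) ≤ (n : ℝ) ^ ((1 : ℝ) / 400) :=
      Real.rpow_le_rpow (by positivity) hn' (by norm_num)
    rw [← Real.rpow_mul (by linarith), ← hy] at h1
    norm_num at h1
    exact h1
  have hy1 : 1 ≤ y := hy01.trans hyy0
  have hPinv : (n : ℝ) ^ (-(99 : ℝ) / 100) = P⁻¹ := by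
    rw [hP, ← Real.rpow_neg hn0.le]
    congr 1
    norm_num
  have hlogn : Real.log n ≤ 400 * y := by
    have := Real.log_le_rpow_div hn0.le (show (0 : ℝ) < 1 / 400 by norm_num)
    rw [← hy] at this
    linarith
  have hlogn0 : 0 ≤ Real.log n := Real.log_nonneg hn1
  have hlog2a : (1 : ℝ) / 2 ≤ Real.log 2 := by
    have := Real.log_two_gt_d9; linarith
  have hlog2 : 0 < Real.log 2 := by linarith
  obtain ⟨v, hv⟩ : ∃ v : ℝ, v = δ * Real.log ((n : ℝ) ^ (2 - 1) / δ) /
        ((n : ℝ) ^ (-(99 : ℝ) / 100) * Real.log 2) := ⟨_, rfl⟩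
  rw [← hv]
  have hlogd : Real.log ((n : ℝ) ^ (2 - 1) / δ) = Real.log n - Real.log δ := by
    rw [Nat.add_one_sub_one, pow_one, Real.log_div hn0.ne' hδ.ne']
  have hlogd0 : 0 ≤ Real.log n - Real.log δ := by
    have := Real.log_nonpos hδ.le hδ1
    linarith
  have hv' : v = δ * (Real.log n - Real.log δ) * P / Real.log 2 := by
    rw [hv, hlogd, hPinv]
    field_simp
  have hv0 : 0 ≤ v := by
    rw [hv']
    positivity
  have hvle : v ≤ (A - 2) * (P * y) := by
    rw [hv', div_le_iff₀ hlog2]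
    have h1 : Real.log n - Real.log δ ≤ (400 + |Real.log δ|) * y := by
      have h2 : -Real.log δ ≤ |Real.log δ| := neg_le_abs _
      have h3 : |Real.log δ| ≤ |Real.log δ| * y := le_mul_of_one_le_right habs hy1
      linarith
    have h3 : δ * (Real.log n - Real.log δ) * P ≤
        δ * ((400 + |Real.log δ|) * y) * P :=
      mul_le_mul_of_nonneg_right (mul_le_mul_of_nonneg_left h1 hδ.le) hPpos.le
    have h4 : δ * ((400 + |Real.log δ|) * y) * P = (A - 2) * (P * y) * (1 / 2) := by
      rw [hA]; ring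
    have h5 : (A - 2) * (P * y) * (1 / 2) ≤ (A - 2) * (P * y) * Real.log 2 :=
      mul_le_mul_of_nonneg_left hlog2a (mul_nonneg (by linarith) (by positivity))
    linarith
  refine ⟨⌈v⌉₊ + 1, ?_, ?_⟩
  · push_cast
    have := Nat.le_ceil v
    linarith
  have hPy1 : 1 ≤ P * y := by
    have := mul_le_mul hP1 hy1 zero_le_one hPpos.le
    linarith
  obtain ⟨t, htdef⟩ : ∃ t : ℕ, t = ⌈v⌉₊ + 1 := ⟨_, rfl⟩
  rw [← htdef]
  have ht : (t : ℝ) ≤ A * (P * y) := by
    have h1 := Nat.ceil_lt_add_one hv0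
    rw [htdef]
    push_cast
    have h3 : (A - 2) * (P * y) + 2 ≤ A * (P * y) := by
      have : A * (P * y) = (A - 2) * (P * y) + 2 * (P * y) := by ring
      rw [this]
      linarith
    linarith
  have hy3 : (A + 1) ≤ δ * y ^ 3 := by
    have h1 : (A + 1) / δ ≤ y := by
      have : (A + 1) / δ ≤ y0 := by rw [hy0]; linarith
      exact this.trans hyy0
    have h2 : A + 1 ≤ y * δ := by rwa [div_le_iff₀ hδ] at h1
    have h3 : y ≤ y ^ 3 := by
      calc y = y ^ 1 := (pow_one y).symm
        _ ≤ y ^ 3 := pow_le_pow_right₀ hy1 (by norm_num)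
    have h4 : δ * y ≤ δ * y ^ 3 := mul_le_mul_of_nonneg_left h3 hδ.le
    linarith
  have hy2 : 802 * (2 * A + 1) < δ ^ 2 * y ^ 2 := by
    have h1 : 802 * (2 * A + 1) / δ ^ 2 < y := by
      have : 802 * (2 * A + 1) / δ ^ 2 < y0 := by rw [hy0]; linarith
      exact this.trans_le hyy0
    have h2 : 802 * (2 * A + 1) < y * δ ^ 2 := by rwa [div_lt_iff₀ (by positivity)] at h1
    have h3 : y ≤ y ^ 2 := by
      calc y = y ^ 1 := (pow_one y).symm
        _ ≤ y ^ 2 := pow_le_pow_right₀ hy1 (by norm_num)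
    have h4 : δ ^ 2 * y ≤ δ ^ 2 * y ^ 2 := mul_le_mul_of_nonneg_left h3 (by positivity)
    linarith
  have hPy2 : 1 ≤ P * y ^ 2 := by
    have := mul_le_mul hP1 (one_le_pow₀ hy1 : 1 ≤ y ^ 2) zero_le_one hPpos.le
    linarith
  have htn : (t : ℝ) + 1 ≤ δ * n := by
    rw [← hPy]
    have h2 : (A + 1) * (P * y) ≤ δ * y ^ 3 * (P * y) :=
      mul_le_mul_of_nonneg_right hy3 (by positivity)
    have h3 : δ * y ^ 3 * (P * y) = δ * (P * y ^ 4) := by ring
    have h4 : (A + 1) * (P * y) = A * (P * y) + P * y := by ring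
    linarith
  refine ⟨by linarith, ?_⟩
  have htn' : (t : ℝ) + 1 ≤ n := by
    have : δ * n ≤ 1 * n := mul_le_mul_of_nonneg_right hδ1 hn0.le
    linarith
  have ht0 : (0 : ℝ) ≤ t := Nat.cast_nonneg _
  have h1 : 2 * ((t : ℝ) + 1) * (n : ℝ) ^ (2 * t) ≤
      Real.exp (1 + Real.log n + 2 * t * Real.log n) := by
    rw [Real.exp_add, Real.exp_add, Real.exp_log hn0]
    have h2 : Real.exp (2 * t * Real.log n) = (n : ℝ) ^ (2 * t) := by
      rw [← Real.rpow_natCast, Real.rpow_def_of_pos hn0]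
      congr 1
      push_cast
      ring
    rw [h2]
    have h3 : (2 : ℝ) ≤ Real.exp 1 := by
      have := Real.add_one_le_exp (1 : ℝ); linarith
    have h4 : 2 * ((t : ℝ) + 1) ≤ Real.exp 1 * n :=
      mul_le_mul h3 htn' (by positivity) (Real.exp_pos _).le
    exact mul_le_mul_of_nonneg_right h4 (by positivity)
  have h8 : y ≤ P * y ^ 2 := by
      have e1 : y = 1 * (y * 1) := by ring
      have e2 : P * y ^ 2 = P * (y * y) := by ring
      rw [e2]
      calc y = 1 * (y * 1) := e1
        _ ≤ P * (y * y) := mul_le_mul hP1 (mul_le_mul_of_nonneg_left hy1 hypos.le)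
            (by positivity) hPpos.le
  have h10 : 401 * (2 * A + 1) * (P * y ^ 2) < δ ^ 2 * n / 2 := by
      rw [← hPy]
      have h11 : 802 * (2 * A + 1) * (P * y ^ 2) < δ ^ 2 * y ^ 2 * (P * y ^ 2) :=
        mul_lt_mul_of_pos_right hy2 (by positivity)
      have h12 : δ ^ 2 * y ^ 2 * (P * y ^ 2) = δ ^ 2 * (P * y ^ 4) := by ring
      linarith
  have hA5 : 2005 * (P * y ^ 2) ≤ 401 * (2 * A + 1) * (P * y ^ 2) :=
    mul_le_mul_of_nonneg_right (by linarith) (by positivity)
  have h5 : 4 + Real.log n + 2 * t * Real.log n < δ ^ 2 * n / 2 := by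
    have h6 : 2 * t * Real.log n ≤ 2 * (A * (P * y)) * (400 * y) :=
      mul_le_mul (by linarith) hlogn hlogn0 (by positivity)
    have h7 : 2 * (A * (P * y)) * (400 * y) = 800 * A * (P * y ^ 2) := by ring
    have h9 : 4 + Real.log n + 2 * t * Real.log n ≤ 401 * (2 * A + 1) * (P * y ^ 2) := by
      have e3 : 401 * (2 * A + 1) * (P * y ^ 2) =
        401 * (P * y ^ 2) + 2 * A * (P * y ^ 2) + 800 * A * (P * y ^ 2) := by ring
      rw [e3]
      have e4 : 4 * (P * y ^ 2) ≤ 2 * A * (P * y ^ 2) :=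
        mul_le_mul_of_nonneg_right (by linarith) (by positivity)
      linarith
    linarith
  have h8' : Real.exp (-3) ≤ 1 / 8 := by
    rw [Real.exp_neg, one_div]
    refine inv_anti₀ (by norm_num) ?_
    have h3 : (2 : ℝ) ≤ Real.exp 1 := by
      have := Real.add_one_le_exp (1 : ℝ); linarith
    calc (8 : ℝ) = 2 ^ 3 := by norm_num
      _ ≤ (Real.exp 1) ^ 3 := pow_le_pow_left₀ (by norm_num) h3 3
      _ = Real.exp 3 := by rw [← Real.exp_nat_mul]; norm_num
  refine ⟨?_, ?_⟩
  · calc 2 * ((t : ℝ) + 1) * (n : ℝ) ^ (2 * t) * Real.exp (- (δ ^ 2 * n / 2))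
        ≤ Real.exp (1 + Real.log n + 2 * t * Real.log n) * Real.exp (- (δ ^ 2 * n / 2)) :=
          mul_le_mul_of_nonneg_right h1 (Real.exp_pos _).le
      _ = Real.exp (1 + Real.log n + 2 * t * Real.log n - δ ^ 2 * n / 2) := by
          rw [← Real.exp_add]; congr 1
      _ < Real.exp (-3) := by
          rw [Real.exp_lt_exp]; linarith
      _ ≤ 1 / 8 := h8'
  · have e5 : (n : ℝ) * Real.exp (- (δ ^ 2 * n / 4)) =
        Real.exp (Real.log n - δ ^ 2 * n / 4) := by
      rw [sub_eq_add_neg, Real.exp_add, Real.exp_log hn0]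
    rw [e5]
    refine lt_of_lt_of_le (Real.exp_lt_exp.2 ?_) h8'
    linarith


/-! ### the interface with kinds -/

section InterfaceK

variable {V T : Type*} [Fintype V] [DecidableEq V] [Fintype T] [DecidableEq T]

/-- admissible weights on pairs of kind `c` (`true` = same type, `false` = different types). -/
structure AdmK (n : ℕ) (δ : ℝ) (E : V → V → Prop) (tp : V → T) (c : Bool)
    (w : V × V → ℝ) : Prop where
  nonneg : ∀ z, 0 ≤ w z
  supp : ∀ a b, w (a, b) ≠ 0 → ¬ E a b ∧ decide (tp a = tp b) = c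
  row : ∀ a, ∑ b, w (a, b) + ∑ b, w (b, a) ≤ 1
  cap : ∀ z, w z ≤ (n : ℝ) / (Fintype.card V : ℝ)
  mass : ∑ z, w z = δ * (Fintype.card V : ℝ)

open Classical in
/-- average conflict density of two admissible weights of the same kind. -/
def SSK (n : ℕ) (δ κ : ℝ) (E : V → V → Prop) (tp : V → T) : Prop :=
  ∀ c : Bool, ∀ w₁ w₂ : V × V → ℝ, AdmK n δ E tp c w₁ → AdmK n δ E tp c w₂ →
    κ * (Fintype.card V : ℝ) * (δ * (Fintype.card V : ℝ)) ≤
      ∑ z : V × V, ∑ z' : V × V,
        if (E z.1 z'.1 ∧ E z.1 z'.2 ∧ E z.2 z'.1 ∧ E z.2 z'.2) then w₁ z * w₂ z' else 0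

/-- the allowed pairs of kind `c` -/
noncomputable def OmK (E : V → V → Prop) (tp : V → T) (c : Bool) : Finset (Fin 2 → V) :=
  open Classical in univ.filter fun z => ¬ E (z 0) (z 1) ∧ decide (tp (z 0) = tp (z 1)) = c

theorem mem_OmK {E : V → V → Prop} {tp : V → T} {c : Bool} {z : Fin 2 → V} :
    z ∈ OmK E tp c ↔ (¬ E (z 0) (z 1) ∧ decide (tp (z 0) = tp (z 1)) = c) := by
  classical
  simp [OmK]

theorem admK_of_admS {n : ℕ} {δ : ℝ} {E : V → V → Prop} {tp : V → T} {c : Bool}
    {w : (Fin 2 → V) → ℝ} (h : AdmS n δ (OmK E tp c) w) :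
    AdmK n δ E tp c (fun p => w ![p.1, p.2]) := by
  classical
  have h' : AdmS n δ (univ.filter fun z : Fin 2 → V => ¬ E (z 0) (z 1)) w := by
    refine Adm.mono h ?_
    intro z hz
    exact Finset.mem_filter.2 ⟨Finset.mem_univ _, (mem_OmK.1 hz).1⟩
  have h2 := admP_of_admS (E := E) (fun z => by simp) h'
  refine ⟨h2.nonneg, ?_, h2.row, h2.cap, h2.mass⟩
  intro a b hab
  have := mem_OmK.1 (h.supp _ hab)
  simpa using this

open Classical in
theorem count_kind {n t : ℕ} {δ κ : ℝ} {E : V → V → Prop} {tp : V → T}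
    (hn : 0 < n) (hδ : 0 < δ) (hκ : 0 < κ) (hV : 0 < Fintype.card V)
    (hSS : SSK n δ κ E tp)
    (ht : δ * Real.log ((n : ℝ) ^ (2 - 1) / δ) / (κ * Real.log 2) + 1 ≤ t) (c : Bool) :
    ((univ.filter fun X : Fin n → V =>
      Bad2 (OmK E tp c) (conf2 E) (2 * δ * n + (2 : ℕ) * t) X).card : ℝ) ≤
      2 * (t + 1) * (n : ℝ) ^ (2 * t) * Real.exp (- (δ ^ 2 * n / 2)) *
        (Fintype.card V : ℝ) ^ n := by
  have hN0 : (0 : ℝ) < (Fintype.card V : ℝ) := by exact_mod_cast hV
  refine cont2 (V := V) n 2 t δ κ (OmK E tp c) (conf2 E) hn (by norm_num) hδ hκ hV ?_ ht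
  intro w₁ w₂ h₁ h₂
  by_contra hcon
  push Not at hcon
  have h3 := hSS c _ _ (admK_of_admS h₁) (admK_of_admS h₂)
  have h4 : ∑ z : V × V, ∑ z' : V × V,
      (if (E z.1 z'.1 ∧ E z.1 z'.2 ∧ E z.2 z'.1 ∧ E z.2 z'.2) then
        w₁ ![z.1, z.2] * w₂ ![z'.1, z'.2] else 0) =
      ∑ z : Fin 2 → V, w₁ z * ∑ z' ∈ univ.filter (fun z' => conf2 E z z'), w₂ z' := by
    rw [sum_fin2 (fun z => w₁ z * ∑ z' ∈ univ.filter (fun z' => conf2 E z z'), w₂ z')]
    refine Finset.sum_congr rfl fun z _ => ?_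
    rw [Finset.sum_filter, sum_fin2, Finset.mul_sum]
    refine Finset.sum_congr rfl fun z' _ => ?_
    by_cases hc : E z.1 z'.1 ∧ E z.1 z'.2 ∧ E z.2 z'.1 ∧ E z.2 z'.2
    · have hc' : conf2 E ![z.1, z.2] ![z'.1, z'.2] := by simpa [conf2] using hc
      rw [if_pos hc, if_pos hc']
    · have hc' : ¬ conf2 E ![z.1, z.2] ![z'.1, z'.2] := by simpa [conf2] using hc
      rw [if_neg hc, if_neg hc', mul_zero]
  rw [h4] at h3
  have h5 : ∑ z : Fin 2 → V, w₁ z * ∑ z' ∈ univ.filter (fun z' => conf2 E z z'), w₂ z' <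
      ∑ z : Fin 2 → V, w₁ z * (κ * (Fintype.card V : ℝ)) := by
    have hex : ∃ z, w₁ z ≠ 0 := by
      by_contra hall
      push Not at hall
      have := h₁.mass
      rw [Finset.sum_eq_zero (fun z _ => hall z)] at this
      have hpos : 0 < δ * (Fintype.card V : ℝ) := by positivity
      linarith
    obtain ⟨z0, hz0⟩ := hex
    refine Finset.sum_lt_sum (fun z _ => ?_) ⟨z0, Finset.mem_univ _, ?_⟩
    · by_cases hz : w₁ z = 0
      · rw [hz]; simp
      · exact mul_le_mul_of_nonneg_left (hcon z hz).le (h₁.nonneg z)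
    · have hpos : 0 < w₁ z0 := lt_of_le_of_ne (h₁.nonneg z0) (Ne.symm hz0)
      exact mul_lt_mul_of_pos_left (hcon z0 hz0) hpos
  rw [← Finset.sum_mul, h₁.mass] at h5
  linarith

open Classical in
/-- class sizes in the sample -/
theorem count_class {n K : ℕ} {δ : ℝ} (hK : 0 < K) (hδ : δ = 1 / (16 * (K : ℝ))) (hn : 0 < n)
    (hV : 0 < Fintype.card V) (tp : V → T) (i : T)
    (hcl : 64 * K * (univ.filter fun v => tp v = i).card ≤ Fintype.card V) :
    ((univ.filter fun X : Fin n → V =>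
      n < 16 * K * (univ.filter fun a => tp (X a) = i).card).card : ℝ) ≤
      (Fintype.card V : ℝ) ^ n * Real.exp (- (δ ^ 2 * n / 4)) := by
  have hN0 : (0 : ℝ) < (Fintype.card V : ℝ) := by exact_mod_cast hV
  have hn0 : (0 : ℝ) < (n : ℝ) := by exact_mod_cast hn
  have hK0 : (0 : ℝ) < (K : ℝ) := by exact_mod_cast hK
  have hmean : ∑ X : Fin n → V, ((univ.filter fun a => tp (X a) = i).card : ℝ) ≤
      ((n : ℝ) / (64 * K)) * (Fintype.card V : ℝ) ^ (Fintype.card (Fin n)) := by
    have h7 : ∑ X : Fin n → V, ((univ.filter fun a => tp (X a) = i).card : ℝ) =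
        ∑ a : Fin n, ((univ.filter fun X : Fin n → V => tp (X a) = i).card : ℝ) := by
      simp_rw [Finset.card_filter]
      push_cast
      rw [Finset.sum_comm]
    have h8 : ∀ a : Fin n, ((univ.filter fun X : Fin n → V => tp (X a) = i).card : ℝ) *
        (Fintype.card V : ℝ) = ((univ.filter fun v => tp v = i).card : ℝ) *
          (Fintype.card V : ℝ) ^ n := by
      intro a
      have h9 : (univ.filter fun X : Fin n → V => tp (X a) = i) =
          (univ.filter fun v => tp v = i).biUnion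
            (fun v => univ.filter fun X : Fin n → V => X a = v) := by
        ext X
        simp
      have h10 : (univ.filter fun X : Fin n → V => tp (X a) = i).card =
          ∑ v ∈ univ.filter (fun v => tp v = i),
            (univ.filter fun X : Fin n → V => X a = v).card := by
        rw [h9, Finset.card_biUnion]
        intro v _ v' _ hne
        rw [Function.onFun, Finset.disjoint_left]
        intro X hX hX'
        rw [Finset.mem_filter] at hX hX'
        exact hne (hX.2.symm.trans hX'.2)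
      rw [h10]
      push_cast
      rw [Finset.sum_mul]
      have h11 : ∀ v ∈ univ.filter (fun v => tp v = i),
          ((univ.filter fun X : Fin n → V => X a = v).card : ℝ) * (Fintype.card V : ℝ) =
          (Fintype.card V : ℝ) ^ n := by
        intro v _
        have := card_pt_mul (V := V) (ι := Fin n) (Fintype.card_fin n) a v
        exact_mod_cast this
      rw [Finset.sum_congr rfl h11, Finset.sum_const, nsmul_eq_mul]
    have hcl' : (64 * (K : ℝ)) * ((univ.filter fun v => tp v = i).card : ℝ) ≤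
        (Fintype.card V : ℝ) := by exact_mod_cast hcl
    rw [h7, Fintype.card_fin]
    have h12 : (∑ a : Fin n, ((univ.filter fun X : Fin n → V => tp (X a) = i).card : ℝ)) *
        (Fintype.card V : ℝ) = (n : ℝ) * (((univ.filter fun v => tp v = i).card : ℝ) *
          (Fintype.card V : ℝ) ^ n) := by
      rw [Finset.sum_mul, Finset.sum_congr rfl fun a _ => h8 a, Finset.sum_const,
        Finset.card_univ, Fintype.card_fin, nsmul_eq_mul]
    have h13 : ((univ.filter fun v => tp v = i).card : ℝ) ≤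
        (Fintype.card V : ℝ) / (64 * K) := by
      rw [le_div_iff₀ (by positivity)]
      linarith
    have h14 : (∑ a : Fin n, ((univ.filter fun X : Fin n → V => tp (X a) = i).card : ℝ)) *
        (Fintype.card V : ℝ) ≤
        ((n : ℝ) / (64 * K) * (Fintype.card V : ℝ) ^ n) * (Fintype.card V : ℝ) := by
      rw [h12]
      calc (n : ℝ) * (((univ.filter fun v => tp v = i).card : ℝ) *
          (Fintype.card V : ℝ) ^ n) ≤
          (n : ℝ) * ((Fintype.card V : ℝ) / (64 * K) * (Fintype.card V : ℝ) ^ n) :=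
            mul_le_mul_of_nonneg_left (mul_le_mul_of_nonneg_right h13 (by positivity))
              hn0.le
        _ = _ := by ring
    exact le_of_mul_le_mul_right h14 hN0
  have h := tail (V := V) (ι := Fin n)
    (fun X => ((univ.filter fun a => tp (X a) = i).card : ℝ)) ((n : ℝ) / (64 * K))
    (3 * n / (64 * K)) n hn0 (by positivity) (by rw [Fintype.card_fin]) hV hmean
    (by
      intro X X' a hX
      have h1 : (univ.filter fun a => tp (X a) = i) ⊆
          insert a (univ.filter fun a => tp (X' a) = i) := by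
        intro b hb
        rw [Finset.mem_insert, Finset.mem_filter]
        by_cases hba : b = a
        · exact Or.inl hba
        · refine Or.inr ⟨Finset.mem_univ _, ?_⟩
          rw [← hX b hba]
          exact (Finset.mem_filter.1 hb).2
      have h2 : (univ.filter fun a => tp (X a) = i).card ≤
          (univ.filter fun a => tp (X' a) = i).card + 1 :=
        (Finset.card_le_card h1).trans (Finset.card_insert_le _ _)
      have h3 : ((univ.filter fun a => tp (X a) = i).card : ℝ) ≤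
          (univ.filter fun a => tp (X' a) = i).card + 1 := by exact_mod_cast h2
      linarith)
  rw [Fintype.card_fin] at h
  have hsub : (univ.filter fun X : Fin n → V =>
      n < 16 * K * (univ.filter fun a => tp (X a) = i).card) ⊆
      (univ.filter fun X : Fin n → V => (n : ℝ) / (64 * K) + 3 * n / (64 * K) ≤
        ((univ.filter fun a => tp (X a) = i).card : ℝ)) := by
    intro X hX
    rw [Finset.mem_filter] at hX ⊢
    refine ⟨Finset.mem_univ _, ?_⟩
    have h1 : (n : ℝ) < 16 * K * ((univ.filter fun a => tp (X a) = i).card : ℝ) := by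
      exact_mod_cast hX.2
    have h2 : (n : ℝ) / (64 * K) + 3 * n / (64 * K) = n / (16 * K) := by
      field_simp; norm_num
    rw [h2, div_le_iff₀ (by positivity)]
    linarith
  have hle : ((univ.filter fun X : Fin n → V =>
      n < 16 * K * (univ.filter fun a => tp (X a) = i).card).card : ℝ) ≤
      ((univ.filter fun X : Fin n → V => (n : ℝ) / (64 * K) + 3 * n / (64 * K) ≤
        ((univ.filter fun a => tp (X a) = i).card : ℝ)).card : ℝ) := by
    exact_mod_cast Finset.card_le_card hsub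
  refine hle.trans (h.trans (mul_le_mul_of_nonneg_left (Real.exp_le_exp.2 ?_)
    (by positivity)))
  rw [hδ]
  have e1 : -(3 * (n : ℝ) / (64 * K)) ^ 2 / (2 * n) = -(9 / 8192 * (n / K ^ 2)) := by
    field_simp; norm_num
  have e2 : -((1 / (16 * (K : ℝ))) ^ 2 * n / 4) = -(1 / 1024 * (n / K ^ 2)) := by
    field_simp; norm_num
  rw [e1, e2]
  have : 0 ≤ (n : ℝ) / K ^ 2 := by positivity
  linarith

end InterfaceK

open Classical in
/-- **the interface with kinds**: average conflict density `≥ n^(-99/100)` within each kind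
gives `PairConfK`. -/
theorem pairConfK_of (K : ℕ) (hK : 0 < K) : ∃ n0 : ℕ, ∀ n : ℕ, n0 ≤ n →
    ∀ (V T : Type) [Fintype V] [DecidableEq V] [Nonempty V] [Fintype T] [DecidableEq T]
      (E : V → V → Prop) (tp : V → T),
      (∀ a b, E a b → E b a) → (∀ a, ¬ E a a) →
      (∀ a b c, E a b → E b c → E a c → False) →
      (∀ a b, tp a = tp b → ¬ E a b) →
      16 * K * Fintype.card T ≤ n →
      (∀ i : T, 64 * K * (univ.filter fun v => tp v = i).card ≤ Fintype.card V) →
      SSK n (1 / (16 * (K : ℝ))) ((n : ℝ) ^ (-(99 : ℝ) / 100)) E tp →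
      S59Spine883.PairConfK K := by
  have hK0 : (0 : ℝ) < K := by exact_mod_cast hK
  have hK1 : (1 : ℝ) ≤ K := by exact_mod_cast hK
  obtain ⟨δ, hδd⟩ : ∃ δ : ℝ, δ = 1 / (16 * (K : ℝ)) := ⟨_, rfl⟩
  have hδ : 0 < δ := by rw [hδd]; positivity
  have hδ1 : δ ≤ 1 := by
    rw [hδd, div_le_one (by positivity)]; linarith
  obtain ⟨n0, hn0⟩ := numbers8 δ hδ hδ1
  refine ⟨n0, ?_⟩
  intro n hn V T _ _ _ _ _ E tp hsymm hirr htri htpE hT hcl hSS
  rw [← hδd] at hSS
  obtain ⟨hnpos, t, ht1, ht2, ht3, ht4⟩ := hn0 n hn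
  have hn0' : (0 : ℝ) < n := by exact_mod_cast hnpos
  have hV : 0 < Fintype.card V := Fintype.card_pos
  have hN0 : (0 : ℝ) < (Fintype.card V : ℝ) := by exact_mod_cast hV
  have hNn : (0 : ℝ) < (Fintype.card V : ℝ) ^ n := pow_pos hN0 n
  have hkind := fun c => count_kind (tp := tp) hnpos hδ (Real.rpow_pos_of_pos hn0' _) hV hSS
    ht1 c
  have hclass := fun i => count_class (δ := δ) hK hδd hnpos hV tp i (hcl i)
  -- a good sample
  have hgood : ∃ X : Fin n → V,
      (∀ c, ¬ Bad2 (OmK E tp c) (conf2 E) (2 * δ * n + (2 : ℕ) * t) X) ∧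
      ∀ i : T, 16 * K * (univ.filter fun a => tp (X a) = i).card ≤ n := by
    by_contra hall
    push Not at hall
    have hcov : (univ : Finset (Fin n → V)) ⊆
        ((univ.filter fun X : Fin n → V =>
            Bad2 (OmK E tp true) (conf2 E) (2 * δ * n + (2 : ℕ) * t) X) ∪
          (univ.filter fun X : Fin n → V =>
            Bad2 (OmK E tp false) (conf2 E) (2 * δ * n + (2 : ℕ) * t) X)) ∪
          (univ : Finset T).biUnion fun i => (univ.filter fun X : Fin n → V =>
            n < 16 * K * (univ.filter fun a => tp (X a) = i).card) := by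
      intro X _
      by_cases hb : ∀ c, ¬ Bad2 (OmK E tp c) (conf2 E) (2 * δ * n + (2 : ℕ) * t) X
      · obtain ⟨i, hi⟩ := hall X hb
        refine Finset.mem_union_right _ (Finset.mem_biUnion.2 ⟨i, Finset.mem_univ _, ?_⟩)
        exact Finset.mem_filter.2 ⟨Finset.mem_univ _, hi⟩
      · push Not at hb
        obtain ⟨c, hc⟩ := hb
        refine Finset.mem_union_left _ ?_
        cases c
        · exact Finset.mem_union_right _ (Finset.mem_filter.2 ⟨Finset.mem_univ _, hc⟩)
        · exact Finset.mem_union_left _ (Finset.mem_filter.2 ⟨Finset.mem_univ _, hc⟩)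
    have hle := Finset.card_le_card hcov
    rw [Finset.card_univ, Fintype.card_fun, Fintype.card_fin] at hle
    have h1 := (hle.trans (Finset.card_union_le _ _)).trans
      (add_le_add (Finset.card_union_le _ _) Finset.card_biUnion_le)
    have h2 : (Fintype.card V : ℝ) ^ n ≤
        (((univ.filter fun X : Fin n → V =>
            Bad2 (OmK E tp true) (conf2 E) (2 * δ * n + (2 : ℕ) * t) X).card : ℝ) +
          ((univ.filter fun X : Fin n → V =>
            Bad2 (OmK E tp false) (conf2 E) (2 * δ * n + (2 : ℕ) * t) X).card : ℝ)) +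
          ∑ i : T, ((univ.filter fun X : Fin n → V =>
            n < 16 * K * (univ.filter fun a => tp (X a) = i).card).card : ℝ) := by
      exact_mod_cast h1
    have h3 : ∑ i : T, ((univ.filter fun X : Fin n → V =>
            n < 16 * K * (univ.filter fun a => tp (X a) = i).card).card : ℝ) ≤
        (n : ℝ) * Real.exp (- (δ ^ 2 * n / 4)) * (Fintype.card V : ℝ) ^ n := by
      calc ∑ i : T, ((univ.filter fun X : Fin n → V =>
            n < 16 * K * (univ.filter fun a => tp (X a) = i).card).card : ℝ)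
          ≤ ∑ _i : T, (Fintype.card V : ℝ) ^ n * Real.exp (- (δ ^ 2 * n / 4)) :=
            Finset.sum_le_sum fun i _ => hclass i
        _ = (Fintype.card T : ℝ) *
            ((Fintype.card V : ℝ) ^ n * Real.exp (- (δ ^ 2 * n / 4))) := by
            rw [Finset.sum_const, Finset.card_univ, nsmul_eq_mul]
        _ ≤ (n : ℝ) * ((Fintype.card V : ℝ) ^ n * Real.exp (- (δ ^ 2 * n / 4))) := by
            refine mul_le_mul_of_nonneg_right ?_ (by positivity)
            have : Fintype.card T ≤ n := by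
              calc Fintype.card T = 1 * Fintype.card T := (one_mul _).symm
                _ ≤ 16 * K * Fintype.card T := Nat.mul_le_mul_right _ (by omega)
                _ ≤ n := hT
            exact_mod_cast this
        _ = _ := by ring
    have h4 : (n : ℝ) * Real.exp (- (δ ^ 2 * n / 4)) * (Fintype.card V : ℝ) ^ n ≤
        1 / 8 * (Fintype.card V : ℝ) ^ n := mul_le_mul_of_nonneg_right ht4.le hNn.le
    have h5 : 2 * ((t : ℝ) + 1) * (n : ℝ) ^ (2 * t) * Real.exp (- (δ ^ 2 * n / 2)) *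
        (Fintype.card V : ℝ) ^ n ≤ 1 / 8 * (Fintype.card V : ℝ) ^ n :=
      mul_le_mul_of_nonneg_right ht3.le hNn.le
    have h6 := (hkind true).trans h5
    have h7 := (hkind false).trans h5
    have h8 := h2.trans (add_le_add (add_le_add h6 h7) (h3.trans h4))
    linarith
  obtain ⟨X, hX, hXcl⟩ := hgood
  -- the graph
  let F : SimpleGraph (Fin n) :=
    { Adj := fun i j => E (X i) (X j)
      symm := ⟨fun i j h => hsymm _ _ h⟩
      loopless := ⟨fun i h => hirr _ h⟩ }
  let e : T ≃ Fin (Fintype.card T) := Fintype.equivFin T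
  refine ⟨n, hnpos, F, ?_, Fintype.card T, fun a => e (tp (X a)), ?_, hT, ?_, ?_⟩
  · intro S hS
    rw [SimpleGraph.is3Clique_iff] at hS
    obtain ⟨a, b, c, hab, hac, hbc, _⟩ := hS
    exact htri _ _ _ hab hbc hac
  · intro a b hab
    exact htpE _ _ (e.injective hab)
  · intro i
    have h1 := hXcl (e.symm i)
    have h2 : (univ.filter fun a => e (tp (X a)) = i) =
        (univ.filter fun a => tp (X a) = e.symm i) := by
      ext a
      simp only [Finset.mem_filter, Finset.mem_univ, true_and]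
      constructor
      · intro h; rw [← h]; simp
      · intro h; rw [h]; simp
    convert h1 using 3
  · intro c M₁ M₂ hM₁ hM₂ hkd hc₁ hc₂
    by_contra hcon
    push Not at hcon
    apply hX c
    have himg : ∀ M : Finset (Fin n × Fin n), S59Spine883.IsMat F M →
        (∀ z ∈ M, decide (e (tp (X z.1)) = e (tp (X z.2))) = c) → n ≤ 4 * K * M.card →
        IsMatch (M.image fun z : Fin n × Fin n => (![z.1, z.2] : Fin 2 → Fin n)) ∧
        (∀ e ∈ M.image (fun z : Fin n × Fin n => (![z.1, z.2] : Fin 2 → Fin n)),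
          (fun j => X (e j)) ∈ OmK E tp c) ∧
        2 * δ * n + (2 : ℕ) * t ≤
          ((M.image fun z : Fin n × Fin n => (![z.1, z.2] : Fin 2 → Fin n)).card : ℝ) := by
      intro M hM hkM hc
      have hinj : Function.Injective
          (fun z : Fin n × Fin n => (![z.1, z.2] : Fin 2 → Fin n)) := by
        intro z z' h
        have h0 := congrFun h 0
        have h1 := congrFun h 1
        simp at h0 h1
        exact Prod.ext h0 h1
      refine ⟨⟨?_, ?_⟩, ?_, ?_⟩
      · intro e he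
        obtain ⟨z, hz, rfl⟩ := Finset.mem_image.1 he
        have hne := (hM.1 z hz).1
        intro i j hij
        fin_cases i <;> fin_cases j <;> simp_all
      · intro e he e' he' hne
        obtain ⟨z, hz, rfl⟩ := Finset.mem_image.1 he
        obtain ⟨z', hz', rfl⟩ := Finset.mem_image.1 he'
        have hzz : z ≠ z' := fun h => hne (by rw [h])
        obtain ⟨g1, g2, g3, g4⟩ := hM.2 z hz z' hz' hzz
        intro i j
        fin_cases i <;> fin_cases j <;> simp_all
      · intro e' he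
        obtain ⟨z, hz, rfl⟩ := Finset.mem_image.1 he
        rw [mem_OmK]
        refine ⟨(hM.1 z hz).2, ?_⟩
        have h1 := hkM z hz
        have h2 : (e (tp (X z.1)) = e (tp (X z.2))) ↔ (tp (X z.1) = tp (X z.2)) :=
          ⟨fun h => e.injective h, fun h => by rw [h]⟩
        rw [← h1]
        simp [h2]
      · rw [Finset.card_image_of_injective _ hinj]
        have h1 : (n : ℝ) ≤ 4 * K * M.card := by exact_mod_cast hc
        have h2 : 4 * δ * n ≤ M.card := by
          rw [hδd]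
          have : 4 * (1 / (16 * (K : ℝ))) * n = n / (4 * K) := by field_simp; norm_num
          rw [this, div_le_iff₀ (by positivity)]
          linarith
        push_cast
        linarith
    obtain ⟨a1, a2, a3⟩ := himg M₁ hM₁
      (fun z hz => hkd z (Finset.mem_union_left _ hz)) hc₁
    obtain ⟨b1, b2, b3⟩ := himg M₂ hM₂
      (fun z hz => hkd z (Finset.mem_union_right _ hz)) hc₂
    refine ⟨_, _, a1, b1, a2, b2, ?_, a3, b3⟩
    intro e he e' he' hRR
    obtain ⟨z, hz, rfl⟩ := Finset.mem_image.1 he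
    obtain ⟨z', hz', rfl⟩ := Finset.mem_image.1 he'
    exact hcon z hz z' hz' hRR

end Crest.Agent.R042.Cont666
end

-- ▼ part R042/FamK_220
section

/-! Row 42 / S0059: last glue of both plans: `PairConfK K` from the family with gadget labels and the
CROSS kind only (375's letters), the same kind being discharged by `FamV220.same_half`. -/

set_option autoImplicit false
set_option linter.unusedSectionVars false

namespace Crest.Agent.R042.FamK220

open Finset Crest.Agent.R042.SspG375 Crest.Agent.R042.FamV220 Crest.Agent.R042.Fam543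
  Crest.Agent.R042.Cont666 Crest.Agent.R042.SspFin375
open scoped Classical

/-- the two kinds together (abstract `rel`). -/
theorem ssk_of {ι 𝓕 Lb : Type} [Fintype ι] [Fintype 𝓕] [Nonempty ι] [Nonempty 𝓕]
    [DecidableEq ι] {pr : ι → 𝓕 → Lb} {rel : ι → ι → Lb → Lb → Prop}
    {Γ : ι → ι → Prop} (hcomp : ∀ i j, Γ i j → ∀ f g, rel i j (pr i f) (pr j g)) {eps dd κ : ℝ} {n : ℕ}
    (hΓ : ∀ A B : Finset ι, eps * Fintype.card ι ≤ (A.card : ℝ) → eps * Fintype.card ι ≤ (B.card : ℝ) →
      ∃ i ∈ A, ∃ j ∈ B, Γ i j)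
    (hdd : 4 * eps ≤ dd) (h1 : 1 ≤ eps * Fintype.card ι) (hκ : κ * (4 * (Fintype.card ι : ℝ) ^ 2) ≤ dd)
    (hcross : ∀ w₁ w₂ : (ι × 𝓕) × (ι × 𝓕) → ℝ, AdmX n dd (EE pr rel) w₁ → AdmX n dd (EE pr rel) w₂ →
      κ * Fintype.card (ι × 𝓕) * (dd * Fintype.card (ι × 𝓕)) ≤
        ∑ z, ∑ z', w₁ z * w₂ z' * (if Cf (EE pr rel) z z' then 1 else 0)) :
    SSK n dd κ (EE pr rel) (fun v : ι × 𝓕 => v.1) := by
  intro c w₁ w₂ a₁ a₂
  cases c
  · have X : ∀ w : (ι × 𝓕) × (ι × 𝓕) → ℝ, AdmK n dd (EE pr rel) (fun v : ι × 𝓕 => v.1) false w →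
        AdmX n dd (EE pr rel) w := by
      intro w a
      refine ⟨a.nonneg, ?_, a.row, a.cap, a.mass⟩
      intro z hz
      have := a.supp z.1 z.2 hz
      exact ⟨by simpa using this.2, this.1⟩
    refine (hcross w₁ w₂ (X w₁ a₁) (X w₂ a₂)).trans (le_of_eq ?_)
    refine sum_congr rfl fun z _ => sum_congr rfl fun z' _ => ?_
    unfold Cf
    split_ifs
    · rw [mul_one]
    · rw [mul_zero]
  · have Y : ∀ w : (ι × 𝓕) × (ι × 𝓕) → ℝ, AdmK n dd (EE pr rel) (fun v : ι × 𝓕 => v.1) true w →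
        ∀ z, w z ≠ 0 → z.1.1 = z.2.1 := by
      intro w a z hz
      have := a.supp z.1 z.2 hz
      simpa using this.2
    have key := same_half (κ := κ) hcomp hΓ hdd h1 hκ a₁.nonneg a₂.nonneg (Y w₁ a₁) (Y w₂ a₂)
      a₁.row a₂.row a₁.mass a₂.mass
    exact key

/-- **last glue** (both plans): from the family data and the cross kind to `PairConfK K`.
`dd` is `1 / (16 K)`, `κ` is any number `≥ n ^ (-99/100)` for which the cross kind is proved. -/
theorem pairConfK_fam (K₀ : ℕ) (hK₀ : 0 < K₀) : ∃ n0 : ℕ, ∀ n : ℕ, n0 ≤ n →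
    ∀ {k0 KK : Type} [Field k0] [Field KK] [Algebra k0 KK] [CharP KK 2] {K : Set k0} (_ : Alph K)
      (e d L kp : ℕ) (ι 𝓕 : Type) [Fintype ι] [Fintype 𝓕] [Nonempty ι] [Nonempty 𝓕]
      [DecidableEq ι] (T : ι → Ty k0 KK d L) (_ : ∀ i, Valid K (T i))
      (pr : ι → 𝓕 → Label k0 KK d kp L) (Γ : ι → ι → Prop)
      (_ : ∀ i j, Γ i j → ∀ f g, Rel K (2 ^ e) kp (T i) (T j) (pr i f) (pr j g)) (eps κ : ℝ)
      (_ : ∀ A B : Finset ι, eps * Fintype.card ι ≤ (A.card : ℝ) →
        eps * Fintype.card ι ≤ (B.card : ℝ) → ∃ i ∈ A, ∃ j ∈ B, Γ i j),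
      64 * K₀ * eps ≤ 1 → 1 ≤ eps * Fintype.card ι → 64 * K₀ * (Fintype.card ι : ℝ) ^ 2 * κ ≤ 1 →
      16 * K₀ * Fintype.card ι ≤ n → (n : ℝ) ^ (-(99 : ℝ) / 100) ≤ κ →
      (∀ w₁ w₂ : (ι × 𝓕) × (ι × 𝓕) → ℝ,
        AdmX n (1 / (16 * (K₀ : ℝ))) (EE pr (relF K e kp T)) w₁ →
        AdmX n (1 / (16 * (K₀ : ℝ))) (EE pr (relF K e kp T)) w₂ →
        κ * Fintype.card (ι × 𝓕) * (1 / (16 * (K₀ : ℝ)) * Fintype.card (ι × 𝓕)) ≤
          ∑ z, ∑ z', w₁ z * w₂ z' * (if Cf (EE pr (relF K e kp T)) z z' then 1 else 0)) →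
      S59Spine883.PairConfK K₀ := by
  obtain ⟨n0, H⟩ := pairConfK_of K₀ hK₀
  refine ⟨n0, fun n hn => ?_⟩
  intro k0 KK _ _ _ _ K hK e d L kp ι 𝓕 _ _ _ _ _ T hT pr Γ hcomp eps κ hΓ he h1 hκ h16 hnκ hcross
  have hK0 : (0 : ℝ) < K₀ := by exact_mod_cast hK₀
  have hιr : (0 : ℝ) < Fintype.card ι := by exact_mod_cast Fintype.card_pos
  refine H n hn (ι × 𝓕) ι (EE pr (relF K e kp T)) (fun v => v.1) (fun a b h => FamV220.symm hK h)
    (fun a => FamV220.irrefl hT a) (fun a b c hab hbc hac => FamV220.tri hK hT hab hbc hac)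
    (fun a b hab => not_same hT hab) h16 ?_ ?_
  · intro i
    have hc := card_class (𝓕 := 𝓕) i
    have h2 : (64 : ℝ) * K₀ ≤ Fintype.card ι := by
      by_contra hcon
      rw [not_le] at hcon
      have he0 : 0 < eps := by
        by_contra h; rw [not_lt] at h; nlinarith
      nlinarith
    have h3 : 64 * K₀ ≤ Fintype.card ι := by exact_mod_cast h2
    rw [Fintype.card_prod]
    refine le_trans (le_of_eq ?_) (Nat.mul_le_mul_right (Fintype.card 𝓕) h3)
    congr 1
    convert hc
  · have hs := ssk_of (κ := (n : ℝ) ^ (-(99 : ℝ) / 100)) (n := n) (dd := 1 / (16 * (K₀ : ℝ)))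
      (pr := pr) (rel := relF K e kp T) (Γ := Γ) hcomp hΓ (by
        rw [le_div_iff₀ (by positivity)]; linarith) h1 (by
        rw [le_div_iff₀ (by positivity)]
        calc (n : ℝ) ^ (-(99 : ℝ) / 100) * (4 * (Fintype.card ι : ℝ) ^ 2) * (16 * (K₀ : ℝ))
            = 64 * K₀ * (Fintype.card ι : ℝ) ^ 2 * (n : ℝ) ^ (-(99 : ℝ) / 100) := by ring
          _ ≤ 64 * K₀ * (Fintype.card ι : ℝ) ^ 2 * κ :=
              mul_le_mul_of_nonneg_left hnκ (by positivity)
          _ ≤ 1 := hκ) (by
        intro w₁ w₂ a₁ a₂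
        refine le_trans ?_ (hcross w₁ w₂ a₁ a₂)
        refine mul_le_mul_of_nonneg_right (mul_le_mul_of_nonneg_right hnκ (by positivity))
          (by positivity))
    convert hs

end Crest.Agent.R042.FamK220
end

-- ▼ part R042/PreRow_927
section

/-!
# Row 42, same-type gadget: labels with prescribed windows exist (helper927)

`exists_symm_rows`: if `u j` are linearly independent and the span of all `u j` meets every
`W i` in `0`, then there is a symmetric bilinear form with prescribed rows on the `W i`.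

`phi_indep`: rank-one tensors of points in distinct positions are linearly independent.
-/

namespace Crest.Agent.R042.PreRow927

section rows

variable {k U ι : Type*} [Field k] [AddCommGroup U] [Module k U] [Fintype ι] [DecidableEq ι]

/-- a functional with prescribed values on `W` that kills `Y`, for disjoint `W`, `Y`. -/
theorem exists_extend_kill (W Y : Submodule k U) (hd : Disjoint W Y) (β : W →ₗ[k] k) :
    ∃ ρ : U →ₗ[k] k, (∀ x (hx : x ∈ W), ρ x = β ⟨x, hx⟩) ∧ ∀ y ∈ Y, ρ y = 0 := by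
  classical
  -- functional on the quotient by `Y`
  have hinj : Function.Injective ((Y.mkQ).comp W.subtype) := by
    rw [← LinearMap.ker_eq_bot, LinearMap.ker_eq_bot']
    intro w hw
    have h1 : (w : U) ∈ Y := by
      have : Y.mkQ (w : U) = 0 := hw
      simpa using this
    have h2 : (w : U) ∈ W ⊓ Y := ⟨w.2, h1⟩
    rw [hd.eq_bot] at h2
    have h3 : (w : U) = 0 := by simpa using h2
    exact Subtype.ext h3
  obtain ⟨g, hg⟩ := LinearMap.exists_leftInverse_of_injective _ (LinearMap.ker_eq_bot.2 hinj)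
  refine ⟨(β.comp g).comp Y.mkQ, ?_, ?_⟩
  · intro x hx
    have := congrArg (fun φ => φ ⟨x, hx⟩) hg
    simp only [LinearMap.comp_apply, Submodule.subtype_apply, LinearMap.id_apply] at this
    simp only [LinearMap.comp_apply]
    rw [this]
  · intro y hy
    have : Y.mkQ y = 0 := by simpa using hy
    simp [LinearMap.comp_apply, this]

/-- **prescribed rows**: symmetric bilinear form with `f (u i) = β i` on `W i`. -/
theorem exists_symm_rows (u : ι → U) (W : ι → Submodule k U)
    (hu : LinearIndependent k u)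
    (hd : ∀ i, Disjoint (W i) (Submodule.span k (Set.range u)))
    (β : ∀ i, W i →ₗ[k] k) :
    ∃ f : U →ₗ[k] U →ₗ[k] k, (∀ x y, f x y = f y x) ∧
      ∀ i x (hx : x ∈ W i), f (u i) x = β i ⟨x, hx⟩ := by
  classical
  choose ρ hρ hρ0 using fun i => exists_extend_kill (W i) _ (hd i) (β i)
  -- dual functionals
  have hσ : ∀ i, ∃ σ : U →ₗ[k] k, ∀ j, σ (u j) = if j = i then 1 else 0 := by
    intro i
    obtain ⟨g, hg⟩ := LinearMap.exists_leftInverse_of_injective
      (Finsupp.linearCombination k u) (LinearMap.ker_eq_bot.2 hu)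
    refine ⟨(Finsupp.lapply i).comp g, fun j => ?_⟩
    have h1 : g (u j) = Finsupp.single j 1 := by
      have := congrArg (fun φ => φ (Finsupp.single j (1 : k))) hg
      simpa [Finsupp.linearCombination_single] using this
    simp [LinearMap.comp_apply, h1, Finsupp.single_apply]
  choose σ hσ using hσ
  refine ⟨∑ i, ((σ i).smulRight (ρ i) + (ρ i).smulRight (σ i)), ?_, ?_⟩
  · intro x y
    simp only [LinearMap.sum_apply, LinearMap.add_apply, LinearMap.smulRight_apply,
      LinearMap.smul_apply, smul_eq_mul]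
    refine Finset.sum_congr rfl fun i _ => ?_
    ring
  · intro i x hx
    simp only [LinearMap.sum_apply, LinearMap.add_apply, LinearMap.smulRight_apply,
      LinearMap.smul_apply, smul_eq_mul]
    have h0 : ∀ j, ρ j (u i) = 0 := fun j => hρ0 j _ (Submodule.subset_span ⟨i, rfl⟩)
    rw [Finset.sum_eq_single i]
    · rw [hσ, h0, hρ i x hx]; simp
    · intro j _ hj
      rw [hσ, h0, if_neg (fun h => hj h.symm)]; simp
    · intro h; exact absurd (Finset.mem_univ i) h

end rows

section phi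

variable {KK : Type*} [Field KK] {w kp : ℕ}

/-- the rank-one tensor of a point (543's `Phi`), for arbitrary block maps `fr i`. -/
def Phi (fr : Fin kp → KK →+* KK) (b : Fin w → KK) : (Fin kp → Fin w) → KK :=
  fun al => ∏ i, fr i (b (al i))





end phi

end Crest.Agent.R042.PreRow927
end

-- ▼ part R042/Gadget_220
section

/-! Row 42 / S0059: the same-type gadget on the family side (helper220).
`fibre i` = labels with prescribed windows at the `Γ`-neighbours; complete bipartite along `Γ`;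
nonempty; affine idempotent `pi i` of all labels onto `fibre i` with equal point fibres. -/

set_option autoImplicit false
set_option linter.unusedSectionVars false

namespace Crest.Agent.R042.Gadget220

open Finset Crest.Agent.R042.RowWin543 Crest.Agent.R042.Fam543 Crest.Agent.R042.PreRow927

/-! ### independence of rank-one tensors, arbitrary index types -/


section fam

variable {k0 KK : Type} [Field k0] [Field KK] [Algebra k0 KK] [CharP KK 2]

theorem Valid.lam_ne {d L : ℕ} {K : Set k0} {R : Ty k0 KK d L} (h : Valid K R) : R.lam ≠ 0 := by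
  intro h0
  have := h.lam
  rw [h0, map_zero] at this
  exact zero_ne_one this


/-! ### the gadget -/

/-- gadget data: a bounded degree graph `Γ` on the types inside the perp graph -/
structure Gad {r : ℕ} {d L : ℕ} (kp : ℕ) (T : Fin r → Ty k0 KK d L) (Γ : Fin r → Fin r → Prop) : Prop where
  symm : ∀ i j, Γ i j → Γ j i
  perp : ∀ i j, Γ i j → Perp (T i) (T j)
  cherry : ∀ i j k, Γ i j → Γ i k → j ≠ k → ¬ Perp (T j) (T k)
  deg : ∀ i, Nat.card {j // Γ i j} ≤ kp

variable {r d L kp : ℕ}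

/-- prescribed value -/
noncomputable def pre (l0 : Fin L) (i j : Fin r) (z : U KK d kp L) : k0 :=
  if i < j then tau k0 (z l0) else 0

/-- labels of type `i` with prescribed windows at the `Γ`-neighbours -/
def fibre (e : ℕ) (T : Fin r → Ty k0 KK d L) (Γ : Fin r → Fin r → Prop) (l0 : Fin L) (i : Fin r) :
    Set (Label k0 KK d kp L) :=
  {f | ∀ j, Γ i j → ∀ z ∈ UPQ (2 ^ e) kp (T i) (T j), f.1 (uvec (2 ^ e) kp (T j)) z = pre l0 i j z}



/-- homogeneous version of the fibre -/
def fib0 (e : ℕ) (T : Fin r → Ty k0 KK d L) (Γ : Fin r → Fin r → Prop) (i : Fin r) :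
    Submodule k0 (Label k0 KK d kp L) where
  carrier := {f | ∀ j, Γ i j → ∀ z ∈ UPQ (2 ^ e) kp (T i) (T j), f.1 (uvec (2 ^ e) kp (T j)) z = 0}
  add_mem' := by
    intro f g hf hg j hj z hz
    have h1 := hf j hj z hz
    have h2 := hg j hj z hz
    simp [h1, h2]
  zero_mem' := by intro j hj z hz; simp
  smul_mem' := by
    intro c f hf j hj z hz
    have h1 := hf j hj z hz
    simp [h1]

noncomputable local instance instACG {W : Type} [AddCommGroup W] [Module k0 W] :
    AddCommGroup (SymForm k0 W) :=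
  Submodule.addCommGroup (M := W →ₗ[k0] W →ₗ[k0] k0) (R := k0) (SymForm k0 W)


theorem add_mem_fibre {e : ℕ} {T : Fin r → Ty k0 KK d L} {Γ : Fin r → Fin r → Prop} {l0 : Fin L} {i : Fin r}
    {f g : Label k0 KK d kp L} (hf : f ∈ fibre e T Γ l0 i) (hg : g ∈ fib0 e T Γ i) :
    f + g ∈ fibre e T Γ l0 i := by
  intro j hj z hz
  have h1 := hf j hj z hz
  have h2 := hg j hj z hz
  show (f.1 + g.1) (uvec (2 ^ e) kp (T j)) z = _
  rw [LinearMap.add_apply, LinearMap.add_apply, h1, h2, add_zero]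

/-- a linear projection onto `fib0` -/
theorem exists_proj {V : Type*} [AddCommGroup V] [Module k0 V] (F0 : Submodule k0 V) :
    ∃ p : V →ₗ[k0] V, (∀ v, p v ∈ F0) ∧ ∀ v ∈ F0, p v = v := by
  obtain ⟨q, hq⟩ := LinearMap.exists_leftInverse_of_injective F0.subtype
    (LinearMap.ker_eq_bot.2 F0.injective_subtype)
  refine ⟨F0.subtype.comp q, fun v => (q v).2, fun v hv => ?_⟩
  have := LinearMap.congr_fun hq ⟨v, hv⟩
  show ((q v : F0) : V) = v
  have h2 : q v = ⟨v, hv⟩ := this
  rw [h2]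

/-- the data of the gadget labels: affine idempotents onto the fibres -/
structure PiData {kp : ℕ} (e : ℕ) (T : Fin r → Ty k0 KK d L) (Γ : Fin r → Fin r → Prop) (l0 : Fin L) where
  h : Fin r → Label k0 KK d kp L
  p : Fin r → (Label k0 KK d kp L →ₗ[k0] Label k0 KK d kp L)
  hh : ∀ i, h i ∈ fibre e T Γ l0 i
  hp : ∀ i f, p i f ∈ fib0 e T Γ i
  hp' : ∀ i, ∀ f ∈ fib0 e T Γ i, p i f = f


namespace PiData

variable {e : ℕ} {T : Fin r → Ty k0 KK d L} {Γ : Fin r → Fin r → Prop} {l0 : Fin L}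
  (D : PiData (kp := kp) e T Γ l0)

/-- the affine idempotent -/
def pi (i : Fin r) (f : Label k0 KK d kp L) : Label k0 KK d kp L := D.h i + D.p i (f + (-1 : k0) • D.h i)






/-- the codimension of the fibre is at most the sum of the window dimensions -/
theorem finrank_ker_le [Module.Finite k0 KK] (i : Fin r) :
    Module.finrank k0 (LinearMap.ker (D.p i)) ≤
      ∑ᶠ j : {j // Γ i j}, Module.finrank k0 (UPQ (2 ^ e) kp (T i) (T j.1)) := by
  classical
  -- `ker (p i)` embeds into the product of the duals of the windows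
  let W : {j // Γ i j} → Submodule k0 (U KK d kp L) := fun j => UPQ (2 ^ e) kp (T i) (T j.1)
  let F : LinearMap.ker (D.p i) →ₗ[k0] (∀ j : {j // Γ i j}, W j →ₗ[k0] k0) :=
    { toFun := fun f j => (f.1.1 (uvec (2 ^ e) kp (T j.1))).comp (W j).subtype
      map_add' := by intro f g; rfl
      map_smul' := by intro c f; rfl }
  have hF : Function.Injective F := by
    intro f g hfg
    have h1 : f.1 + (-1 : k0) • g.1 ∈ fib0 e T Γ i := by
      intro j hj z hz
      have h0 : f.1.1 (uvec (2 ^ e) kp (T j)) z = g.1.1 (uvec (2 ^ e) kp (T j)) z :=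
        LinearMap.congr_fun (congrFun hfg ⟨j, hj⟩) ⟨z, hz⟩
      show (f.1.1 + (-1 : k0) • g.1.1) (uvec (2 ^ e) kp (T j)) z = 0
      rw [LinearMap.add_apply, LinearMap.add_apply, LinearMap.smul_apply, LinearMap.smul_apply, h0]
      simp
    have h2 := D.hp' i _ h1
    have h3 : D.p i f.1 = 0 := f.2
    have h4 : D.p i g.1 = 0 := g.2
    rw [map_add, map_smul, h3, h4, smul_zero, add_zero] at h2
    have h5 : (0 : U KK d kp L →ₗ[k0] U KK d kp L →ₗ[k0] k0) = f.1.1 + (-1 : k0) • g.1.1 :=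
      congrArg Subtype.val h2
    apply Subtype.ext
    apply Subtype.ext
    refine LinearMap.ext fun x => LinearMap.ext fun y => ?_
    have h6 : (0 : k0) = f.1.1 x y + (-1 : k0) * g.1.1 x y :=
      LinearMap.congr_fun (LinearMap.congr_fun h5 x) y
    linear_combination -h6
  have h4 := LinearMap.finrank_le_finrank_of_injective hF
  refine h4.trans (le_of_eq ?_)
  rw [Module.finrank_pi_fintype, finsum_eq_sum_of_fintype]
  refine sum_congr rfl fun j _ => ?_
  exact Subspace.dual_finrank_eq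






end PiData




end fam

/-! ### push-forward and relative entropy (927's budget remark) -/

section kl

variable {Y Z : Type*} [Fintype Y] [Fintype Z] [DecidableEq Z]

/-- push-forward -/
def push (φ : Y → Z) (μ : Y → ℝ) (z : Z) : ℝ := ∑ y ∈ univ.filter (fun y => φ y = z), μ y






end kl

end Crest.Agent.R042.Gadget220
end

-- ▼ part R042/GadB_44
section

/-! Row 42 / S0059, PLAN B (few blocks, `2 ≤ kp`): the same-type gadget when the degree of `Γ` is not
bounded by `kp`; instead the `b`'s of the `Γ`-neighbours of every type are linearly independent. -/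

set_option autoImplicit false
set_option linter.unusedSectionVars false

namespace Crest.Agent.R042.GadB44

open Finset Crest.Agent.R042.RowWin543 Crest.Agent.R042.Fam543 Crest.Agent.R042.PreRow927
  Crest.Agent.R042.Gadget220

variable {k0 KK : Type} [Field k0] [Field KK] [Algebra k0 KK] [CharP KK 2]

/-- rows of pairwise non-perpendicular types with linearly independent `b` are independent, even
modulo a window -/
theorem indep_modB {K : Set k0} (hK : Alph K) (e : ℕ) {d L kp : ℕ} (hkp : 2 ≤ kp) {J : Type*}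
    [Fintype J] (R : J → Ty k0 KK d L) (hR : ∀ j, Valid K (R j))
    (hli : LinearIndependent KK fun j => (R j).b)
    (hnp : ∀ j j', ¬ Perp (R j) (R j')) (l : Fin L) (c : J → k0)
    (P : Ty k0 KK d L) (j0 : J)
    (hx : ∑ j, c j • uvec (2 ^ e) kp (R j) ∈ UPQ (2 ^ e) kp P (R j0)) : ∀ j, c j = 0 := by
  classical
  let i0 : Fin kp := ⟨0, by omega⟩
  let i1 : Fin kp := ⟨1, by omega⟩
  have h01 : i0 ≠ i1 := by simp [i0, i1, Fin.ext_iff]
  have h1 : (∑ j, c j • uvec (2 ^ e) kp (R j)) l ∈ T1 (2 ^ e) (R j0).b :=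
    (Submodule.mem_inf.1 hx).2 l
  rw [mem_T1] at h1
  have h2 := h1 i1
  have h3 : (∑ j, c j • uvec (2 ^ e) kp (R j)) l
      = ∑ j, (algebraMap k0 KK (c j * (R j).E l) * (R j).lam) •
          (Fam543.Phi (2 ^ e) (R j).b : U0 KK d kp) := by
    rw [Finset.sum_apply]
    refine sum_congr rfl fun j _ => ?_
    show c j • ((algebraMap k0 KK ((R j).E l) * (R j).lam) •
      (Fam543.Phi (2 ^ e) (R j).b : U0 KK d kp)) = _
    rw [← algebraMap_smul KK (c j), smul_smul, map_mul, mul_assoc]
  rw [h3, map_sum] at h2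
  have h4 := Fintype.linearIndependent_iff.1 hli
    (fun j => algebraMap k0 KK (c j * (R j).E l) * (R j).lam *
      (B (R j0).b (R j).b) ^ ((2 ^ e) ^ (i1 : ℕ)))
    (by
      funext x
      let al : Fin kp → Ix d := fun i => if i = i0 then x else none
      have h5 := congrFun h2 al
      rw [Finset.sum_apply, Pi.zero_apply] at h5
      rw [Finset.sum_apply, Pi.zero_apply, ← h5]
      refine sum_congr rfl fun j _ => ?_
      rw [map_smul, Pi.smul_apply, Pi.smul_apply, smul_eq_mul, smul_eq_mul, contr_Phi, mul_assoc]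
      congr 2
      rw [Finset.prod_eq_single i0]
      · simp [al, i0]
      · intro i _ hi
        simp [al, hi, (hR j).b0]
      · intro h
        exact absurd (Finset.mem_erase.2 ⟨h01, mem_univ _⟩) h)
  intro j
  have h6 := h4 j
  have h7 : (B (R j0).b (R j).b) ^ ((2 ^ e) ^ (i1 : ℕ)) ≠ 0 := pow_ne_zero _ (hnp j0 j)
  have h8 := (mul_eq_zero.1 h6).resolve_right h7
  have h9 := (mul_eq_zero.1 h8).resolve_right (Valid.lam_ne (hR j))
  have h10 : c j * (R j).E l = 0 := by
    rw [← map_zero (algebraMap k0 KK)] at h9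
    exact (algebraMap k0 KK).injective h9
  exact (mul_eq_zero.1 h10).resolve_right (hK.ne_zero ((hR j).E l))

variable {r d L kp : ℕ}

noncomputable local instance instACG {W : Type} [AddCommGroup W] [Module k0 W] :
    AddCommGroup (SymForm k0 W) :=
  Submodule.addCommGroup (M := W →ₗ[k0] W →ₗ[k0] k0) (R := k0) (SymForm k0 W)

/-- two gadget labels along `Γ` are adjacent -/
theorem completeB {K : Set k0} (hK : Alph K) {e : ℕ} {T : Fin r → Ty k0 KK d L}
    {Γ : SimpleGraph (Fin r)}
    (hperp : ∀ i j, Γ.Adj i j → Perp (T i) (T j)) {l0 : Fin L} {i j : Fin r}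
    (hij : Γ.Adj i j) {f g : Label k0 KK d kp L} (hf : f ∈ fibre e T Γ.Adj l0 i)
    (hg : g ∈ fibre e T Γ.Adj l0 j) :
    Rel K (2 ^ e) kp (T i) (T j) f g := by
  have hne : i ≠ j := hij.ne
  rcases lt_or_gt_of_ne hne with h | h
  · refine ⟨hperp _ _ hij, 1, hK.one, l0, fun z hz => ?_⟩
    rw [hf j hij z hz, hg i hij.symm z (by rwa [UPQ_comm]), pre, pre, if_pos h,
      if_neg (not_lt.2 h.le)]
    ring
  · refine ⟨hperp _ _ hij, -1, hK.neg 1 hK.one, l0, fun z hz => ?_⟩
    rw [hf j hij z hz, hg i hij.symm z (by rwa [UPQ_comm]), pre, pre, if_pos h,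
      if_neg (not_lt.2 h.le)]
    ring

theorem fibre_nonemptyB {K : Set k0} (hK : Alph K) {e : ℕ} (hkp : 2 ≤ kp)
    {T : Fin r → Ty k0 KK d L} (hT : ∀ i, Valid K (T i)) {Γ : SimpleGraph (Fin r)}
    (hch : ∀ i j k, Γ.Adj i j → Γ.Adj i k → j ≠ k → ¬ Perp (T j) (T k))
    (hli : ∀ i, LinearIndependent KK (fun j : {j // Γ.Adj i j} => (T j).b))
    (l0 : Fin L) (i : Fin r) :
    (fibre (kp := kp) e T Γ.Adj l0 i).Nonempty := by
  classical
  let J := {j // Γ.Adj i j}
  have hnp : ∀ j j' : J, ¬ Perp (T j.1) (T j'.1) := by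
    intro j j'
    by_cases h : j = j'
    · rw [h]; exact (hT j'.1).aniso
    · exact hch i j.1 j'.1 j.2 j'.2 (fun h' => h (Subtype.ext h'))
  have hmod := fun (c : J → k0) (j0 : J) =>
    indep_modB hK e (kp := kp) hkp (fun j : J => T j.1) (fun j => hT j.1) (hli i) hnp l0 c (T i) j0
  have hli : LinearIndependent k0 (fun j : J => uvec (2 ^ e) kp (T j.1)) := by
    rw [Fintype.linearIndependent_iff]
    intro c hc j0
    exact hmod c j0 (by rw [hc]; exact Submodule.zero_mem _) j0
  obtain ⟨f, hf1, hf2⟩ := exists_symm_rows (fun j : J => uvec (2 ^ e) kp (T j.1))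
    (fun j : J => UPQ (2 ^ e) kp (T i) (T j.1)) hli
    (by
      intro j0
      rw [Submodule.disjoint_def]
      intro x hx hx2
      obtain ⟨c, rfl⟩ := (Submodule.mem_span_range_iff_exists_fun k0).1 hx2
      have := hmod c j0 hx
      simp [this])
    (fun j : J => if i < j.1 then ((tau k0).comp ((LinearMap.proj l0 : U KK d kp L →ₗ[k0] U0 KK d kp))).comp
      (UPQ (2 ^ e) kp (T i) (T j.1)).subtype else 0)
  refine ⟨⟨f, hf1⟩, ?_⟩
  intro j hj z hz
  have h := hf2 ⟨j, hj⟩ z hz
  show f (uvec (2 ^ e) kp (T j)) z = _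
  rw [h, pre]
  by_cases hij : i < j
  · simp [hij]
  · simp [hij]

/-- **gadget with linearly independent neighbourhoods** (`2 ≤ kp`), the conclusion of
`Gadget220.exists_gad` and `GadF927.exists_gadget`. -/
theorem exists_gadB {K : Set k0} (hK : Alph K) [Module.Finite k0 KK] (e : ℕ) (hkp : 2 ≤ kp)
    (hL : 0 < L) (T : Fin r → Ty k0 KK d L) (hT : ∀ i, Valid K (T i))
    (Γ : SimpleGraph (Fin r)) [DecidableRel Γ.Adj] (hperp : ∀ i j, Γ.Adj i j → Perp (T i) (T j))
    (hch : ∀ i j k, Γ.Adj i j → Γ.Adj i k → j ≠ k → ¬ Perp (T j) (T k))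
    (hli : ∀ i, LinearIndependent KK (fun j : {j // Γ.Adj i j} => (T j).b)) :
    ∃ (hh : Fin r → Label k0 KK d kp L) (ρ : Fin r → (Label k0 KK d kp L →ₗ[k0] Label k0 KK d kp L)),
      (∀ i f, ρ i (ρ i f) = ρ i f) ∧
      (∀ i j, Γ.Adj i j → ∀ f g, Rel K (2 ^ e) kp (T i) (T j) (hh i + ρ i f) (hh j + ρ j g)) ∧
      ∀ i, Module.finrank k0 (LinearMap.ker (ρ i)) ≤
        ∑ j ∈ univ.filter (fun j => Γ.Adj i j), Module.finrank k0 (UPQ (2 ^ e) kp (T i) (T j)) := by
  classical
  choose h hh using fun i => fibre_nonemptyB (kp := kp) hK (e := e) hkp hT hch hli ⟨0, hL⟩ i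
  choose p hp hp' using fun i => exists_proj (fib0 (kp := kp) e T Γ.Adj i)
  let D : PiData (kp := kp) e T Γ.Adj ⟨0, hL⟩ := ⟨h, p, hh, hp, hp'⟩
  refine ⟨D.h, D.p, fun i f => D.hp' i _ (D.hp i f), fun i j hij f g => ?_, fun i => ?_⟩
  · exact completeB hK hperp hij (add_mem_fibre (D.hh i) (D.hp i f))
      (add_mem_fibre (D.hh j) (D.hp j g))
  · refine (D.finrank_ker_le i).trans (le_of_eq ?_)
    rw [finsum_eq_sum_of_fintype]
    rw [← Finset.sum_subtype (univ.filter fun j => Γ.Adj i j) (by simp)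
      (fun j => Module.finrank k0 (UPQ (2 ^ e) kp (T i) (T j)))]

end Crest.Agent.R042.GadB44
end

-- ▼ part R042/TwoEnd_755
section

/-!
Row 42, S0059, label level.  LEMMA TE (two-end rows), helper755.

`k` field, `M` finite-dimensional (space spanned by the tensors `b_Q`), labels of third types are
`u_Q = E(Q) ⊗ b_Q ∈ Fin L → M`, `E(Q) ∈ K^L`.  `Z` a subspace of `Fin L → M` (span of earlier rows).
`X Z b = {x | x ⊗ b ∈ Z}`.

* `dead_card`  : if every nonzero functional of `M` kills at most `B` of the points `b t`, and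
  `dim Z < r * dim M`, then at most `B` points have `dim X ≥ r`  (one-end dead set).
* `coset_card` : a coset of an `r`-dimensional subspace of `k^L` has at most `|K|^r` points of `K^L`.
* `one_end`, `two_end` : for a point with `dim X < r` few `E ∈ K^L` give `E ⊗ b ∈ Z + v`,
  resp. `E ⊗ b ∈ Z + k u`.
-/

set_option autoImplicit false

namespace Crest.Agent.R042.TwoEnd755

open Finset

variable {k M : Type*} [Field k] [AddCommGroup M] [Module k M] {L : ℕ}

/-- `x ⊗ b` -/
def ten (b : M) : (Fin L → k) →ₗ[k] (Fin L → M) where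
  toFun x := fun i => x i • b
  map_add' x y := by funext i; simp [add_smul]
  map_smul' c x := by funext i; simp [mul_smul]

@[simp] theorem ten_apply (b : M) (x : Fin L → k) (i : Fin L) : ten b x i = x i • b := rfl

/-- `X_b = {x | x ⊗ b ∈ Z}` -/
def X (Z : Submodule k (Fin L → M)) (b : M) : Submodule k (Fin L → k) := Z.comap (ten b)









end Crest.Agent.R042.TwoEnd755
end

-- ▼ part R042/TEInst_755
section

/-!
# Row 42 / S0059: Lemma TE for the frozen family

Dead sets of a subspace `Z` of the big space `U`: `TEdead`, `TEdead2`, and their densities.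
-/

set_option autoImplicit false
set_option linter.unusedSectionVars false

namespace Crest.Agent.R042.TEInst755

open Finset Function

section Tensor

open Crest.Agent.R042.Spec730

variable {F ι : Type*} [Field F] [Fintype ι] [DecidableEq ι] {k : ℕ}

/-- contraction of the block `i` with `φ` -/
def ctr (φ : (ι → F) →ₗ[F] F) (i : Fin k) (t : (Fin k → ι) → F) : (Fin k → ι) → F :=
  fun al => ∑ j, φ (Pi.single j 1) * t (Function.update al i j)

theorem op_eq_zero (A : Fin k → (ι → F) →ₗ[F] (ι → F)) (i0 : Fin k) (φ : (ι → F) →ₗ[F] F)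
    (p : ι → F) (hA : ∀ x, A i0 x = φ x • p) (t : (Fin k → ι) → F) (ht : ctr φ i0 t = 0) :
    op A t = 0 := by
  classical
  funext al
  show ∑ be : Fin k → ι, (∏ i, A i (Pi.single (be i) 1) (al i)) * t be = 0
  rw [← Equiv.sum_comp (Equiv.funSplitAt i0 ι).symm, Fintype.sum_prod_type_right]
  refine Finset.sum_eq_zero fun r _ => ?_
  -- a reference point of the fibre
  have hup : ∀ a a' : ι, (Equiv.funSplitAt i0 ι).symm (a, r) =
      Function.update ((Equiv.funSplitAt i0 ι).symm (a', r)) i0 a := by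
    intro a a'
    funext i
    by_cases h : i = i0
    · subst h; simp [Equiv.funSplitAt, Equiv.piSplitAt]
    · rw [Function.update_of_ne h]; simp [Equiv.funSplitAt, Equiv.piSplitAt, h]
  rcases isEmpty_or_nonempty ι with hι | ⟨⟨a0⟩⟩
  · exact Fintype.sum_empty _
  set be0 := (Equiv.funSplitAt i0 ι).symm (a0, r) with hbe0
  have h1 : ∀ a : ι, (∏ i, A i (Pi.single ((Equiv.funSplitAt i0 ι).symm (a, r) i) 1) (al i)) =
      φ (Pi.single a 1) * (p (al i0) *
        ∏ i ∈ univ.erase i0, A i (Pi.single (be0 i) 1) (al i)) := by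
    intro a
    rw [hup a a0, ← mul_prod_erase univ _ (mem_univ i0), Function.update_self, hA]
    rw [Pi.smul_apply, smul_eq_mul, mul_assoc]
    congr 2
    refine prod_congr rfl fun i hi => ?_
    rw [Function.update_of_ne (ne_of_mem_erase hi)]
  have h2 : ∀ a : ι, (∏ i, A i (Pi.single ((Equiv.funSplitAt i0 ι).symm (a, r) i) 1) (al i)) *
      t ((Equiv.funSplitAt i0 ι).symm (a, r)) =
      (p (al i0) * ∏ i ∈ univ.erase i0, A i (Pi.single (be0 i) 1) (al i)) *
        (φ (Pi.single a 1) * t (Function.update be0 i0 a)) := by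
    intro a
    rw [h1 a, hup a a0]; ring
  rw [Finset.sum_congr rfl fun a _ => h2 a, ← Finset.mul_sum]
  have h3 := congrFun ht be0
  unfold ctr at h3
  rw [h3]; simp

/-- a tensor killed by the contractions with `φ i`, `ψ i` in all blocks is in the span of the pure
tensors of the common kernels. -/
theorem mem_span_pure (φ ψ : Fin k → (ι → F) →ₗ[F] F) (p p' : Fin k → ι → F)
    (h1 : ∀ i, φ i (p i) = 1) (h2 : ∀ i, φ i (p' i) = 0) (h3 : ∀ i, ψ i (p i) = 0)
    (h4 : ∀ i, ψ i (p' i) = 1) (t : (Fin k → ι) → F) (ht : ∀ i, ctr (φ i) i t = 0)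
    (ht' : ∀ i, ctr (ψ i) i t = 0) :
    t ∈ Submodule.span F {x | ∃ c : Fin k → ι → F, (∀ i, φ i (c i) = 0 ∧ ψ i (c i) = 0) ∧
      x = Spec730.pure c} := by
  classical
  let A : Fin 3 → Fin k → (ι → F) →ₗ[F] (ι → F) := fun c i =>
    if c = 0 then LinearMap.id - ((LinearMap.toSpanSingleton F _ (p i)).comp (φ i) +
      (LinearMap.toSpanSingleton F _ (p' i)).comp (ψ i))
    else if c = 1 then (LinearMap.toSpanSingleton F _ (p i)).comp (φ i)
    else (LinearMap.toSpanSingleton F _ (p' i)).comp (ψ i)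
  have hA : ∀ i, ∑ c, A c i = LinearMap.id := by
    intro i
    rw [Fin.sum_univ_three]
    simp only [A]
    simp
    abel
  have hs := sum_op (Fin 3) A hA t
  rw [← hs]
  refine Submodule.sum_mem _ fun χ _ => ?_
  by_cases hχ : ∀ i, χ i = 0
  · -- the projection
    have h5 : op (fun i => A (χ i) i) t =
        ∑ be : Fin k → ι, t be • Spec730.pure (fun i => A 0 i (Pi.single (be i) 1)) := by
      funext al
      simp only [Finset.sum_apply, Pi.smul_apply, smul_eq_mul]
      show ∑ be : Fin k → ι, (∏ i, A (χ i) i (Pi.single (be i) 1) (al i)) * t be = _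
      refine Finset.sum_congr rfl fun be _ => ?_
      rw [mul_comm]
      simp only [hχ]
      rfl
    rw [h5]
    refine Submodule.sum_mem _ fun be _ => Submodule.smul_mem _ _ (Submodule.subset_span ?_)
    refine ⟨_, fun i => ?_, rfl⟩
    have h6 : ∀ x, A 0 i x = x - (φ i x • p i + ψ i x • p' i) := by
      intro x
      simp [A]
    rw [h6]
    constructor
    · rw [map_sub, map_add, map_smul, map_smul, h1, h2]; simp
    · rw [map_sub, map_add, map_smul, map_smul, h3, h4]; simp
  · push Not at hχ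
    obtain ⟨i0, hi0⟩ := hχ
    have h7 : op (fun i => A (χ i) i) t = 0 := by
      by_cases h8 : χ i0 = 1
      · refine op_eq_zero _ i0 (φ i0) (p i0) (fun x => ?_) t (ht i0)
        simp [A, h8]
      · refine op_eq_zero _ i0 (ψ i0) (p' i0) (fun x => ?_) t (ht' i0)
        simp [A, h8, hi0]
    rw [h7]
    exact Submodule.zero_mem _


end Tensor

section Poly

open MvPolynomial Crest.Agent.R042.DigitSZ_853

variable {V : Type*} [Fintype V] [DecidableEq V] {K : Type*} [Field K] {k : ℕ}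

/-- block degrees at most `D` -/
def BD (D : Fin k → ℕ) (h : MvPolynomial (V × Fin k) K) : Prop :=
  ∀ m ∈ h.support, ∀ i, ∑ v, m (v, i) ≤ D i

theorem BD.add {D : Fin k → ℕ} {g h : MvPolynomial (V × Fin k) K} (hg : BD D g) (hh : BD D h) :
    BD D (g + h) := by
  classical
  intro m hm i
  rcases Finset.mem_union.1 (support_add hm) with h1 | h1
  · exact hg m h1 i
  · exact hh m h1 i

theorem BD.zero (D : Fin k → ℕ) : BD D (0 : MvPolynomial (V × Fin k) K) := by
  intro m hm; simp at hm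

theorem BD.sum {D : Fin k → ℕ} {α : Type*} (s : Finset α) (g : α → MvPolynomial (V × Fin k) K)
    (hg : ∀ a ∈ s, BD D (g a)) : BD D (∑ a ∈ s, g a) := by
  classical
  induction s using Finset.induction_on with
  | empty => rw [Finset.sum_empty]; exact BD.zero D
  | insert a s ha ih =>
    rw [Finset.sum_insert ha]
    exact (hg a (mem_insert_self _ _)).add (ih fun b hb => hg b (mem_insert_of_mem hb))

theorem BD.mul {D D' : Fin k → ℕ} {g h : MvPolynomial (V × Fin k) K} (hg : BD D g)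
    (hh : BD D' h) : BD (D + D') (g * h) := by
  classical
  intro m hm i
  obtain ⟨a, ha, b, hb, rfl⟩ := Finset.mem_add.1 (support_mul g h hm)
  have h1 := hg a ha i
  have h2 := hh b hb i
  have h3 : ∑ v, (a + b) (v, i) = ∑ v, a (v, i) + ∑ v, b (v, i) := by
    simp only [Finsupp.add_apply, sum_add_distrib]
  rw [h3, Pi.add_apply]
  omega

theorem BD.C (c : K) : BD (0 : Fin k → ℕ) (C c : MvPolynomial (V × Fin k) K) := by
  classical
  intro m hm i
  rw [support_C] at hm
  split_ifs at hm with h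
  · simp at hm
  · rw [mem_singleton] at hm
    subst hm; simp

theorem BD.mono {D D' : Fin k → ℕ} {g : MvPolynomial (V × Fin k) K} (hg : BD D g)
    (h : D ≤ D') : BD D' g := fun m hm i => (hg m hm i).trans (h i)

theorem BD.X (v : V) (i : Fin k) :
    BD (Pi.single i 1 : Fin k → ℕ) (X (v, i) : MvPolynomial (V × Fin k) K) := by
  classical
  intro m hm i'
  rw [support_X, mem_singleton] at hm
  subst hm
  by_cases h : i' = i
  · subst h
    rw [Pi.single_eq_same, Finset.sum_eq_single v]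
    · simp
    · intro b _ hb
      rw [Finsupp.single_apply, if_neg]
      intro h; exact hb (congrArg Prod.fst h).symm
    · intro h; exact absurd (mem_univ v) h
  · rw [Finset.sum_eq_zero]
    · exact Nat.zero_le _
    · intro v' _
      rw [Finsupp.single_apply, if_neg]
      intro h'; exact h (congrArg Prod.snd h').symm

theorem BD.prod (s : Finset (Fin k)) (g : Fin k → MvPolynomial (V × Fin k) K)
    (hg : ∀ i, BD (Pi.single i 1 : Fin k → ℕ) (g i)) :
    BD (fun i => if i ∈ s then 1 else 0) (∏ i ∈ s, g i) := by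
  classical
  induction s using Finset.induction_on with
  | empty =>
    rw [Finset.prod_empty, ← C_1]
    exact (BD.C 1).mono fun i => by simp
  | insert a s ha ih =>
    rw [Finset.prod_insert ha]
    refine ((hg a).mul ih).mono fun i => ?_
    rw [Pi.add_apply]
    by_cases h : i = a
    · subst h; simp [ha]
    · simp [h]

end Poly

section Zeros

open MvPolynomial Crest.Agent.R042.DigitSZ_853 Crest.Agent.R042.Fam543

variable {V : Type*} [Fintype V] [DecidableEq V] {KK : Type} [Field KK] [Fintype KK]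
  [DecidableEq KK] [CharP KK 2] {d kp : ℕ}



end Zeros

section Fam

open Crest.Agent.R042.Fam543 Crest.Agent.R042.Inst592 Crest.Agent.R042.Gen592

variable {k0 KK : Type} [Field k0] [Field KK] [Algebra k0 KK] [Fintype k0] [Fintype KK]
  [CharP KK 2]

/-- add the coordinate `none` -/
def ext {d : ℕ} (a : KK) (v : WW KK d) : Ix d → KK := fun o => o.elim a v



/-- the form of a block -/
noncomputable def phiB (Q : ℕ) {d : ℕ} (h : Ix d → KK) (i : ℕ) : (Ix d → KK) →ₗ[KK] KK :=
  ∑ j, ((h (sw j)) ^ (Q ^ i)) • LinearMap.proj j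

theorem phiB_apply (Q : ℕ) {d : ℕ} (h : Ix d → KK) (i : ℕ) (x : Ix d → KK) :
    phiB Q h i x = ∑ j, (h (sw j)) ^ (Q ^ i) * x j := by
  simp [phiB, LinearMap.sum_apply]

theorem phiB_pow (e : ℕ) {d : ℕ} (h : Ix d → KK) (i : ℕ) (x : Ix d → KK) :
    phiB (2 ^ e) h i (fun j => x j ^ ((2 ^ e) ^ i)) = (B h x) ^ ((2 ^ e) ^ i) := by
  rw [phiB_apply]
  unfold B
  rw [← pow_mul, sum_pow_char_pow]
  exact sum_congr rfl fun j _ => by rw [mul_pow]

theorem ctr_phiB (Q : ℕ) {d kp : ℕ} (h : Ix d → KK) (i : Fin kp) (t : U0 KK d kp) :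
    ctr (phiB Q h i) i t = contr Q h i t := by
  classical
  funext al
  unfold ctr
  show _ = ∑ j, (h (sw j)) ^ (Q ^ (i : ℕ)) * t (Function.update al i j)
  refine sum_congr rfl fun j _ => ?_
  congr 1
  rw [phiB_apply, Finset.sum_eq_single j]
  · simp
  · intro j' _ hj'; rw [Pi.single_eq_of_ne hj', mul_zero]
  · intro h; exact absurd (mem_univ j) h







/-- the one-point dead set of a subspace `Z` -/
def TEdead (Q kp : ℕ) {d L : ℕ} (Z : Submodule k0 (U KK d kp L)) (th : ℕ)
    (R : Ty k0 KK d L) : Prop :=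
  th ≤ Module.finrank k0 (TwoEnd755.X Z (R.lam • (Phi Q R.b : U0 KK d kp))) ∨ uvec Q kp R ∈ Z

/-- the two-point dead set of a subspace `Z` -/
def TEdead2 (Q kp : ℕ) {d L : ℕ} (Z : Submodule k0 (U KK d kp L)) (th : ℕ)
    (R R' : Ty k0 KK d L) : Prop :=
  ¬ TEdead Q kp Z th R' ∧ ∃ a : k0, uvec Q kp R' - a • uvec Q kp R ∈ Z


/-- outside the dead sets the two rows are independent modulo `Z` -/
theorem out {Q kp d L : ℕ} {Z : Submodule k0 (U KK d kp L)} {th : ℕ} {R R' : Ty k0 KK d L}
    (hR : ¬ TEdead Q kp Z th R) (hR' : ¬ TEdead Q kp Z th R')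
    (hRR' : ¬ TEdead2 Q kp Z th R R') :
    uvec Q kp R ∉ Z ∧ ∀ a : k0, uvec Q kp R' - a • uvec Q kp R ∉ Z := by
  refine ⟨fun h => hR (Or.inr h), fun a h => hRR' ⟨hR', a, h⟩⟩











/-- `dim U_{P,P'} = L * dim (T_P ⊓ T_P')`. -/
theorem finrank_UPQ {Q d kp L : ℕ} (P P' : Ty k0 KK d L) :
    Module.finrank k0 ↥(UPQ Q kp P P') =
      L * Module.finrank k0 ↥(T1 (KK := KK) (kp := kp) Q P.b ⊓ T1 Q P'.b) := by
  set MM : Submodule KK (U0 KK d kp) := T1 Q P.b ⊓ T1 Q P'.b with hMM
  let eqv : ↥(UPQ Q kp P P') ≃ₗ[k0] (Fin L → MM) :=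
    { toFun := fun x l => ⟨x.1 l, Submodule.mem_inf.2
        ⟨(Submodule.mem_inf.1 x.2).1 l, (Submodule.mem_inf.1 x.2).2 l⟩⟩
      map_add' := fun x y => rfl
      map_smul' := fun c x => rfl
      invFun := fun y => ⟨fun l => (y l).1, Submodule.mem_inf.2
        ⟨fun l => (Submodule.mem_inf.1 (y l).2).1, fun l => (Submodule.mem_inf.1 (y l).2).2⟩⟩
      left_inv := fun x => rfl
      right_inv := fun y => rfl }
  rw [eqv.finrank_eq, Module.finrank_pi_fintype]
  simp


end Fam

end Crest.Agent.R042.TEInst755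
end

-- ▼ part R042/Dim_755
section

/-!
# Row 42 / S0059: dimension of the windows of the frozen family

`dim_KK (T_P ⊓ T_R) = (2d-1)^kp`, `dim_k0 U_{P,R} = L * ([KK:k0] * (2d-1)^kp)` for `b_P ≠ b_R`.
-/

set_option autoImplicit false
set_option linter.unusedSectionVars false

namespace Crest.Agent.R042.Dim755

open Finset Function Crest.Agent.R042.TEInst755

section Tensor

open Crest.Agent.R042.Spec730

variable {F ι : Type*} [Field F] [Fintype ι] [DecidableEq ι] {k n : ℕ}

/-- full contraction -/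
def ct (g : Fin k → (ι → F) →ₗ[F] F) : ((Fin k → ι) → F) →ₗ[F] F where
  toFun t := ∑ al : Fin k → ι, (∏ i, g i (Pi.single (al i) 1)) * t al
  map_add' s t := by simp [mul_add, sum_add_distrib]
  map_smul' c t := by
    simp only [Pi.smul_apply, smul_eq_mul, RingHom.id_apply, mul_sum]
    exact sum_congr rfl fun al _ => by ring

theorem ct_pure (g : Fin k → (ι → F) →ₗ[F] F) (c : Fin k → ι → F) :
    ct g (Spec730.pure c) = ∏ i, g i (c i) := by
  have h : ∀ i, g i (c i) = ∑ x : ι, g i (Pi.single x 1) * c i x := by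
    intro i
    have hc : c i = ∑ x : ι, c i x • (Pi.single x (1 : F) : ι → F) := by
      funext y
      simp [Finset.sum_apply, Pi.single_apply]
    conv_lhs => rw [hc]
    rw [map_sum]
    exact sum_congr rfl fun x _ => by rw [map_smul, smul_eq_mul, mul_comm]
  simp_rw [h]
  rw [Finset.prod_univ_sum, Fintype.piFinset_univ]
  show ∑ al : Fin k → ι, (∏ i, g i (Pi.single (al i) 1)) * Spec730.pure c al = _
  exact sum_congr rfl fun al _ => by unfold Spec730.pure; rw [Finset.prod_mul_distrib]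

theorem ctr_pure (φ : (ι → F) →ₗ[F] F) (i : Fin k) (c : Fin k → ι → F) (h : φ (c i) = 0) :
    ctr φ i (Spec730.pure c) = 0 := by
  funext al
  unfold ctr
  have h1 : ∀ j : ι, Spec730.pure c (update al i j) =
      c i j * ∏ i' ∈ univ.erase i, c i' (al i') := by
    intro j
    unfold Spec730.pure
    rw [← mul_prod_erase univ _ (mem_univ i), update_self]
    congr 1
    exact prod_congr rfl fun i' hi' => by rw [update_of_ne (ne_of_mem_erase hi')]
  have h2 : φ (c i) = ∑ x : ι, φ (Pi.single x 1) * c i x := by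
    have hc : c i = ∑ x : ι, c i x • (Pi.single x (1 : F) : ι → F) := by
      funext y
      simp [Finset.sum_apply, Pi.single_apply]
    conv_lhs => rw [hc]
    rw [map_sum]
    exact sum_congr rfl fun x _ => by rw [map_smul, smul_eq_mul, mul_comm]
  calc ∑ j, φ (Pi.single j 1) * Spec730.pure c (update al i j) =
      ∑ j, (φ (Pi.single j 1) * c i j) * ∏ i' ∈ univ.erase i, c i' (al i') :=
        sum_congr rfl fun j _ => by rw [h1]; ring
    _ = 0 := by rw [← Finset.sum_mul, ← h2, h, zero_mul]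

/-- dimension of the tensors killed by two independent functionals in every block -/
theorem finrank_ker (φ ψ : Fin k → (ι → F) →ₗ[F] F) (p p' : Fin k → ι → F)
    (h1 : ∀ i, φ i (p i) = 1) (h2 : ∀ i, φ i (p' i) = 0) (h3 : ∀ i, ψ i (p i) = 0)
    (h4 : ∀ i, ψ i (p' i) = 1) (T : Submodule F ((Fin k → ι) → F))
    (hT : ∀ t, t ∈ T ↔ (∀ i, ctr (φ i) i t = 0) ∧ ∀ i, ctr (ψ i) i t = 0) :
    Module.finrank F T = (Fintype.card ι - 2) ^ k := by
  classical
  let N : Fin k → Submodule F (ι → F) := fun i => LinearMap.ker (φ i) ⊓ LinearMap.ker (ψ i)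
  have hN : ∀ i, Module.finrank F (N i) = Fintype.card ι - 2 := by
    intro i
    let g : (ι → F) →ₗ[F] F × F := (φ i).prod (ψ i)
    have hker : LinearMap.ker g = N i := LinearMap.ker_prod _ _
    have hsurj : Function.Surjective g := by
      rintro ⟨a, b⟩
      refine ⟨a • p i + b • p' i, ?_⟩
      show (φ i _, ψ i _) = _
      rw [map_add, map_add, map_smul, map_smul, map_smul, map_smul, h1, h2, h3, h4]
      simp
    have h5 := LinearMap.finrank_range_add_finrank_ker g
    rw [LinearMap.range_eq_top.2 hsurj, finrank_top, hker, Module.finrank_prod,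
      Module.finrank_self, Module.finrank_fintype_fun_eq_card] at h5
    omega
  let be : ∀ i, Module.Basis (Fin (Fintype.card ι - 2)) F (N i) := fun i =>
    (Module.finBasisOfFinrankEq F (N i) (hN i))
  let c : ∀ _ : Fin k, Fin (Fintype.card ι - 2) → ι → F := fun i j => (be i j : ι → F)
  have hc : ∀ i j, φ i (c i j) = 0 ∧ ψ i (c i j) = 0 := fun i j =>
    Submodule.mem_inf.1 (be i j).2
  have hcli : ∀ i, LinearIndependent F (c i) := by
    intro i
    have h := (be i).linearIndependent.map' (N i).subtype (Submodule.ker_subtype _)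
    exact h
  -- left inverses
  have hg : ∀ i, ∃ g : (ι → F) →ₗ[F] (Fin (Fintype.card ι - 2) → F),
      ∀ j, g (c i j) = Pi.single j 1 := by
    intro i
    obtain ⟨g, hg⟩ := LinearMap.exists_leftInverse_of_injective
      (Fintype.linearCombination F (c i))
      (LinearMap.ker_eq_bot.2 (linearIndependent_iff_injective_fintypeLinearCombination.1 (hcli i)))
    refine ⟨g, fun j => ?_⟩
    have h5 := LinearMap.congr_fun hg (Pi.single j 1)
    rw [LinearMap.comp_apply, Fintype.linearCombination_apply_single, one_smul] at h5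
    exact h5
  choose g hg using hg
  let Ψ : ((Fin k → Fin (Fintype.card ι - 2)) → F) →ₗ[F] ((Fin k → ι) → F) :=
    Fintype.linearCombination F (fun γ : Fin k → Fin (Fintype.card ι - 2) =>
      Spec730.pure fun i => c i (γ i))
  have hΨ : ∀ s, Ψ s = ∑ γ, s γ • Spec730.pure fun i => c i (γ i) := fun s =>
    Fintype.linearCombination_apply F _ s
  have hinj : Function.Injective Ψ := by
    rw [← LinearMap.ker_eq_bot, LinearMap.ker_eq_bot']
    intro s hs
    funext γ
    have h5 : ct (fun i => (LinearMap.proj (γ i)).comp (g i)) (Ψ s) = s γ := by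
      rw [hΨ, map_sum, Finset.sum_eq_single γ]
      · rw [map_smul, ct_pure]
        simp [hg]
      · intro γ' _ hne
        rw [map_smul, ct_pure]
        obtain ⟨i, hi⟩ := Function.ne_iff.1 hne
        rw [Finset.prod_eq_zero (mem_univ i), smul_zero]
        simp [hg, Ne.symm hi]
      · intro h; exact absurd (mem_univ γ) h
    rw [hs, map_zero] at h5
    exact h5.symm
  have hrange : LinearMap.range Ψ = T := by
    apply le_antisymm
    · rintro _ ⟨s, rfl⟩
      rw [hΨ]
      refine Submodule.sum_mem _ fun γ _ => Submodule.smul_mem _ _ ?_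
      rw [hT]
      exact ⟨fun i => ctr_pure _ i _ (hc i _).1, fun i => ctr_pure _ i _ (hc i _).2⟩
    · intro t ht
      rw [hT] at ht
      have h5 := mem_span_pure φ ψ p p' h1 h2 h3 h4 t ht.1 ht.2
      refine Submodule.span_le.2 ?_ h5
      rintro _ ⟨x, hx, rfl⟩
      -- coordinates
      have hx' : ∀ i, ∃ a : Fin (Fintype.card ι - 2) → F, x i = ∑ j, a j • c i j := by
        intro i
        have h6 : x i ∈ N i := Submodule.mem_inf.2 ⟨(hx i).1, (hx i).2⟩
        refine ⟨fun j => (be i).repr ⟨x i, h6⟩ j, ?_⟩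
        have h7 := congrArg ((N i).subtype) ((be i).sum_repr ⟨x i, h6⟩)
        rw [map_sum] at h7
        simp only [map_smul, Submodule.subtype_apply] at h7
        exact h7.symm
      choose a ha using hx'
      refine ⟨fun γ => ∏ i, a i (γ i), ?_⟩
      rw [hΨ]
      funext al
      rw [Finset.sum_apply]
      unfold Spec730.pure
      have h8 : ∀ i, x i (al i) = ∑ j, a i j * c i j (al i) := by
        intro i
        rw [ha i, Finset.sum_apply]
        exact sum_congr rfl fun j _ => by rw [Pi.smul_apply, smul_eq_mul]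
      simp_rw [h8]
      rw [Finset.prod_univ_sum, Fintype.piFinset_univ]
      refine sum_congr rfl fun γ _ => ?_
      rw [Pi.smul_apply, smul_eq_mul, ← Finset.prod_mul_distrib]
  rw [← hrange, LinearMap.finrank_range_of_inj hinj, Module.finrank_fintype_fun_eq_card,
    Fintype.card_fun, Fintype.card_fin, Fintype.card_fin]

end Tensor

section Fam

open Crest.Agent.R042.Fam543 Crest.Agent.R042.Inst592 Crest.Agent.R042.Gen592

variable {k0 KK : Type} [Field k0] [Field KK] [Algebra k0 KK] [Fintype k0] [Fintype KK]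
  [CharP KK 2]

theorem card_Ix (d : ℕ) : Fintype.card (Ix d) = 2 * d + 1 := by
  rw [Fintype.card_option, Fintype.card_prod, Fintype.card_fin, Fintype.card_bool, mul_comm]

/-- `dim_KK (T_P ⊓ T_R) = (2d-1)^kp` -/
theorem finrank_T1 (e : ℕ) {d kp : ℕ} (b b' : Ix d → KK)
    (hli : LinearIndependent KK ![b, b']) :
    Module.finrank KK ↥(T1 (kp := kp) (2 ^ e) b ⊓ T1 (2 ^ e) b') = (2 * d - 1) ^ kp := by
  classical
  -- dual vectors
  let BB : (Ix d → KK) →ₗ[KK] (Ix d → KK) →ₗ[KK] KK := LinearMap.mk₂ KK (fun x y => B x y)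
    (fun x x' y => B_add_left x x' y) (fun c x y => B_smul_left c x y)
    (fun x y y' => by rw [B_comm, B_add_left, B_comm y, B_comm y'])
    (fun c x y => by rw [B_comm, B_smul_left, B_comm, smul_eq_mul])
  have hBB : ∀ x y, BB x y = B x y := fun x y => rfl
  have hker : LinearMap.ker BB = ⊥ := by
    rw [LinearMap.ker_eq_bot']
    intro x hx
    funext j
    have h := LinearMap.congr_fun hx (Pi.single (sw j) 1)
    rw [hBB, LinearMap.zero_apply] at h
    unfold B at h
    rw [Finset.sum_eq_single (sw j)] at h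
    · simpa [sw_sw] using h
    · intro i _ hi
      rw [Pi.single_eq_of_ne hi, mul_zero]
    · intro hh; exact absurd (mem_univ _) hh
  have hli2 : LinearIndependent KK ![BB b, BB b'] := by
    have h := hli.map' BB hker
    have h0 : (⇑BB ∘ ![b, b']) = ![BB b, BB b'] := by
      funext i
      fin_cases i <;> rfl
    rw [h0] at h
    exact h
  have hsurj := surj_of_indep _ hli2
  have hex : ∀ x y : KK, ∃ v : Ix d → KK, B b v = x ∧ B b' v = y := by
    intro x y
    obtain ⟨v, hv⟩ := hsurj ![x, y]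
    have e1 : BB b v = x := by simpa using congrFun hv 0
    have e2 : BB b' v = y := by simpa using congrFun hv 1
    exact ⟨v, e1, e2⟩
  obtain ⟨w, hw, hw'⟩ := hex 1 0
  obtain ⟨w', hw1, hw1'⟩ := hex 0 1
  have hpos : ∀ i : ℕ, (2 ^ e) ^ i ≠ 0 := fun i => pow_ne_zero _ (pow_ne_zero _ two_ne_zero)
  have h := finrank_ker (fun i : Fin kp => phiB (2 ^ e) b i) (fun i : Fin kp => phiB (2 ^ e) b' i)
    (fun i j => w j ^ ((2 ^ e) ^ (i : ℕ))) (fun i j => w' j ^ ((2 ^ e) ^ (i : ℕ)))
    (fun i => by rw [phiB_pow, hw, one_pow]) (fun i => by rw [phiB_pow, hw1, zero_pow (hpos i)])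
    (fun i => by rw [phiB_pow, hw', zero_pow (hpos i)]) (fun i => by rw [phiB_pow, hw1', one_pow])
    (T1 (kp := kp) (2 ^ e) b ⊓ T1 (2 ^ e) b') (fun t => by
      rw [Submodule.mem_inf, mem_T1, mem_T1]
      simp only [ctr_phiB])
  rw [h, card_Ix]
  congr 1

/-- two distinct normalised vectors are independent -/
theorem li_of_ne {d : ℕ} {b b' : Ix d → KK} (h0 : b none = 1) (h0' : b' none = 1) (h : b ≠ b') :
    LinearIndependent KK ![b, b'] := by
  rw [LinearIndependent.pair_iff]
  intro s t hst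
  have h1 : s + t = 0 := by
    have := congrFun hst none
    simpa [h0, h0'] using this
  have h2 : t = -s := by linear_combination h1
  subst h2
  have h3 : s • (b - b') = 0 := by
    rw [smul_sub, ← hst]; simp [sub_eq_add_neg]
  rcases smul_eq_zero.1 h3 with h4 | h4
  · subst h4; simp
  · exact absurd (sub_eq_zero.1 h4) h

/-- `dim_k0 U_{P,R} = L * ([KK:k0] * (2d-1)^kp)` -/
theorem finrank_UPQ (e : ℕ) {d kp L : ℕ} (P R : Ty k0 KK d L)
    (hli : LinearIndependent KK ![P.b, R.b]) :
    Module.finrank k0 ↥(UPQ (2 ^ e) kp P R) = L * (Module.finrank k0 KK * (2 * d - 1) ^ kp) := by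
  rw [TEInst755.finrank_UPQ, ← finrank_T1 (kp := kp) e P.b R.b hli]
  congr 1
  exact (Module.finrank_mul_finrank k0 KK _).symm

theorem finrank_UPQ_om (e : ℕ) {K : Set k0} {d kp L : ℕ} (P R : Om KK K d L)
    (h : P.1.b ≠ R.1.b) :
    Module.finrank k0 ↥(UPQ (2 ^ e) kp P.1 R.1) =
      L * (Module.finrank k0 KK * (2 * d - 1) ^ kp) :=
  finrank_UPQ e P.1 R.1 (li_of_ne P.2.b0 R.2.b0 h)

/-- types in perpendicular position have different vectors -/
theorem ne_of_perp {K : Set k0} {d L : ℕ} (P R : Om KK K d L) (h : Perp P.1 R.1) :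
    P.1.b ≠ R.1.b := by
  intro heq
  have h1 := P.2.aniso
  apply h1
  unfold Perp at h ⊢
  rw [heq] at h ⊢
  exact h

end Fam

end Crest.Agent.R042.Dim755
end

-- ▼ part R042/FinB_713

/-!
# Row 42 / S0059, plan B: the last mile at one level

`pair_of_level`: from a sample with its gadget graph, the type level data, the label theorem (`hLab`)
and the local conflict bound (`hLoc`) of one level (`KK`, `e`) to `PairConfK K₀`.
-/

set_option autoImplicit false
set_option linter.unusedSectionVars false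

namespace Crest.Agent.R042.FinB713

open Finset Crest.Agent.R042.RowWin543 Crest.Agent.R042.Fam543 Crest.Agent.R042.LocFam958
  Crest.Agent.R042.SspAsm375 Crest.Agent.R042.SspFin375 Crest.Agent.R042.SspT375
  Crest.Agent.R042.SspG375 Crest.Agent.R042.SspB375
  Crest.Agent.R042.TLev333 Crest.Agent.R042.Inst592 Crest.Agent.R042.SysOf333
  Crest.Agent.R042.FamV220 Crest.Agent.R042.IsoD543 Crest.Agent.R042.Dim755
open scoped Classical

variable {k0 KK : Type} [Field k0] [Field KK] [Algebra k0 KK] {d L : ℕ}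

/-- class data: a functional on `U` -/
abbrev Dl (k0 KK : Type) [Field k0] [Field KK] [Algebra k0 KK] (d L : ℕ) : Type :=
  U KK d 2 L →ₗ[k0] k0

/-- label data: `J` tensors, each at one of the two ends -/
abbrev TH (KK : Type) (d L J : ℕ) : Type := Fin J → Bool × U KK d 2 L

instance finiteDl [Finite k0] [Finite KK] : Finite (Dl k0 KK d L) :=
  Finite.of_injective (fun f : Dl k0 KK d L => (fun z => f z : U KK d 2 L → k0))
    fun _ _ h => LinearMap.ext fun z => congrFun h z

noncomputable instance fintypeDl [Finite k0] [Finite KK] : Fintype (Dl k0 KK d L) :=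
  Fintype.ofFinite _

noncomputable instance fintypeTH [Finite KK] (J : ℕ) : Fintype (TH KK d L J) :=
  Fintype.ofFinite _

/-- the pair of types with indices `j` -/
def pj {ι : Type*} (T : ι → Ty k0 KK d L) (j : Jx ι) : Bool → Ty k0 KK d L :=
  fun a => T (bif a then j.1.2 else j.1.1)

theorem card_Dl [Fintype k0] [Fintype KK] :
    Fintype.card (Dl k0 KK d L) = Fintype.card k0 ^ Module.finrank k0 (U KK d 2 L) := by
  have h := Module.card_eq_pow_finrank (K := k0) (V := Dl k0 KK d L)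
  rw [h]
  congr 1
  exact Subspace.dual_finrank_eq

theorem fib_card [Fintype k0] [Fintype KK] (h : Label k0 KK d 2 L)
    (ρ : Label k0 KK d 2 L →ₗ[k0] Label k0 KK d 2 L) (y : Label k0 KK d 2 L) :
    (univ.filter fun y' => h + ρ y' = h + ρ y).card =
      Fintype.card k0 ^ Module.finrank k0 (LinearMap.ker ρ) := by
  haveI : Fintype (LinearMap.ker ρ) := Fintype.ofFinite _
  have h1 := Module.card_eq_pow_finrank (K := k0) (V := LinearMap.ker ρ)
  rw [← h1, ← Fintype.card_coe]
  refine Fintype.card_congr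
    { toFun := fun z => ⟨z.1 - y, ?_⟩
      invFun := fun z => ⟨z.1 + y, ?_⟩
      left_inv := ?_
      right_inv := ?_ }
  · have hz := (mem_filter.1 z.2).2
    rw [LinearMap.mem_ker, map_sub, sub_eq_zero]
    exact add_left_cancel hz
  · rw [mem_filter]
    refine ⟨mem_univ _, ?_⟩
    have hz : ρ z.1 = 0 := z.2
    rw [map_add, hz, zero_add]
  · intro z
    apply Subtype.ext
    simp
  · intro z
    apply Subtype.ext
    simp

/-- **the last mile at one level** -/
theorem pair_of_level (K₀ : ℕ) (hK₀ : 0 < K₀) : ∃ n0 : ℕ, ∀ n : ℕ, n0 ≤ n →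
    ∀ {k0 KK : Type} [Field k0] [Fintype k0] [Field KK] [Fintype KK] [Algebra k0 KK] [CharP KK 2]
      {K : Set k0} (_ : Fam543.Alph K) (e d L N J ℓ r : ℕ) (_ : 0 < L)
      (x : Fin N → Om KK K d L) (_ : Function.Injective fun i => (x i).1.b)
      (TD : TData (Om KK K d L) (Dl k0 KK d L) (TH KK d L J))
      (_ : TD.perp = perp K d L) (_ : TD.ρ = (Fintype.card KK : ℝ)⁻¹)
      (_ : TD.sys.Good ℓ r x) (_ : Gen (perp K d L) ((Fintype.card KK : ℝ)⁻¹) x univ)
      (_ : 1 ≤ TD.η * ℓ * ((Fintype.card KK : ℝ)⁻¹) ^ 4) (_ : TD.η ≤ 1 / 4096)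
      (_ : 4 * ℓ * (32 * K₀ / (N : ℝ)) ≤ TD.η * ((Fintype.card KK : ℝ)⁻¹) ^ 4)
      (_ : 256 * (ℓ + r) * (32 * K₀ / (N : ℝ)) ≤ 1)
      (Γ : SimpleGraph (Fin N)) (DΓ : ℕ)
      (_ : ∀ i j, Γ.Adj i j → Perp (x i).1 (x j).1)
      (_ : ∀ i, (univ.filter fun j => Γ.Adj i j).card ≤ DΓ)
      (_ : ∀ i j k, Γ.Adj i j → Γ.Adj i k → j ≠ k → ¬ Perp (x j).1 (x k).1)
      (_ : ∀ i, LinearIndependent KK (fun j : {j // Γ.Adj i j} => (x j).1.b))
      (_ : ∀ A B : Finset (Fin N), 1 / (64 * (K₀ : ℝ)) * N ≤ (A.card : ℝ) →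
        1 / (64 * (K₀ : ℝ)) * N ≤ (B.card : ℝ) → ∃ i ∈ A, ∃ j ∈ B, Γ.Adj i j)
      (_ : 64 * K₀ ≤ N)
      (BE : (Bool → Ty k0 KK d L) → (Bool → Ty k0 KK d L) → (VV k0 KK d 2 L → ℝ) → Prop)
      (D e₀ c₀ : ℝ) (_ : 0 ≤ c₀)
      (_ : 16 * (16 * K₀ * n * (Fintype.card KK : ℝ) ^ (L * (2 * d + 1) ^ 2)) *
        ((Fintype.card KK : ℝ) ^ (DΓ * (L * (2 * d - 1) ^ 2))) ^ 2 ≤ D)
      (_ : ∀ (c : Jx (Fin N) × Dl k0 KK d L) (μ : VV k0 KK d 2 L → ℝ), IsP μ →
        (∀ v, μ v * Fintype.card (VV k0 KK d 2 L) ≤ D) →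
        ∀ t : Jx (Fin N) × Dl k0 KK d L → ℝ, IsP t →
        (∀ i, ∑ j ∈ Ai i, ∑ δ, t (j, δ) ≤ 32 * K₀ / (N : ℝ)) →
        ∃ θ : TH KK d L J, ∑ c', t c' * (if One TD.sys x (c.1, c.2, θ) c'.1 ∧
          BE (pj (fun i => (x i).1) c.1) (pj (fun i => (x i).1) c'.1) μ then 1 else 0) ≤ e₀)
      (_ : ∀ (s s' : Jx (Fin N) × Dl k0 KK d L × TH KK d L J) (μ μ' : VV k0 KK d 2 L → ℝ),
        IsP μ → (∀ v, μ v ≠ 0 → dword (2 ^ e) 2 (x s.1.1.1).1 (x s.1.1.2).1 v.1 v.2 = s.2.1 ∧
          ¬ Rel K (2 ^ e) 2 (x s.1.1.1).1 (x s.1.1.2).1 v.1 v.2) →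
        IsP μ' → (∀ v, μ' v ≠ 0 → dword (2 ^ e) 2 (x s'.1.1.1).1 (x s'.1.1.2).1 v.1 v.2 = s'.2.1 ∧
          ¬ Rel K (2 ^ e) 2 (x s'.1.1.1).1 (x s'.1.1.2).1 v.1 v.2) →
        TD.Alive x s s' →
        ¬ BE (pj (fun i => (x i).1) s.1) (pj (fun i => (x i).1) s'.1) μ →
        ¬ BE (pj (fun i => (x i).1) s'.1) (pj (fun i => (x i).1) s.1) μ' →
        c₀ ≤ ∑ v, ∑ v', μ v * μ' v' *
          (if CfR (relF K e 2 fun i => (x i).1) s.1 s'.1 v v' then 1 else 0)),
      64 * K₀ * (N : ℝ) ^ 2 * (n : ℝ) ^ (-(99 : ℝ) / 100) ≤ 1 → 16 * K₀ * N ≤ n →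
      (n : ℝ) ^ (-(99 : ℝ) / 100) ≤ 1 / (16 * (K₀ : ℝ)) *
        (225 / 256 * (((Fintype.card KK : ℝ)⁻¹) ^ 4 / 32 - 2 * e₀) * c₀) →
      S59Spine883.PairConfK K₀ := by
  obtain ⟨n0, H⟩ := FamK220.pairConfK_fam K₀ hK₀
  refine ⟨max n0 1, fun n hn => ?_⟩
  intro k0 KK _ _ _ _ _ _ K hK e d L N J ℓ r hL x hinj TD hTp hTρ hGood hgen hE hη hℓm hrm Γ DΓ
    hΓp hΓd hΓc hΓli hΓx hN BE D e₀ c₀ hc₀ hD hLab hLoc hκN h16 hκ
  have hn0 : n0 ≤ n := (le_max_left _ _).trans hn
  have hn1 : 0 < n := lt_of_lt_of_le one_pos ((le_max_right _ _).trans hn)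
  have hKr : (0 : ℝ) < K₀ := by exact_mod_cast hK₀
  have hNpos : 0 < N := by omega
  haveI : Nonempty (Fin N) := ⟨⟨0, hNpos⟩⟩
  have hNr : (0 : ℝ) < N := by exact_mod_cast hNpos
  obtain ⟨hh, ρ, hρρ, hadj, hker⟩ := GadB44.exists_gadB (kp := 2) hK e le_rfl hL
    (fun i => (x i).1) (fun i => (x i).2) Γ hΓp hΓc hΓli
  -- size of the fibres
  have hfr : ∀ i, Module.finrank k0 (LinearMap.ker (ρ i)) ≤
      DΓ * (L * (Module.finrank k0 KK * (2 * d - 1) ^ 2)) := by
    intro i
    refine (hker i).trans ?_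
    refine (Finset.sum_le_sum (g := fun _ => L * (Module.finrank k0 KK * (2 * d - 1) ^ 2))
      fun j hj => ?_).trans ?_
    · refine le_of_eq (finrank_UPQ_om (kp := 2) e (x i) (x j) ?_)
      intro hb
      have hij : i = j := hinj hb
      have := (mem_filter.1 hj).2
      rw [hij] at this
      exact Γ.loopless.irrefl _ this
    · rw [Finset.sum_const, smul_eq_mul]
      exact Nat.mul_le_mul_right _ (hΓd i)
  set pr : Fin N → Label k0 KK d 2 L → Label k0 KK d 2 L := fun i f => hh i + ρ i f with hpr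
  have hdd : (0 : ℝ) < 1 / (16 * (K₀ : ℝ)) := by positivity
  have hmN : 2 * (1 / (1 / (16 * (K₀ : ℝ)) * Fintype.card (Fin N))) = 32 * K₀ / (N : ℝ) := by
    rw [Fintype.card_fin]
    field_simp
    norm_num
  refine H n hn0 hK e d L 2 (Fin N) (Label k0 KK d 2 L) (fun i => (x i).1) (fun i => (x i).2) pr
    Γ.Adj (fun i j hij f g => hadj i j hij f g) (1 / (64 * (K₀ : ℝ)))
    ((n : ℝ) ^ (-(99 : ℝ) / 100)) ?_ ?_ ?_ ?_ ?_ le_rfl ?_
  · intro A B hA hB
    rw [Fintype.card_fin] at hA hB
    exact hΓx A B hA hB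
  · apply le_of_eq
    field_simp
  · rw [Fintype.card_fin, div_mul_eq_mul_div, one_mul, le_div_iff₀ (by positivity), one_mul]
    exact_mod_cast hN
  · rw [Fintype.card_fin]
    exact hκN
  · rw [Fintype.card_fin]
    exact h16
  · intro w₁ w₂ h1 h2
    have main := ssp_gadgetB (Δ := Dl k0 KK d L) (Θ := TH KK d L J) (n := n)
      (d := 1 / (16 * (K₀ : ℝ))) pr (relF K e 2 fun i => (x i).1) hn1 hdd
      (fun i => Fintype.card k0 ^ Module.finrank k0 (LinearMap.ker (ρ i)))
      (fun i y => fib_card (hh i) (ρ i) y) TD.sys rfl rfl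
      (by
        intro P Q h
        rw [TData.sys_perp, hTp] at h ⊢
        exact perp_symm h)
      hGood (by rw [TData.sys_perp, TData.sys_ρ, hTp, hTρ]; exact hgen)
      (by rw [TData.sys_ρ, TData.sys_η, hTρ]; exact hE) (by rw [TData.sys_η]; exact hη)
      (by rw [hmN, TData.sys_ρ, TData.sys_η, hTρ]; exact hℓm)
      (by rw [hmN]; exact hrm)
      (fun j v => dword (2 ^ e) 2 (x j.1.1).1 (x j.1.2).1 v.1 v.2) w₁ w₂ h1 h2 D ?_
      (fun _ _ _ => True) (fun _ _ _ => True)
      (fun c μ _ c' => BE (pj (fun i => (x i).1) c.1) (pj (fun i => (x i).1) c'.1) μ)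
      (fun c μ _ c' => BE (pj (fun i => (x i).1) c.1) (pj (fun i => (x i).1) c'.1) μ)
      e₀ ?_ ?_ c₀ hc₀ ?_
    · refine le_trans ?_ main
      refine mul_le_mul_of_nonneg_right (mul_le_mul_of_nonneg_right ?_ (by positivity))
        (by positivity)
      rw [TData.sys_ρ, hTρ]
      exact hκ
    · intro j
      have hKK : (Fintype.card KK : ℝ) = (Fintype.card k0 : ℝ) ^ Module.finrank k0 KK := by
        exact_mod_cast Module.card_eq_pow_finrank (K := k0) (V := KK)
      have hq1 : (1 : ℝ) ≤ Fintype.card k0 := by exact_mod_cast Fintype.card_pos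
      have hb : ∀ i, (Fintype.card k0 : ℝ) ^ Module.finrank k0 (LinearMap.ker (ρ i)) ≤
          (Fintype.card KK : ℝ) ^ (DΓ * (L * (2 * d - 1) ^ 2)) := by
        intro i
        rw [hKK, ← pow_mul]
        refine pow_le_pow_right₀ hq1 ((hfr i).trans (le_of_eq ?_))
        ring
      have hV : (0 : ℝ) < Fintype.card (Label k0 KK d 2 L × Label k0 KK d 2 L) := by
        exact_mod_cast Fintype.card_pos
      have hΔ : (Fintype.card (Dl k0 KK d L) : ℝ) =
          (Fintype.card KK : ℝ) ^ (L * (2 * d + 1) ^ 2) := by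
        rw [card_Dl, hKK]
        push_cast
        rw [← pow_mul]
        congr 1
        have e1 : Module.finrank k0 (U KK d 2 L) =
            Module.finrank k0 KK * Module.finrank KK (U KK d 2 L) :=
          (Module.finrank_mul_finrank k0 KK _).symm
        rw [e1]
        congr 1
        rw [Module.finrank_pi_fintype]
        simp only [Module.finrank_fintype_fun_eq_card, Finset.sum_const, Finset.card_univ,
          Fintype.card_fin, Fintype.card_fun, smul_eq_mul, Fintype.card_option, Fintype.card_prod,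
          Fintype.card_bool]
        ring
      refine le_trans (le_of_eq ?_) (le_trans (mul_le_mul_of_nonneg_left
        (mul_le_mul (hb j.1.1) (hb j.1.2) (by positivity) (by positivity)) (?_ : (0 : ℝ) ≤
          16 * (16 * K₀ * n * (Fintype.card KK : ℝ) ^ (L * (2 * d + 1) ^ 2)))) (le_trans
            (le_of_eq ?_) hD))
      · rw [hΔ]
        push_cast
        field_simp
      · positivity
      · ring
    · intro c μ hμ _ hdens t ht hm
      obtain ⟨θ, hθ⟩ := hLab c μ hμ hdens t ht (fun i => by rw [← hmN]; exact hm i)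
      exact ⟨θ, trivial, hθ⟩
    · intro c μ hμ _ hdens t ht hm
      obtain ⟨θ, hθ⟩ := hLab c μ hμ hdens t ht (fun i => by rw [← hmN]; exact hm i)
      exact ⟨θ, trivial, hθ⟩
    · intro c μ θ c' μ' θ' hμ hs _ _ hμ' hs' _ _ hLive hE1 hE2
      exact hLoc (c.1, c.2, θ) (c'.1, c'.2, θ') μ μ' hμ hs hμ' hs' (TD.alive hLive) hE1 hE2

end Crest.Agent.R042.FinB713
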