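import Mathlib

-- ▼ part R042/S60B_840
section

/-! Row 42, S0060, Lemma B (helper840): the class matrix of a Lorentzian system is bounded off a
small set of types. -/

set_option autoImplicit false

namespace Crest.Agent.R042.S60B840

open Finset

variable {T : Type*} [Fintype T] [DecidableEq T]
variable {E : Type*} [NormedAddCommGroup E] [InnerProductSpace ℝ E]

open scoped InnerProductSpace

theorem le_of_sq_le_sq' {x y : ℝ} (h : x ^ 2 ≤ y ^ 2) (hy : 0 ≤ y) : x ≤ y :=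
  abs_le_of_sq_le_sq' h hy |>.2

/-- walks give distance bounds -/
theorem walk_dist {V : Type*} (G : SimpleGraph V) (f : V → E) (c : ℝ)
    (h : ∀ u v, G.Adj u v → ‖f u - f v‖ ≤ c) :
    ∀ {u v : V} (p : G.Walk u v), ‖f u - f v‖ ≤ p.length * c := by
  intro u v p
  induction p with
  | nil => simp
  | @cons a b d hab q ih =>
    have h1 := h _ _ hab
    have h2 : f a - f d = (f a - f b) + (f b - f d) := by abel
    rw [h2]
    calc ‖(f a - f b) + (f b - f d)‖ ≤ ‖f a - f b‖ + ‖f b - f d‖ := norm_add_le _ _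
      _ ≤ c + q.length * c := add_le_add h1 ih
      _ = _ := by
        rw [SimpleGraph.Walk.length_cons]; push_cast; ring

/-- the graph of the relation `adj` restricted to `U` -/
def resG (adj : T → T → Prop) (hsymm : ∀ t s, adj t s → adj s t) (U : Finset T) : SimpleGraph T where
  Adj t s := adj t s ∧ t ∈ U ∧ s ∈ U ∧ t ≠ s
  symm := ⟨fun t s h => ⟨hsymm _ _ h.1, h.2.2.1, h.2.1, h.2.2.2.symm⟩⟩
  loopless := ⟨by
    intro t h
    exact h.2.2.2 rfl⟩

/-- A big connected piece. -/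
theorem exists_component (adj : T → T → Prop) (hsymm : ∀ t s, adj t s → adj s t)
    (hirr : ∀ t, ¬ adj t t)
    (wt : T → ℝ) (w : ℝ) (hw : 0 < w) (hwt : ∀ t, 0 ≤ wt t)
    (hbip : ∀ A B : Finset T, Disjoint A B → w ≤ ∑ t ∈ A, wt t → w ≤ ∑ t ∈ B, wt t →
      ∃ t ∈ A, ∃ s ∈ B, adj t s)
    (U : Finset T) (hU : 3 * w ≤ ∑ t ∈ U, wt t) :
    ∃ U0 : Finset T, U0 ⊆ U ∧ w ≤ ∑ t ∈ U0, wt t ∧
      ∀ u ∈ U0, ∀ v ∈ U0, (resG adj hsymm U).Reachable u v := by
  classical
  set G := resG adj hsymm U with hG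
  let comp : T → Finset T := fun u => U.filter (fun v => G.Reachable u v)
  -- closed sets
  let Cl : Finset T → Prop := fun C => C ⊆ U ∧ ∀ u ∈ C, ∀ v ∈ U, v ∉ C → ¬ adj u v
  have hcomp : ∀ u ∈ U, Cl (comp u) := by
    intro u hu
    refine ⟨filter_subset _ _, ?_⟩
    intro a ha v hv hvn hadj
    simp only [comp, mem_filter] at ha hvn
    apply hvn
    refine ⟨hv, ha.2.trans ?_⟩
    apply SimpleGraph.Adj.reachable
    refine ⟨hadj, ha.1, hv, ?_⟩
    rintro rfl
    exact hirr _ hadj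
  by_contra hno
  push Not at hno
  have hsmall : ∀ u ∈ U, ∑ t ∈ comp u, wt t < w := by
    intro u hu
    by_contra hge
    push Not at hge
    obtain ⟨a, ha, b, hb, hab⟩ := hno (comp u) (filter_subset _ _) hge
    simp only [comp, mem_filter] at ha hb
    exact hab (ha.2.symm.trans hb.2)
  -- maximal closed set of weight < w
  let S : Finset (Finset T) := U.powerset.filter (fun C => Cl C ∧ ∑ t ∈ C, wt t < w)
  have hS : S.Nonempty := by
    refine ⟨∅, ?_⟩
    simp only [S, mem_filter, mem_powerset, empty_subset, sum_empty, true_and, Cl]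
    refine ⟨?_, hw⟩
    intro u hu; simp at hu
  obtain ⟨C, hCS, hCmax⟩ := S.exists_max_image (fun C => C.card) hS
  simp only [S, mem_filter, mem_powerset] at hCS
  obtain ⟨hCU, hCcl, hCw⟩ := hCS
  have hne : ∃ u ∈ U, u ∉ C := by
    by_contra h
    push Not at h
    have : U ⊆ C := h
    have hle : ∑ t ∈ U, wt t ≤ ∑ t ∈ C, wt t :=
      sum_le_sum_of_subset_of_nonneg this (fun _ _ _ => hwt _)
    linarith
  obtain ⟨u, hu, huC⟩ := hne
  -- C ∪ comp u is closed
  have hcl2 : Cl (C ∪ comp u) := by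
    refine ⟨union_subset hCU (filter_subset _ _), ?_⟩
    intro a ha v hv hvn
    rw [mem_union] at ha
    rw [mem_union, not_or] at hvn
    rcases ha with ha | ha
    · exact hCcl.2 a ha v hv hvn.1
    · exact (hcomp u hu).2 a ha v hv hvn.2
  have hu_comp : u ∈ comp u := by
    simp only [comp, mem_filter]
    exact ⟨hu, SimpleGraph.Reachable.refl _⟩
  have hcard : C.card < (C ∪ comp u).card := by
    apply card_lt_card
    refine ⟨subset_union_left, ?_⟩
    intro h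
    exact huC (h (mem_union_right _ hu_comp))
  have hbig : w ≤ ∑ t ∈ C ∪ comp u, wt t := by
    by_contra hlt
    push Not at hlt
    have hmem : C ∪ comp u ∈ S := by
      simp only [S, mem_filter, mem_powerset]
      exact ⟨hcl2.1, hcl2, hlt⟩
    have := hCmax _ hmem
    omega
  have hle2 : ∑ t ∈ C ∪ comp u, wt t < 2 * w := by
    have h1 : ∑ t ∈ C ∪ comp u, wt t ≤ ∑ t ∈ C, wt t + ∑ t ∈ comp u, wt t := by
      have := sum_union_inter (s₁ := C) (s₂ := comp u) (f := wt)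
      have h0 : 0 ≤ ∑ t ∈ C ∩ comp u, wt t := sum_nonneg (fun _ _ => hwt _)
      linarith
    have := hsmall u hu
    linarith
  have hrest : w ≤ ∑ t ∈ U \ (C ∪ comp u), wt t := by
    have := sum_sdiff (s₁ := C ∪ comp u) (s₂ := U) (f := wt) hcl2.1
    linarith
  obtain ⟨a, ha, b, hb, hab⟩ := hbip (C ∪ comp u) (U \ (C ∪ comp u)) disjoint_sdiff hbig hrest
  rw [mem_sdiff] at hb
  exact hcl2.2 a ha b hb.1 hb.2 hab

/-- initial segment -/
theorem exists_top (be wt : T → ℝ) (w : ℝ) (hw : 0 < w) (hwt : ∀ t, 0 ≤ wt t)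
    (hwt2 : ∀ t, wt t ≤ 2 * w) (htot : 3 * w ≤ ∑ t, wt t) :
    ∃ U : Finset T, U.Nonempty ∧ 3 * w ≤ ∑ t ∈ U, wt t ∧ ∑ t ∈ U, wt t ≤ 5 * w ∧
      ∀ t ∈ U, ∀ s, s ∉ U → be s ≤ be t := by
  classical
  let S : Finset (Finset T) := (univ : Finset (Finset T)).filter
    (fun C => 3 * w ≤ ∑ t ∈ C, wt t ∧ ∀ t ∈ C, ∀ s, s ∉ C → be s ≤ be t)
  have hS : S.Nonempty := by
    refine ⟨univ, ?_⟩
    simp only [S, mem_filter, mem_univ, true_and]
    refine ⟨htot, ?_⟩
    intro t _ s hs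
    exact (hs trivial).elim
  obtain ⟨U, hUS, hUmin⟩ := S.exists_min_image (fun C => C.card) hS
  simp only [S, mem_filter, mem_univ, true_and] at hUS
  have hne : U.Nonempty := by
    rcases U.eq_empty_or_nonempty with h | h
    · rw [h] at hUS; simp at hUS; linarith [hUS]
    · exact h
  refine ⟨U, hne, hUS.1, ?_, hUS.2⟩
  obtain ⟨t0, ht0, hmin⟩ := U.exists_min_image be hne
  by_contra hgt
  push Not at hgt
  have hsum : ∑ t ∈ U.erase t0, wt t + wt t0 = ∑ t ∈ U, wt t := sum_erase_add _ _ ht0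
  have h2 := hwt2 t0
  have hmem : U.erase t0 ∈ S := by
    simp only [S, mem_filter, mem_univ, true_and]
    refine ⟨by linarith, ?_⟩
    intro t ht s hs
    rw [mem_erase] at ht
    by_cases hst : s = t0
    · rw [hst]; exact hmin t ht.2
    · have : s ∉ U := fun h => hs (mem_erase.2 ⟨hst, h⟩)
      exact hUS.2 t ht.2 s this
  have h3 := hUmin _ hmem
  have h4 : (U.erase t0).card < U.card := card_erase_lt_of_mem ht0
  omega

/-- LEMMA B, class form. -/
theorem lemmaB (n : T → T → ℝ) (be : T → ℝ) (adj : T → T → Prop) (wt : T → ℝ) (w : ℝ)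
    (hn : ∀ t s, 0 ≤ n t s) (hbe : ∀ t, 0 ≤ be t)
    (r : T → E)
    (hdiag : ∀ t, n t t ≤ 1 + be t ^ 2 - ‖r t‖ ^ 2)
    (hoff : ∀ t s, t ≠ s → n t s = be t * be s - ⟪r t, r s⟫_ℝ)
    (hsymm : ∀ t s, adj t s → adj s t) (hirr : ∀ t, ¬ adj t t)
    (hadj : ∀ t s, adj t s → n t s = 0)
    (hw : 0 < w) (hwt : ∀ t, 0 ≤ wt t) (hwt2 : ∀ t, wt t ≤ 2 * w)
    (hbip : ∀ A B : Finset T, Disjoint A B → w ≤ ∑ t ∈ A, wt t → w ≤ ∑ t ∈ B, wt t →
      ∃ t ∈ A, ∃ s ∈ B, adj t s) :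
    ∃ T' : Finset T, ∑ t ∈ T'ᶜ, wt t ≤ 6 * w ∧
      ∀ t ∈ T', ∀ s ∈ T', n t s ≤ ((Fintype.card T : ℝ) + 2) ^ 2 := by
  classical
  obtain ⟨k, hk⟩ : ∃ k : ℝ, k = (Fintype.card T : ℝ) := ⟨_, rfl⟩
  have hk0 : (0 : ℝ) ≤ k := by rw [hk]; exact Nat.cast_nonneg _
  rw [← hk]
  -- norm bound
  have hnorm : ∀ t, ‖r t‖ ^ 2 ≤ 1 + be t ^ 2 := by
    intro t
    have := hdiag t
    have := hn t t
    linarith
  have hinner : ∀ t s, adj t s → ⟪r t, r s⟫_ℝ = be t * be s := by
    intro t s h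
    have hts : t ≠ s := by rintro rfl; exact hirr _ h
    have h1 := hoff t s hts
    have h2 := hadj t s h
    linarith
  -- upper bound of n in all cases
  have hup : ∀ t s, n t s ≤ 1 + be t * be s - ⟪r t, r s⟫_ℝ := by
    intro t s
    by_cases hts : t = s
    · subst hts
      have := hdiag t
      rw [real_inner_self_eq_norm_sq]
      nlinarith [this]
    · rw [hoff t s hts]; linarith
  by_cases htot : 3 * w ≤ ∑ t, wt t
  swap
  · push Not at htot
    refine ⟨∅, ?_, by intro t ht; simp at ht⟩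
    rw [compl_empty]; linarith
  obtain ⟨U, hUne, hU3, hU5, hUtop⟩ := exists_top be wt w hw hwt hwt2 htot
  obtain ⟨U0, hU0U, hU0w, hU0conn⟩ := exists_component adj hsymm hirr wt w hw hwt hbip U hU3
  obtain ⟨t0, ht0, hmin⟩ := U.exists_min_image be hUne
  set bs := be t0 with hbs
  have hbs0 : 0 ≤ bs := hbe t0
  -- exceptional types
  let Ex : Finset T := univ.filter (fun t => t ∉ U ∧ ∀ u ∈ U0, ¬ adj t u)
  have hEx : ∑ t ∈ Ex, wt t ≤ w := by
    by_contra hgt
    push Not at hgt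
    have hdis : Disjoint Ex U0 := by
      rw [disjoint_left]
      intro a ha hb
      simp only [Ex, mem_filter, mem_univ, true_and] at ha
      exact ha.1 (hU0U hb)
    obtain ⟨a, ha, b, hb, hab⟩ := hbip Ex U0 hdis hgt.le hU0w
    simp only [Ex, mem_filter, mem_univ, true_and] at ha
    exact ha.2 b hb hab
  refine ⟨(U ∪ Ex)ᶜ, ?_, ?_⟩
  · rw [compl_compl]
    have := sum_union_inter (s₁ := U) (s₂ := Ex) (f := wt)
    have h0 : 0 ≤ ∑ t ∈ U ∩ Ex, wt t := sum_nonneg (fun _ _ => hwt _)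
    linarith
  have hT' : ∀ t, t ∈ (U ∪ Ex)ᶜ → t ∉ U ∧ ∃ u ∈ U0, adj t u := by
    intro t ht
    rw [mem_compl, mem_union, not_or] at ht
    refine ⟨ht.1, ?_⟩
    by_contra hno
    push Not at hno
    exact ht.2 (by simp only [Ex, mem_filter, mem_univ, true_and]; exact ⟨ht.1, hno⟩)
  intro t ht s hs
  obtain ⟨htU, u, hu, htu⟩ := hT' t ht
  obtain ⟨hsU, v, hv, hsv⟩ := hT' s hs
  have hbt : be t ≤ bs := hUtop t0 ht0 t htU
  have hbs' : be s ≤ bs := hUtop t0 ht0 s hsU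
  rcases hbs0.eq_or_lt with hz | hpos
  · -- bs = 0
    have h1 : be t = 0 := le_antisymm (by linarith) (hbe t)
    have h2 : be s = 0 := le_antisymm (by linarith) (hbe s)
    have h3 := hup t s
    have h4 := abs_real_inner_le_norm (r t) (r s)
    have h5 := hnorm t
    have h6 := hnorm s
    rw [h1] at h5 h3
    rw [h2] at h6
    have h7 : ‖r t‖ * ‖r s‖ ≤ 1 := by
      nlinarith [sq_nonneg (‖r t‖ - ‖r s‖), norm_nonneg (r t), norm_nonneg (r s)]
    have h8 := neg_abs_le (⟪r t, r s⟫_ℝ)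
    nlinarith
  -- main case
  obtain ⟨rho, hrd⟩ : ∃ rho : T → E, ∀ x, rho x = (be x)⁻¹ • r x := ⟨_, fun _ => rfl⟩
  have hge : ∀ x ∈ U, bs ≤ be x := hmin
  have hposU : ∀ x ∈ U, 0 < be x := fun x hx => lt_of_lt_of_le hpos (hge x hx)
  have hrho : ∀ x ∈ U, ‖rho x‖ ^ 2 ≤ 1 + 1 / bs ^ 2 := by
    intro x hx
    have hx0 := hposU x hx
    have h1 : ‖rho x‖ ^ 2 = ‖r x‖ ^ 2 / be x ^ 2 := by
      rw [hrd, norm_smul, norm_inv, Real.norm_eq_abs, abs_of_pos hx0, mul_pow, inv_pow]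
      field_simp
    rw [h1, div_le_iff₀ (by positivity)]
    have h2 := hnorm x
    have h3 : bs ^ 2 ≤ be x ^ 2 := by
      have := hge x hx
      nlinarith
    have h4 : 1 ≤ 1 / bs ^ 2 * be x ^ 2 := by
      rw [one_div, ← div_eq_inv_mul, le_div_iff₀ (by positivity)]
      linarith
    nlinarith
  have hrhoadj : ∀ x ∈ U, ∀ y ∈ U, adj x y → ⟪rho x, rho y⟫_ℝ = 1 := by
    intro x hx y hy h
    rw [hrd, hrd, real_inner_smul_left, real_inner_smul_right, hinner x y h]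
    have := hposU x hx
    have := hposU y hy
    field_simp
  have hstep : ∀ x ∈ U, ∀ y ∈ U, adj x y → ‖rho x - rho y‖ ≤ Real.sqrt 2 / bs := by
    intro x hx y hy h
    have h1 : ‖rho x - rho y‖ ^ 2 = ‖rho x‖ ^ 2 - 2 * ⟪rho x, rho y⟫_ℝ + ‖rho y‖ ^ 2 :=
      norm_sub_sq_real _ _
    rw [hrhoadj x hx y hy h] at h1
    have h2 := hrho x hx
    have h3 := hrho y hy
    have h4 : ‖rho x - rho y‖ ^ 2 ≤ (Real.sqrt 2 / bs) ^ 2 := by
      rw [div_pow, Real.sq_sqrt (by norm_num : (0:ℝ) ≤ 2)]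
      have h5 : (2 : ℝ) / bs ^ 2 = 1 / bs ^ 2 + 1 / bs ^ 2 := by ring
      rw [h5]; linarith
    exact le_of_sq_le_sq' h4 (by positivity)
  have hD : ‖rho u - rho v‖ ≤ k * (Real.sqrt 2 / bs) := by
    have hreach := hU0conn u hu v hv
    obtain ⟨p, hp⟩ := hreach.exists_isPath
    have h1 := walk_dist (resG adj hsymm U) rho (Real.sqrt 2 / bs)
      (fun a b hab => hstep a hab.2.1 b hab.2.2.1 hab.1) p
    have h2 : (p.length : ℝ) ≤ k := by
      rw [hk]
      exact_mod_cast (hp.length_lt).le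
    calc ‖rho u - rho v‖ ≤ p.length * (Real.sqrt 2 / bs) := h1
      _ ≤ k * (Real.sqrt 2 / bs) := by
        apply mul_le_mul_of_nonneg_right h2 (by positivity)
  -- the s-vectors
  have hkey : ∀ (a c : T), a ∉ U → c ∈ U0 → adj a c → be a ≤ bs →
      ⟪r a, rho c⟫_ℝ = be a ∧ ‖r a - be a • rho c‖ ^ 2 ≤ 2 := by
    intro a c ha hc hac hab
    have hcU := hU0U hc
    have hc0 := hposU c hcU
    have h1 : ⟪r a, rho c⟫_ℝ = be a := by
      rw [hrd, real_inner_smul_right, hinner a c hac]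
      field_simp
    refine ⟨h1, ?_⟩
    rw [norm_sub_sq_real, real_inner_smul_right, h1, norm_smul, mul_pow, Real.norm_eq_abs, sq_abs]
    have h2 := hnorm a
    have h3 : ‖rho c‖ ^ 2 ≤ 1 + 1 / be c ^ 2 := by
      have h31 : ‖rho c‖ ^ 2 = ‖r c‖ ^ 2 / be c ^ 2 := by
        rw [hrd, norm_smul, norm_inv, Real.norm_eq_abs, abs_of_pos hc0, mul_pow, inv_pow]
        field_simp
      rw [h31, div_le_iff₀ (by positivity)]
      have := hnorm c
      have h32 : (1 + 1 / be c ^ 2) * be c ^ 2 = be c ^ 2 + 1 := by field_simp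
      linarith
    have h4 : be a ^ 2 * (1 / be c ^ 2) ≤ 1 := by
      rw [mul_one_div, div_le_one (by positivity)]
      have := hge c hcU
      have := hbe a
      nlinarith
    have h5 : be a ^ 2 * ‖rho c‖ ^ 2 ≤ be a ^ 2 * (1 + 1 / be c ^ 2) :=
      mul_le_mul_of_nonneg_left h3 (sq_nonneg _)
    nlinarith
  obtain ⟨hru, hsu⟩ := hkey t u htU hu htu hbt
  obtain ⟨hrv, hsv2⟩ := hkey s v hsU hv hsv hbs'
  set st := r t - be t • rho u with hst
  set ss := r s - be s • rho v with hss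
  have hrt : r t = be t • rho u + st := by rw [hst]; abel
  have hrs : r s = be s • rho v + ss := by rw [hss]; abel
  have e1 : ⟪rho v, ss⟫_ℝ = be s * (1 - ‖rho v‖ ^ 2) := by
    rw [hss, inner_sub_right, real_inner_smul_right, real_inner_comm, hrv,
      real_inner_self_eq_norm_sq]
    ring
  have e2 : ⟪st, rho u⟫_ℝ = be t * (1 - ‖rho u‖ ^ 2) := by
    rw [hst, inner_sub_left, real_inner_smul_left, hru, real_inner_self_eq_norm_sq]
    ring
  have e3 : ⟪r t, r s⟫_ℝ = be t * be s * ⟪rho u, rho v⟫_ℝ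
      + be t * (be s * (1 - ‖rho v‖ ^ 2) + ⟪rho u - rho v, ss⟫_ℝ)
      + be s * (be t * (1 - ‖rho u‖ ^ 2) + ⟪st, rho v - rho u⟫_ℝ) + ⟪st, ss⟫_ℝ := by
    have e4 : ⟪rho u, ss⟫_ℝ = be s * (1 - ‖rho v‖ ^ 2) + ⟪rho u - rho v, ss⟫_ℝ := by
      rw [inner_sub_left, e1]; ring
    have e5 : ⟪st, rho v⟫_ℝ = be t * (1 - ‖rho u‖ ^ 2) + ⟪st, rho v - rho u⟫_ℝ := by
      rw [inner_sub_right, e2]; ring
    rw [← e4, ← e5]
    conv_lhs => rw [hrt, hrs]
    rw [inner_add_left, inner_add_right, inner_add_right, real_inner_smul_left,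
      real_inner_smul_right, real_inner_smul_left, real_inner_smul_right]
    ring
  have e6 : ‖rho u - rho v‖ ^ 2 = ‖rho u‖ ^ 2 - 2 * ⟪rho u, rho v⟫_ℝ + ‖rho v‖ ^ 2 :=
    norm_sub_sq_real _ _
  set D := ‖rho u - rho v‖ with hDdef
  have hD0 : 0 ≤ D := norm_nonneg _
  have hbt0 := hbe t
  have hbs0' := hbe s
  have hst2 : ‖st‖ ≤ Real.sqrt 2 := Real.le_sqrt_of_sq_le hsu
  have hss2 : ‖ss‖ ≤ Real.sqrt 2 := Real.le_sqrt_of_sq_le hsv2
  have hsq2 : Real.sqrt 2 * Real.sqrt 2 = 2 := Real.mul_self_sqrt (by norm_num)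
  have hsq0 : 0 ≤ Real.sqrt 2 := Real.sqrt_nonneg _
  have f1 : -(⟪rho u - rho v, ss⟫_ℝ) ≤ D * Real.sqrt 2 := by
    have := abs_real_inner_le_norm (rho u - rho v) ss
    have h2 := neg_abs_le (⟪rho u - rho v, ss⟫_ℝ)
    have h3 : ‖rho u - rho v‖ * ‖ss‖ ≤ D * Real.sqrt 2 := mul_le_mul_of_nonneg_left hss2 hD0
    linarith
  have f2 : -(⟪st, rho v - rho u⟫_ℝ) ≤ D * Real.sqrt 2 := by
    have := abs_real_inner_le_norm st (rho v - rho u)
    have h2 := neg_abs_le (⟪st, rho v - rho u⟫_ℝ)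
    have h4 : ‖rho v - rho u‖ = D := norm_sub_rev _ _
    have h3 : ‖st‖ * ‖rho v - rho u‖ ≤ D * Real.sqrt 2 := by
      rw [h4, mul_comm]
      exact mul_le_mul_of_nonneg_left hst2 hD0
    linarith
  have f3 : -(⟪st, ss⟫_ℝ) ≤ 2 := by
    have := abs_real_inner_le_norm st ss
    have h2 := neg_abs_le (⟪st, ss⟫_ℝ)
    have h3 : ‖st‖ * ‖ss‖ ≤ Real.sqrt 2 * Real.sqrt 2 :=
      mul_le_mul hst2 hss2 (norm_nonneg _) hsq0
    linarith
  have hbD : bs * D ≤ k * Real.sqrt 2 := by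
    calc bs * D ≤ bs * (k * (Real.sqrt 2 / bs)) := mul_le_mul_of_nonneg_left hD hpos.le
      _ = k * Real.sqrt 2 := by field_simp
  have hu2 := hrho u (hU0U hu)
  have hv2 := hrho v (hU0U hv)
  have g1 : be t * (-(⟪rho u - rho v, ss⟫_ℝ)) ≤ 2 * k := by
    calc be t * (-(⟪rho u - rho v, ss⟫_ℝ)) ≤ be t * (D * Real.sqrt 2) :=
          mul_le_mul_of_nonneg_left f1 hbt0
      _ ≤ bs * (D * Real.sqrt 2) := mul_le_mul_of_nonneg_right hbt (by positivity)
      _ = (bs * D) * Real.sqrt 2 := by ring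
      _ ≤ (k * Real.sqrt 2) * Real.sqrt 2 := mul_le_mul_of_nonneg_right hbD hsq0
      _ = 2 * k := by rw [mul_assoc, hsq2]; ring
  have g2 : be s * (-(⟪st, rho v - rho u⟫_ℝ)) ≤ 2 * k := by
    calc be s * (-(⟪st, rho v - rho u⟫_ℝ)) ≤ be s * (D * Real.sqrt 2) :=
          mul_le_mul_of_nonneg_left f2 hbs0'
      _ ≤ bs * (D * Real.sqrt 2) := mul_le_mul_of_nonneg_right hbs' (by positivity)
      _ = (bs * D) * Real.sqrt 2 := by ring
      _ ≤ (k * Real.sqrt 2) * Real.sqrt 2 := mul_le_mul_of_nonneg_right hbD hsq0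
      _ = 2 * k := by rw [mul_assoc, hsq2]; ring
  have g3 : be t * be s * (‖rho u‖ ^ 2 / 2 + ‖rho v‖ ^ 2 / 2 + D ^ 2 / 2 - 1) ≤ 1 + k ^ 2 := by
    have hq : ‖rho u‖ ^ 2 / 2 + ‖rho v‖ ^ 2 / 2 + D ^ 2 / 2 - 1 ≤ 1 / bs ^ 2 + D ^ 2 / 2 := by
      linarith
    have hbb0 : 0 ≤ be t * be s := mul_nonneg hbt0 hbs0'
    have hbb : be t * be s ≤ bs ^ 2 := by nlinarith
    have hbD2 : bs ^ 2 * D ^ 2 ≤ 2 * k ^ 2 := by
      have h1 : (bs * D) ^ 2 ≤ (k * Real.sqrt 2) ^ 2 := by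
        apply pow_le_pow_left₀ (by positivity) hbD
      have h2 : (k * Real.sqrt 2) ^ 2 = 2 * k ^ 2 := by
        rw [mul_pow, Real.sq_sqrt (by norm_num)]; ring
      nlinarith
    calc be t * be s * (‖rho u‖ ^ 2 / 2 + ‖rho v‖ ^ 2 / 2 + D ^ 2 / 2 - 1)
        ≤ be t * be s * (1 / bs ^ 2 + D ^ 2 / 2) := mul_le_mul_of_nonneg_left hq hbb0
      _ ≤ bs ^ 2 * (1 / bs ^ 2 + D ^ 2 / 2) :=
          mul_le_mul_of_nonneg_right hbb (by positivity)
      _ = 1 + bs ^ 2 * D ^ 2 / 2 := by field_simp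
      _ ≤ 1 + k ^ 2 := by linarith
  have h0 := hup t s
  rw [e3] at h0
  have e7 : ⟪rho u, rho v⟫_ℝ = (‖rho u‖ ^ 2 + ‖rho v‖ ^ 2 - D ^ 2) / 2 := by linarith
  rw [e7] at h0
  have hfin : n t s ≤ 1 + be t * be s * (‖rho u‖ ^ 2 / 2 + ‖rho v‖ ^ 2 / 2 + D ^ 2 / 2 - 1)
      + be t * (-(⟪rho u - rho v, ss⟫_ℝ)) + be s * (-(⟪st, rho v - rho u⟫_ℝ))
      + (-(⟪st, ss⟫_ℝ)) := by
    nlinarith [h0]
  nlinarith [hfin, g1, g2, g3, f3]

end Crest.Agent.R042.S60B840
end

-- ▼ part R042/S60Rows_785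

/-!
# S0060, leaf ROWS (helper785)

Application of Lemma B (840) to the items, and step (5) (Markov): after the removal of
`6 w + η |I|` items all row sums are bounded by a constant depending only on the number of types.
-/

namespace Crest.Agent.R042.S60Rows

open Finset Matrix

/-- Lemma B of 840 (#26223), as a statement over the finite type set `T`. -/
def LemB (T : Type) [Fintype T] [DecidableEq T] : Prop :=
  ∀ (n : T → T → ℝ) (be : T → ℝ) (adj : T → T → Prop) (wt : T → ℕ) (w : ℕ),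
    (∀ t s, n t s = n s t) → (∀ t s, 0 ≤ n t s) → (∀ t, 0 ≤ be t) →
    (∀ x : T → ℝ, 0 ≤ ∑ t, x t ^ 2 - ∑ t, ∑ s, n t s * (x t * x s) + (∑ t, be t * x t) ^ 2) →
    (∀ t s, adj t s → adj s t) → (∀ t s, adj t s → n t s = 0) →
    (∀ A B : Finset T, Disjoint A B → w ≤ ∑ t ∈ A, wt t → w ≤ ∑ t ∈ B, wt t →
      ∃ t ∈ A, ∃ s ∈ B, adj t s) →
    (∀ t, wt t ≤ 2 * w) →
    ∃ T' : Finset T, ∑ t ∈ T'ᶜ, wt t ≤ 6 * w ∧
      ∀ t ∈ T', ∀ s ∈ T', n t s ≤ ((Fintype.card T : ℝ) + 2) ^ 2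

/-- Lemma B in the matrix form, from 840's Hilbert space form. -/
theorem lemB_holds (T : Type) [Fintype T] [DecidableEq T] : LemB T := by
  intro n be adj wt w hns hn hbe hpsd hsym hadj hbip hwt2
  set R : Matrix T T ℝ := Matrix.of fun t s => (if t = s then 1 else 0) - n t s + be t * be s
    with hR
  have hRe : ∀ t s, R t s = (if t = s then 1 else 0) - n t s + be t * be s := fun t s => rfl
  have hRh : R.IsHermitian := by
    ext t s
    simp only [Matrix.conjTranspose_apply, hRe, star_trivial]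
    rw [hns s t, mul_comm (be s)]
    simp only [eq_comm]
  have hRp : R.PosSemidef := by
    refine .of_dotProduct_mulVec_nonneg hRh (fun x => ?_)
    have h := hpsd x
    have e : star x ⬝ᵥ R *ᵥ x
        = ∑ t, x t ^ 2 - ∑ t, ∑ s, n t s * (x t * x s) + (∑ t, be t * x t) ^ 2 := by
      simp only [dotProduct, mulVec, star_trivial, hRe, Pi.star_apply]
      rw [pow_two (∑ t, be t * x t), Finset.sum_mul_sum, ← Finset.sum_sub_distrib,
        ← Finset.sum_add_distrib]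
      refine Finset.sum_congr rfl fun t _ => ?_
      rw [Finset.mul_sum]
      have : ∀ s, x t * (((if t = s then 1 else 0) - n t s + be t * be s) * x s)
          = (if t = s then x t * x s else 0) - n t s * (x t * x s)
            + be t * x t * (be s * x s) := by
        intro s; split_ifs <;> ring
      simp only [this, Finset.sum_add_distrib, Finset.sum_sub_distrib, Finset.sum_ite_eq,
        Finset.mem_univ, if_true]
      ring
    rw [e]; exact h
  obtain ⟨m, v, hv⟩ := Matrix.posSemidef_iff_eq_sum_vecMulVec.mp hRp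
  set r : T → EuclideanSpace ℝ (Fin m) := fun t => WithLp.toLp 2 (fun i => v i t) with hr
  have hin : ∀ t s, inner ℝ (r t) (r s) = R t s := by
    intro t s
    rw [hv, Matrix.sum_apply]
    simp only [hr, PiLp.inner_apply, Matrix.vecMulVec_apply, Pi.star_apply, star_trivial]
    refine Finset.sum_congr rfl fun i _ => ?_
    simp [mul_comm]
  have hw : 0 < w := by
    rcases Nat.eq_zero_or_pos w with h0 | h0
    · exfalso
      obtain ⟨t, ht, _⟩ := hbip ∅ ∅ (Finset.disjoint_empty_left _) (by simp [h0]) (by simp [h0])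
      exact absurd ht (Finset.notMem_empty _)
    · exact h0
  obtain ⟨T', h1, h2⟩ := S60B840.lemmaB (E := EuclideanSpace ℝ (Fin m)) n be
    (fun t s => adj t s ∧ t ≠ s) (fun t => (wt t : ℝ)) (w : ℝ) hn hbe r
    (fun t => by
      have := hin t t
      rw [real_inner_self_eq_norm_sq, hRe, if_pos rfl] at this
      nlinarith [this])
    (fun t s hts => by
      have := hin t s
      rw [hRe, if_neg hts] at this
      linarith)
    (fun t s h => ⟨hsym t s h.1, h.2.symm⟩) (fun t h => h.2 rfl) (fun t s h => hadj t s h.1)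
    (by exact_mod_cast hw) (fun t => Nat.cast_nonneg _) (fun t => by exact_mod_cast hwt2 t)
    (fun A B hAB hA hB => by
      obtain ⟨t, ht, s, hs, hts⟩ := hbip A B hAB (by exact_mod_cast hA) (by exact_mod_cast hB)
      exact ⟨t, ht, s, hs, hts, fun h => Finset.disjoint_left.1 hAB ht (h ▸ hs)⟩)
  exact ⟨T', by exact_mod_cast h1, h2⟩

section
variable {V I T : Type} [Fintype V] [DecidableEq V] [Fintype I] [DecidableEq I]
  [Fintype T] [DecidableEq T]

/-- bilinear expansion -/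
lemma bil_sum (M : Matrix V V ℝ) (Yv : I → V → ℝ) (c : I → ℝ) :
    (∑ i, c i • Yv i) ⬝ᵥ M *ᵥ (∑ i, c i • Yv i)
      = ∑ i, ∑ j, c i * c j * (Yv i ⬝ᵥ M *ᵥ Yv j) := by
  rw [sum_dotProduct]
  refine Finset.sum_congr rfl fun i _ => ?_
  rw [Matrix.mulVec_sum, dotProduct_sum]
  refine Finset.sum_congr rfl fun j _ => ?_
  rw [Matrix.mulVec_smul, dotProduct_smul, smul_dotProduct]
  simp only [smul_eq_mul]
  ring

/-- splitting a sum over items according to the type -/
lemma sum_types (τ : I → T) (f : I → ℝ) :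
    ∑ i, f i = ∑ t, ∑ i ∈ univ.filter (fun i => τ i = t), f i :=
  (Finset.sum_fiberwise univ τ f).symm

theorem rows_of_lemB (hLB : LemB T) (M : Matrix V V ℝ) (hM : M.IsSymm) (b : V → ℝ)
    (hb : ∀ z : V → ℝ, 0 ≤ z ⬝ᵥ M *ᵥ z + (b ⬝ᵥ z) ^ 2) (hb0 : ∀ v, 0 ≤ b v)
    (Yv : I → V → ℝ) (hY0 : ∀ i v, 0 ≤ Yv i v)
    (h1 : ∀ i, Yv i ⬝ᵥ M *ᵥ Yv i = 1)
    (hoff : ∀ i j, i ≠ j → Yv i ⬝ᵥ M *ᵥ Yv j ≤ 0)
    (τ : I → T) (adj : T → T → Prop) (hsym : ∀ t s, adj t s → adj s t)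
    (hadj : ∀ i j, adj (τ i) (τ j) → Yv i ⬝ᵥ M *ᵥ Yv j = 0) (w : ℕ)
    (hbip : ∀ A B : Finset I, Disjoint A B → w ≤ A.card → w ≤ B.card →
      ∃ i ∈ A, ∃ j ∈ B, adj (τ i) (τ j))
    (η : ℝ) (hη : 0 < η) :
    ∃ J : Finset I, (((univ \ J).card : ℕ) : ℝ) ≤ 6 * w + η * Fintype.card I ∧
      ∀ i ∈ J, ∑ j ∈ J.erase i, -(Yv i ⬝ᵥ M *ᵥ Yv j)
        ≤ ((Fintype.card T : ℝ) + 2) ^ 2 * Fintype.card T / η := by
  classical
  set It : T → Finset I := fun t => univ.filter (fun i => τ i = t) with hIt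
  have hItmem : ∀ t i, i ∈ It t ↔ τ i = t := fun t i => by simp [hIt]
  set N : T → ℝ := fun t => ((It t).card : ℝ) with hN
  have hN0 : ∀ t, 0 ≤ N t := fun t => Nat.cast_nonneg _
  -- off-diagonal entries
  set β : I → I → ℝ := fun i j => if i = j then 0 else -(Yv i ⬝ᵥ M *ᵥ Yv j) with hβ
  have hβ0 : ∀ i j, 0 ≤ β i j := by
    intro i j
    simp only [hβ]
    split_ifs with h
    · exact le_rfl
    · have := hoff i j h; linarith
  have hBsymm : ∀ i j, Yv i ⬝ᵥ M *ᵥ Yv j = Yv j ⬝ᵥ M *ᵥ Yv i := by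
    intro i j
    rw [dotProduct_mulVec, ← mulVec_transpose, hM.eq, dotProduct_comm]
  have hβs : ∀ i j, β i j = β j i := by
    intro i j
    simp only [hβ]
    by_cases h : i = j
    · subst h; simp
    · rw [if_neg h, if_neg (Ne.symm h), hBsymm]
  have hBβ : ∀ i j, Yv i ⬝ᵥ M *ᵥ Yv j = (if i = j then 1 else 0) - β i j := by
    intro i j
    simp only [hβ]
    by_cases h : i = j
    · subst h; simp [h1]
    · simp [h]
  have hβadj : ∀ i j, adj (τ i) (τ j) → β i j = 0 := by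
    intro i j h
    simp only [hβ]
    split_ifs
    · rfl
    · rw [hadj i j h, neg_zero]
  -- the type matrix
  set S : T → T → ℝ := fun t s => ∑ i ∈ It t, ∑ j ∈ It s, β i j with hS
  have hS0 : ∀ t s, 0 ≤ S t s := fun t s =>
    Finset.sum_nonneg fun i _ => Finset.sum_nonneg fun j _ => hβ0 i j
  have hSs : ∀ t s, S t s = S s t := by
    intro t s
    simp only [hS]
    rw [Finset.sum_comm]
    exact Finset.sum_congr rfl fun i _ => Finset.sum_congr rfl fun j _ => hβs _ _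
  set n : T → T → ℝ := fun t s => S t s / (√(N t) * √(N s)) with hn
  set be : T → ℝ := fun t => (∑ i ∈ It t, b ⬝ᵥ Yv i) / √(N t) with hbe
  have hbeY : ∀ i, 0 ≤ b ⬝ᵥ Yv i := fun i =>
    Finset.sum_nonneg fun v _ => mul_nonneg (hb0 v) (hY0 i v)
  -- empty types
  have hemp : ∀ t, N t = 0 → It t = ∅ := by
    intro t ht
    have h0 : ((It t).card : ℝ) = 0 := ht
    have : (It t).card = 0 := by exact_mod_cast h0
    exact Finset.card_eq_zero.mp this
  have hnS : ∀ t s, S t s = n t s * (√(N t) * √(N s)) := by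
    intro t s
    simp only [hn]
    by_cases ht : N t = 0
    · have : S t s = 0 := by simp [hS, hemp t ht]
      rw [this]; simp
    by_cases hs : N s = 0
    · have : S t s = 0 := by simp [hS, hemp s hs]
      rw [this]; simp
    have h1 : √(N t) ≠ 0 := by
      rw [Real.sqrt_ne_zero']; exact lt_of_le_of_ne (hN0 t) (Ne.symm ht)
    have h2 : √(N s) ≠ 0 := by
      rw [Real.sqrt_ne_zero']; exact lt_of_le_of_ne (hN0 s) (Ne.symm hs)
    field_simp
  -- PSD
  have hpsd : ∀ x : T → ℝ,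
      0 ≤ ∑ t, x t ^ 2 - ∑ t, ∑ s, n t s * (x t * x s) + (∑ t, be t * x t) ^ 2 := by
    intro x
    set c : I → ℝ := fun i => x (τ i) / √(N (τ i)) with hc
    have hz := hb (∑ i, c i • Yv i)
    rw [bil_sum] at hz
    have e1 : ∑ i, ∑ j, c i * c j * (Yv i ⬝ᵥ M *ᵥ Yv j)
        = ∑ i, c i ^ 2 - ∑ i, ∑ j, c i * c j * β i j := by
      rw [← Finset.sum_sub_distrib]
      refine Finset.sum_congr rfl fun i _ => ?_
      have : ∀ j, c i * c j * (Yv i ⬝ᵥ M *ᵥ Yv j)
          = (if i = j then c i * c j else 0) - c i * c j * β i j := by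
        intro j
        rw [hBβ]
        split_ifs <;> ring
      simp only [this, Finset.sum_sub_distrib, Finset.sum_ite_eq, Finset.mem_univ, if_true]
      ring
    have e2 : ∑ i, c i ^ 2 ≤ ∑ t, x t ^ 2 := by
      rw [sum_types τ]
      refine Finset.sum_le_sum fun t _ => ?_
      have : ∀ i ∈ It t, c i ^ 2 = x t ^ 2 / N t := by
        intro i hi
        have : τ i = t := (hItmem t i).1 hi
        simp only [hc, this, div_pow, Real.sq_sqrt (hN0 t)]
      rw [Finset.sum_congr rfl this, Finset.sum_const, nsmul_eq_mul]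
      by_cases ht : N t = 0
      · have h0 : ((It t).card : ℝ) = 0 := ht
        rw [h0, zero_mul]; positivity
      · have h0 : ((It t).card : ℝ) = N t := rfl
        rw [h0, mul_div_cancel₀ _ ht]
    have e3 : ∑ i, ∑ j, c i * c j * β i j = ∑ t, ∑ s, n t s * (x t * x s) := by
      rw [sum_types τ]
      have : ∀ t, ∑ i ∈ It t, ∑ j, c i * c j * β i j
          = ∑ s, (x t / √(N t)) * (x s / √(N s)) * S t s := by
        intro t
        have h2 : ∀ i ∈ It t, ∑ j, c i * c j * β i j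
            = ∑ s, ∑ j ∈ It s, (x t / √(N t)) * (x s / √(N s)) * β i j := by
          intro i hi
          rw [sum_types τ]
          refine Finset.sum_congr rfl fun s _ => ?_
          refine Finset.sum_congr rfl fun j hj => ?_
          have hi' : τ i = t := (hItmem t i).1 hi
          have hj' : τ j = s := (hItmem s j).1 hj
          simp only [hc, hi', hj']
        rw [Finset.sum_congr rfl h2, Finset.sum_comm]
        refine Finset.sum_congr rfl fun s _ => ?_
        simp only [hS, Finset.mul_sum]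
      refine Finset.sum_congr rfl fun t _ => ?_
      rw [this]
      refine Finset.sum_congr rfl fun s _ => ?_
      simp only [hn]
      ring
    have e4 : b ⬝ᵥ (∑ i, c i • Yv i) = ∑ t, be t * x t := by
      rw [dotProduct_sum, sum_types τ]
      refine Finset.sum_congr rfl fun t _ => ?_
      have : ∀ i ∈ It t, b ⬝ᵥ (c i • Yv i) = (x t / √(N t)) * (b ⬝ᵥ Yv i) := by
        intro i hi
        have hi' : τ i = t := (hItmem t i).1 hi
        rw [dotProduct_smul, smul_eq_mul]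
        simp only [hc, hi']
      rw [Finset.sum_congr rfl this, ← Finset.mul_sum]
      simp only [hbe]
      ring
    rw [e1, e3, e4] at hz
    linarith
  -- adjacency kills the entries
  have hnadj : ∀ t s, adj t s → n t s = 0 := by
    intro t s h
    have : S t s = 0 := by
      refine Finset.sum_eq_zero fun i hi => Finset.sum_eq_zero fun j hj => ?_
      refine hβadj i j ?_
      rwa [(hItmem t i).1 hi, (hItmem s j).1 hj]
    simp [hn, this]
  set wt : T → ℕ := fun t => (It t).card with hwt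
  have hIdisj : ∀ A : Finset T, ((A : Set T)).PairwiseDisjoint It := by
    intro A t _ s _ hts
    refine Finset.disjoint_left.2 fun i hi hj => hts ?_
    rw [← (hItmem t i).1 hi, ← (hItmem s i).1 hj]
  have hcardU : ∀ A : Finset T, (A.biUnion It).card = ∑ t ∈ A, wt t := fun A =>
    Finset.card_biUnion (fun t ht s hs hts => hIdisj A ht hs hts)
  have hbipT : ∀ A B : Finset T, Disjoint A B → w ≤ ∑ t ∈ A, wt t → w ≤ ∑ t ∈ B, wt t →
      ∃ t ∈ A, ∃ s ∈ B, adj t s := by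
    intro A B hAB hA hB
    have hd : Disjoint (A.biUnion It) (B.biUnion It) := by
      refine Finset.disjoint_left.2 fun i hi hj => ?_
      obtain ⟨t, ht, hit⟩ := Finset.mem_biUnion.1 hi
      obtain ⟨s, hs, his⟩ := Finset.mem_biUnion.1 hj
      have : t = s := by rw [← (hItmem t i).1 hit, ← (hItmem s i).1 his]
      subst this
      exact Finset.disjoint_left.1 hAB ht hs
    obtain ⟨i, hi, j, hj, hij⟩ := hbip _ _ hd (by rw [hcardU]; exact hA) (by rw [hcardU]; exact hB)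
    obtain ⟨t, ht, hit⟩ := Finset.mem_biUnion.1 hi
    obtain ⟨s, hs, hjs⟩ := Finset.mem_biUnion.1 hj
    refine ⟨t, ht, s, hs, ?_⟩
    rwa [(hItmem t i).1 hit, (hItmem s j).1 hjs] at hij
  have hwt2 : ∀ t, wt t ≤ 2 * w := by
    intro t
    by_contra hcon
    push Not at hcon
    have hcon' : w ≤ (It t).card := by simp only [hwt] at hcon; omega
    obtain ⟨A, hA, hAc⟩ := Finset.exists_subset_card_eq hcon'
    have hB : w ≤ (It t \ A).card := by
      rw [Finset.card_sdiff_of_subset hA, hAc]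
      simp only [hwt] at hcon; omega
    obtain ⟨i, hi, j, hj, hij⟩ := hbip A (It t \ A) Finset.disjoint_sdiff (by omega) hB
    have hi' : τ i = t := (hItmem t i).1 (hA hi)
    have hj' : τ j = t := (hItmem t j).1 (Finset.mem_sdiff.1 hj).1
    rw [hi', hj'] at hij
    have := hadj i i (by rw [hi']; exact hij)
    rw [h1] at this
    exact one_ne_zero this
  obtain ⟨T', hT'w, hT'n⟩ := hLB n be adj wt w
    (fun t s => by simp only [hn]; rw [hSs t s, mul_comm (√(N t))])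
    (fun t s => div_nonneg (hS0 t s) (mul_nonneg (Real.sqrt_nonneg _) (Real.sqrt_nonneg _)))
    (fun t => div_nonneg (Finset.sum_nonneg fun i _ => hbeY i) (Real.sqrt_nonneg _))
    hpsd hsym hnadj hbipT hwt2
  -- the items of the remaining types
  set κ : ℝ := (Fintype.card T : ℝ) with hκ
  have hκ0 : 0 ≤ κ := Nat.cast_nonneg _
  set J0 : Finset I := T'.biUnion It with hJ0
  have hJ0mem : ∀ i, i ∈ J0 ↔ τ i ∈ T' := by
    intro i
    simp only [hJ0, Finset.mem_biUnion, hItmem]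
    constructor
    · rintro ⟨t, ht, h⟩; rwa [h]
    · intro h; exact ⟨_, h, rfl⟩
  have hJ0c : (univ \ J0).card ≤ 6 * w := by
    have : univ \ J0 = T'ᶜ.biUnion It := by
      ext i
      simp only [Finset.mem_sdiff, Finset.mem_univ, true_and, hJ0mem, Finset.mem_biUnion, hItmem,
        Finset.mem_compl]
      constructor
      · intro h; exact ⟨_, h, rfl⟩
      · rintro ⟨t, ht, h⟩; rwa [h]
    rw [this, hcardU]
    exact hT'w
  -- the total sum
  have htot : ∑ i ∈ J0, ∑ j ∈ J0, β i j ≤ (κ + 2) ^ 2 * κ * Fintype.card I := by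
    have e1 : ∑ i ∈ J0, ∑ j ∈ J0, β i j = ∑ t ∈ T', ∑ s ∈ T', S t s := by
      rw [hJ0, Finset.sum_biUnion (hIdisj T')]
      refine Finset.sum_congr rfl fun t _ => ?_
      have : ∀ i ∈ It t, ∑ j ∈ T'.biUnion It, β i j = ∑ s ∈ T', ∑ j ∈ It s, β i j := by
        intro i _
        rw [Finset.sum_biUnion (hIdisj T')]
      rw [Finset.sum_congr rfl this, Finset.sum_comm]
    have e2 : ∑ t ∈ T', ∑ s ∈ T', S t s ≤ (κ + 2) ^ 2 * (∑ t ∈ T', √(N t)) ^ 2 := by
      rw [pow_two (∑ t ∈ T', √(N t)), Finset.sum_mul_sum, Finset.mul_sum]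
      refine Finset.sum_le_sum fun t ht => ?_
      rw [Finset.mul_sum]
      refine Finset.sum_le_sum fun s hs => ?_
      rw [hnS]
      exact mul_le_mul_of_nonneg_right (hT'n t ht s hs)
        (mul_nonneg (Real.sqrt_nonneg _) (Real.sqrt_nonneg _))
    have e3 : (∑ t ∈ T', √(N t)) ^ 2 ≤ κ * Fintype.card I := by
      have h1 : (∑ t ∈ T', √(N t)) ^ 2 ≤ (T'.card : ℝ) * ∑ t ∈ T', √(N t) ^ 2 :=
        sq_sum_le_card_mul_sum_sq
      have h2 : ∑ t ∈ T', √(N t) ^ 2 ≤ Fintype.card I := by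
        have : ∑ t ∈ T', √(N t) ^ 2 = ((J0.card : ℕ) : ℝ) := by
          rw [hJ0, hcardU]
          push_cast
          refine Finset.sum_congr rfl fun t _ => ?_
          rw [Real.sq_sqrt (hN0 t)]
        rw [this]
        exact_mod_cast Finset.card_le_univ _
      have h3 : (T'.card : ℝ) ≤ κ := by
        simp only [hκ]; exact_mod_cast Finset.card_le_univ _
      have h4 : (0 : ℝ) ≤ ∑ t ∈ T', √(N t) ^ 2 := Finset.sum_nonneg fun t _ => sq_nonneg _
      calc (∑ t ∈ T', √(N t)) ^ 2 ≤ (T'.card : ℝ) * ∑ t ∈ T', √(N t) ^ 2 := h1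
        _ ≤ κ * Fintype.card I := mul_le_mul h3 h2 h4 hκ0
    calc ∑ i ∈ J0, ∑ j ∈ J0, β i j = ∑ t ∈ T', ∑ s ∈ T', S t s := e1
      _ ≤ (κ + 2) ^ 2 * (∑ t ∈ T', √(N t)) ^ 2 := e2
      _ ≤ (κ + 2) ^ 2 * (κ * Fintype.card I) := by
          exact mul_le_mul_of_nonneg_left e3 (by positivity)
      _ = (κ + 2) ^ 2 * κ * Fintype.card I := by ring
  -- Markov
  set R0 : ℝ := (κ + 2) ^ 2 * κ / η with hR0
  set J : Finset I := J0.filter (fun i => ∑ j ∈ J0, β i j ≤ R0) with hJ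
  refine ⟨J, ?_, ?_⟩
  · have hbad : (((J0 \ J).card : ℕ) : ℝ) ≤ η * Fintype.card I := by
      rcases isEmpty_or_nonempty I with hI | hI
      · have : J0 \ J = ∅ := Finset.eq_empty_of_isEmpty _
        rw [this]; simp
      · have hκpos : 0 < κ := by
          have : Nonempty T := ⟨τ (Classical.arbitrary I)⟩
          simp only [hκ]
          exact_mod_cast Fintype.card_pos
        have hR0pos : 0 < R0 := by positivity
        have h1 : ((J0 \ J).card : ℝ) * R0 ≤ ∑ i ∈ J0 \ J, ∑ j ∈ J0, β i j := by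
          rw [← nsmul_eq_mul, ← Finset.sum_const]
          refine Finset.sum_le_sum fun i hi => ?_
          rw [Finset.mem_sdiff] at hi
          by_contra hcon
          push Not at hcon
          exact hi.2 (Finset.mem_filter.2 ⟨hi.1, hcon.le⟩)
        have h2 : ∑ i ∈ J0 \ J, ∑ j ∈ J0, β i j ≤ ∑ i ∈ J0, ∑ j ∈ J0, β i j :=
          Finset.sum_le_sum_of_subset_of_nonneg Finset.sdiff_subset
            (fun i _ _ => Finset.sum_nonneg fun j _ => hβ0 i j)
        have h3 : ((J0 \ J).card : ℝ) * R0 ≤ (η * Fintype.card I) * R0 := by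
          calc ((J0 \ J).card : ℝ) * R0 ≤ (κ + 2) ^ 2 * κ * Fintype.card I := by linarith
            _ = (η * Fintype.card I) * R0 := by
                rw [hR0]; field_simp
        exact le_of_mul_le_mul_right h3 hR0pos
    have hsub : univ \ J ⊆ (univ \ J0) ∪ (J0 \ J) := by
      intro i hi
      simp only [Finset.mem_sdiff, Finset.mem_univ, true_and, Finset.mem_union] at hi ⊢
      tauto
    have hc : (univ \ J).card ≤ (univ \ J0).card + (J0 \ J).card :=
      (Finset.card_le_card hsub).trans (Finset.card_union_le _ _)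
    have hc' : ((univ \ J).card : ℝ) ≤ ((univ \ J0).card : ℝ) + ((J0 \ J).card : ℝ) := by
      exact_mod_cast hc
    have h6 : ((univ \ J0).card : ℝ) ≤ 6 * w := by exact_mod_cast hJ0c
    linarith
  · intro i hi
    have hi' := Finset.mem_filter.1 hi
    have hJJ0 : J ⊆ J0 := Finset.filter_subset _ _
    calc ∑ j ∈ J.erase i, -(Yv i ⬝ᵥ M *ᵥ Yv j) = ∑ j ∈ J.erase i, β i j := by
          refine Finset.sum_congr rfl fun j hj => ?_
          simp only [hβ]
          rw [if_neg (Ne.symm (Finset.ne_of_mem_erase hj))]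
      _ ≤ ∑ j ∈ J0, β i j :=
          Finset.sum_le_sum_of_subset_of_nonneg
            ((Finset.erase_subset _ _).trans hJJ0) (fun j _ _ => hβ0 i j)
      _ ≤ R0 := hi'.2


/-- **ROWS**: application of Lemma B to the items and step (5). -/
theorem rows (M : Matrix V V ℝ) (hM : M.IsSymm) (b : V → ℝ)
    (hb : ∀ z : V → ℝ, 0 ≤ z ⬝ᵥ M *ᵥ z + (b ⬝ᵥ z) ^ 2) (hb0 : ∀ v, 0 ≤ b v)
    (Yv : I → V → ℝ) (hY0 : ∀ i v, 0 ≤ Yv i v)
    (h1 : ∀ i, Yv i ⬝ᵥ M *ᵥ Yv i = 1)
    (hoff : ∀ i j, i ≠ j → Yv i ⬝ᵥ M *ᵥ Yv j ≤ 0)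
    (τ : I → T) (adj : T → T → Prop) (hsym : ∀ t s, adj t s → adj s t)
    (hadj : ∀ i j, adj (τ i) (τ j) → Yv i ⬝ᵥ M *ᵥ Yv j = 0) (w : ℕ)
    (hbip : ∀ A B : Finset I, Disjoint A B → w ≤ A.card → w ≤ B.card →
      ∃ i ∈ A, ∃ j ∈ B, adj (τ i) (τ j))
    (η : ℝ) (hη : 0 < η) :
    ∃ J : Finset I, (((univ \ J).card : ℕ) : ℝ) ≤ 6 * w + η * Fintype.card I ∧
      ∀ i ∈ J, ∑ j ∈ J.erase i, -(Yv i ⬝ᵥ M *ᵥ Yv j)
        ≤ ((Fintype.card T : ℝ) + 2) ^ 2 * Fintype.card T / η :=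
  rows_of_lemB (lemB_holds T) M hM b hb hb0 Yv hY0 h1 hoff τ adj hsym hadj w hbip η hη

end

end Crest.Agent.R042.S60Rows
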