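import Mathlib
import Crest.Agent.R042.S60Rows_785
import Crest.Agent.R042.S60BipK_427
import Crest.Agent.R042.S60Lin_693
import Crest.Prelude.Def_WellSignedMatrix
import Crest.Agent.R042.HJK_883
import Crest.Agent.R042.HJB_883

-- ▼ part R042/S60Items_822
section

/-! Row 42, S0060: ROWS (785) applied to an item system in the blow-up with supports of one kind. -/

set_option autoImplicit false

namespace Crest.Agent.R042.S60Items822

open Finset Matrix
open Crest.Agent.R042.S60Bip427 (typ TAdj tadj_typ)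
open Crest.Agent.R042.S60BipK427 (JBK OkK bip_items)

theorem fibre_le {N L : ℕ} (i : Fin N) :
    (univ.filter (fun v : Fin N × Fin L => v.1 = i)).card ≤ L := by
  classical
  have h : (univ.filter (fun v : Fin N × Fin L => v.1 = i)) ⊆
      (univ : Finset (Fin L)).image (fun l => (i, l)) := by
    intro v hv
    rw [mem_filter] at hv
    exact mem_image.2 ⟨v.2, mem_univ _, by rw [← hv.2]⟩
  exact (card_le_card h).trans (card_image_le.trans (by simp))

/-- ROWS for an item system whose supports are admissible of kind `c`. -/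
theorem rows_items {N L : ℕ} (F : SimpleGraph (Fin N)) (kd : Fin N → Fin N → Bool) (c : Bool)
    (K : ℕ) (hJ : JBK F kd c K) (hL : 0 < L) (w : ℕ) (hw : 2 * (N * L) ≤ K * w)
    (M : Matrix (Fin N × Fin L) (Fin N × Fin L) ℝ) (hM : M.IsSymm) (b : Fin N × Fin L → ℝ)
    (hb : ∀ z : Fin N × Fin L → ℝ, 0 ≤ z ⬝ᵥ M *ᵥ z + (b ⬝ᵥ z) ^ 2) (hb0 : ∀ v, 0 ≤ b v)
    {I : Type} [Fintype I] [DecidableEq I] (Yv : I → Fin N × Fin L → ℝ)
    (hY0 : ∀ i v, 0 ≤ Yv i v) (h1 : ∀ i, Yv i ⬝ᵥ M *ᵥ Yv i = 1)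
    (hoff : ∀ i j, i ≠ j → Yv i ⬝ᵥ M *ᵥ Yv j ≤ 0)
    (supp : I → Finset (Fin N × Fin L))
    (hs : ∀ y, OkK F kd c (Prod.fst : Fin N × Fin L → Fin N) (supp y))
    (hd : ∀ y z, y ≠ z → Disjoint (supp y) (supp z))
    (hjoin : ∀ i j, (∀ a ∈ supp i, ∀ b ∈ supp j, F.Adj a.1 b.1) → Yv i ⬝ᵥ M *ᵥ Yv j = 0)
    (η : ℝ) (hη : 0 < η) :
    ∃ J : Finset I, (((univ \ J).card : ℕ) : ℝ) ≤ 6 * w + η * Fintype.card I ∧
      ∀ i ∈ J, ∑ j ∈ J.erase i, -(Yv i ⬝ᵥ M *ᵥ Yv j) ≤ ((2 : ℝ) ^ N + 2) ^ 2 * 2 ^ N / η := by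
  classical
  have h := S60Rows.rows (V := Fin N × Fin L) (I := I) (T := Finset (Fin N)) M hM b hb hb0 Yv hY0 h1
    hoff (typ Prod.fst supp) (TAdj F) (fun t s h => h.symm)
    (fun i j hij => hjoin i j ((tadj_typ F Prod.fst supp i j).1 hij)) w
    (fun A B _ hA hB => by
      obtain ⟨y, hy, z, hz, h⟩ := bip_items F kd c K hJ (Prod.fst : Fin N × Fin L → Fin N) L hL
        (fun i => fibre_le i) supp hs hd A B
        (hw.trans (Nat.mul_le_mul_left _ hA)) (hw.trans (Nat.mul_le_mul_left _ hB))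
      exact ⟨y, hy, z, hz, (tadj_typ F Prod.fst supp y z).2 h⟩) η hη
  obtain ⟨J, hJ1, hJ2⟩ := h
  refine ⟨J, hJ1, fun i hi => ?_⟩
  have := hJ2 i hi
  have hc : (Fintype.card (Finset (Fin N)) : ℝ) = 2 ^ N := by
    rw [Fintype.card_finset, Fintype.card_fin]; norm_num
  rw [hc] at this
  exact this

end Crest.Agent.R042.S60Items822
end

-- ▼ part R042/S60Core_693
section

/-! Row 42 / S0060: the abstract core (6a)+(6b)+(7) (helper693). -/

set_option autoImplicit false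

namespace Crest.Agent.R042.S60Core

open Matrix Finset
open Crest.Agent.R042.S60Lin

section numeric

variable {I : Type*} [Fintype I] [DecidableEq I]

theorem mulVec_single_one (β : Matrix I I ℝ) (hs : ∀ i j, β i j = β j i) (i : I) :
    β *ᵥ (Pi.single i 1) = β i := by
  ext j
  rw [Matrix.mulVec_single_one]
  exact hs j i

theorem dot_comm' (β : Matrix I I ℝ) (hs : ∀ i j, β i j = β j i) (x y : I → ℝ) :
    x ⬝ᵥ β *ᵥ y = (β *ᵥ x) ⬝ᵥ y := by
  have hM : β.IsSymm := by ext i j; exact hs j i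
  rw [bil_comm hM, dotProduct_comm]

theorem dot_nonneg (x y : I → ℝ) (hx : ∀ i, 0 ≤ x i) (hy : ∀ i, 0 ≤ y i) : 0 ≤ x ⬝ᵥ y :=
  Finset.sum_nonneg fun i _ => mul_nonneg (hx i) (hy i)

theorem mulVec_nonneg' (β : Matrix I I ℝ) (h0 : ∀ i j, 0 ≤ β i j) (x : I → ℝ)
    (hx : ∀ i, 0 ≤ x i) (i : I) : 0 ≤ (β *ᵥ x) i :=
  Finset.sum_nonneg fun j _ => mul_nonneg (h0 i j) (hx j)

/-- (6a), numeric: c = e_i + β e_i -/
theorem num6a (β : Matrix I I ℝ) (hs : ∀ i j, β i j = β j i) (h0 : ∀ i j, 0 ≤ β i j)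
    (hd : ∀ i, β i i = 0) (i : I) :
    (Pi.single i 1 + β i) ⬝ᵥ (Pi.single i 1 + β i)
      - (Pi.single i 1 + β i) ⬝ᵥ β *ᵥ (Pi.single i 1 + β i) ≤ 1 - β i ⬝ᵥ β i := by
  set e : I → ℝ := Pi.single i 1 with he
  set a : I → ℝ := β i with ha
  have h1 : β *ᵥ e = a := mulVec_single_one β hs i
  have hea : e ⬝ᵥ a = 0 := by rw [he, single_one_dotProduct]; exact hd i
  have hae : a ⬝ᵥ e = 0 := by rw [dotProduct_comm, hea]
  have hee : e ⬝ᵥ e = 1 := by rw [he, single_one_dotProduct, Pi.single_eq_same]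
  have h2 : e ⬝ᵥ β *ᵥ a = a ⬝ᵥ a := by rw [dot_comm' β hs, h1]
  have h3 : 0 ≤ a ⬝ᵥ β *ᵥ a :=
    dot_nonneg _ _ (fun j => h0 i j) (mulVec_nonneg' β h0 a (fun j => h0 i j))
  rw [Matrix.mulVec_add, h1]
  simp only [add_dotProduct, dotProduct_add, hea, hae, hee, h2]
  linarith

/-- (6b), numeric: c = e_i + β e_i + (β² e_i - t e_i) -/
theorem num6b (β : Matrix I I ℝ) (hs : ∀ i j, β i j = β j i) (h0 : ∀ i j, 0 ≤ β i j)
    (hd : ∀ i, β i i = 0) (i : I) (n : I → ℝ)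
    (hn : n = β *ᵥ (β i) - (β i ⬝ᵥ β i) • Pi.single i 1) :
    (∀ j, 0 ≤ n j) ∧ (Pi.single i 1 + β i + n) ⬝ᵥ (Pi.single i 1 + β i + n)
      - (Pi.single i 1 + β i + n) ⬝ᵥ β *ᵥ (Pi.single i 1 + β i + n)
        ≤ 1 - β i ⬝ᵥ β i - n ⬝ᵥ n := by
  set e : I → ℝ := Pi.single i 1 with he
  set a : I → ℝ := β i with ha
  set t : ℝ := a ⬝ᵥ a with ht
  have h1 : β *ᵥ e = a := mulVec_single_one β hs i
  have hea : e ⬝ᵥ a = 0 := by rw [he, single_one_dotProduct]; exact hd i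
  have hae : a ⬝ᵥ e = 0 := by rw [dotProduct_comm, hea]
  have hee : e ⬝ᵥ e = 1 := by rw [he, single_one_dotProduct, Pi.single_eq_same]
  have ha0 : ∀ j, 0 ≤ a j := fun j => h0 i j
  have hβa : (β *ᵥ a) i = t := by
    rw [ht]; rfl
  have hn0 : ∀ j, 0 ≤ n j := by
    intro j
    rw [hn]
    by_cases hj : j = i
    · subst hj
      simp only [Pi.sub_apply, Pi.smul_apply, he, Pi.single_eq_same, smul_eq_mul, mul_one, hβa]
      linarith
    · simp only [Pi.sub_apply, Pi.smul_apply, he, Pi.single_eq_of_ne hj, smul_eq_mul, mul_zero,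
        sub_zero]
      exact mulVec_nonneg' β h0 a ha0 j
  have hne : n i = 0 := by
    rw [hn]
    simp only [Pi.sub_apply, Pi.smul_apply, he, Pi.single_eq_same, smul_eq_mul, mul_one, hβa]
    linarith
  have hen : e ⬝ᵥ n = 0 := by rw [he, single_one_dotProduct]; exact hne
  have hne' : n ⬝ᵥ e = 0 := by rw [dotProduct_comm, hen]
  have hba : β *ᵥ a = n + t • e := by rw [hn]; simp
  refine ⟨hn0, ?_⟩
  have h2 : β *ᵥ (e + a + n) = a + (n + t • e) + β *ᵥ n := by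
    rw [Matrix.mulVec_add, Matrix.mulVec_add, h1, hba]
  have h3 : e ⬝ᵥ β *ᵥ n = a ⬝ᵥ n := by rw [dot_comm' β hs, h1]
  have h4 : a ⬝ᵥ β *ᵥ n = n ⬝ᵥ n := by
    rw [dot_comm' β hs, hba, add_dotProduct, smul_dotProduct, hen, smul_zero, add_zero]
  have h5 : 0 ≤ n ⬝ᵥ β *ᵥ n := dot_nonneg _ _ hn0 (mulVec_nonneg' β h0 n hn0)
  have h6 : 0 ≤ a ⬝ᵥ n := dot_nonneg _ _ ha0 hn0
  have h7 : n ⬝ᵥ a = a ⬝ᵥ n := dotProduct_comm _ _
  rw [h2]
  simp only [add_dotProduct, dotProduct_add, dotProduct_smul, smul_eq_mul, hea, hae, hee, hen,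
    hne', h3, h4, h7]
  rw [← ht]
  nlinarith

/-- Σ N ≥ Σ t² - (1/4) Σ t. -/
theorem sumN (β : I → I → ℝ) (hs : ∀ i j, β i j = β j i) (h0 : ∀ i j, 0 ≤ β i j)
    (hle : ∀ i j, β i j ≤ 1 / 2) :
    ∑ u, (∑ v, β u v ^ 2) ^ 2 - (1 / 4) * ∑ u, ∑ v, β u v ^ 2 ≤
      ∑ v, ∑ w ∈ univ.erase v, (∑ u, β v u * β u w) ^ 2 := by
  have h1 : ∀ v w, ∑ u, (β v u * β u w) ^ 2 ≤ (∑ u, β v u * β u w) ^ 2 := fun v w =>
    Finset.sum_sq_le_sq_sum_of_nonneg fun u _ => mul_nonneg (h0 v u) (h0 u w)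
  have h2 : ∑ v, ∑ w ∈ univ.erase v, ∑ u, (β v u * β u w) ^ 2 ≤
      ∑ v, ∑ w ∈ univ.erase v, (∑ u, β v u * β u w) ^ 2 :=
    Finset.sum_le_sum fun v _ => Finset.sum_le_sum fun w _ => h1 v w
  refine le_trans ?_ h2
  have h3 : ∀ v, ∑ w ∈ univ.erase v, ∑ u, (β v u * β u w) ^ 2
      = ∑ w, ∑ u, (β v u * β u w) ^ 2 - ∑ u, (β v u * β u v) ^ 2 := by
    intro v
    rw [← Finset.add_sum_erase univ _ (Finset.mem_univ v)]
    ring
  simp only [h3]
  rw [Finset.sum_sub_distrib]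
  have h4 : ∑ v, ∑ w, ∑ u, (β v u * β u w) ^ 2 = ∑ u, (∑ v, β u v ^ 2) ^ 2 := by
    have e1 : ∀ v : I, ∑ w, ∑ u, (β v u * β u w) ^ 2 = ∑ u, ∑ w, (β v u * β u w) ^ 2 :=
      fun v => Finset.sum_comm
    simp only [e1]
    rw [Finset.sum_comm]
    refine Finset.sum_congr rfl fun u _ => ?_
    rw [pow_two (∑ v, β u v ^ 2), Finset.sum_mul_sum]
    refine Finset.sum_congr rfl fun v _ => Finset.sum_congr rfl fun w _ => ?_
    rw [hs v u]; ring
  have h5 : ∑ v, ∑ u, (β v u * β u v) ^ 2 ≤ (1 / 4) * ∑ u, ∑ v, β u v ^ 2 := by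
    rw [Finset.mul_sum]
    refine Finset.sum_le_sum fun v _ => ?_
    rw [Finset.mul_sum]
    refine Finset.sum_le_sum fun u _ => ?_
    rw [hs u v]
    have a1 := h0 v u
    have a2 := hle v u
    have : β v u ^ 2 ≤ 1 / 4 := by nlinarith
    nlinarith [sq_nonneg (β v u)]
  rw [h4]
  linarith

/-- tangent line: Σ t ≤ (1.5/2.15) |R| -/
theorem sum_t (β : I → I → ℝ) (hs : ∀ i j, β i j = β j i) (h0 : ∀ i j, 0 ≤ β i j)
    (hle : ∀ i j, β i j ≤ 1 / 2) (S : Finset I) (hS : ∀ i, i ∉ S → ∀ j, β i j = 0)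
    (ht : ∀ v ∈ S, ∑ w, β v w ^ 2 + ∑ w ∈ univ.erase v, (∑ u, β v u * β u w) ^ 2 ≤ 101 / 100) :
    ∑ v, ∑ w, β v w ^ 2 ≤ (150 / 215) * (S.card : ℝ) := by
  have h1 := sumN β hs h0 hle
  have hz : ∀ v, v ∉ S → ∑ w, β v w ^ 2 = 0 := fun v hv =>
    Finset.sum_eq_zero fun w _ => by rw [hS v hv]; ring
  have hz2 : ∀ v, v ∉ S → ∑ w ∈ univ.erase v, (∑ u, β v u * β u w) ^ 2 = 0 := fun v hv =>
    Finset.sum_eq_zero fun w _ => by
      rw [Finset.sum_eq_zero (fun u _ => by rw [hS v hv]; ring)]; ring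
  have e1 : ∑ v, ∑ w, β v w ^ 2 = ∑ v ∈ S, ∑ w, β v w ^ 2 :=
    (Finset.sum_subset (Finset.subset_univ S) fun v _ hv => hz v hv).symm
  have e2 : ∑ v, ∑ w ∈ univ.erase v, (∑ u, β v u * β u w) ^ 2
      = ∑ v ∈ S, ∑ w ∈ univ.erase v, (∑ u, β v u * β u w) ^ 2 :=
    (Finset.sum_subset (Finset.subset_univ S) fun v _ hv => hz2 v hv).symm
  have e3 : ∑ v, (∑ w, β v w ^ 2) ^ 2 = ∑ v ∈ S, (∑ w, β v w ^ 2) ^ 2 :=
    (Finset.sum_subset (Finset.subset_univ S) fun v _ hv => by rw [hz v hv]; ring).symm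
  have h2 : ∑ v ∈ S, ∑ w, β v w ^ 2 + ∑ v ∈ S, ∑ w ∈ univ.erase v, (∑ u, β v u * β u w) ^ 2
      ≤ 101 / 100 * (S.card : ℝ) := by
    rw [← Finset.sum_add_distrib]
    refine (Finset.sum_le_sum ht).trans ?_
    rw [Finset.sum_const, nsmul_eq_mul]
    exact le_of_eq (by ring)
  have h3 : ∑ v ∈ S, (14 / 10 * (∑ w, β v w ^ 2) - 49 / 100) ≤ ∑ v ∈ S, (∑ w, β v w ^ 2) ^ 2 :=
    Finset.sum_le_sum fun v _ => by nlinarith [sq_nonneg ((∑ w, β v w ^ 2) - 7 / 10)]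
  rw [Finset.sum_sub_distrib, ← Finset.mul_sum, Finset.sum_const, nsmul_eq_mul] at h3
  rw [e1, e2, e3] at h1
  rw [e1]
  linarith

end numeric

section geom

variable {V I : Type*} [Fintype V] [DecidableEq V] [Fintype I] [DecidableEq I]

/-- minus the off-diagonal part of the Gram matrix -/
noncomputable def bet (M : Matrix V V ℝ) (Yv : I → V → ℝ) : Matrix I I ℝ :=
  Matrix.of fun i j => if i = j then 0 else -(Yv i ⬝ᵥ M *ᵥ Yv j)

theorem bet_self (M : Matrix V V ℝ) (Yv : I → V → ℝ) (i : I) : bet M Yv i i = 0 := by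
  simp [bet]

theorem bet_ne (M : Matrix V V ℝ) (Yv : I → V → ℝ) {i j : I} (h : i ≠ j) :
    bet M Yv i j = -(Yv i ⬝ᵥ M *ᵥ Yv j) := by
  simp [bet, h]

theorem bet_symm {M : Matrix V V ℝ} (hM : M.IsSymm) (Yv : I → V → ℝ) (i j : I) :
    bet M Yv i j = bet M Yv j i := by
  by_cases h : i = j
  · subst h; rfl
  · rw [bet_ne M Yv h, bet_ne M Yv (Ne.symm h), bil_comm hM]

theorem bet_nonneg {M : Matrix V V ℝ} (Yv : I → V → ℝ)
    (hoff : ∀ i j, i ≠ j → Yv i ⬝ᵥ M *ᵥ Yv j ≤ 0) (i j : I) : 0 ≤ bet M Yv i j := by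
  by_cases h : i = j
  · subst h; rw [bet_self]
  · rw [bet_ne M Yv h]; linarith [hoff i j h]

theorem q_comb {M : Matrix V V ℝ} (Yv : I → V → ℝ)
    (h1 : ∀ i, Yv i ⬝ᵥ M *ᵥ Yv i = 1) (c : I → ℝ) :
    (∑ i, c i • Yv i) ⬝ᵥ M *ᵥ (∑ i, c i • Yv i) = c ⬝ᵥ c - c ⬝ᵥ bet M Yv *ᵥ c := by
  have hB : (∑ i, c i • Yv i) ⬝ᵥ M *ᵥ (∑ i, c i • Yv i)
      = ∑ i, ∑ j, c i * c j * (Yv i ⬝ᵥ M *ᵥ Yv j) := by
    rw [Matrix.mulVec_sum, sum_dotProduct]
    refine Finset.sum_congr rfl fun i _ => ?_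
    rw [dotProduct_sum]
    refine Finset.sum_congr rfl fun j _ => ?_
    rw [Matrix.mulVec_smul, smul_dotProduct, dotProduct_smul, smul_eq_mul, smul_eq_mul]
    ring
  rw [hB]
  simp only [dotProduct, Matrix.mulVec]
  rw [← Finset.sum_sub_distrib]
  refine Finset.sum_congr rfl fun i _ => ?_
  rw [Finset.mul_sum]
  have e1 : ∀ j, c i * c j * (∑ v, Yv i v * ∑ v', M v v' * Yv j v')
      = (if i = j then c i * c j else 0) - c i * (bet M Yv i j * c j) := by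
    intro j
    by_cases h : i = j
    · subst h
      have := h1 i
      simp only [dotProduct, Matrix.mulVec] at this
      rw [this, bet_self, if_pos rfl]; ring
    · rw [bet_ne M Yv h, if_neg h]
      simp only [dotProduct, Matrix.mulVec]; ring
  simp only [e1]
  rw [Finset.sum_sub_distrib, Finset.sum_ite_eq, if_pos (Finset.mem_univ i)]

/-- the rank count (7), no bad items -/
theorem core0 {M : Matrix V V ℝ} (hM : M.IsSymm)
    (Yv fv : I → V → ℝ) (p : I → Prop) [DecidablePred p] (J : Finset I)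
    (h1 : ∀ i, Yv i ⬝ᵥ M *ᵥ Yv i = 1)
    (hoff : ∀ i j, i ≠ j → Yv i ⬝ᵥ M *ᵥ Yv j ≤ 0)
    (hf1 : ∀ i, p i → fv i ⬝ᵥ M *ᵥ fv i = 1)
    (hf0 : ∀ i, p i → fv i ⬝ᵥ M *ᵥ Yv i = 0)
    (hfY : ∀ i j, p i → i ≠ j → 3 * (fv i ⬝ᵥ M *ᵥ Yv j) ^ 2 ≤ (Yv i ⬝ᵥ M *ᵥ Yv j) ^ 2)
    (hff : ∀ i j, p i → p j → i ≠ j →
      9 * (fv i ⬝ᵥ M *ᵥ fv j) ^ 2 ≤ (Yv i ⬝ᵥ M *ᵥ Yv j) ^ 2)
    (ha : ∀ i ∈ J, ∑ j ∈ J, bet M Yv i j ^ 2 ≤ 101 / 100)
    (hC : ∑ i ∈ J.filter (fun i => ¬ p i), ∑ j ∈ J.filter (fun i => ¬ p i), bet M Yv i j ^ 2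
      ≤ (150 / 215) * ((J.filter (fun i => ¬ p i)).card : ℝ)) :
    (J.card : ℝ) + ((J.filter p).card : ℝ) ≤ (247 / 125) * (M.rank : ℝ) := by
  classical
  set β := bet M Yv with hβ
  set Jp := J.filter p with hJp
  set Jr := J.filter (fun i => ¬ p i) with hJr
  have hsymm : ∀ i j, β i j = β j i := bet_symm hM Yv
  -- the four blocks
  have hYY : ∀ i j, (Yv i ⬝ᵥ M *ᵥ Yv j) ^ 2 = (if i = j then 1 else 0) + β i j ^ 2 := by
    intro i j
    by_cases h : i = j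
    · subst h; rw [h1, if_pos rfl, hβ, bet_self]; ring
    · rw [if_neg h, hβ, bet_ne M Yv h]; ring
  have hfY' : ∀ i ∈ Jp, ∀ j, (fv i ⬝ᵥ M *ᵥ Yv j) ^ 2 ≤ β i j ^ 2 / 3 := by
    intro i hi j
    have hpi : p i := (Finset.mem_filter.mp hi).2
    by_cases h : i = j
    · subst h; rw [hf0 i hpi]; nlinarith [sq_nonneg (β i i)]
    · have := hfY i j hpi h
      rw [hβ, bet_ne M Yv h]; nlinarith
  have hff' : ∀ i ∈ Jp, ∀ j ∈ Jp,
      (fv i ⬝ᵥ M *ᵥ fv j) ^ 2 ≤ (if i = j then 1 else 0) + β i j ^ 2 / 9 := by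
    intro i hi j hj
    have hpi : p i := (Finset.mem_filter.mp hi).2
    have hpj : p j := (Finset.mem_filter.mp hj).2
    by_cases h : i = j
    · subst h; rw [hf1 i hpi, if_pos rfl]
      nlinarith [sq_nonneg (β i i)]
    · have := hff i j hpi hpj h
      rw [if_neg h, hβ, bet_ne M Yv h]; nlinarith
  let w : ({i // i ∈ J} ⊕ {i // i ∈ Jp}) → V → ℝ :=
    Sum.elim (fun i => Yv i.1) (fun i => fv i.1)
  have hw1 : ∀ i, w i ⬝ᵥ M *ᵥ w i = 1 := by
    rintro (i | i)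
    · exact h1 i.1
    · exact hf1 i.1 (Finset.mem_filter.mp i.2).2
  have hmain := card_sq_le_rank hM w hw1
  rw [Fintype.card_sum, Fintype.card_coe, Fintype.card_coe] at hmain
  have hsplit : ∑ i, ∑ j, (w i ⬝ᵥ M *ᵥ w j) ^ 2
      = (∑ i ∈ J, ∑ j ∈ J, (Yv i ⬝ᵥ M *ᵥ Yv j) ^ 2 + ∑ i ∈ Jp, ∑ j ∈ J, (fv i ⬝ᵥ M *ᵥ Yv j) ^ 2)
        + (∑ i ∈ J, ∑ j ∈ Jp, (Yv i ⬝ᵥ M *ᵥ fv j) ^ 2
          + ∑ i ∈ Jp, ∑ j ∈ Jp, (fv i ⬝ᵥ M *ᵥ fv j) ^ 2) := by
    simp only [Fintype.sum_sum_type, w, Sum.elim_inl, Sum.elim_inr, Finset.sum_add_distrib]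
    congr 1
    · congr 1
      · rw [← Finset.sum_coe_sort J]
        refine Finset.sum_congr rfl fun i _ => ?_
        rw [← Finset.sum_coe_sort J]
      · rw [← Finset.sum_coe_sort Jp]
        refine Finset.sum_congr rfl fun i _ => ?_
        rw [← Finset.sum_coe_sort J]
    · congr 1
      · rw [← Finset.sum_coe_sort J]
        refine Finset.sum_congr rfl fun i _ => ?_
        rw [← Finset.sum_coe_sort Jp]
      · rw [← Finset.sum_coe_sort Jp]
        refine Finset.sum_congr rfl fun i _ => ?_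
        rw [← Finset.sum_coe_sort Jp]
  have hind : ∀ S : Finset I, ∑ i ∈ S, ∑ j ∈ S, (if i = j then (1:ℝ) else 0) = S.card := by
    intro S
    have : ∀ i ∈ S, ∑ j ∈ S, (if i = j then (1:ℝ) else 0) = 1 := by
      intro i hi
      rw [Finset.sum_ite_eq, if_pos hi]
    rw [Finset.sum_congr rfl this, Finset.sum_const, nsmul_eq_mul, mul_one]
  have hJsplit : ∀ f : I → ℝ, ∑ i ∈ J, f i = ∑ i ∈ Jp, f i + ∑ i ∈ Jr, f i := fun f =>
    (Finset.sum_filter_add_sum_filter_not J p f).symm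
  have hcard : (J.card : ℝ) = (Jp.card : ℝ) + (Jr.card : ℝ) := by
    have := Finset.card_filter_add_card_filter_not (s := J) p
    rw [← this]; push_cast; rfl
  set A := ∑ i ∈ Jp, ∑ j ∈ Jp, β i j ^ 2 with hA
  set Bc := ∑ i ∈ Jp, ∑ j ∈ Jr, β i j ^ 2 with hBc
  set C := ∑ i ∈ Jr, ∑ j ∈ Jr, β i j ^ 2 with hCdef
  have hBc' : ∑ i ∈ Jr, ∑ j ∈ Jp, β i j ^ 2 = Bc := by
    rw [hBc, Finset.sum_comm]
    refine Finset.sum_congr rfl fun i _ => Finset.sum_congr rfl fun j _ => ?_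
    rw [hsymm]
  have hpJ : ∑ i ∈ Jp, ∑ j ∈ J, β i j ^ 2 = A + Bc := by
    have : ∀ i, ∑ j ∈ J, β i j ^ 2 = ∑ j ∈ Jp, β i j ^ 2 + ∑ j ∈ Jr, β i j ^ 2 :=
      fun i => hJsplit _
    simp only [this, Finset.sum_add_distrib]
    rfl
  have hrJ : ∑ i ∈ Jr, ∑ j ∈ J, β i j ^ 2 = Bc + C := by
    have : ∀ i, ∑ j ∈ J, β i j ^ 2 = ∑ j ∈ Jp, β i j ^ 2 + ∑ j ∈ Jr, β i j ^ 2 :=
      fun i => hJsplit _
    simp only [this, Finset.sum_add_distrib]
    rw [hBc']
  have hJJ : ∑ i ∈ J, ∑ j ∈ J, β i j ^ 2 = A + 2 * Bc + C := by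
    rw [hJsplit, hpJ, hrJ]; ring
  have b1 : ∑ i ∈ J, ∑ j ∈ J, (Yv i ⬝ᵥ M *ᵥ Yv j) ^ 2 = J.card + (A + 2 * Bc + C) := by
    simp only [hYY, Finset.sum_add_distrib]
    rw [hind, hJJ]
  have b3 : ∑ i ∈ Jp, ∑ j ∈ J, (fv i ⬝ᵥ M *ᵥ Yv j) ^ 2 ≤ (A + Bc) / 3 := by
    rw [← hpJ, Finset.sum_div]
    refine Finset.sum_le_sum fun i hi => ?_
    rw [Finset.sum_div]
    exact Finset.sum_le_sum fun j _ => hfY' i hi j
  have b2 : ∑ i ∈ J, ∑ j ∈ Jp, (Yv i ⬝ᵥ M *ᵥ fv j) ^ 2 ≤ (A + Bc) / 3 := by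
    refine le_trans (le_of_eq ?_) b3
    rw [Finset.sum_comm]
    refine Finset.sum_congr rfl fun i _ => Finset.sum_congr rfl fun j _ => ?_
    rw [bil_comm hM]
  have b4 : ∑ i ∈ Jp, ∑ j ∈ Jp, (fv i ⬝ᵥ M *ᵥ fv j) ^ 2 ≤ Jp.card + A / 9 := by
    have : ∑ i ∈ Jp, ∑ j ∈ Jp, (fv i ⬝ᵥ M *ᵥ fv j) ^ 2
        ≤ ∑ i ∈ Jp, ∑ j ∈ Jp, ((if i = j then (1:ℝ) else 0) + β i j ^ 2 / 9) :=
      Finset.sum_le_sum fun i hi => Finset.sum_le_sum fun j hj => hff' i hi j hj
    refine this.trans (le_of_eq ?_)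
    simp only [Finset.sum_add_distrib]
    rw [hind, hA, Finset.sum_div]
    congr 1
    refine Finset.sum_congr rfl fun i _ => ?_
    rw [Finset.sum_div]
  have c1 : A + Bc ≤ 101 / 100 * (Jp.card : ℝ) := by
    rw [← hpJ]
    refine (Finset.sum_le_sum fun i hi => ha i (Finset.mem_filter.mp hi).1).trans ?_
    rw [Finset.sum_const, nsmul_eq_mul]; exact le_of_eq (by ring)
  have c2 : Bc + C ≤ 101 / 100 * (Jr.card : ℝ) := by
    rw [← hrJ]
    refine (Finset.sum_le_sum fun i hi => ha i (Finset.mem_filter.mp hi).1).trans ?_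
    rw [Finset.sum_const, nsmul_eq_mul]; exact le_of_eq (by ring)
  have hHS : ∑ i, ∑ j, (w i ⬝ᵥ M *ᵥ w j) ^ 2
      ≤ (247 / 125) * ((J.card : ℝ) + (Jp.card : ℝ)) := by
    rw [hsplit, b1]
    have := (Nat.cast_nonneg Jp.card : (0:ℝ) ≤ _)
    have := (Nat.cast_nonneg Jr.card : (0:ℝ) ≤ _)
    rw [hcard]
    linarith
  have hn : (0:ℝ) ≤ (J.card : ℝ) + (Jp.card : ℝ) := by positivity
  have hr : (0:ℝ) ≤ (M.rank : ℝ) := Nat.cast_nonneg _
  have hfin : ((J.card : ℝ) + (Jp.card : ℝ)) ^ 2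
      ≤ (M.rank : ℝ) * ((247 / 125) * ((J.card : ℝ) + (Jp.card : ℝ))) := by
    have e : (((J.card + Jp.card : ℕ) : ℝ)) = (J.card : ℝ) + (Jp.card : ℝ) := by push_cast; rfl
    rw [e] at hmain
    exact hmain.trans (mul_le_mul_of_nonneg_left hHS hr)
  rcases hn.eq_or_lt with h0 | hpos
  · rw [← h0]; positivity
  · have : ((J.card : ℝ) + (Jp.card : ℝ)) * ((J.card : ℝ) + (Jp.card : ℝ))
        ≤ ((247 / 125) * (M.rank : ℝ)) * ((J.card : ℝ) + (Jp.card : ℝ)) := by nlinarith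
    exact le_of_mul_le_mul_right this hpos

/-- THE CORE: (6a)+(6b)+(7). -/
theorem core {M : Matrix V V ℝ} (hM : M.IsSymm) (b : V → ℝ)
    (hb : ∀ z : V → ℝ, 0 ≤ z ⬝ᵥ M *ᵥ z + (b ⬝ᵥ z) ^ 2)
    (Yv fv : I → V → ℝ) (p : I → Prop) [DecidablePred p]
    (h1 : ∀ i, Yv i ⬝ᵥ M *ᵥ Yv i = 1)
    (hoff : ∀ i j, i ≠ j → Yv i ⬝ᵥ M *ᵥ Yv j ≤ 0)
    (hhalf : ∀ i j, i ≠ j → ¬ p i → ¬ p j → -(1 / 2) ≤ Yv i ⬝ᵥ M *ᵥ Yv j)
    (hf1 : ∀ i, p i → fv i ⬝ᵥ M *ᵥ fv i = 1)
    (hf0 : ∀ i, p i → fv i ⬝ᵥ M *ᵥ Yv i = 0)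
    (hfY : ∀ i j, p i → i ≠ j → 3 * (fv i ⬝ᵥ M *ᵥ Yv j) ^ 2 ≤ (Yv i ⬝ᵥ M *ᵥ Yv j) ^ 2)
    (hff : ∀ i j, p i → p j → i ≠ j →
      9 * (fv i ⬝ᵥ M *ᵥ fv j) ^ 2 ≤ (Yv i ⬝ᵥ M *ᵥ Yv j) ^ 2)
    (R : ℝ) (hR : 0 ≤ R)
    (hrow : ∀ i, ∑ j ∈ univ.erase i, -(Yv i ⬝ᵥ M *ᵥ Yv j) ≤ R) :
    (Fintype.card I : ℝ) + ((univ.filter p).card : ℝ) ≤ (247 / 125) * (M.rank : ℝ)
      + 40 * (1 + R + R ^ 2) * √(1 + R) * √(Fintype.card I : ℝ) := by
  classical
  set β := bet M Yv with hβ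
  have hs : ∀ i j, β i j = β j i := bet_symm hM Yv
  have h0 : ∀ i j, 0 ≤ β i j := bet_nonneg Yv hoff
  have hd : ∀ i, β i i = 0 := bet_self M Yv
  have hrow' : ∀ i, ∑ j, β i j ≤ R := by
    intro i
    rw [← Finset.add_sum_erase _ _ (Finset.mem_univ i), hd, zero_add]
    refine le_trans (le_of_eq ?_) (hrow i)
    exact Finset.sum_congr rfl fun j hj => bet_ne M Yv (Finset.ne_of_mem_erase hj).symm
  set β' : Matrix I I ℝ := Matrix.of fun i j => if ¬ p i ∧ ¬ p j then β i j else 0 with hβ'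
  have e' : ∀ i j, β' i j = if ¬ p i ∧ ¬ p j then β i j else 0 := fun i j => rfl
  have hs' : ∀ i j, β' i j = β' j i := by
    intro i j
    rw [e', e']
    by_cases h : ¬ p i ∧ ¬ p j
    · rw [if_pos h, if_pos h.symm, hs]
    · rw [if_neg h, if_neg (fun h' => h h'.symm)]
  have h0' : ∀ i j, 0 ≤ β' i j := by
    intro i j; rw [e']; split_ifs
    · exact h0 i j
    · exact le_refl _
  have hle' : ∀ i j, β' i j ≤ β i j := by
    intro i j; rw [e']; split_ifs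
    · exact le_refl _
    · exact h0 i j
  have hd' : ∀ i, β' i i = 0 := fun i => le_antisymm ((hle' i i).trans (hd i).le) (h0' i i)
  have hhalf' : ∀ i j, ¬ p i → ¬ p j → β i j ≤ 1 / 2 := by
    intro i j hi hj
    by_cases h : i = j
    · subst h; rw [hd]; norm_num
    · rw [hβ, bet_ne M Yv h]; linarith [hhalf i j h hi hj]
  set P : ℝ := 1 + R + R ^ 2 with hP
  have hP0 : 0 ≤ P := by positivity
  set nn : I → I → ℝ := fun i => β' *ᵥ (β' i) - (β' i ⬝ᵥ β' i) • Pi.single i 1 with hnn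
  set Bada : Finset I := univ.filter (fun i => 101 / 100 < β i ⬝ᵥ β i) with hBada
  set Badb : Finset I := univ.filter (fun i => 101 / 100 < β' i ⬝ᵥ β' i + nn i ⬝ᵥ nn i)
    with hBadb
  have hsingle0 : ∀ y i : I, (0:ℝ) ≤ (Pi.single y 1 : I → ℝ) i := by
    intro y i
    by_cases h : i = y
    · subst h; simp
    · rw [Pi.single_eq_of_ne h]
  have hsumsingle : ∀ i : I, ∑ y : I, (Pi.single y 1 : I → ℝ) i = 1 := by
    intro i
    rw [Finset.sum_eq_single i]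
    · simp
    · intro y _ hy; exact Pi.single_eq_of_ne (Ne.symm hy) 1
    · intro h; exact absurd (Finset.mem_univ i) h
  have hrowc : ∀ i, ∑ y, β y i ≤ R := fun i => by
    refine le_trans (le_of_eq ?_) (hrow' i)
    exact Finset.sum_congr rfl fun y _ => hs y i
  have hrowc' : ∀ i, ∑ y, β' y i ≤ R := fun i =>
    (Finset.sum_le_sum fun y _ => hle' y i).trans (hrowc i)
  have hrow2 : ∀ i, ∑ u, β' i u ≤ R := fun i =>
    (Finset.sum_le_sum fun y _ => hle' i y).trans (hrow' i)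
  -- few bad (a)
  have hfa : (1 / 100) * (Bada.card : ℝ) ^ 2 ≤ P ^ 2 * (1 + R) * (Fintype.card I : ℝ) := by
    have := few_bad hM b hb (Y := {i // i ∈ Bada}) Yv R P (1 / 100) h1 hoff hrow
      (fun y => (Pi.single y.1 1 : I → ℝ) + β y.1) (by norm_num)
      (fun y => by
        rw [q_comb Yv h1]
        have h2 := num6a β hs h0 hd y.1
        have h3 : 101 / 100 < β y.1 ⬝ᵥ β y.1 := (Finset.mem_filter.mp y.2).2
        refine h2.trans ?_
        linarith)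
      (fun i => by
        have hnonneg : ∀ y : I, 0 ≤ ((Pi.single y 1 : I → ℝ) + β y) i := fun y =>
          add_nonneg (hsingle0 y i) (h0 y i)
        calc ∑ y : {i // i ∈ Bada}, |((Pi.single y.1 1 : I → ℝ) + β y.1) i|
            = ∑ y : {i // i ∈ Bada}, ((Pi.single y.1 1 : I → ℝ) + β y.1) i :=
              Finset.sum_congr rfl fun y _ => abs_of_nonneg (hnonneg y.1)
          _ = ∑ y ∈ Bada, ((Pi.single y 1 : I → ℝ) + β y) i :=
              Finset.sum_coe_sort Bada (fun y => ((Pi.single y 1 : I → ℝ) + β y) i)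
          _ ≤ ∑ y, ((Pi.single y 1 : I → ℝ) + β y) i :=
              Finset.sum_le_univ_sum_of_nonneg hnonneg
          _ = 1 + ∑ y, β y i := by
              simp only [Pi.add_apply, Finset.sum_add_distrib, hsumsingle]
          _ ≤ P := by have := hrowc i; have := sq_nonneg R; linarith)
    rw [Fintype.card_coe] at this
    exact this
  -- few bad (b)
  have hnnle : ∀ y i, nn y i ≤ (β' *ᵥ (β' y)) i := by
    intro y i
    have h2 : 0 ≤ β' y ⬝ᵥ β' y := dot_nonneg _ _ (h0' y) (h0' y)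
    have h3 := mul_nonneg h2 (hsingle0 y i)
    simp only [hnn, Pi.sub_apply, Pi.smul_apply, smul_eq_mul]
    linarith
  have hfb : (1 / 100) * (Badb.card : ℝ) ^ 2 ≤ P ^ 2 * (1 + R) * (Fintype.card I : ℝ) := by
    have := few_bad hM b hb (Y := {i // i ∈ Badb}) Yv R P (1 / 100) h1 hoff hrow
      (fun y => (Pi.single y.1 1 : I → ℝ) + β' y.1 + nn y.1) (by norm_num)
      (fun y => by
        rw [q_comb Yv h1]
        obtain ⟨hn0, h2⟩ := num6b β' hs' h0' hd' y.1 (nn y.1) rfl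
        have h3 : 101 / 100 < β' y.1 ⬝ᵥ β' y.1 + nn y.1 ⬝ᵥ nn y.1 := (Finset.mem_filter.mp y.2).2
        have hc0 : ∀ i, 0 ≤ ((Pi.single y.1 1 : I → ℝ) + β' y.1 + nn y.1) i := fun i =>
          add_nonneg (add_nonneg (hsingle0 y.1 i) (h0' y.1 i)) (hn0 i)
        have h4 : ((Pi.single y.1 1 : I → ℝ) + β' y.1 + nn y.1) ⬝ᵥ
            β' *ᵥ ((Pi.single y.1 1 : I → ℝ) + β' y.1 + nn y.1)
            ≤ ((Pi.single y.1 1 : I → ℝ) + β' y.1 + nn y.1) ⬝ᵥ
            β *ᵥ ((Pi.single y.1 1 : I → ℝ) + β' y.1 + nn y.1) := by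
          refine Finset.sum_le_sum fun i _ => mul_le_mul_of_nonneg_left ?_ (hc0 i)
          exact Finset.sum_le_sum fun j _ => mul_le_mul_of_nonneg_right (hle' i j) (hc0 j)
        linarith)
      (fun i => by
        have hn0 : ∀ y j, 0 ≤ nn y j := fun y => (num6b β' hs' h0' hd' y (nn y) rfl).1
        have hnonneg : ∀ y : I, 0 ≤ ((Pi.single y 1 : I → ℝ) + β' y + nn y) i := fun y =>
          add_nonneg (add_nonneg (hsingle0 y i) (h0' y i)) (hn0 y i)
        have h5 : ∑ y, nn y i ≤ R ^ 2 := by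
          calc ∑ y, nn y i ≤ ∑ y, (β' *ᵥ (β' y)) i := Finset.sum_le_sum fun y _ => hnnle y i
            _ = ∑ y, ∑ u, β' i u * β' y u := rfl
            _ = ∑ u, β' i u * ∑ y, β' y u := by
                rw [Finset.sum_comm]
                exact Finset.sum_congr rfl fun u _ => by rw [Finset.mul_sum]
            _ ≤ ∑ u, β' i u * R := Finset.sum_le_sum fun u _ =>
                mul_le_mul_of_nonneg_left (hrowc' u) (h0' i u)
            _ = (∑ u, β' i u) * R := by rw [Finset.sum_mul]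
            _ ≤ R * R := mul_le_mul_of_nonneg_right (hrow2 i) hR
            _ = R ^ 2 := by ring
        calc ∑ y : {i // i ∈ Badb}, |((Pi.single y.1 1 : I → ℝ) + β' y.1 + nn y.1) i|
            = ∑ y : {i // i ∈ Badb}, ((Pi.single y.1 1 : I → ℝ) + β' y.1 + nn y.1) i :=
              Finset.sum_congr rfl fun y _ => abs_of_nonneg (hnonneg y.1)
          _ = ∑ y ∈ Badb, ((Pi.single y 1 : I → ℝ) + β' y + nn y) i :=
              Finset.sum_coe_sort Badb (fun y => ((Pi.single y 1 : I → ℝ) + β' y + nn y) i)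
          _ ≤ ∑ y, ((Pi.single y 1 : I → ℝ) + β' y + nn y) i :=
              Finset.sum_le_univ_sum_of_nonneg hnonneg
          _ = 1 + ∑ y, β' y i + ∑ y, nn y i := by
              simp only [Pi.add_apply, Finset.sum_add_distrib, hsumsingle]
          _ ≤ P := by have := hrowc' i; linarith)
    rw [Fintype.card_coe] at this
    exact this
  set D : ℝ := 10 * P * √(1 + R) * √(Fintype.card I : ℝ) with hD
  have hD0 : 0 ≤ D := by positivity
  have hD2 : D ^ 2 = 100 * (P ^ 2 * (1 + R) * (Fintype.card I : ℝ)) := by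
    rw [hD, mul_pow, mul_pow, mul_pow, Real.sq_sqrt (by linarith), Real.sq_sqrt (Nat.cast_nonneg _)]
    ring
  have hA : (Bada.card : ℝ) ≤ D :=
    (sq_le_sq₀ (Nat.cast_nonneg _) hD0).mp (by rw [hD2]; linarith)
  have hB : (Badb.card : ℝ) ≤ D :=
    (sq_le_sq₀ (Nat.cast_nonneg _) hD0).mp (by rw [hD2]; linarith)
  set J : Finset I := univ \ (Bada ∪ Badb) with hJ
  have hmemJ : ∀ i ∈ J, β i ⬝ᵥ β i ≤ 101 / 100 ∧ β' i ⬝ᵥ β' i + nn i ⬝ᵥ nn i ≤ 101 / 100 := by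
    intro i hi
    have h2 := (Finset.mem_sdiff.mp hi).2
    rw [Finset.mem_union, not_or] at h2
    constructor
    · by_contra hcon
      push Not at hcon
      exact h2.1 (Finset.mem_filter.mpr ⟨Finset.mem_univ _, hcon⟩)
    · by_contra hcon
      push Not at hcon
      exact h2.2 (Finset.mem_filter.mpr ⟨Finset.mem_univ _, hcon⟩)
  have hdotsq : ∀ x : I → ℝ, x ⬝ᵥ x = ∑ i, x i ^ 2 := fun x => by
    simp only [dotProduct, pow_two]
  have ha : ∀ i ∈ J, ∑ j ∈ J, β i j ^ 2 ≤ 101 / 100 := by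
    intro i hi
    refine le_trans ?_ (hmemJ i hi).1
    rw [hdotsq]
    exact Finset.sum_le_univ_sum_of_nonneg fun j => sq_nonneg _
  set Jr := J.filter (fun i => ¬ p i) with hJr
  set β2 : I → I → ℝ := fun i j => if i ∈ Jr ∧ j ∈ Jr then β i j else 0 with hβ2
  have h20 : ∀ i j, 0 ≤ β2 i j := by
    intro i j; simp only [hβ2]; split_ifs
    · exact h0 i j
    · exact le_refl _
  have h2le : ∀ i j, β2 i j ≤ β' i j := by
    intro i j; simp only [hβ2]
    by_cases h : i ∈ Jr ∧ j ∈ Jr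
    · rw [if_pos h, e', if_pos ⟨(Finset.mem_filter.mp h.1).2, (Finset.mem_filter.mp h.2).2⟩]
    · rw [if_neg h]; exact h0' i j
  have h2s : ∀ i j, β2 i j = β2 j i := by
    intro i j; simp only [hβ2]
    by_cases h : i ∈ Jr ∧ j ∈ Jr
    · rw [if_pos h, if_pos h.symm, hs]
    · rw [if_neg h, if_neg (fun h' => h h'.symm)]
  have h2half : ∀ i j, β2 i j ≤ 1 / 2 := by
    intro i j; simp only [hβ2]
    by_cases h : i ∈ Jr ∧ j ∈ Jr
    · rw [if_pos h]
      exact hhalf' i j (Finset.mem_filter.mp h.1).2 (Finset.mem_filter.mp h.2).2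
    · rw [if_neg h]; norm_num
  have h2S : ∀ i, i ∉ Jr → ∀ j, β2 i j = 0 := by
    intro i hi j
    simp only [hβ2]
    rw [if_neg (fun h => hi h.1)]
  have hC0 := sum_t β2 h2s h20 h2half Jr h2S (fun v hv => by
    have hvJ : v ∈ J := (Finset.mem_filter.mp hv).1
    refine le_trans ?_ (hmemJ v hvJ).2
    refine add_le_add ?_ ?_
    · rw [hdotsq]
      exact Finset.sum_le_sum fun w _ => pow_le_pow_left₀ (h20 v w) (h2le v w) 2
    · rw [hdotsq, ← Finset.add_sum_erase _ _ (Finset.mem_univ v)]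
      refine le_trans ?_ (le_add_of_nonneg_left (sq_nonneg _))
      refine Finset.sum_le_sum fun w hw => ?_
      have hwv : w ≠ v := Finset.ne_of_mem_erase hw
      refine pow_le_pow_left₀ (Finset.sum_nonneg fun u _ => mul_nonneg (h20 v u) (h20 u w)) ?_ 2
      have : nn v w = ∑ u, β' w u * β' v u := by
        simp only [hnn, Pi.sub_apply, Pi.smul_apply, smul_eq_mul, Pi.single_eq_of_ne hwv,
          mul_zero, sub_zero]
        rfl
      rw [this]
      refine Finset.sum_le_sum fun u _ => ?_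
      rw [mul_comm, h2s u w]
      exact mul_le_mul (h2le w u) (h2le v u) (h20 v u) (h0' w u))
  have hC : ∑ i ∈ Jr, ∑ j ∈ Jr, β i j ^ 2 ≤ (150 / 215) * (Jr.card : ℝ) := by
    refine le_trans (le_of_eq ?_) hC0
    rw [← Finset.sum_subset (Finset.subset_univ Jr)
      (fun v _ hv => Finset.sum_eq_zero fun w _ => by rw [h2S v hv]; ring)]
    refine Finset.sum_congr rfl fun i hi => ?_
    rw [← Finset.sum_subset (Finset.subset_univ Jr)
      (fun w _ hw => by rw [h2s, h2S w hw]; ring)]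
    refine Finset.sum_congr rfl fun j hj => ?_
    simp only [hβ2]
    rw [if_pos ⟨hi, hj⟩]
  have hfin := core0 hM Yv fv p J h1 hoff hf1 hf0 hfY hff ha hC
  have hcI : (Fintype.card I : ℝ) ≤ (J.card : ℝ) + (Bada.card : ℝ) + (Badb.card : ℝ) := by
    have h2 : (univ : Finset I) ⊆ J ∪ (Bada ∪ Badb) := by
      intro i _
      rw [hJ, Finset.sdiff_union_self_eq_union]
      exact Finset.mem_union_left _ (Finset.mem_univ i)
    have h3 := (Finset.card_le_card h2).trans ((Finset.card_union_le _ _).trans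
      (Nat.add_le_add_left (Finset.card_union_le _ _) _))
    rw [Finset.card_univ] at h3
    have : ((Fintype.card I : ℕ) : ℝ) ≤ ((J.card + (Bada.card + Badb.card) : ℕ) : ℝ) := by
      exact_mod_cast h3
    push_cast at this
    linarith
  have hcp : ((univ.filter p).card : ℝ) ≤ ((J.filter p).card : ℝ) + (Bada.card : ℝ)
      + (Badb.card : ℝ) := by
    have h2 : (univ.filter p : Finset I) ⊆ J.filter p ∪ (Bada ∪ Badb) := by
      intro i hi
      by_cases h : i ∈ Bada ∪ Badb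
      · exact Finset.mem_union_right _ h
      · exact Finset.mem_union_left _ (Finset.mem_filter.mpr
          ⟨Finset.mem_sdiff.mpr ⟨Finset.mem_univ _, h⟩, (Finset.mem_filter.mp hi).2⟩)
    have h3 := (Finset.card_le_card h2).trans ((Finset.card_union_le _ _).trans
      (Nat.add_le_add_left (Finset.card_union_le _ _) _))
    have : (((univ.filter p : Finset I).card : ℕ) : ℝ)
        ≤ (((J.filter p).card + (Bada.card + Badb.card) : ℕ) : ℝ) := by
      exact_mod_cast h3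
    push_cast at this
    linarith
  have hDe : 40 * P * √(1 + R) * √(Fintype.card I : ℝ) = 4 * D := by rw [hD]; ring
  rw [hDe]
  linarith

end geom

end Crest.Agent.R042.S60Core
end

-- ▼ part R042/S60CE_693
section

/-! Row 42 / S0060 from HJK (two kinds): good set, heavy matching (c), count (e) (helper693). -/

set_option autoImplicit false

namespace Crest.Agent.R042.S60CE

open Matrix Finset
open Crest.Agent.R042.S60Lin Crest.Agent.R042.S60Core

variable {V I : Type*} [Fintype V] [DecidableEq V] [Fintype I] [DecidableEq I]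

/-- Σ N ≥ Σ t² - Σ β⁴. -/
theorem sumN4 (β : I → I → ℝ) (hs : ∀ i j, β i j = β j i) (h0 : ∀ i j, 0 ≤ β i j) :
    ∑ u, (∑ v, β u v ^ 2) ^ 2 - ∑ u, ∑ v, β u v ^ 4 ≤
      ∑ v, ∑ w ∈ univ.erase v, (∑ u, β v u * β u w) ^ 2 := by
  have h1 : ∀ v w, ∑ u, (β v u * β u w) ^ 2 ≤ (∑ u, β v u * β u w) ^ 2 := fun v w =>
    Finset.sum_sq_le_sq_sum_of_nonneg fun u _ => mul_nonneg (h0 v u) (h0 u w)
  have h2 : ∑ v, ∑ w ∈ univ.erase v, ∑ u, (β v u * β u w) ^ 2 ≤
      ∑ v, ∑ w ∈ univ.erase v, (∑ u, β v u * β u w) ^ 2 :=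
    Finset.sum_le_sum fun v _ => Finset.sum_le_sum fun w _ => h1 v w
  refine le_trans ?_ h2
  have h3 : ∀ v, ∑ w ∈ univ.erase v, ∑ u, (β v u * β u w) ^ 2
      = ∑ w, ∑ u, (β v u * β u w) ^ 2 - ∑ u, (β v u * β u v) ^ 2 := by
    intro v
    rw [← Finset.add_sum_erase univ _ (Finset.mem_univ v)]
    ring
  simp only [h3]
  rw [Finset.sum_sub_distrib]
  have h4 : ∑ v, ∑ w, ∑ u, (β v u * β u w) ^ 2 = ∑ u, (∑ v, β u v ^ 2) ^ 2 := by
    have e1 : ∀ v : I, ∑ w, ∑ u, (β v u * β u w) ^ 2 = ∑ u, ∑ w, (β v u * β u w) ^ 2 :=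
      fun v => Finset.sum_comm
    simp only [e1]
    rw [Finset.sum_comm]
    refine Finset.sum_congr rfl fun u _ => ?_
    rw [pow_two (∑ v, β u v ^ 2), Finset.sum_mul_sum]
    refine Finset.sum_congr rfl fun v _ => Finset.sum_congr rfl fun w _ => ?_
    rw [hs v u]; ring
  have h5 : ∑ v, ∑ u, (β v u * β u v) ^ 2 = ∑ u, ∑ v, β u v ^ 4 := by
    refine Finset.sum_congr rfl fun v _ => Finset.sum_congr rfl fun u _ => ?_
    rw [hs u v]; ring
  rw [h4, h5]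

/-- GOOD SET: all but O(√|I|) items have t + N ≤ 1.001. -/
theorem good_set {M : Matrix V V ℝ} (hM : M.IsSymm) (b : V → ℝ)
    (hb : ∀ z : V → ℝ, 0 ≤ z ⬝ᵥ M *ᵥ z + (b ⬝ᵥ z) ^ 2)
    (Yv : I → V → ℝ)
    (h1 : ∀ i, Yv i ⬝ᵥ M *ᵥ Yv i = 1)
    (hoff : ∀ i j, i ≠ j → Yv i ⬝ᵥ M *ᵥ Yv j ≤ 0)
    (R : ℝ) (hR : 0 ≤ R)
    (hrow : ∀ i, ∑ j ∈ univ.erase i, -(Yv i ⬝ᵥ M *ᵥ Yv j) ≤ R) :
    ∃ J : Finset I, ((univ \ J).card : ℝ)
        ≤ 32 * (1 + R + R ^ 2) * √(1 + R) * √(Fintype.card I : ℝ) ∧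
      ∀ i ∈ J, ∑ j, bet M Yv i j ^ 2
        + ∑ w ∈ univ.erase i, (∑ u, bet M Yv i u * bet M Yv u w) ^ 2 ≤ 1001 / 1000 := by
  classical
  set β := bet M Yv with hβ
  have hs : ∀ i j, β i j = β j i := bet_symm hM Yv
  have h0 : ∀ i j, 0 ≤ β i j := bet_nonneg Yv hoff
  have hd : ∀ i, β i i = 0 := bet_self M Yv
  have hrow' : ∀ i, ∑ j, β i j ≤ R := by
    intro i
    rw [← Finset.add_sum_erase _ _ (Finset.mem_univ i), hd, zero_add]
    refine le_trans (le_of_eq ?_) (hrow i)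
    exact Finset.sum_congr rfl fun j hj => bet_ne M Yv (Finset.ne_of_mem_erase hj).symm
  set P : ℝ := 1 + R + R ^ 2 with hP
  have hP0 : 0 ≤ P := by positivity
  set nn : I → I → ℝ := fun i => β *ᵥ (β i) - (β i ⬝ᵥ β i) • Pi.single i 1 with hnn
  set Badb : Finset I := univ.filter (fun i => 1001 / 1000 < β i ⬝ᵥ β i + nn i ⬝ᵥ nn i)
    with hBadb
  have hsingle0 : ∀ y i : I, (0:ℝ) ≤ (Pi.single y 1 : I → ℝ) i := by
    intro y i
    by_cases h : i = y
    · subst h; simp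
    · rw [Pi.single_eq_of_ne h]
  have hsumsingle : ∀ i : I, ∑ y : I, (Pi.single y 1 : I → ℝ) i = 1 := by
    intro i
    rw [Finset.sum_eq_single i]
    · simp
    · intro y _ hy; exact Pi.single_eq_of_ne (Ne.symm hy) 1
    · intro h; exact absurd (Finset.mem_univ i) h
  have hrowc : ∀ i, ∑ y, β y i ≤ R := fun i => by
    refine le_trans (le_of_eq ?_) (hrow' i)
    exact Finset.sum_congr rfl fun y _ => hs y i
  have hnnle : ∀ y i, nn y i ≤ (β *ᵥ (β y)) i := by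
    intro y i
    have h2 : 0 ≤ β y ⬝ᵥ β y := dot_nonneg _ _ (h0 y) (h0 y)
    have h3 := mul_nonneg h2 (hsingle0 y i)
    simp only [hnn, Pi.sub_apply, Pi.smul_apply, smul_eq_mul]
    linarith
  have hfb : (1 / 1000) * (Badb.card : ℝ) ^ 2 ≤ P ^ 2 * (1 + R) * (Fintype.card I : ℝ) := by
    have := few_bad hM b hb (Y := {i // i ∈ Badb}) Yv R P (1 / 1000) h1 hoff hrow
      (fun y => (Pi.single y.1 1 : I → ℝ) + β y.1 + nn y.1) (by norm_num)
      (fun y => by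
        rw [q_comb Yv h1]
        obtain ⟨hn0, h2⟩ := num6b β hs h0 hd y.1 (nn y.1) rfl
        have h3 : 1001 / 1000 < β y.1 ⬝ᵥ β y.1 + nn y.1 ⬝ᵥ nn y.1 := (Finset.mem_filter.mp y.2).2
        refine h2.trans ?_
        linarith)
      (fun i => by
        have hn0 : ∀ y j, 0 ≤ nn y j := fun y => (num6b β hs h0 hd y (nn y) rfl).1
        have hnonneg : ∀ y : I, 0 ≤ ((Pi.single y 1 : I → ℝ) + β y + nn y) i := fun y =>
          add_nonneg (add_nonneg (hsingle0 y i) (h0 y i)) (hn0 y i)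
        have h5 : ∑ y, nn y i ≤ R ^ 2 := by
          calc ∑ y, nn y i ≤ ∑ y, (β *ᵥ (β y)) i := Finset.sum_le_sum fun y _ => hnnle y i
            _ = ∑ y, ∑ u, β i u * β y u := rfl
            _ = ∑ u, β i u * ∑ y, β y u := by
                rw [Finset.sum_comm]
                exact Finset.sum_congr rfl fun u _ => by rw [Finset.mul_sum]
            _ ≤ ∑ u, β i u * R := Finset.sum_le_sum fun u _ =>
                mul_le_mul_of_nonneg_left (hrowc u) (h0 i u)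
            _ = (∑ u, β i u) * R := by rw [Finset.sum_mul]
            _ ≤ R * R := mul_le_mul_of_nonneg_right (hrow' i) hR
            _ = R ^ 2 := by ring
        calc ∑ y : {i // i ∈ Badb}, |((Pi.single y.1 1 : I → ℝ) + β y.1 + nn y.1) i|
            = ∑ y : {i // i ∈ Badb}, ((Pi.single y.1 1 : I → ℝ) + β y.1 + nn y.1) i :=
              Finset.sum_congr rfl fun y _ => abs_of_nonneg (hnonneg y.1)
          _ = ∑ y ∈ Badb, ((Pi.single y 1 : I → ℝ) + β y + nn y) i :=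
              Finset.sum_coe_sort Badb (fun y => ((Pi.single y 1 : I → ℝ) + β y + nn y) i)
          _ ≤ ∑ y, ((Pi.single y 1 : I → ℝ) + β y + nn y) i :=
              Finset.sum_le_univ_sum_of_nonneg hnonneg
          _ = 1 + ∑ y, β y i + ∑ y, nn y i := by
              simp only [Pi.add_apply, Finset.sum_add_distrib, hsumsingle]
          _ ≤ P := by have := hrowc i; linarith)
    rw [Fintype.card_coe] at this
    exact this
  set D : ℝ := 32 * P * √(1 + R) * √(Fintype.card I : ℝ) with hD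
  have hD0 : 0 ≤ D := by positivity
  have hD2 : D ^ 2 = 1024 * (P ^ 2 * (1 + R) * (Fintype.card I : ℝ)) := by
    rw [hD, mul_pow, mul_pow, mul_pow, Real.sq_sqrt (by linarith), Real.sq_sqrt (Nat.cast_nonneg _)]
    ring
  have hB : (Badb.card : ℝ) ≤ D := by
    refine (sq_le_sq₀ (Nat.cast_nonneg _) hD0).mp ?_
    have h6 : 0 ≤ P ^ 2 * (1 + R) * (Fintype.card I : ℝ) := by positivity
    rw [hD2]; linarith
  refine ⟨univ \ Badb, ?_, ?_⟩
  · refine le_trans ?_ hB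
    have hsub : univ \ (univ \ Badb) ⊆ Badb := by
      intro i hi
      by_contra hcon
      exact (Finset.mem_sdiff.mp hi).2 (Finset.mem_sdiff.mpr ⟨Finset.mem_univ i, hcon⟩)
    exact_mod_cast Finset.card_le_card hsub
  · intro i hi
    have h2 : i ∉ Badb := (Finset.mem_sdiff.mp hi).2
    have h3 : β i ⬝ᵥ β i + nn i ⬝ᵥ nn i ≤ 1001 / 1000 := by
      by_contra hcon
      push Not at hcon
      exact h2 (Finset.mem_filter.mpr ⟨Finset.mem_univ _, hcon⟩)
    have hdotsq : ∀ x : I → ℝ, x ⬝ᵥ x = ∑ i, x i ^ 2 := fun x => by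
      simp only [dotProduct, pow_two]
    refine le_trans ?_ h3
    refine add_le_add (le_of_eq (hdotsq _).symm) ?_
    rw [hdotsq, ← Finset.add_sum_erase _ _ (Finset.mem_univ i)]
    refine le_trans ?_ (le_add_of_nonneg_left (sq_nonneg _))
    refine Finset.sum_le_sum fun w hw => ?_
    have hwv : w ≠ i := Finset.ne_of_mem_erase hw
    have : nn i w = ∑ u, β i u * β u w := by
      simp only [hnn, Pi.sub_apply, Pi.smul_apply, smul_eq_mul, Pi.single_eq_of_ne hwv,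
        mul_zero, sub_zero]
      change ∑ u, β w u * β i u = _
      refine Finset.sum_congr rfl fun u _ => ?_
      rw [hs w u]; ring
    rw [this]

/-- (c) HEAVY: if rank ≤ 0.501 |J| then at most 8 percent of J is light. -/
theorem heavy {M : Matrix V V ℝ} (hM : M.IsSymm)
    (Yv : I → V → ℝ)
    (h1 : ∀ i, Yv i ⬝ᵥ M *ᵥ Yv i = 1)
    (hoff : ∀ i j, i ≠ j → Yv i ⬝ᵥ M *ᵥ Yv j ≤ 0) (J : Finset I)
    (hJ : ∀ i ∈ J, ∑ j, bet M Yv i j ^ 2
        + ∑ w ∈ univ.erase i, (∑ u, bet M Yv i u * bet M Yv u w) ^ 2 ≤ 1001 / 1000)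
    (hrk : (M.rank : ℝ) ≤ 501 / 1000 * (J.card : ℝ)) (L : Finset I)
    (hL : ∀ u ∈ L, u ∈ J ∧ ∀ v ∈ J, bet M Yv u v < 9 / 10) :
    (L.card : ℝ) ≤ 8 / 100 * (J.card : ℝ) := by
  classical
  set β := bet M Yv with hβ
  have hs : ∀ i j, β i j = β j i := bet_symm hM Yv
  have h0 : ∀ i j, 0 ≤ β i j := bet_nonneg Yv hoff
  have hd : ∀ i, β i i = 0 := bet_self M Yv
  rcases Nat.eq_zero_or_pos J.card with hJ0 | hJpos
  · have hLe : L = ∅ := by
      rw [Finset.eq_empty_iff_forall_notMem]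
      intro u hu
      have := (hL u hu).1
      rw [Finset.card_eq_zero.mp hJ0] at this
      simp at this
    rw [hLe, hJ0]; simp
  have hJpos' : (0:ℝ) < J.card := by exact_mod_cast hJpos
  set β2 : I → I → ℝ := fun i j => if i ∈ J ∧ j ∈ J then β i j else 0 with hβ2
  have h20 : ∀ i j, 0 ≤ β2 i j := by
    intro i j; simp only [hβ2]; split_ifs
    · exact h0 i j
    · exact le_refl _
  have h2le : ∀ i j, β2 i j ≤ β i j := by
    intro i j; simp only [hβ2]; split_ifs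
    · exact le_refl _
    · exact h0 i j
  have h2s : ∀ i j, β2 i j = β2 j i := by
    intro i j; simp only [hβ2]
    by_cases h : i ∈ J ∧ j ∈ J
    · rw [if_pos h, if_pos h.symm, hs]
    · rw [if_neg h, if_neg (fun h' => h h'.symm)]
  have h2S : ∀ i, i ∉ J → ∀ j, β2 i j = 0 := by
    intro i hi j
    simp only [hβ2]
    rw [if_neg (fun h => hi h.1)]
  -- t, N, s4
  set t : I → ℝ := fun v => ∑ w, β2 v w ^ 2 with ht
  set s4 : I → ℝ := fun v => ∑ w, β2 v w ^ 4 with hs4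
  set NN : I → ℝ := fun v => ∑ w ∈ univ.erase v, (∑ u, β2 v u * β2 u w) ^ 2 with hNN
  have htN : ∀ v ∈ J, t v + NN v ≤ 1001 / 1000 := by
    intro v hv
    refine le_trans (add_le_add ?_ ?_) (hJ v hv)
    · exact Finset.sum_le_sum fun w _ => pow_le_pow_left₀ (h20 v w) (h2le v w) 2
    · refine Finset.sum_le_sum fun w _ => ?_
      refine pow_le_pow_left₀ (Finset.sum_nonneg fun u _ => mul_nonneg (h20 v u) (h20 u w)) ?_ 2
      exact Finset.sum_le_sum fun u _ => mul_le_mul (h2le v u) (h2le u w) (h20 u w) (h0 v u)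
  have ht0 : ∀ v, 0 ≤ t v := fun v => Finset.sum_nonneg fun w _ => sq_nonneg _
  have hNN0 : ∀ v, 0 ≤ NN v := fun v => Finset.sum_nonneg fun w _ => sq_nonneg _
  have htle : ∀ v ∈ J, t v ≤ 1001 / 1000 := fun v hv => by linarith [htN v hv, hNN0 v]
  have hout : ∀ v, v ∉ J → t v = 0 := fun v hv =>
    Finset.sum_eq_zero fun w _ => by rw [h2S v hv]; ring
  have hout4 : ∀ v, v ∉ J → s4 v = 0 := fun v hv =>
    Finset.sum_eq_zero fun w _ => by rw [h2S v hv]; ring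
  have houtN : ∀ v, v ∉ J → NN v = 0 := fun v hv =>
    Finset.sum_eq_zero fun w _ => by
      rw [Finset.sum_eq_zero (fun u _ => by rw [h2S v hv]; ring)]; ring
  have hmain := sumN4 β2 h2s h20
  have e1 : ∑ u, (∑ v, β2 u v ^ 2) ^ 2 = ∑ u ∈ J, t u ^ 2 :=
    (Finset.sum_subset (Finset.subset_univ J) fun v _ hv => by
      have := hout v hv
      simp only [ht] at this
      rw [this]; ring).symm
  have e2 : ∑ u, ∑ v, β2 u v ^ 4 = ∑ u ∈ J, s4 u :=
    (Finset.sum_subset (Finset.subset_univ J) fun v _ hv => hout4 v hv).symm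
  have e3 : ∑ v, ∑ w ∈ univ.erase v, (∑ u, β2 v u * β2 u w) ^ 2 = ∑ v ∈ J, NN v :=
    (Finset.sum_subset (Finset.subset_univ J) fun v _ hv => houtN v hv).symm
  rw [e1, e2, e3] at hmain
  have h3 : ∑ v ∈ J, t v + ∑ v ∈ J, NN v ≤ 1001 / 1000 * (J.card : ℝ) := by
    rw [← Finset.sum_add_distrib]
    refine (Finset.sum_le_sum htN).trans ?_
    rw [Finset.sum_const, nsmul_eq_mul]; exact le_of_eq (by ring)
  have h4 : 2 * ∑ v ∈ J, t v - (J.card : ℝ) ≤ ∑ v ∈ J, t v ^ 2 := by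
    have : ∑ v ∈ J, (2 * t v - 1) ≤ ∑ v ∈ J, t v ^ 2 :=
      Finset.sum_le_sum fun v _ => by nlinarith [sq_nonneg (t v - 1)]
    rw [Finset.sum_sub_distrib, ← Finset.mul_sum, Finset.sum_const, nsmul_eq_mul, mul_one] at this
    exact this
  -- rank lower bound
  have h5 : (499 / 501) * (J.card : ℝ) ≤ ∑ v ∈ J, t v := by
    have hr := card_sq_le_rank hM (T := {i // i ∈ J}) (fun i => Yv i.1) (fun i => h1 i.1)
    rw [Fintype.card_coe] at hr
    have e4 : ∑ i : {i // i ∈ J}, ∑ j : {i // i ∈ J}, (Yv i.1 ⬝ᵥ M *ᵥ Yv j.1) ^ 2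
        = (J.card : ℝ) + ∑ v ∈ J, t v := by
      rw [Finset.sum_coe_sort J (fun i => ∑ j : {i // i ∈ J}, (Yv i ⬝ᵥ M *ᵥ Yv j.1) ^ 2)]
      have e5 : ∀ i ∈ J, ∑ j : {i // i ∈ J}, (Yv i ⬝ᵥ M *ᵥ Yv j.1) ^ 2 = 1 + t i := by
        intro i hi
        rw [Finset.sum_coe_sort J (fun j => (Yv i ⬝ᵥ M *ᵥ Yv j) ^ 2)]
        have e6 : ∀ j ∈ J, (Yv i ⬝ᵥ M *ᵥ Yv j) ^ 2 = (if i = j then 1 else 0) + β2 i j ^ 2 := by
          intro j hj
          have e7 : β2 i j = β i j := by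
            simp only [hβ2]
            exact if_pos ⟨hi, hj⟩
          rw [e7]
          by_cases h : i = j
          · subst h; rw [h1, if_pos rfl, hβ, bet_self]; ring
          · rw [if_neg h, hβ, bet_ne M Yv h]; ring
        rw [Finset.sum_congr rfl e6, Finset.sum_add_distrib, Finset.sum_ite_eq, if_pos hi]
        congr 1
        refine Finset.sum_subset (Finset.subset_univ J) fun j _ hj => ?_
        rw [h2s, h2S j hj]; ring
      rw [Finset.sum_congr rfl e5, Finset.sum_add_distrib, Finset.sum_const, nsmul_eq_mul, mul_one]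
    rw [e4] at hr
    have h6 : 0 ≤ (J.card : ℝ) + ∑ v ∈ J, t v :=
      add_nonneg hJpos'.le (Finset.sum_nonneg fun v _ => ht0 v)
    have h7 : (J.card : ℝ) * (J.card : ℝ)
        ≤ (J.card : ℝ) * (501 / 1000 * ((J.card : ℝ) + ∑ v ∈ J, t v)) := by
      have := mul_le_mul_of_nonneg_right hrk h6
      nlinarith
    have h8 := le_of_mul_le_mul_left h7 hJpos'
    linarith
  have h4le : ∀ v, s4 v ≤ t v * t v := by
    intro v
    have : s4 v = ∑ w, (β2 v w ^ 2) ^ 2 := Finset.sum_congr rfl fun w _ => by ring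
    rw [this, ← pow_two]
    exact Finset.sum_sq_le_sq_sum_of_nonneg fun w _ => sq_nonneg _
  have hs4J : ∀ v ∈ J, s4 v ≤ 1002001 / 1000000 - (if v ∈ L then 191191 / 1000000 else 0) := by
    intro v hv
    by_cases hvL : v ∈ L
    · rw [if_pos hvL]
      have h9 : s4 v ≤ 81 / 100 * t v := by
        simp only [hs4, ht]
        rw [Finset.mul_sum]
        refine Finset.sum_le_sum fun w _ => ?_
        by_cases hw : w ∈ J
        · have h10 := (hL v hvL).2 w hw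
          have h11 : β2 v w < 9 / 10 := lt_of_le_of_lt (h2le v w) h10
          have h12 := h20 v w
          have h13 : β2 v w ^ 2 ≤ 81 / 100 := by nlinarith
          nlinarith [sq_nonneg (β2 v w)]
        · rw [h2s, h2S w hw]; norm_num
      have := htle v hv
      linarith
    · rw [if_neg hvL]
      have h14 := h4le v
      have h15 := htle v hv
      have h16 := ht0 v
      nlinarith
  have h17 : ∑ v ∈ J, s4 v ≤ 1002001 / 1000000 * (J.card : ℝ) - 191191 / 1000000 * (L.card : ℝ) := by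
    refine (Finset.sum_le_sum hs4J).trans (le_of_eq ?_)
    rw [Finset.sum_sub_distrib, Finset.sum_const, nsmul_eq_mul]
    have : ∑ v ∈ J, (if v ∈ L then (191191 / 1000000 : ℝ) else 0)
        = 191191 / 1000000 * (L.card : ℝ) := by
      rw [← Finset.sum_filter, Finset.sum_const, nsmul_eq_mul]
      have : J.filter (fun v => v ∈ L) = L := by
        ext v
        rw [Finset.mem_filter]
        exact ⟨fun h => h.2, fun h => ⟨(hL v h).1, h⟩⟩
      rw [this]; ring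
    rw [this]; ring
  linarith

/-- uniqueness of the heavy partner -/
theorem heavy_unique {M : Matrix V V ℝ}
    (Yv : I → V → ℝ) (u : I)
    (ht : ∑ j, bet M Yv u j ^ 2 ≤ 1001 / 1000) {v w : I}
    (hv : 9 / 10 ≤ bet M Yv u v) (hw : 9 / 10 ≤ bet M Yv u w) : v = w := by
  classical
  by_contra hne
  have h1 : bet M Yv u v ^ 2 + bet M Yv u w ^ 2 ≤ ∑ j, bet M Yv u j ^ 2 := by
    rw [← Finset.add_sum_erase _ _ (Finset.mem_univ v)]
    have := Finset.single_le_sum (f := fun j => bet M Yv u j ^ 2) (s := Finset.univ.erase v)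
      (fun j _ => sq_nonneg _) (Finset.mem_erase.mpr ⟨Ne.symm hne, Finset.mem_univ w⟩)
    linarith
  nlinarith

/-- (e0) the rank count on a set J of items with t ≤ 1.001. -/
theorem count0 {M : Matrix V V ℝ} (hM : M.IsSymm)
    (Yv fv : I → V → ℝ) (p : I → Prop) [DecidablePred p] (J : Finset I)
    (h1 : ∀ i, Yv i ⬝ᵥ M *ᵥ Yv i = 1)
    (hf1 : ∀ i, p i → fv i ⬝ᵥ M *ᵥ fv i = 1)
    (hf0 : ∀ i, p i → fv i ⬝ᵥ M *ᵥ Yv i = 0)
    (hfY : ∀ i j, p i → i ≠ j → 19 * (fv i ⬝ᵥ M *ᵥ Yv j) ^ 2 ≤ (Yv i ⬝ᵥ M *ᵥ Yv j) ^ 2)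
    (hff : ∀ i j, p i → p j → i ≠ j →
      361 * (fv i ⬝ᵥ M *ᵥ fv j) ^ 2 ≤ (Yv i ⬝ᵥ M *ᵥ Yv j) ^ 2)
    (ha : ∀ i ∈ J, ∑ j ∈ J, bet M Yv i j ^ 2 ≤ 1001 / 1000)
    (hbig : 19 / 100 * ((J.card : ℝ) + ((J.filter p).card : ℝ)) ≤ ((J.filter p).card : ℝ)) :
    (J.card : ℝ) + ((J.filter p).card : ℝ) ≤ (1832 / 1000) * (M.rank : ℝ) := by
  classical
  set β := bet M Yv with hβ
  set Jp := J.filter p with hJp
  set Jr := J.filter (fun i => ¬ p i) with hJr
  have hsymm : ∀ i j, β i j = β j i := bet_symm hM Yv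
  have hYY : ∀ i j, (Yv i ⬝ᵥ M *ᵥ Yv j) ^ 2 = (if i = j then 1 else 0) + β i j ^ 2 := by
    intro i j
    by_cases h : i = j
    · subst h; rw [h1, if_pos rfl, hβ, bet_self]; ring
    · rw [if_neg h, hβ, bet_ne M Yv h]; ring
  have hfY' : ∀ i ∈ Jp, ∀ j, (fv i ⬝ᵥ M *ᵥ Yv j) ^ 2 ≤ β i j ^ 2 / 19 := by
    intro i hi j
    have hpi : p i := (Finset.mem_filter.mp hi).2
    by_cases h : i = j
    · subst h; rw [hf0 i hpi]; nlinarith [sq_nonneg (β i i)]
    · have := hfY i j hpi h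
      rw [hβ, bet_ne M Yv h]; nlinarith
  have hff' : ∀ i ∈ Jp, ∀ j ∈ Jp,
      (fv i ⬝ᵥ M *ᵥ fv j) ^ 2 ≤ (if i = j then 1 else 0) + β i j ^ 2 / 361 := by
    intro i hi j hj
    have hpi : p i := (Finset.mem_filter.mp hi).2
    have hpj : p j := (Finset.mem_filter.mp hj).2
    by_cases h : i = j
    · subst h; rw [hf1 i hpi, if_pos rfl]
      nlinarith [sq_nonneg (β i i)]
    · have := hff i j hpi hpj h
      rw [if_neg h, hβ, bet_ne M Yv h]; nlinarith
  let w : ({i // i ∈ J} ⊕ {i // i ∈ Jp}) → V → ℝ :=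
    Sum.elim (fun i => Yv i.1) (fun i => fv i.1)
  have hw1 : ∀ i, w i ⬝ᵥ M *ᵥ w i = 1 := by
    rintro (i | i)
    · exact h1 i.1
    · exact hf1 i.1 (Finset.mem_filter.mp i.2).2
  have hmain := card_sq_le_rank hM w hw1
  rw [Fintype.card_sum, Fintype.card_coe, Fintype.card_coe] at hmain
  have hsplit : ∑ i, ∑ j, (w i ⬝ᵥ M *ᵥ w j) ^ 2
      = (∑ i ∈ J, ∑ j ∈ J, (Yv i ⬝ᵥ M *ᵥ Yv j) ^ 2 + ∑ i ∈ Jp, ∑ j ∈ J, (fv i ⬝ᵥ M *ᵥ Yv j) ^ 2)
        + (∑ i ∈ J, ∑ j ∈ Jp, (Yv i ⬝ᵥ M *ᵥ fv j) ^ 2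
          + ∑ i ∈ Jp, ∑ j ∈ Jp, (fv i ⬝ᵥ M *ᵥ fv j) ^ 2) := by
    simp only [Fintype.sum_sum_type, w, Sum.elim_inl, Sum.elim_inr, Finset.sum_add_distrib]
    congr 1
    · congr 1
      · rw [← Finset.sum_coe_sort J]
        refine Finset.sum_congr rfl fun i _ => ?_
        rw [← Finset.sum_coe_sort J]
      · rw [← Finset.sum_coe_sort Jp]
        refine Finset.sum_congr rfl fun i _ => ?_
        rw [← Finset.sum_coe_sort J]
    · congr 1
      · rw [← Finset.sum_coe_sort J]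
        refine Finset.sum_congr rfl fun i _ => ?_
        rw [← Finset.sum_coe_sort Jp]
      · rw [← Finset.sum_coe_sort Jp]
        refine Finset.sum_congr rfl fun i _ => ?_
        rw [← Finset.sum_coe_sort Jp]
  have hind : ∀ S : Finset I, ∑ i ∈ S, ∑ j ∈ S, (if i = j then (1:ℝ) else 0) = S.card := by
    intro S
    have : ∀ i ∈ S, ∑ j ∈ S, (if i = j then (1:ℝ) else 0) = 1 := by
      intro i hi
      rw [Finset.sum_ite_eq, if_pos hi]
    rw [Finset.sum_congr rfl this, Finset.sum_const, nsmul_eq_mul, mul_one]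
  have hJsplit : ∀ f : I → ℝ, ∑ i ∈ J, f i = ∑ i ∈ Jp, f i + ∑ i ∈ Jr, f i := fun f =>
    (Finset.sum_filter_add_sum_filter_not J p f).symm
  have hcard : (J.card : ℝ) = (Jp.card : ℝ) + (Jr.card : ℝ) := by
    have := Finset.card_filter_add_card_filter_not (s := J) p
    rw [← this]; push_cast; rfl
  set A := ∑ i ∈ Jp, ∑ j ∈ Jp, β i j ^ 2 with hA
  set Bc := ∑ i ∈ Jp, ∑ j ∈ Jr, β i j ^ 2 with hBc
  set C := ∑ i ∈ Jr, ∑ j ∈ Jr, β i j ^ 2 with hCdef
  have hA0 : 0 ≤ A := Finset.sum_nonneg fun i _ => Finset.sum_nonneg fun j _ => sq_nonneg _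
  have hB0 : 0 ≤ Bc := Finset.sum_nonneg fun i _ => Finset.sum_nonneg fun j _ => sq_nonneg _
  have hC0 : 0 ≤ C := Finset.sum_nonneg fun i _ => Finset.sum_nonneg fun j _ => sq_nonneg _
  have hBc' : ∑ i ∈ Jr, ∑ j ∈ Jp, β i j ^ 2 = Bc := by
    rw [hBc, Finset.sum_comm]
    refine Finset.sum_congr rfl fun i _ => Finset.sum_congr rfl fun j _ => ?_
    rw [hsymm]
  have hpJ : ∑ i ∈ Jp, ∑ j ∈ J, β i j ^ 2 = A + Bc := by
    have : ∀ i, ∑ j ∈ J, β i j ^ 2 = ∑ j ∈ Jp, β i j ^ 2 + ∑ j ∈ Jr, β i j ^ 2 :=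
      fun i => hJsplit _
    simp only [this, Finset.sum_add_distrib]
    rfl
  have hrJ : ∑ i ∈ Jr, ∑ j ∈ J, β i j ^ 2 = Bc + C := by
    have : ∀ i, ∑ j ∈ J, β i j ^ 2 = ∑ j ∈ Jp, β i j ^ 2 + ∑ j ∈ Jr, β i j ^ 2 :=
      fun i => hJsplit _
    simp only [this, Finset.sum_add_distrib]
    rw [hBc']
  have hJJ : ∑ i ∈ J, ∑ j ∈ J, β i j ^ 2 = A + 2 * Bc + C := by
    rw [hJsplit, hpJ, hrJ]; ring
  have b1 : ∑ i ∈ J, ∑ j ∈ J, (Yv i ⬝ᵥ M *ᵥ Yv j) ^ 2 = J.card + (A + 2 * Bc + C) := by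
    simp only [hYY, Finset.sum_add_distrib]
    rw [hind, hJJ]
  have b3 : ∑ i ∈ Jp, ∑ j ∈ J, (fv i ⬝ᵥ M *ᵥ Yv j) ^ 2 ≤ (A + Bc) / 19 := by
    rw [← hpJ, Finset.sum_div]
    refine Finset.sum_le_sum fun i hi => ?_
    rw [Finset.sum_div]
    exact Finset.sum_le_sum fun j _ => hfY' i hi j
  have b2 : ∑ i ∈ J, ∑ j ∈ Jp, (Yv i ⬝ᵥ M *ᵥ fv j) ^ 2 ≤ (A + Bc) / 19 := by
    refine le_trans (le_of_eq ?_) b3
    rw [Finset.sum_comm]
    refine Finset.sum_congr rfl fun i _ => Finset.sum_congr rfl fun j _ => ?_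
    rw [bil_comm hM]
  have b4 : ∑ i ∈ Jp, ∑ j ∈ Jp, (fv i ⬝ᵥ M *ᵥ fv j) ^ 2 ≤ Jp.card + A / 361 := by
    have : ∑ i ∈ Jp, ∑ j ∈ Jp, (fv i ⬝ᵥ M *ᵥ fv j) ^ 2
        ≤ ∑ i ∈ Jp, ∑ j ∈ Jp, ((if i = j then (1:ℝ) else 0) + β i j ^ 2 / 361) :=
      Finset.sum_le_sum fun i hi => Finset.sum_le_sum fun j hj => hff' i hi j hj
    refine this.trans (le_of_eq ?_)
    simp only [Finset.sum_add_distrib]
    rw [hind, hA, Finset.sum_div]
    congr 1
    refine Finset.sum_congr rfl fun i _ => ?_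
    rw [Finset.sum_div]
  have c1 : A + Bc ≤ 1001 / 1000 * (Jp.card : ℝ) := by
    rw [← hpJ]
    refine (Finset.sum_le_sum fun i hi => ha i (Finset.mem_filter.mp hi).1).trans ?_
    rw [Finset.sum_const, nsmul_eq_mul]; exact le_of_eq (by ring)
  have c2 : Bc + C ≤ 1001 / 1000 * (Jr.card : ℝ) := by
    rw [← hrJ]
    refine (Finset.sum_le_sum fun i hi => ha i (Finset.mem_filter.mp hi).1).trans ?_
    rw [Finset.sum_const, nsmul_eq_mul]; exact le_of_eq (by ring)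
  have hHS : ∑ i, ∑ j, (w i ⬝ᵥ M *ᵥ w j) ^ 2
      ≤ (1832 / 1000) * ((J.card : ℝ) + (Jp.card : ℝ)) := by
    rw [hsplit, b1]
    have := (Nat.cast_nonneg Jp.card : (0:ℝ) ≤ _)
    have := (Nat.cast_nonneg Jr.card : (0:ℝ) ≤ _)
    rw [hcard] at hbig ⊢
    linarith
  have hn : (0:ℝ) ≤ (J.card : ℝ) + (Jp.card : ℝ) := by positivity
  have hr : (0:ℝ) ≤ (M.rank : ℝ) := Nat.cast_nonneg _
  have hfin : ((J.card : ℝ) + (Jp.card : ℝ)) ^ 2
      ≤ (M.rank : ℝ) * ((1832 / 1000) * ((J.card : ℝ) + (Jp.card : ℝ))) := by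
    have e : (((J.card + Jp.card : ℕ) : ℝ)) = (J.card : ℝ) + (Jp.card : ℝ) := by push_cast; rfl
    rw [e] at hmain
    exact hmain.trans (mul_le_mul_of_nonneg_left hHS hr)
  rcases hn.eq_or_lt with h0 | hpos
  · rw [← h0]; positivity
  · have : ((J.card : ℝ) + (Jp.card : ℝ)) * ((J.card : ℝ) + (Jp.card : ℝ))
        ≤ ((1832 / 1000) * (M.rank : ℝ)) * ((J.card : ℝ) + (Jp.card : ℝ)) := by nlinarith
    exact le_of_mul_le_mul_right this hpos

/-- (e) THE COUNT for a whole item system. -/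
theorem count {M : Matrix V V ℝ} (hM : M.IsSymm) (b : V → ℝ)
    (hb : ∀ z : V → ℝ, 0 ≤ z ⬝ᵥ M *ᵥ z + (b ⬝ᵥ z) ^ 2)
    (Yv fv : I → V → ℝ) (p : I → Prop) [DecidablePred p]
    (h1 : ∀ i, Yv i ⬝ᵥ M *ᵥ Yv i = 1)
    (hoff : ∀ i j, i ≠ j → Yv i ⬝ᵥ M *ᵥ Yv j ≤ 0)
    (hf1 : ∀ i, p i → fv i ⬝ᵥ M *ᵥ fv i = 1)
    (hf0 : ∀ i, p i → fv i ⬝ᵥ M *ᵥ Yv i = 0)
    (hfY : ∀ i j, p i → i ≠ j → 19 * (fv i ⬝ᵥ M *ᵥ Yv j) ^ 2 ≤ (Yv i ⬝ᵥ M *ᵥ Yv j) ^ 2)
    (hff : ∀ i j, p i → p j → i ≠ j →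
      361 * (fv i ⬝ᵥ M *ᵥ fv j) ^ 2 ≤ (Yv i ⬝ᵥ M *ᵥ Yv j) ^ 2)
    (R : ℝ) (hR : 0 ≤ R)
    (hrow : ∀ i, ∑ j ∈ univ.erase i, -(Yv i ⬝ᵥ M *ᵥ Yv j) ≤ R)
    (D : ℝ) (hD : 32 * (1 + R + R ^ 2) * √(1 + R) * √(Fintype.card I : ℝ) ≤ D)
    (hbig : 19 / 100 * ((Fintype.card I : ℝ) + ((univ.filter p).card : ℝ)) + D
      ≤ ((univ.filter p).card : ℝ)) :
    (Fintype.card I : ℝ) + ((univ.filter p).card : ℝ)
      ≤ (1832 / 1000) * (M.rank : ℝ) + 2 * D := by
  classical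
  obtain ⟨J, hJc, hJ⟩ := good_set hM b hb Yv h1 hoff R hR hrow
  have hJD : ((univ \ J).card : ℝ) ≤ D := hJc.trans hD
  have ha : ∀ i ∈ J, ∑ j ∈ J, bet M Yv i j ^ 2 ≤ 1001 / 1000 := by
    intro i hi
    have h2 := hJ i hi
    have h3 : ∑ j ∈ J, bet M Yv i j ^ 2 ≤ ∑ j, bet M Yv i j ^ 2 :=
      Finset.sum_le_univ_sum_of_nonneg fun j => sq_nonneg _
    have h4 : 0 ≤ ∑ w ∈ univ.erase i, (∑ u, bet M Yv i u * bet M Yv u w) ^ 2 :=
      Finset.sum_nonneg fun w _ => sq_nonneg _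
    linarith
  have hcI : (Fintype.card I : ℝ) = (J.card : ℝ) + ((univ \ J).card : ℝ) := by
    have h3 := Finset.card_sdiff_add_card_eq_card (Finset.subset_univ J)
    rw [Finset.card_univ] at h3
    rw [← h3]; push_cast; ring
  have hcp : ((univ.filter p).card : ℝ) ≤ ((J.filter p).card : ℝ) + ((univ \ J).card : ℝ) := by
    have h2 : (univ.filter p : Finset I) ⊆ J.filter p ∪ (univ \ J) := by
      intro i hi
      by_cases h : i ∈ J
      · exact Finset.mem_union_left _ (Finset.mem_filter.mpr ⟨h, (Finset.mem_filter.mp hi).2⟩)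
      · exact Finset.mem_union_right _ (Finset.mem_sdiff.mpr ⟨Finset.mem_univ _, h⟩)
    have h3 := (Finset.card_le_card h2).trans (Finset.card_union_le _ _)
    exact_mod_cast h3
  have hcp2 : ((J.filter p).card : ℝ) ≤ ((univ.filter p).card : ℝ) := by
    exact_mod_cast Finset.card_le_card (Finset.filter_subset_filter p (Finset.subset_univ J))
  have hu0 : (0:ℝ) ≤ ((univ \ J).card : ℝ) := Nat.cast_nonneg _
  have hfin := count0 hM Yv fv p J h1 hf1 hf0 hfY hff ha (by linarith)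
  linarith

end Crest.Agent.R042.S60CE
end

-- ▼ part R042/S60A_840
section

/-! Row 42, S0060, Lemma A (helper840): two completely joined supports never both carry a
non-positive non-negative vector. -/

set_option autoImplicit false

namespace Crest.Agent.R042.S60A840

open Matrix Finset

variable {V : Type*} [Fintype V] [DecidableEq V]

/-- a vector of non-positive form, orthogonal to `b`, is in the kernel -/
theorem ker_of_nonpos {M : Matrix V V ℝ} (hM : M.IsSymm) (b : V → ℝ)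
    (hb : ∀ z : V → ℝ, 0 ≤ z ⬝ᵥ M *ᵥ z + (b ⬝ᵥ z) ^ 2)
    (x : V → ℝ) (hx : x ⬝ᵥ M *ᵥ x ≤ 0) (hbx : b ⬝ᵥ x = 0) : M *ᵥ x = 0 := by
  -- for every z and s : 0 ≤ q (x + s z) + (b·(x+s z))^2
  have key : ∀ z : V → ℝ, z ⬝ᵥ M *ᵥ x = 0 := by
    intro z
    have hq : ∀ s : ℝ, 0 ≤ s ^ 2 * (z ⬝ᵥ M *ᵥ z + (b ⬝ᵥ z) ^ 2) + 2 * s * (z ⬝ᵥ M *ᵥ x) := by
      intro s
      have h := hb (x + s • z)
      have e1 : (x + s • z) ⬝ᵥ M *ᵥ (x + s • z)
          = x ⬝ᵥ M *ᵥ x + 2 * s * (z ⬝ᵥ M *ᵥ x) + s ^ 2 * (z ⬝ᵥ M *ᵥ z) := by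
        rw [Matrix.mulVec_add, Matrix.mulVec_smul, dotProduct_add, add_dotProduct, add_dotProduct,
          smul_dotProduct, smul_dotProduct, dotProduct_smul, dotProduct_smul,
          S60Lin.bil_comm hM x z]
        simp only [smul_eq_mul]
        ring
      have e2 : b ⬝ᵥ (x + s • z) = s * (b ⬝ᵥ z) := by
        rw [dotProduct_add, hbx, dotProduct_smul, smul_eq_mul, zero_add]
      rw [e1, e2] at h
      nlinarith [h, hx]
    set A := z ⬝ᵥ M *ᵥ z + (b ⬝ᵥ z) ^ 2 with hA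
    set B := z ⬝ᵥ M *ᵥ x with hB
    have hA0 : 0 ≤ A := hb z
    by_contra hne
    have h1 := hq (-B / (A + 1))
    have hA1 : 0 < A + 1 := by linarith
    have h2 : (-B / (A + 1)) ^ 2 * A + 2 * (-B / (A + 1)) * B
        = -(B ^ 2 * (A + 2)) / (A + 1) ^ 2 := by
      field_simp
      ring
    rw [h2] at h1
    have h3 : 0 < B ^ 2 * (A + 2) / (A + 1) ^ 2 := by
      have : 0 < B ^ 2 := by positivity
      positivity
    rw [neg_div] at h1
    linarith
  funext v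
  have h := key (Pi.single v 1)
  rw [single_dotProduct, one_mul] at h
  simpa using h

/-- LEMMA A, general form. -/
theorem lemmaA {M : Matrix V V ℝ} (hM : M.IsSymm) (H : SimpleGraph V) (hH : H.CliqueFree 3)
    (hneg : ∀ u v, u ≠ v → M u v ≤ 0) (hzero : ∀ u v, u ≠ v → (M u v = 0 ↔ H.Adj u v))
    (b : V → ℝ) (hb0 : ∀ v, 0 ≤ b v)
    (hb : ∀ z : V → ℝ, 0 ≤ z ⬝ᵥ M *ᵥ z + (b ⬝ᵥ z) ^ 2)
    (Y Z : Finset V) (y z : V → ℝ)
    (hy : ∀ v ∈ Y, 0 < y v) (hy0 : ∀ v, v ∉ Y → y v = 0)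
    (hz : ∀ v ∈ Z, 0 < z v) (hz0 : ∀ v, v ∉ Z → z v = 0)
    (hYne : Y.Nonempty) (hZne : Z.Nonempty)
    (hj : ∀ a ∈ Y, ∀ c ∈ Z, H.Adj a c)
    (tw1 : ∃ v, v ∉ Y ∧ v ∉ Z ∧ ∀ a ∈ Y, H.Adj v a)
    (tw2 : ∃ v v', v ∉ Y ∧ v' ∉ Y ∧ H.Adj v v')
    (tw3 : ∃ v v', v ∉ Z ∧ v' ∉ Z ∧ H.Adj v v')
    (hqy : y ⬝ᵥ M *ᵥ y ≤ 0) (hqz : z ⬝ᵥ M *ᵥ z ≤ 0) : False := by
  classical
  have tri : ∀ a c d, H.Adj a c → H.Adj a d → H.Adj c d → False := by
    intro a c d h1 h2 h3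
    exact hH {a, c, d} (SimpleGraph.is3Clique_triple_iff.2 ⟨h1, h2, h3⟩)
  -- the value of M x at a point
  have hMy : ∀ v, (M *ᵥ y) v = ∑ a ∈ Y, M v a * y a := by
    intro v
    rw [Matrix.mulVec, dotProduct]
    symm
    apply Finset.sum_subset (Finset.subset_univ _)
    intro a _ ha
    rw [hy0 a ha, mul_zero]
  have hMz : ∀ v, (M *ᵥ z) v = ∑ a ∈ Z, M v a * z a := by
    intro v
    rw [Matrix.mulVec, dotProduct]
    symm
    apply Finset.sum_subset (Finset.subset_univ _)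
    intro a _ ha
    rw [hz0 a ha, mul_zero]
  -- a zero value outside the support forces full adjacency
  have full : ∀ (S : Finset V) (s : V → ℝ), (∀ v ∈ S, 0 < s v) → ∀ v, v ∉ S →
      ∑ a ∈ S, M v a * s a = 0 → ∀ a ∈ S, H.Adj v a := by
    intro S s hs v hv h0 a ha
    have hle : ∀ i ∈ S, M v i * s i ≤ 0 := by
      intro i hi
      have hne : v ≠ i := by rintro rfl; exact hv hi
      exact mul_nonpos_of_nonpos_of_nonneg (hneg v i hne) (hs i hi).le
    have h1 := (Finset.sum_eq_zero_iff_of_nonpos hle).1 h0 a ha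
    have hne : v ≠ a := by rintro rfl; exact hv ha
    have h2 : M v a = 0 := by
      rcases mul_eq_zero.1 h1 with h | h
      · exact h
      · exact absurd h (hs a ha).ne'
    exact (hzero v a hne).1 h2
  have zero : ∀ (S : Finset V) (s : V → ℝ), ∀ v, v ∉ S → (∀ a ∈ S, H.Adj v a) →
      ∑ a ∈ S, M v a * s a = 0 := by
    intro S s v hv h
    apply Finset.sum_eq_zero
    intro a ha
    have hne : v ≠ a := by rintro rfl; exact hv ha
    rw [(hzero v a hne).2 (h a ha), zero_mul]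
  -- orthogonality
  have hcross : y ⬝ᵥ M *ᵥ z = 0 := by
    rw [dotProduct]
    apply Finset.sum_eq_zero
    intro v _
    by_cases hv : v ∈ Y
    · have hvZ : v ∉ Z := fun h => H.loopless.irrefl v (hj v hv v h)
      rw [hMz, zero Z z v hvZ (fun a ha => hj v hv a ha), mul_zero]
    · rw [hy0 v hv, zero_mul]
  have hcross2 : z ⬝ᵥ M *ᵥ y = 0 := by rw [S60Lin.bil_comm hM]; exact hcross
  have hby : 0 ≤ b ⬝ᵥ y := by
    apply Finset.sum_nonneg
    intro v _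
    by_cases hv : v ∈ Y
    · exact mul_nonneg (hb0 v) (hy v hv).le
    · rw [hy0 v hv, mul_zero]
  have hbz : 0 ≤ b ⬝ᵥ z := by
    apply Finset.sum_nonneg
    intro v _
    by_cases hv : v ∈ Z
    · exact mul_nonneg (hb0 v) (hz v hv).le
    · rw [hz0 v hv, mul_zero]
  -- kernel alone
  have alone : ∀ (S : Finset V) (s : V → ℝ), (∀ v ∈ S, 0 < s v) → S.Nonempty →
      (∀ v, (M *ᵥ s) v = ∑ a ∈ S, M v a * s a) → M *ᵥ s = 0 →
      (∃ v v', v ∉ S ∧ v' ∉ S ∧ H.Adj v v') → False := by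
    intro S s hs hne hMs h0 ⟨v, v', hv, hv', hadj⟩
    obtain ⟨a, ha⟩ := hne
    have h1 : H.Adj v a := full S s hs v hv (by rw [← hMs, h0]; rfl) a ha
    have h2 : H.Adj v' a := full S s hs v' hv' (by rw [← hMs, h0]; rfl) a ha
    exact tri v v' a hadj h1 h2
  rcases hby.eq_or_lt with h | hbypos
  · exact alone Y y hy hYne hMy (ker_of_nonpos hM b hb y hqy h.symm) tw2
  rcases hbz.eq_or_lt with h | hbzpos
  · exact alone Z z hz hZne hMz (ker_of_nonpos hM b hb z hqz h.symm) tw3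
  -- both positive
  set al := b ⬝ᵥ z with hal
  set be := b ⬝ᵥ y with hbe
  have hx : (al • y - be • z) ⬝ᵥ M *ᵥ (al • y - be • z) ≤ 0 := by
    have e1 : (al • y - be • z) ⬝ᵥ M *ᵥ (al • y - be • z)
        = al ^ 2 * (y ⬝ᵥ M *ᵥ y) + be ^ 2 * (z ⬝ᵥ M *ᵥ z) := by
      rw [Matrix.mulVec_sub, Matrix.mulVec_smul, Matrix.mulVec_smul, dotProduct_sub,
        sub_dotProduct, sub_dotProduct, smul_dotProduct, smul_dotProduct, smul_dotProduct,
        smul_dotProduct, dotProduct_smul, dotProduct_smul, dotProduct_smul, dotProduct_smul,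
        hcross, hcross2]
      simp only [smul_eq_mul]
      ring
    rw [e1]
    have h1 : al ^ 2 * (y ⬝ᵥ M *ᵥ y) ≤ 0 := mul_nonpos_of_nonneg_of_nonpos (sq_nonneg _) hqy
    have h2 : be ^ 2 * (z ⬝ᵥ M *ᵥ z) ≤ 0 := mul_nonpos_of_nonneg_of_nonpos (sq_nonneg _) hqz
    linarith
  have hbx : b ⬝ᵥ (al • y - be • z) = 0 := by
    rw [dotProduct_sub, dotProduct_smul, dotProduct_smul, smul_eq_mul, smul_eq_mul, ← hal, ← hbe]
    ring
  have hker := ker_of_nonpos hM b hb _ hx hbx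
  obtain ⟨v, hvY, hvZ, hv⟩ := tw1
  have h1 : (M *ᵥ (al • y - be • z)) v = 0 := by rw [hker]; rfl
  rw [Matrix.mulVec_sub, Matrix.mulVec_smul, Matrix.mulVec_smul, Pi.sub_apply, Pi.smul_apply,
    Pi.smul_apply, hMy, hMz, zero Y y v hvY hv] at h1
  simp only [smul_eq_mul, mul_zero, zero_sub, neg_eq_zero, mul_eq_zero] at h1
  rcases h1 with h1 | h1
  · exact absurd h1 hbypos.ne'
  · obtain ⟨a, ha⟩ := hYne
    obtain ⟨c, hc⟩ := hZne
    have h2 := full Z z hz v hvZ h1 c hc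
    exact tri v a c (hv a ha) h2 (hj a ha c hc)

/-- the blow-up of `F` with classes of size `L` -/
def blow {W : Type*} (F : SimpleGraph W) (L : ℕ) : SimpleGraph (W × Fin L) where
  Adj u v := F.Adj u.1 v.1
  symm := ⟨fun _ _ h => SimpleGraph.Adj.symm h⟩
  loopless := ⟨fun u h => F.loopless.irrefl u.1 h⟩

/-- a twin off a set of at most two vertices -/
theorem exists_twin {W : Type*} [DecidableEq W] {L : ℕ} (hL : 3 ≤ L) (S : Finset (W × Fin L))
    (hS : S.card ≤ 2) (i : W) : ∃ a : Fin L, (i, a) ∉ S := by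
  classical
  by_contra h
  push Not at h
  have h1 : (Finset.univ.image (fun a : Fin L => (i, a))) ⊆ S := by
    intro x hx
    rw [Finset.mem_image] at hx
    obtain ⟨a, _, rfl⟩ := hx
    exact h a
  have h2 := Finset.card_le_card h1
  rw [Finset.card_image_of_injective _ (fun a b hab => (Prod.mk.inj hab).2), Finset.card_univ,
    Fintype.card_fin] at h2
  omega

/-- LEMMA A for the blow-up: no twin hypotheses. -/
theorem lemmaA_blow {W : Type*} [Fintype W] [DecidableEq W] (F : SimpleGraph W)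
    (hF : F.CliqueFree 3) {L : ℕ} (hL : 3 ≤ L)
    {M : Matrix (W × Fin L) (W × Fin L) ℝ} (hM : M.IsSymm)
    (hneg : ∀ u v, u ≠ v → M u v ≤ 0) (hzero : ∀ u v, u ≠ v → (M u v = 0 ↔ F.Adj u.1 v.1))
    (b : W × Fin L → ℝ) (hb0 : ∀ v, 0 ≤ b v)
    (hb : ∀ z : W × Fin L → ℝ, 0 ≤ z ⬝ᵥ M *ᵥ z + (b ⬝ᵥ z) ^ 2)
    (Y Z : Finset (W × Fin L)) (y z : W × Fin L → ℝ)
    (hy : ∀ v ∈ Y, 0 < y v) (hy0 : ∀ v, v ∉ Y → y v = 0)
    (hz : ∀ v ∈ Z, 0 < z v) (hz0 : ∀ v, v ∉ Z → z v = 0)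
    (hYne : Y.Nonempty) (hZne : Z.Nonempty) (hYc : Y.card ≤ 2) (hZc : Z.card ≤ 2)
    (hj : ∀ a ∈ Y, ∀ c ∈ Z, F.Adj a.1 c.1)
    (hqy : y ⬝ᵥ M *ᵥ y ≤ 0) (hqz : z ⬝ᵥ M *ᵥ z ≤ 0) : False := by
  classical
  have hH : (blow F L).CliqueFree 3 := by
    intro s hs
    rw [SimpleGraph.is3Clique_iff] at hs
    obtain ⟨a, c, d, h1, h2, h3, _⟩ := hs
    exact hF {a.1, c.1, d.1} (SimpleGraph.is3Clique_triple_iff.2 ⟨h1, h2, h3⟩)
  obtain ⟨y0, hy0m⟩ := hYne
  obtain ⟨z0, hz0m⟩ := hZne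
  obtain ⟨a1, ha1⟩ := exists_twin hL Z hZc z0.1
  obtain ⟨a2, ha2⟩ := exists_twin hL Y hYc y0.1
  obtain ⟨a3, ha3⟩ := exists_twin hL Y hYc z0.1
  obtain ⟨a4, ha4⟩ := exists_twin hL Z hZc y0.1
  have hadj := hj y0 hy0m z0 hz0m
  refine lemmaA hM (blow F L) hH hneg hzero b hb0 hb Y Z y z hy hy0 hz hz0 ⟨y0, hy0m⟩ ⟨z0, hz0m⟩
    hj ⟨(z0.1, a1), ?_, ha1, ?_⟩ ⟨(y0.1, a2), (z0.1, a3), ha2, ha3, hadj⟩
    ⟨(y0.1, a4), (z0.1, a1), ha4, ha1, hadj⟩ hqy hqz
  · intro hmem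
    exact F.loopless.irrefl z0.1 (hj _ hmem z0 hz0m)
  · intro a ha
    exact (hj a ha z0 hz0m).symm

end Crest.Agent.R042.S60A840
end

-- ▼ part R042/S60Sys_840
section

/-! Row 42, S0060, steps (0)-(2) (helper840): existence of the item system. -/

set_option autoImplicit false

namespace Crest.Agent.R042.S60Sys840

open Matrix Finset

/-- vertices of a set of pairs -/
def verts {V : Type*} [DecidableEq V] (P : Finset (V × V)) : Finset V :=
  P.biUnion (fun p => {p.1, p.2})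

theorem mem_verts {V : Type*} [DecidableEq V] {P : Finset (V × V)} {v : V} :
    v ∈ verts P ↔ ∃ p ∈ P, v = p.1 ∨ v = p.2 := by
  simp [verts]

/-- pairwise disjoint pairs of distinct vertices -/
def IsMatch {V : Type*} [DecidableEq V] (P : Finset (V × V)) : Prop :=
  (∀ p ∈ P, p.1 ≠ p.2) ∧
    ∀ p ∈ P, ∀ q ∈ P, p ≠ q → Disjoint ({p.1, p.2} : Finset V) {q.1, q.2}

theorem card_verts_le {V : Type*} [DecidableEq V] (P : Finset (V × V)) :
    (verts P).card ≤ 2 * P.card := by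
  unfold verts
  calc (P.biUnion fun p => ({p.1, p.2} : Finset V)).card
      ≤ ∑ p ∈ P, ({p.1, p.2} : Finset V).card := card_biUnion_le
    _ ≤ ∑ _p ∈ P, 2 := sum_le_sum (fun p _ => card_le_two)
    _ = 2 * P.card := by rw [sum_const, smul_eq_mul, mul_comm]

/-- a maximal matching for a symmetric relation inside `S` -/
theorem exists_maxMatch {V : Type*} [Fintype V] [DecidableEq V] (rel : V → V → Prop)
    (S : Finset V) :
    ∃ P : Finset (V × V), IsMatch P ∧ (∀ p ∈ P, p.1 ∈ S ∧ p.2 ∈ S ∧ rel p.1 p.2) ∧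
      ∀ u ∈ S, ∀ v ∈ S, u ∉ verts P → v ∉ verts P → u ≠ v → ¬ rel u v := by
  classical
  let C : Finset (Finset (V × V)) := univ.filter
    (fun P => IsMatch P ∧ ∀ p ∈ P, p.1 ∈ S ∧ p.2 ∈ S ∧ rel p.1 p.2)
  have hC : C.Nonempty := by
    refine ⟨∅, ?_⟩
    simp [C, IsMatch]
  obtain ⟨P, hP, hmax⟩ := C.exists_max_image (fun P => P.card) hC
  simp only [C, mem_filter, mem_univ, true_and] at hP
  refine ⟨P, hP.1, hP.2, ?_⟩
  intro u hu v hv huP hvP huv hrel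
  have hnot : (u, v) ∉ P := fun h => huP (mem_verts.2 ⟨_, h, Or.inl rfl⟩)
  have hmem : insert (u, v) P ∈ C := by
    simp only [C, mem_filter, mem_univ, true_and]
    have hdis : ∀ q ∈ P, Disjoint ({u, v} : Finset V) {q.1, q.2} := by
      intro q hq
      rw [disjoint_left]
      intro a ha hb
      rw [mem_insert, mem_singleton] at ha hb
      rcases ha with rfl | rfl
      · exact huP (mem_verts.2 ⟨q, hq, hb⟩)
      · exact hvP (mem_verts.2 ⟨q, hq, hb⟩)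
    refine ⟨⟨?_, ?_⟩, ?_⟩
    · intro p hp
      rcases mem_insert.1 hp with rfl | hp
      · exact huv
      · exact hP.1.1 p hp
    · intro p hp q hq hpq
      rcases mem_insert.1 hp with rfl | hp'
      · rcases mem_insert.1 hq with rfl | hq'
        · exact absurd rfl hpq
        · exact hdis q hq'
      · rcases mem_insert.1 hq with rfl | hq'
        · exact (hdis p hp').symm
        · exact hP.1.2 p hp' q hq' hpq
    · intro p hp
      rcases mem_insert.1 hp with rfl | hp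
      · exact ⟨hu, hv, hrel⟩
      · exact hP.2 p hp
  have h1 := hmax _ hmem
  rw [card_insert_of_notMem hnot] at h1
  omega

variable {W : Type*} [Fintype W] [DecidableEq W]

/-- the scaled correlation -/
noncomputable def beta {V : Type*} (M : Matrix V V ℝ) (u v : V) : ℝ :=
  -M u v / (Real.sqrt (M u u) * Real.sqrt (M v v))

theorem quad_pair {V : Type*} [Fintype V] [DecidableEq V] (M : Matrix V V ℝ) (hM : M.IsSymm)
    (u v : V) (huv : u ≠ v) (x y : ℝ) :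
    (fun w => if w = u then x else if w = v then y else 0) ⬝ᵥ
      M *ᵥ (fun w => if w = u then x else if w = v then y else 0)
      = x ^ 2 * M u u + 2 * x * y * M u v + y ^ 2 * M v v := by
  have e : (fun w => if w = u then x else if w = v then y else 0)
      = x • (Pi.single u (1 : ℝ)) + y • (Pi.single v (1 : ℝ)) := by
    funext w
    by_cases h1 : w = u
    · subst h1
      simp [huv]
    · by_cases h2 : w = v
      · subst h2
        simp [h1]
      · simp [h1, h2]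
  rw [e, Matrix.mulVec_add, Matrix.mulVec_smul, Matrix.mulVec_smul, dotProduct_add,
    add_dotProduct, add_dotProduct]
  simp only [smul_dotProduct, dotProduct_smul, smul_eq_mul, Matrix.mulVec_single_one,
    single_dotProduct, one_mul, Matrix.col_apply]
  have hs : M v u = M u v := by
    have := congrFun (congrFun hM u) v
    rwa [Matrix.transpose_apply] at this
  rw [hs]
  ring


end Crest.Agent.R042.S60Sys840
end

-- ▼ part R042/S60Geom_427
section

/-! Row 42, S0060: pair geometry and the item system `M ∪ R` (helper427). -/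

set_option autoImplicit false

namespace Crest.Agent.R042.S60Geom427

open Matrix Finset
open Crest.Agent.R042.S60Sys840 (verts mem_verts IsMatch exists_maxMatch card_verts_le beta)

variable {V : Type*} [Fintype V] [DecidableEq V]

/-- scaled coordinate vector -/
noncomputable def X (M : Matrix V V ℝ) (v : V) : V → ℝ := (1 / √(M v v)) • Pi.single v (1 : ℝ)

theorem X_X (M : Matrix V V ℝ) (u v : V) :
    X M u ⬝ᵥ M *ᵥ X M v = (1 / √(M u u)) * (1 / √(M v v)) * M u v := by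
  unfold X
  rw [Matrix.mulVec_smul, smul_dotProduct, dotProduct_smul, Matrix.mulVec_single_one,
    single_dotProduct, one_mul, Matrix.col_apply]
  simp only [smul_eq_mul]
  ring

theorem X_beta (M : Matrix V V ℝ) (u v : V) : X M u ⬝ᵥ M *ᵥ X M v = - beta M u v := by
  rw [X_X]
  unfold beta
  rw [neg_div, neg_neg, one_div, one_div, div_eq_mul_inv, mul_inv]
  ring

theorem X_self (M : Matrix V V ℝ) (v : V) (h : 0 < M v v) : X M v ⬝ᵥ M *ᵥ X M v = 1 := by
  rw [X_X, one_div, ← mul_inv, Real.mul_self_sqrt h.le]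
  exact inv_mul_cancel₀ h.ne'

theorem X_nonneg (M : Matrix V V ℝ) (v w : V) : 0 ≤ X M v w := by
  unfold X
  rw [Pi.smul_apply, smul_eq_mul]
  apply mul_nonneg (by positivity)
  by_cases h : w = v
  · subst h; simp
  · simp [h]

theorem X_off (M : Matrix V V ℝ) (hoff : ∀ u v, u ≠ v → M u v ≤ 0) (u v : V) (huv : u ≠ v) :
    X M u ⬝ᵥ M *ᵥ X M v ≤ 0 := by
  rw [X_X]
  exact mul_nonpos_of_nonneg_of_nonpos (by positivity) (hoff u v huv)

theorem X_zero (M : Matrix V V ℝ) (u v : V) (h : M u v = 0) :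
    X M u ⬝ᵥ M *ᵥ X M v = 0 := by
  rw [X_X, h, mul_zero]

theorem bil_sum (M : Matrix V V ℝ) (a c : ℝ) (A B : Finset V) :
    (a • ∑ u ∈ A, X M u) ⬝ᵥ M *ᵥ (c • ∑ v ∈ B, X M v) =
      a * c * ∑ u ∈ A, ∑ v ∈ B, X M u ⬝ᵥ M *ᵥ X M v := by
  rw [Matrix.mulVec_smul, smul_dotProduct, dotProduct_smul, sum_dotProduct]
  simp only [Matrix.mulVec_sum, dotProduct_sum, smul_eq_mul]
  ring

/-- the items: pairs and remaining single vertices -/
abbrev It (J : Finset V) (P : Finset (V × V)) : Type _ :=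
  {p : V × V // p ∈ P} ⊕ {v : V // v ∈ J ∧ v ∉ verts P}

/-- support -/
def supp {J : Finset V} {P : Finset (V × V)} : It J P → Finset V
  | Sum.inl p => {p.1.1, p.1.2}
  | Sum.inr v => {v.1}

/-- normalising constant -/
noncomputable def cst (M : Matrix V V ℝ) {J : Finset V} {P : Finset (V × V)} : It J P → ℝ
  | Sum.inl p => 1 / √(2 - 2 * beta M p.1.1 p.1.2)
  | Sum.inr _ => 1

/-- unit item vectors -/
noncomputable def Yv (M : Matrix V V ℝ) {J : Finset V} {P : Finset (V × V)} (i : It J P) : V → ℝ :=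
  cst M i • ∑ v ∈ supp i, X M v

/-- the antisymmetric vectors -/
noncomputable def fv (M : Matrix V V ℝ) {J : Finset V} {P : Finset (V × V)} : It J P → V → ℝ
  | Sum.inl p => (1 / √(2 + 2 * beta M p.1.1 p.1.2)) • (X M p.1.1 - X M p.1.2)
  | Sum.inr _ => 0

/-- the item is a pair -/
def isP {J : Finset V} {P : Finset (V × V)} (i : It J P) : Prop := i.isLeft = true

instance {J : Finset V} {P : Finset (V × V)} : DecidablePred (isP (J := J) (P := P)) :=
  fun i => inferInstanceAs (Decidable (i.isLeft = true))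

theorem cst_nonneg (M : Matrix V V ℝ) {J : Finset V} {P : Finset (V × V)} (i : It J P) :
    0 ≤ cst M i := by
  rcases i with p | v
  · exact div_nonneg zero_le_one (Real.sqrt_nonneg _)
  · exact zero_le_one




theorem supp_disj {J : Finset V} {P : Finset (V × V)} (hP : IsMatch P) (i j : It J P)
    (hij : i ≠ j) : Disjoint (supp i) (supp j) := by
  rcases i with p | v <;> rcases j with q | w
  · exact hP.2 _ p.2 _ q.2 (fun h => hij (by rw [Subtype.ext h]))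
  · rw [disjoint_left]
    intro a ha hb
    simp only [supp, mem_insert, mem_singleton] at ha hb
    subst hb
    exact w.2.2 (mem_verts.2 ⟨_, p.2, ha⟩)
  · rw [disjoint_left]
    intro a ha hb
    simp only [supp, mem_insert, mem_singleton] at ha hb
    subst ha
    exact v.2.2 (mem_verts.2 ⟨_, q.2, hb⟩)
  · rw [disjoint_left]
    intro a ha hb
    simp only [supp, mem_singleton] at ha hb
    exact hij (by rw [Subtype.ext (ha.symm.trans hb)])

theorem Y_nonneg (M : Matrix V V ℝ) {J : Finset V} {P : Finset (V × V)} (i : It J P) (w : V) :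
    0 ≤ Yv M i w := by
  unfold Yv
  rw [Pi.smul_apply, smul_eq_mul, Finset.sum_apply]
  exact mul_nonneg (cst_nonneg M i) (sum_nonneg fun v _ => X_nonneg M v w)

theorem Y_off (M : Matrix V V ℝ) (hoff : ∀ u v, u ≠ v → M u v ≤ 0) {J : Finset V}
    {P : Finset (V × V)} (hP : IsMatch P) (i j : It J P) (hij : i ≠ j) :
    Yv M i ⬝ᵥ M *ᵥ Yv M j ≤ 0 := by
  unfold Yv
  rw [bil_sum]
  refine mul_nonpos_of_nonneg_of_nonpos (mul_nonneg (cst_nonneg M i) (cst_nonneg M j)) ?_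
  refine sum_nonpos fun u hu => sum_nonpos fun v hv => X_off M hoff u v ?_
  rintro rfl
  exact disjoint_left.1 (supp_disj hP i j hij) hu hv

theorem Y_zero (M : Matrix V V ℝ) {J : Finset V} {P : Finset (V × V)} (i j : It J P)
    (h : ∀ a ∈ supp i, ∀ b ∈ supp j, M a b = 0) : Yv M i ⬝ᵥ M *ᵥ Yv M j = 0 := by
  unfold Yv
  rw [bil_sum, sum_eq_zero, mul_zero]
  intro u hu
  exact sum_eq_zero fun v hv => X_zero M u v (h u hu v hv)

/-- the item form of a bilinear value -/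
theorem Y_bil (M : Matrix V V ℝ) {J : Finset V} {P : Finset (V × V)} (i j : It J P) :
    Yv M i ⬝ᵥ M *ᵥ Yv M j =
      cst M i * cst M j * ∑ u ∈ supp i, ∑ v ∈ supp j, X M u ⬝ᵥ M *ᵥ X M v := by
  unfold Yv
  rw [bil_sum]

theorem beta_comm (M : Matrix V V ℝ) (hM : M.IsSymm) (u v : V) : beta M u v = beta M v u := by
  have hs : M v u = M u v := by
    have := congrFun (congrFun hM u) v
    rwa [Matrix.transpose_apply] at this
  unfold beta
  rw [hs, mul_comm]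

theorem pair_sum {M : Matrix V V ℝ} {J : Finset V} {P : Finset (V × V)} (hP : IsMatch P)
    (p : {p : V × V // p ∈ P}) (g : V → ℝ) :
    ∑ v ∈ supp (J := J) (Sum.inl p), g v = g p.1.1 + g p.1.2 := by
  simp only [supp]
  rw [sum_pair (hP.1 _ p.2)]

theorem Y_self (M : Matrix V V ℝ) (hM : M.IsSymm) {J : Finset V}
    {P : Finset (V × V)} (hP : IsMatch P) (hPJ : ∀ p ∈ P, p.1 ∈ J ∧ p.2 ∈ J)
    (hpos : ∀ v ∈ J, 0 < M v v) (hb1 : ∀ p ∈ P, beta M p.1 p.2 < 1) (i : It J P) :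
    Yv M i ⬝ᵥ M *ᵥ Yv M i = 1 := by
  rw [Y_bil]
  rcases i with p | v
  · rw [pair_sum (M := M) hP, pair_sum (M := M) hP, pair_sum (M := M) hP]
    rw [X_self M _ (hpos _ (hPJ _ p.2).1), X_self M _ (hpos _ (hPJ _ p.2).2), X_beta, X_beta,
      beta_comm M hM p.1.2 p.1.1]
    simp only [cst]
    have h2 : 0 < 2 - 2 * beta M p.1.1 p.1.2 := by linarith [hb1 _ p.2]
    rw [one_div, ← mul_inv, Real.mul_self_sqrt h2.le]
    have h3 := inv_mul_cancel₀ h2.ne'
    linear_combination h3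
  · simp only [supp, sum_singleton, cst]
    rw [X_self M _ (hpos _ v.2.1)]
    norm_num

theorem f_f (M : Matrix V V ℝ) (hM : M.IsSymm) {J : Finset V}
    {P : Finset (V × V)} (hPJ : ∀ p ∈ P, p.1 ∈ J ∧ p.2 ∈ J)
    (hpos : ∀ v ∈ J, 0 < M v v) (hb9 : ∀ p ∈ P, 9 / 10 ≤ beta M p.1 p.2) (i : It J P)
    (hi : isP i) : fv M i ⬝ᵥ M *ᵥ fv M i = 1 := by
  rcases i with p | v
  · simp only [fv]
    rw [Matrix.mulVec_smul, smul_dotProduct, dotProduct_smul, Matrix.mulVec_sub, dotProduct_sub,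
      sub_dotProduct, sub_dotProduct]
    rw [X_self M _ (hpos _ (hPJ _ p.2).1), X_self M _ (hpos _ (hPJ _ p.2).2), X_beta, X_beta,
      beta_comm M hM p.1.2 p.1.1]
    have h2 : 0 < 2 + 2 * beta M p.1.1 p.1.2 := by linarith [hb9 _ p.2]
    simp only [smul_eq_mul]
    rw [← mul_assoc, one_div, ← mul_inv, Real.mul_self_sqrt h2.le]
    have h3 := inv_mul_cancel₀ h2.ne'
    linear_combination h3
  · simp [isP] at hi

theorem f_Y_self (M : Matrix V V ℝ) (hM : M.IsSymm) {J : Finset V}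
    {P : Finset (V × V)} (hP : IsMatch P) (hPJ : ∀ p ∈ P, p.1 ∈ J ∧ p.2 ∈ J)
    (hpos : ∀ v ∈ J, 0 < M v v) (i : It J P)
    (hi : isP i) : fv M i ⬝ᵥ M *ᵥ Yv M i = 0 := by
  rcases i with p | v
  · have e : Yv M (J := J) (Sum.inl p) = cst M (J := J) (Sum.inl p) • (X M p.1.1 + X M p.1.2) := by
      unfold Yv
      simp only [supp]
      rw [sum_pair (hP.1 _ p.2)]
    rw [e]
    simp only [fv]
    rw [Matrix.mulVec_smul, smul_dotProduct, dotProduct_smul, Matrix.mulVec_add, dotProduct_add,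
      sub_dotProduct, sub_dotProduct]
    rw [X_self M _ (hpos _ (hPJ _ p.2).1), X_self M _ (hpos _ (hPJ _ p.2).2), X_beta, X_beta,
      beta_comm M hM p.1.2 p.1.1]
    simp only [smul_eq_mul]
    ring
  · simp [isP] at hi

/-- key scalar inequality, one factor -/
theorem key1 (β s t : ℝ) (hβ : 9 / 10 ≤ β) (hβ1 : β < 1) (hst : 0 ≤ s * t) :
    19 * ((1 / √(2 + 2 * β)) * (s - t)) ^ 2 ≤ ((1 / √(2 - 2 * β)) * (s + t)) ^ 2 := by
  have h1 : 0 < 2 + 2 * β := by linarith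
  have h2 : 0 < 2 - 2 * β := by linarith
  rw [mul_pow, mul_pow, div_pow, div_pow, Real.sq_sqrt h1.le, Real.sq_sqrt h2.le, one_pow]
  have h3 : (s - t) ^ 2 ≤ (s + t) ^ 2 := by nlinarith
  have h4 : 19 * (1 / (2 + 2 * β)) ≤ 1 / (2 - 2 * β) := by
    rw [mul_one_div, div_le_div_iff₀ h1 h2]
    linarith
  calc 19 * (1 / (2 + 2 * β) * (s - t) ^ 2) = (19 * (1 / (2 + 2 * β))) * (s - t) ^ 2 := by ring
    _ ≤ (1 / (2 - 2 * β)) * (s - t) ^ 2 := mul_le_mul_of_nonneg_right h4 (sq_nonneg _)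
    _ ≤ (1 / (2 - 2 * β)) * (s + t) ^ 2 := mul_le_mul_of_nonneg_left h3 (by positivity)

theorem f_Y (M : Matrix V V ℝ) (hoff : ∀ u v, u ≠ v → M u v ≤ 0) {J : Finset V}
    {P : Finset (V × V)} (hP : IsMatch P)
    (hb9 : ∀ p ∈ P, 9 / 10 ≤ beta M p.1 p.2) (hb1 : ∀ p ∈ P, beta M p.1 p.2 < 1) (i j : It J P)
    (hi : isP i) (hij : i ≠ j) :
    19 * (fv M i ⬝ᵥ M *ᵥ Yv M j) ^ 2 ≤ (Yv M i ⬝ᵥ M *ᵥ Yv M j) ^ 2 := by
  rcases i with p | v
  · have e : Yv M (J := J) (Sum.inl p) =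
        (1 / √(2 - 2 * beta M p.1.1 p.1.2)) • (X M p.1.1 + X M p.1.2) := by
      unfold Yv
      simp only [supp, cst]
      rw [sum_pair (hP.1 _ p.2)]
    have hs : ∀ a ∈ supp (J := J) (P := P) (Sum.inl p), X M a ⬝ᵥ M *ᵥ Yv M j ≤ 0 := by
      intro a ha
      unfold Yv
      rw [Matrix.mulVec_smul, dotProduct_smul, Matrix.mulVec_sum, dotProduct_sum, smul_eq_mul]
      refine mul_nonpos_of_nonneg_of_nonpos (cst_nonneg M j) (sum_nonpos fun v hv => ?_)
      refine X_off M hoff a v ?_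
      rintro rfl
      exact disjoint_left.1 (supp_disj hP _ j hij) ha hv
    have h1 := hs p.1.1 (by simp [supp])
    have h2 := hs p.1.2 (by simp [supp])
    rw [e]
    simp only [fv]
    rw [smul_dotProduct, sub_dotProduct, smul_dotProduct, add_dotProduct, smul_eq_mul, smul_eq_mul]
    exact key1 _ _ _ (hb9 _ p.2) (hb1 _ p.2) (mul_nonneg_of_nonpos_of_nonpos h1 h2)
  · simp [isP] at hi

theorem f_f_off (M : Matrix V V ℝ) (hM : M.IsSymm) (hoff : ∀ u v, u ≠ v → M u v ≤ 0) {J : Finset V}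
    {P : Finset (V × V)} (hP : IsMatch P)
    (hb9 : ∀ p ∈ P, 9 / 10 ≤ beta M p.1 p.2) (hb1 : ∀ p ∈ P, beta M p.1 p.2 < 1) (i j : It J P)
    (hi : isP i) (hj : isP j) (hij : i ≠ j) :
    361 * (fv M i ⬝ᵥ M *ᵥ fv M j) ^ 2 ≤ (Yv M i ⬝ᵥ M *ᵥ Yv M j) ^ 2 := by
  rcases i with p | v
  · rcases j with q | w
    · have e : ∀ p : {p : V × V // p ∈ P}, Yv M (J := J) (Sum.inl p) =
          (1 / √(2 - 2 * beta M p.1.1 p.1.2)) • (X M p.1.1 + X M p.1.2) := by
        intro p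
        unfold Yv
        simp only [supp, cst]
        rw [sum_pair (hP.1 _ p.2)]
      have hs : ∀ a ∈ supp (J := J) (P := P) (Sum.inl p), ∀ b ∈ supp (J := J) (P := P) (Sum.inl q),
          X M a ⬝ᵥ M *ᵥ X M b ≤ 0 := by
        intro a ha b hb
        refine X_off M hoff a b ?_
        rintro rfl
        exact disjoint_left.1 (supp_disj hP _ _ hij) ha hb
      have h11 := hs p.1.1 (by simp [supp]) q.1.1 (by simp [supp])
      have h12 := hs p.1.1 (by simp [supp]) q.1.2 (by simp [supp])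
      have h21 := hs p.1.2 (by simp [supp]) q.1.1 (by simp [supp])
      have h22 := hs p.1.2 (by simp [supp]) q.1.2 (by simp [supp])
      rw [e, e]
      simp only [fv]
      rw [Matrix.mulVec_smul, smul_dotProduct, dotProduct_smul, Matrix.mulVec_sub, dotProduct_sub,
        sub_dotProduct, sub_dotProduct, Matrix.mulVec_smul, smul_dotProduct, dotProduct_smul,
        Matrix.mulVec_add, dotProduct_add, add_dotProduct, add_dotProduct]
      simp only [smul_eq_mul]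
      set x11 := X M p.1.1 ⬝ᵥ M *ᵥ X M q.1.1
      set x12 := X M p.1.1 ⬝ᵥ M *ᵥ X M q.1.2
      set x21 := X M p.1.2 ⬝ᵥ M *ᵥ X M q.1.1
      set x22 := X M p.1.2 ⬝ᵥ M *ᵥ X M q.1.2
      have hp9 := hb9 _ p.2
      have hp1 := hb1 _ p.2
      have hq9 := hb9 _ q.2
      have hq1 := hb1 _ q.2
      have k1 : 0 < 2 + 2 * beta M p.1.1 p.1.2 := by linarith
      have k2 : 0 < 2 - 2 * beta M p.1.1 p.1.2 := by linarith
      have k3 : 0 < 2 + 2 * beta M q.1.1 q.1.2 := by linarith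
      have k4 : 0 < 2 - 2 * beta M q.1.1 q.1.2 := by linarith
      have e1 : (1 / √(2 + 2 * beta M p.1.1 p.1.2) * ((1 / √(2 + 2 * beta M q.1.1 q.1.2)) *
          (x11 - x21 - (x12 - x22)))) ^ 2 =
          (1 / (2 + 2 * beta M p.1.1 p.1.2)) * (1 / (2 + 2 * beta M q.1.1 q.1.2)) *
            (x11 - x21 - (x12 - x22)) ^ 2 := by
        rw [mul_pow, mul_pow, div_pow, div_pow, Real.sq_sqrt k1.le, Real.sq_sqrt k3.le, one_pow,
          mul_assoc]
      have e2 : (1 / √(2 - 2 * beta M p.1.1 p.1.2) * (1 / √(2 - 2 * beta M q.1.1 q.1.2) *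
          (x11 + x21 + (x12 + x22)))) ^ 2 =
          (1 / (2 - 2 * beta M p.1.1 p.1.2)) * (1 / (2 - 2 * beta M q.1.1 q.1.2)) *
            (x11 + x21 + (x12 + x22)) ^ 2 := by
        rw [mul_pow, mul_pow, div_pow, div_pow, Real.sq_sqrt k2.le, Real.sq_sqrt k4.le, one_pow,
          mul_assoc]
      have l1 : 19 * (1 / (2 + 2 * beta M p.1.1 p.1.2)) ≤ 1 / (2 - 2 * beta M p.1.1 p.1.2) := by
        rw [mul_one_div, div_le_div_iff₀ k1 k2]
        linarith
      have l2 : 19 * (1 / (2 + 2 * beta M q.1.1 q.1.2)) ≤ 1 / (2 - 2 * beta M q.1.1 q.1.2) := by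
        rw [mul_one_div, div_le_div_iff₀ k3 k4]
        linarith
      have l3 : (x11 - x21 - (x12 - x22)) ^ 2 ≤ (x11 + x21 + (x12 + x22)) ^ 2 := by
        have h := sq_le_sq' (a := x11 - x21 - (x12 - x22)) (b := -(x11 + x21 + (x12 + x22)))
          (by linarith) (by linarith)
        rwa [neg_sq] at h
      rw [e1, e2]
      calc 361 * ((1 / (2 + 2 * beta M p.1.1 p.1.2)) * (1 / (2 + 2 * beta M q.1.1 q.1.2)) *
            (x11 - x21 - (x12 - x22)) ^ 2)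
          = ((19 * (1 / (2 + 2 * beta M p.1.1 p.1.2))) * (19 * (1 / (2 + 2 * beta M q.1.1 q.1.2)))) *
            (x11 - x21 - (x12 - x22)) ^ 2 := by ring
        _ ≤ ((1 / (2 - 2 * beta M p.1.1 p.1.2)) * (1 / (2 - 2 * beta M q.1.1 q.1.2))) *
            (x11 - x21 - (x12 - x22)) ^ 2 := by
            apply mul_le_mul_of_nonneg_right _ (sq_nonneg _)
            apply mul_le_mul l1 l2 (by positivity) (by positivity)
        _ ≤ ((1 / (2 - 2 * beta M p.1.1 p.1.2)) * (1 / (2 - 2 * beta M q.1.1 q.1.2))) *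
            (x11 + x21 + (x12 + x22)) ^ 2 := by
            apply mul_le_mul_of_nonneg_left l3 (by positivity)
    · simp [isP] at hj
  · simp [isP] at hi

theorem card_verts (P : Finset (V × V)) (hP : IsMatch P) : (verts P).card = 2 * P.card := by
  unfold verts
  rw [card_biUnion (fun p hp q hq hpq => hP.2 p hp q hq hpq)]
  rw [sum_congr rfl (fun p hp => card_pair (hP.1 p hp)), sum_const, smul_eq_mul, mul_comm]

/-- number of items and number of pair items -/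
theorem card_It (J : Finset V) (P : Finset (V × V)) (hP : IsMatch P)
    (hPJ : ∀ p ∈ P, p.1 ∈ J ∧ p.2 ∈ J) :
    Fintype.card (It J P) + P.card = J.card := by
  classical
  have hsub : verts P ⊆ J := by
    intro v hv
    obtain ⟨p, hp, h⟩ := mem_verts.1 hv
    rcases h with rfl | rfl
    · exact (hPJ p hp).1
    · exact (hPJ p hp).2
  have h1 : Fintype.card {v : V // v ∈ J ∧ v ∉ verts P} = (J \ verts P).card := by
    rw [Fintype.card_subtype]
    congr 1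
    ext v
    simp
  have h2 : (J \ verts P).card + (verts P).card = J.card := card_sdiff_add_card_eq_card hsub
  rw [card_verts P hP] at h2
  rw [Fintype.card_sum, h1, Fintype.card_coe]
  omega

theorem card_isP (J : Finset V) (P : Finset (V × V)) :
    (univ.filter (isP (J := J) (P := P))).card = P.card := by
  classical
  have : univ.filter (isP (J := J) (P := P)) =
      (univ : Finset {p : V × V // p ∈ P}).map ⟨Sum.inl, Sum.inl_injective⟩ := by
    ext i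
    rcases i with p | v
    · simp [isP]
    · simp [isP]
  rw [this, card_map, card_univ, Fintype.card_coe]

open Classical in
/-- KIND CHOICE. -/
theorem exists_kind (J : Finset V) (hv : V → V → Prop) (hsymm : ∀ u v, hv u v → hv v u)
    (hirr : ∀ u, ¬ hv u u)
    (huniq : ∀ u ∈ J, ∀ v ∈ J, ∀ w ∈ J, hv u v → hv u w → v = w)
    (k : Bool → V → V → Prop) (hk : ∀ u v, k true u v ∨ k false u v)
    (hks : ∀ c u v, k c u v → k c v u) :
    ∃ c, ∃ P : Finset (V × V), IsMatch P ∧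
      (∀ p ∈ P, p.1 ∈ J ∧ p.2 ∈ J ∧ hv p.1 p.2 ∧ k c p.1 p.2) ∧
      (J.filter (fun u => ∃ v ∈ J, hv u v)).card ≤ 4 * P.card := by
  classical
  have step : ∀ c, ∃ P : Finset (V × V), IsMatch P ∧
      (∀ p ∈ P, p.1 ∈ J ∧ p.2 ∈ J ∧ hv p.1 p.2 ∧ k c p.1 p.2) ∧
      (J.filter (fun u => ∃ v ∈ J, hv u v ∧ k c u v)).card ≤ 2 * P.card := by
    intro c
    obtain ⟨P, hP, hPr, hmax⟩ := exists_maxMatch (fun u v => hv u v ∧ k c u v) J
    refine ⟨P, hP, fun p hp => ⟨(hPr p hp).1, (hPr p hp).2.1, (hPr p hp).2.2.1, (hPr p hp).2.2.2⟩, ?_⟩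
    refine (card_le_card ?_).trans (card_verts_le P)
    intro u hu
    rw [mem_filter] at hu
    obtain ⟨huJ, v, hvJ, huv, hkc⟩ := hu
    by_contra hnot
    by_cases hvP : v ∈ verts P
    · obtain ⟨p, hp, h⟩ := mem_verts.1 hvP
      rcases h with h | h
      · have := huniq v hvJ u huJ p.2 (hPr p hp).2.1 (hsymm _ _ huv) (by rw [h]; exact (hPr p hp).2.2.1)
        exact hnot (mem_verts.2 ⟨p, hp, Or.inr this⟩)
      · have := huniq v hvJ u huJ p.1 (hPr p hp).1 (hsymm _ _ huv)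
          (by rw [h]; exact hsymm _ _ (hPr p hp).2.2.1)
        exact hnot (mem_verts.2 ⟨p, hp, Or.inl this⟩)
    · refine hmax u huJ v hvJ hnot hvP ?_ ⟨huv, hkc⟩
      rintro rfl
      exact hirr _ huv
  obtain ⟨P1, h1, h1', c1⟩ := step true
  obtain ⟨P2, h2, h2', c2⟩ := step false
  have hcover : J.filter (fun u => ∃ v ∈ J, hv u v) ⊆
      J.filter (fun u => ∃ v ∈ J, hv u v ∧ k true u v) ∪
        J.filter (fun u => ∃ v ∈ J, hv u v ∧ k false u v) := by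
    intro u hu
    rw [mem_filter] at hu
    obtain ⟨huJ, v, hvJ, huv⟩ := hu
    rw [mem_union, mem_filter, mem_filter]
    rcases hk u v with h | h
    · exact Or.inl ⟨huJ, v, hvJ, huv, h⟩
    · exact Or.inr ⟨huJ, v, hvJ, huv, h⟩
  have hc := (card_le_card hcover).trans (card_union_le _ _)
  rcases le_total P1.card P2.card with h | h
  · exact ⟨false, P2, h2, h2', by omega⟩
  · exact ⟨true, P1, h1, h1', by omega⟩

end Crest.Agent.R042.S60Geom427
private theorem rz_0b9edcbf0a : type_of% @_root_.Crest.Agent.R042.S60Geom427.cst.eq_1 := @_root_.Crest.Agent.R042.S60Geom427.cst.eq_1 -- L70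
private theorem rz_c2bf0460ff : type_of% @_root_.Crest.Agent.R042.S60Geom427.fv.eq_1 := @_root_.Crest.Agent.R042.S60Geom427.fv.eq_1 -- L79
private theorem rz_a4ab111d88 : type_of% @_root_.Crest.Agent.R042.S60Geom427.supp.eq_1 := @_root_.Crest.Agent.R042.S60Geom427.supp.eq_1 -- L65
end

-- ▼ part R042/S60GeomK_427
section

/-! Row 42, S0060: the items of `S60Geom_427` are admissible members of kind `c`. -/

set_option autoImplicit false

namespace Crest.Agent.R042.S60GeomK427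

open Matrix Finset
open Crest.Agent.R042.S60Sys840 (verts mem_verts IsMatch beta)
open Crest.Agent.R042.S60Geom427
open Crest.Agent.R042.S60BipK427 (OkK JBK okK_single okK_pair)
open Crest.Agent.R042.S60Bip427 (typ TAdj tadj_typ)

variable {V : Type*} [Fintype V] [DecidableEq V] {N : ℕ}


omit [Fintype V] in
/-- items are admissible -/
theorem okK_item (F : SimpleGraph (Fin N)) (kd : Fin N → Fin N → Bool)
    (hkd : ∀ a b, kd a b = kd b a) (c : Bool) (cl : V → Fin N) {J : Finset V}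
    {P : Finset (V × V)}
    (hPc : ∀ p ∈ P, ¬ F.Adj (cl p.1) (cl p.2) ∧ (cl p.1 = cl p.2 ∨ kd (cl p.1) (cl p.2) = c))
    (i : It J P) : OkK F kd c cl (supp i) := by
  rcases i with p | v
  · exact okK_pair F kd hkd c cl _ _ (hPc _ p.2).1 (hPc _ p.2).2
  · exact okK_single F kd c cl v.1

/-- items of completely joined types are orthogonal -/
theorem Y_joined (F : SimpleGraph (Fin N)) (cl : V → Fin N) (M : Matrix V V ℝ)
    (hzero : ∀ u v, u ≠ v → (M u v = 0 ↔ F.Adj (cl u) (cl v))) {J : Finset V}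
    {P : Finset (V × V)} (i j : It J P)
    (h : TAdj F (typ cl supp i) (typ cl supp j)) : Yv M i ⬝ᵥ M *ᵥ Yv M j = 0 := by
  refine Y_zero M i j fun a ha b hb => ?_
  have hadj := (tadj_typ F cl supp i j).1 h a ha b hb
  refine (hzero a b ?_).2 hadj
  rintro rfl
  exact F.loopless.irrefl _ hadj


end Crest.Agent.R042.S60GeomK427
end

-- ▼ part R042/S60SysK_840
section

/-! Row 42, S0060 from HJK, step (a) (helper840): the positive vertices with all `beta < 1`. -/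

set_option autoImplicit false

namespace Crest.Agent.R042.S60SysK840

open Matrix Finset
open Crest.Agent.R042.S60Sys840 (verts mem_verts IsMatch card_verts_le exists_maxMatch beta quad_pair)
open Crest.Agent.R042.S60BipK427 (JBK OkK okK_single okK_pair bip)

variable {N L : ℕ}

theorem fibre_card (i : Fin N) :
    (univ.filter (fun v : Fin N × Fin L => v.1 = i)).card ≤ L := by
  have h : (univ.filter (fun v : Fin N × Fin L => v.1 = i)).card ≤ (univ : Finset (Fin L)).card := by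
    apply card_le_card_of_injOn (fun v => v.2) (fun _ _ => by simp)
    intro u hu v hv huv
    simp only [coe_filter, mem_univ, true_and, Set.mem_ofPred_eq] at hu hv
    exact Prod.ext (hu.trans hv.symm) huv
  simpa using h

/-- a family of disjoint members of one kind without completely joined pair is small -/
theorem fam_card (F : SimpleGraph (Fin N)) (kd : Fin N → Fin N → Bool) (c : Bool) (K : ℕ)
    (hJ : JBK F kd c K) (hL0 : 0 < L) (w : ℕ) (hw : 2 * (N * L) ≤ K * w)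
    (𝒜 : Finset (Finset (Fin N × Fin L)))
    (hA : ∀ A ∈ 𝒜, OkK F kd c Prod.fst A)
    (hAd : ∀ A ∈ 𝒜, ∀ B ∈ 𝒜, A ≠ B → Disjoint A B)
    (hno : ∀ A ∈ 𝒜, ∀ B ∈ 𝒜, A ≠ B → ∃ a ∈ A, ∃ b ∈ B, ¬ F.Adj a.1 b.1) :
    𝒜.card ≤ 2 * w := by
  classical
  by_contra hcon
  push Not at hcon
  obtain ⟨𝒜1, hsub, hcard⟩ := exists_subset_card_eq (s := 𝒜) (n := w) (by omega)
  have h2 : w ≤ (𝒜 \ 𝒜1).card := by
    have := card_sdiff_add_card_eq_card hsub
    omega
  obtain ⟨A, hA1, B, hB1, hAB⟩ := bip F kd c K hJ Prod.fst L hL0 fibre_card 𝒜1 (𝒜 \ 𝒜1)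
    (fun A h => hA A (hsub h)) (fun A h B h' => hAd A (hsub h) B (hsub h'))
    (fun A h => hA A (mem_sdiff.1 h).1)
    (fun A h B h' => hAd A (mem_sdiff.1 h).1 B (mem_sdiff.1 h').1)
    (by rw [hcard]; exact hw)
    (hw.trans (Nat.mul_le_mul_left _ h2))
  have hne : A ≠ B := by
    rintro rfl
    exact (mem_sdiff.1 hB1).2 hA1
  obtain ⟨a, ha, b, hb, hab⟩ := hno A (hsub hA1) B (mem_sdiff.1 hB1).1 hne
  exact hab (hAB a ha b hb)

/-- STEP (a): all but `10 w` vertices are positive with mutual `beta < 1`. -/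
theorem exists_V1 (F : SimpleGraph (Fin N)) (hF : F.CliqueFree 3) (kd : Fin N → Fin N → Bool)
    (hkd : ∀ a b, kd a b = kd b a) (K : ℕ) (hJ : ∀ c, JBK F kd c K) (hL : 3 ≤ L)
    {M : Matrix (Fin N × Fin L) (Fin N × Fin L) ℝ} (hM : M.IsSymm)
    (hneg : ∀ u v, u ≠ v → M u v ≤ 0) (hzero : ∀ u v, u ≠ v → (M u v = 0 ↔ F.Adj u.1 v.1))
    (b : Fin N × Fin L → ℝ) (hb0 : ∀ v, 0 ≤ b v)
    (hb : ∀ z : Fin N × Fin L → ℝ, 0 ≤ z ⬝ᵥ M *ᵥ z + (b ⬝ᵥ z) ^ 2)
    (w : ℕ) (hw : 2 * (N * L) ≤ K * w) :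
    ∃ V1 : Finset (Fin N × Fin L), (∀ u ∈ V1, 0 < M u u) ∧
      (∀ u ∈ V1, ∀ v ∈ V1, u ≠ v → beta M u v < 1) ∧
      (univ \ V1).card ≤ 10 * w := by
  classical
  let Z : Finset (Fin N × Fin L) := univ.filter (fun u => M u u ≤ 0)
  let S : Finset (Fin N × Fin L) := univ.filter (fun u => 0 < M u u)
  have hZadj : ∀ u ∈ Z, ∀ v ∈ Z, ¬ F.Adj u.1 v.1 := by
    intro u hu v hv hadj
    simp only [Z, mem_filter, mem_univ, true_and] at hu hv
    have hs : ∀ u : Fin N × Fin L,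
        (Pi.single u (1 : ℝ)) ⬝ᵥ M *ᵥ (Pi.single u (1 : ℝ)) = M u u := by
      intro u
      rw [Matrix.mulVec_single_one, single_dotProduct, one_mul, Matrix.col_apply]
    refine S60A840.lemmaA_blow F hF hL hM hneg hzero b hb0 hb {u} {v}
      (Pi.single u 1) (Pi.single v 1) ?_ ?_ ?_ ?_ (singleton_nonempty _) (singleton_nonempty _)
      (by simp) (by simp) ?_ (by rw [hs]; exact hu) (by rw [hs]; exact hv)
    · intro w hw; rw [mem_singleton] at hw; subst hw; simp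
    · intro w hw; rw [mem_singleton] at hw; simp [hw]
    · intro w hw; rw [mem_singleton] at hw; subst hw; simp
    · intro w hw; rw [mem_singleton] at hw; simp [hw]
    · intro a ha c hc
      rw [mem_singleton] at ha hc
      subst ha; subst hc; exact hadj
  have hZ : Z.card ≤ 2 * w := by
    have h := fam_card F kd true K (hJ true) (by omega) w hw
      (Z.map ⟨fun u => ({u} : Finset (Fin N × Fin L)), singleton_injective⟩) ?_ ?_ ?_
    · rwa [card_map] at h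
    · intro A hA
      rw [mem_map] at hA
      obtain ⟨u, hu, rfl⟩ := hA
      exact okK_single F kd true Prod.fst u
    · intro A hA B hB hAB
      rw [mem_map] at hA hB
      obtain ⟨u, hu, rfl⟩ := hA
      obtain ⟨v, hv, rfl⟩ := hB
      simp only [Function.Embedding.coeFn_mk] at hAB ⊢
      rw [disjoint_singleton]
      rintro rfl; exact hAB rfl
    · intro A hA B hB _
      rw [mem_map] at hA hB
      obtain ⟨u, hu, rfl⟩ := hA
      obtain ⟨v, hv, rfl⟩ := hB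
      exact ⟨u, by simp, v, by simp, hZadj u hu v hv⟩
  have hnadj : ∀ u v, u ≠ v → 0 < beta M u v → ¬ F.Adj u.1 v.1 := by
    intro u v huv hpos hadj
    rw [beta, (hzero u v huv).2 hadj] at hpos
    simp at hpos
  obtain ⟨P1, hP1m, hP1, hP1max⟩ := exists_maxMatch (fun u v => 1 ≤ beta M u v) S
  have hpair : ∀ p ∈ P1, ∃ y : Fin N × Fin L → ℝ,
      (∀ v ∈ ({p.1, p.2} : Finset (Fin N × Fin L)), 0 < y v) ∧
      (∀ v, v ∉ ({p.1, p.2} : Finset (Fin N × Fin L)) → y v = 0) ∧ y ⬝ᵥ M *ᵥ y ≤ 0 := by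
    intro p hp
    obtain ⟨h1, h2, h3⟩ := hP1 p hp
    simp only [S, mem_filter, mem_univ, true_and] at h1 h2
    have hne := hP1m.1 p hp
    have hs1 : 0 < Real.sqrt (M p.1 p.1) := Real.sqrt_pos.2 h1
    have hs2 : 0 < Real.sqrt (M p.2 p.2) := Real.sqrt_pos.2 h2
    refine ⟨fun w => if w = p.1 then (Real.sqrt (M p.1 p.1))⁻¹ else
      if w = p.2 then (Real.sqrt (M p.2 p.2))⁻¹ else 0, ?_, ?_, ?_⟩
    · intro v hv
      rw [mem_insert, mem_singleton] at hv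
      by_cases h : v = p.1
      · simp only [h, if_true]; positivity
      · have h' : v = p.2 := by tauto
        simp only [h, if_false, h', if_true]
        rw [if_neg (by rw [← h']; exact h)]
        positivity
    · intro v hv
      rw [mem_insert, mem_singleton, not_or] at hv
      simp [hv.1, hv.2]
    · rw [quad_pair M hM p.1 p.2 hne]
      have e1 : (Real.sqrt (M p.1 p.1))⁻¹ ^ 2 * M p.1 p.1 = 1 := by
        rw [inv_pow, Real.sq_sqrt h1.le]; field_simp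
      have e2 : (Real.sqrt (M p.2 p.2))⁻¹ ^ 2 * M p.2 p.2 = 1 := by
        rw [inv_pow, Real.sq_sqrt h2.le]; field_simp
      have e3 : 2 * (Real.sqrt (M p.1 p.1))⁻¹ * (Real.sqrt (M p.2 p.2))⁻¹ * M p.1 p.2
          = -2 * beta M p.1 p.2 := by
        rw [beta]; field_simp
      rw [e1, e2, e3]
      linarith
  -- the pairs of one kind
  let f : (Fin N × Fin L) × (Fin N × Fin L) → Finset (Fin N × Fin L) := fun p => {p.1, p.2}
  have hinj : Set.InjOn f (P1 : Set _) := by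
    intro p hp q hq hpq
    by_contra hne
    have := hP1m.2 p hp q hq hne
    have h2 : f p = f q := hpq
    simp only [f] at h2
    rw [h2, disjoint_self] at this
    exact absurd this (insert_ne_empty _ _)
  have hkind : ∀ c : Bool, (P1.filter (fun p => kd p.1.1 p.2.1 = c)).card ≤ 2 * w := by
    intro c
    have hsub : P1.filter (fun p => kd p.1.1 p.2.1 = c) ⊆ P1 := filter_subset _ _
    have h := fam_card F kd c K (hJ c) (by omega) w hw
      ((P1.filter (fun p => kd p.1.1 p.2.1 = c)).image f) ?_ ?_ ?_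
    · rwa [card_image_of_injOn (hinj.mono (by exact_mod_cast hsub))] at h
    · intro A hA
      rw [mem_image] at hA
      obtain ⟨p, hp, rfl⟩ := hA
      rw [mem_filter] at hp
      exact okK_pair F kd hkd c Prod.fst p.1 p.2
        (hnadj _ _ (hP1m.1 p hp.1) (lt_of_lt_of_le one_pos (hP1 p hp.1).2.2)) (Or.inr hp.2)
    · intro A hA B hB hAB
      rw [mem_image] at hA hB
      obtain ⟨p, hp, rfl⟩ := hA
      obtain ⟨q, hq, rfl⟩ := hB
      exact hP1m.2 p (hsub hp) q (hsub hq) (by rintro rfl; exact hAB rfl)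
    · intro A hA B hB hAB
      rw [mem_image] at hA hB
      obtain ⟨p, hp, rfl⟩ := hA
      obtain ⟨q, hq, rfl⟩ := hB
      by_contra hcon
      push Not at hcon
      obtain ⟨y, hy1, hy2, hy3⟩ := hpair p (hsub hp)
      obtain ⟨z, hz1, hz2, hz3⟩ := hpair q (hsub hq)
      exact S60A840.lemmaA_blow F hF hL hM hneg hzero b hb0 hb (f p) (f q) y z hy1 hy2 hz1 hz2
        (insert_nonempty _ _) (insert_nonempty _ _) card_le_two card_le_two hcon hy3 hz3
  have hP1card : P1.card ≤ 4 * w := by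
    have hcov : P1 ⊆ P1.filter (fun p => kd p.1.1 p.2.1 = true) ∪
        P1.filter (fun p => kd p.1.1 p.2.1 = false) := by
      intro p hp
      rw [mem_union, mem_filter, mem_filter]
      cases h : kd p.1.1 p.2.1
      · right; exact ⟨hp, rfl⟩
      · left; exact ⟨hp, rfl⟩
    have h1 := (card_le_card hcov).trans (card_union_le _ _)
    have h2 := hkind true
    have h3 := hkind false
    omega
  refine ⟨S \ verts P1, ?_, ?_, ?_⟩
  · intro u hu
    rw [mem_sdiff] at hu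
    have := hu.1
    simp only [S, mem_filter, mem_univ, true_and] at this
    exact this
  · intro u hu v hv huv
    rw [mem_sdiff] at hu hv
    have := hP1max u hu.1 v hv.1 hu.2 hv.2 huv
    push Not at this
    exact this
  · have hcov : (univ \ (S \ verts P1) : Finset (Fin N × Fin L)) ⊆ Z ∪ verts P1 := by
      intro u hu
      rw [mem_sdiff, mem_sdiff] at hu
      rw [mem_union]
      by_cases h1 : M u u ≤ 0
      · left; simp [Z, h1]
      · right
        by_contra h2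
        apply hu.2
        refine ⟨?_, h2⟩
        simp only [S, mem_filter, mem_univ, true_and]
        exact not_le.1 h1
    have h1 := (card_le_card hcov).trans (card_union_le _ _)
    have h3 := card_verts_le P1
    omega

end Crest.Agent.R042.S60SysK840
end

-- ▼ part R042/S60End_427
section

/-! Row 42, S0060: final transport from the blow-up `Fin N × Fin L` to `Fin m`. -/

set_option autoImplicit false

namespace Crest.Agent.R042.S60End427

open Finset Matrix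
open Crest.CombinatoricsR.SpectralGraph

/-- the rank bound on the blow-up -/
def Core (N : ℕ) (F : SimpleGraph (Fin N)) (L : ℕ) : Prop :=
  ∀ M : Matrix (Fin N × Fin L) (Fin N × Fin L) ℝ, M.IsSymm →
    (∀ u v, u ≠ v → M u v ≤ 0) → (∀ u v, u ≠ v → (M u v = 0 ↔ F.Adj u.1 v.1)) →
    ∀ b : Fin N × Fin L → ℝ, (∀ v, 0 ≤ b v) →
      (∀ z : Fin N × Fin L → ℝ, 0 ≤ z ⬝ᵥ M *ᵥ z + (b ⬝ᵥ z) ^ 2) →
      ((N * L : ℕ) : ℝ) / 2 + 1 < (M.rank : ℝ)

theorem cliqueFree_comap {V W : Type*} (F : SimpleGraph W) (hF : F.CliqueFree 3) (f : V → W) :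
    (F.comap f).CliqueFree 3 := by
  classical
  intro s hs
  rw [SimpleGraph.is3Clique_iff] at hs
  obtain ⟨a, b, c, hab, hac, hbc, rfl⟩ := hs
  exact hF {f a, f b, f c} (SimpleGraph.is3Clique_triple_iff.2 ⟨hab, hac, hbc⟩)

theorem card_le_of_colorable {m : ℕ} (G : SimpleGraph (Fin m)) (hG : Gᶜ.CliqueFree 3) (k : ℕ)
    (h : G.Colorable k) : m ≤ 2 * k := by
  classical
  obtain ⟨C⟩ := h
  have h1 : (univ : Finset (Fin m)).card ≤ 2 * (univ : Finset (Fin k)).card := by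
    have h2 := Finset.card_le_mul_card_image_of_maps_to (s := (univ : Finset (Fin m)))
      (t := (univ : Finset (Fin k))) (f := fun v => C v) (fun _ _ => mem_univ _) 2 ?_
    · exact h2
    · intro c _
      by_contra hcon
      push Not at hcon
      rw [Finset.two_lt_card] at hcon
      obtain ⟨x, hx, y, hy, z, hz, hxy, hxz, hyz⟩ := hcon
      rw [mem_filter] at hx hy hz
      have key : ∀ u v : Fin m, C u = c → C v = c → u ≠ v → Gᶜ.Adj u v := by
        intro u v hu hv huv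
        rw [SimpleGraph.compl_adj]
        refine ⟨huv, fun hadj => C.valid hadj (hu.trans hv.symm)⟩
      exact hG {x, y, z} (SimpleGraph.is3Clique_triple_iff.2
        ⟨key x y hx.2 hy.2 hxy, key x z hx.2 hz.2 hxz, key y z hy.2 hz.2 hyz⟩)
  simpa using h1

theorem quad_submatrix {m : ℕ} {W : Type*} [Fintype W] [DecidableEq W]
    (M : Matrix (Fin m) (Fin m) ℝ) (e : W ≃ Fin m) (z : W → ℝ) :
    z ⬝ᵥ (M.submatrix e e) *ᵥ z = (z ∘ e.symm) ⬝ᵥ M *ᵥ (z ∘ e.symm) := by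
  simp only [dotProduct, mulVec, submatrix_apply, Function.comp]
  rw [← Equiv.sum_comp e]
  refine Finset.sum_congr rfl fun i _ => ?_
  rw [← Equiv.sum_comp e]
  simp

/-- FINAL TRANSPORT. -/
theorem s60_of_core {N : ℕ} (hN : 0 < N) (F : SimpleGraph (Fin N)) (hF : F.CliqueFree 3)
    (L0 : ℕ) (hcore : ∀ L, L0 ≤ L → Core N F L) :
    ∀ m₀ : ℕ, ∃ m : ℕ, m₀ ≤ m ∧ ∃ G : SimpleGraph (Fin m),
      Gᶜ.CliqueFree 3 ∧
      (∀ M : Matrix (Fin m) (Fin m) ℝ, IsWellSigned G M → negEigenvalueCount M = 1 →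
        HasStrongArnoldProperty G M → (corank M : ℝ) + 1 < (m : ℝ) / 2) ∧
      (∀ k : ℕ, G.Colorable k → m ≤ 2 * k) := by
  classical
  intro m₀
  set L := max L0 m₀ with hL
  refine ⟨N * L, ?_, ?_⟩
  · calc m₀ ≤ L := le_max_right _ _
      _ = 1 * L := (one_mul _).symm
      _ ≤ N * L := Nat.mul_le_mul_right _ hN
  set e : Fin N × Fin L ≃ Fin (N * L) := finProdFinEquiv with he
  set H : SimpleGraph (Fin (N * L)) := F.comap (fun u => (e.symm u).1) with hH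
  have hHf : H.CliqueFree 3 := cliqueFree_comap F hF _
  refine ⟨Hᶜ, by rw [compl_compl]; exact hHf, ?_, ?_⟩
  · intro M hws hneg _
    obtain ⟨hsym, hnegs, hzeros⟩ := hws
    by_contra hcon
    have hrank := S60Lin.rank_le_of_corank M hcon
    have hoff : ∀ u v, u ≠ v → M u v ≤ 0 := by
      intro u v huv
      by_cases h : (Hᶜ).Adj u v
      · exact (hnegs u v h).le
      · exact (hzeros u v huv h).le
    obtain ⟨b, hb0, hb⟩ := S60Lin.exists_bottom hsym hoff hneg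
    have hc := hcore L (le_max_left _ _) (M.submatrix e e) ?_ ?_ ?_ (b ∘ e)
      (fun v => hb0 _) ?_
    · rw [Matrix.rank_submatrix] at hc
      linarith
    · exact hsym.submatrix e
    · intro u v huv
      exact hoff _ _ (fun h => huv (e.injective h))
    · intro u v huv
      have huv' : e u ≠ e v := fun h => huv (e.injective h)
      rw [submatrix_apply]
      constructor
      · intro h0
        by_contra hna
        have : (Hᶜ).Adj (e u) (e v) := by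
          rw [SimpleGraph.compl_adj]
          refine ⟨huv', fun h => hna ?_⟩
          have h' : F.Adj (e.symm (e u)).1 (e.symm (e v)).1 := h
          simpa using h'
        exact absurd h0 (hnegs _ _ this).ne
      · intro hadj
        refine hzeros _ _ huv' ?_
        rw [SimpleGraph.compl_adj]
        rintro ⟨_, h⟩
        apply h
        show F.Adj (e.symm (e u)).1 (e.symm (e v)).1
        simpa using hadj
    · intro z
      have h := hb (z ∘ e.symm)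
      rw [quad_submatrix]
      have h2 : (b ∘ e) ⬝ᵥ z = b ⬝ᵥ (z ∘ e.symm) := by
        simp only [dotProduct, Function.comp]
        rw [← Equiv.sum_comp e]
        simp
      rw [h2]
      exact h
  · intro k hk
    exact card_le_of_colorable _ (by rw [compl_compl]; exact hHf) k hk

end Crest.Agent.R042.S60End427
end

-- ▼ part R042/S60Fin_822
section

/-! Row 42, S0060: final assembly from `HJK` (route helper66 #27013). -/

set_option autoImplicit false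
set_option linter.unusedVariables false

namespace Crest.Agent.R042.S60Fin822

open Finset Matrix
open Crest.Agent.R042.S60Sys840 (verts mem_verts IsMatch beta)
open Crest.Agent.R042.S60Geom427 (X It supp Yv fv isP)
open Crest.Agent.R042.S60BipK427 (JBK OkK okK_single)
open Crest.Agent.R042.S60Core (bet bet_ne)

/-- sums over a subtype -/
theorem sum_erase_sub {I : Type*} [DecidableEq I] (J : Finset I) [inst : DecidableEq ↥J]
    (i : ↥J) (f : I → ℝ) :
    ∑ j ∈ @Finset.erase ↥J inst (univ : Finset ↥J) i, f j.1 = ∑ j ∈ J.erase i.1, f j := by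
  have h1 := Finset.add_sum_erase (univ : Finset ↥J) (fun j => f j.1) (mem_univ i)
  have h2 := Finset.add_sum_erase J f i.2
  have h3 : ∑ j : ↥J, f j.1 = ∑ j ∈ J, f j := Finset.sum_coe_sort J f
  linarith

variable {N L : ℕ}

/-- STAGE 1: single vertices, rows and good set. -/
theorem stage1 (F : SimpleGraph (Fin N)) (kd : Fin N → Fin N → Bool) (c : Bool)
    (K : ℕ) (hJ : JBK F kd c K) (hL : 0 < L) (w : ℕ) (hw : 2 * (N * L) ≤ K * w)
    {M : Matrix (Fin N × Fin L) (Fin N × Fin L) ℝ} (hM : M.IsSymm)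
    (hneg : ∀ u v, u ≠ v → M u v ≤ 0) (hzero : ∀ u v, u ≠ v → (M u v = 0 ↔ F.Adj u.1 v.1))
    (b : Fin N × Fin L → ℝ) (hb0 : ∀ v, 0 ≤ b v)
    (hb : ∀ z : Fin N × Fin L → ℝ, 0 ≤ z ⬝ᵥ M *ᵥ z + (b ⬝ᵥ z) ^ 2)
    (V1 : Finset (Fin N × Fin L)) (hpos : ∀ u ∈ V1, 0 < M u u)
    (η : ℝ) (hη : 0 < η) (R : ℝ) (hR : R = ((2 : ℝ) ^ N + 2) ^ 2 * 2 ^ N / η) :
    ∃ (V2 : Finset (Fin N × Fin L)) (G : Finset ↥V2), V2 ⊆ V1 ∧
      (V1.card : ℝ) ≤ V2.card + (6 * w + η * V1.card) ∧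
      ((univ \ G).card : ℝ) ≤ 32 * (1 + R + R ^ 2) * √(1 + R) * √((V2.card : ℕ) : ℝ) ∧
      ∀ i ∈ G, ∑ j, bet M (fun i : ↥V2 => X M i.1) i j ^ 2
        + ∑ w ∈ univ.erase i, (∑ u, bet M (fun i : ↥V2 => X M i.1) i u
          * bet M (fun i : ↥V2 => X M i.1) u w) ^ 2 ≤ 1001 / 1000 := by
  classical
  obtain ⟨J, hJ1, hJ2⟩ := S60Items822.rows_items F kd c K hJ hL w hw M hM b hb hb0
    (I := ↥V1) (fun i => X M i.1) (fun i v => S60Geom427.X_nonneg M i.1 v)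
    (fun i => S60Geom427.X_self M i.1 (hpos i.1 i.2))
    (fun i j hij => S60Geom427.X_off M hneg i.1 j.1 (fun h => hij (Subtype.ext h)))
    (fun i => {i.1}) (fun i => okK_single F kd c _ i.1)
    (fun i j hij => by
      rw [Finset.disjoint_singleton]
      exact fun h => hij (Subtype.ext h))
    (fun i j h => by
      have hadj : F.Adj i.1.1 j.1.1 := h i.1 (mem_singleton_self _) j.1 (mem_singleton_self _)
      refine S60Geom427.X_zero M i.1 j.1 ((hzero i.1 j.1 ?_).2 hadj)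
      rintro h'
      rw [h'] at hadj
      exact F.loopless.irrefl _ hadj) η hη
  set V2 : Finset (Fin N × Fin L) := J.map ⟨Subtype.val, Subtype.val_injective⟩ with hV2
  have hmem : ∀ v : Fin N × Fin L, v ∈ V2 ↔ ∃ h : v ∈ V1, (⟨v, h⟩ : ↥V1) ∈ J := by
    intro v
    rw [hV2, Finset.mem_map]
    constructor
    · rintro ⟨⟨a, ha⟩, h1, h2⟩
      simp only [Function.Embedding.coeFn_mk] at h2
      subst h2
      exact ⟨ha, h1⟩
    · rintro ⟨h, h'⟩
      exact ⟨⟨v, h⟩, h', rfl⟩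
  have hsub : V2 ⊆ V1 := fun v hv => ((hmem v).1 hv).1
  have hcardV2 : V2.card = J.card := by rw [hV2, card_map]
  have hmap : ∀ f : Fin N × Fin L → ℝ, ∑ v ∈ V2, f v = ∑ j ∈ J, f j.1 := by
    intro f
    rw [hV2, Finset.sum_map]; rfl
  have hrow : ∀ i : ↥V2, ∑ j ∈ univ.erase i,
      -((fun i : ↥V2 => X M i.1) i ⬝ᵥ M *ᵥ (fun i : ↥V2 => X M i.1) j) ≤ R := by
    intro i
    have hi := (hmem i.1).1 i.2
    have e1 : ∑ j ∈ univ.erase i, -((fun i : ↥V2 => X M i.1) i ⬝ᵥ M *ᵥ (fun i : ↥V2 => X M i.1) j)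
        = ∑ v ∈ V2.erase i.1, -(X M i.1 ⬝ᵥ M *ᵥ X M v) :=
      sum_erase_sub V2 i (fun v => -(X M i.1 ⬝ᵥ M *ᵥ X M v))
    have e2 : ∑ v ∈ V2.erase i.1, -(X M i.1 ⬝ᵥ M *ᵥ X M v)
        = ∑ j ∈ J.erase ⟨i.1, hi.1⟩, -(X M i.1 ⬝ᵥ M *ᵥ X M j.1) := by
      have h1 := Finset.add_sum_erase V2 (fun v => -(X M i.1 ⬝ᵥ M *ᵥ X M v)) i.2
      have h2 := Finset.add_sum_erase J (fun j => -(X M i.1 ⬝ᵥ M *ᵥ X M j.1)) hi.2
      have h3 : ∑ v ∈ V2, -(X M i.1 ⬝ᵥ M *ᵥ X M v)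
          = ∑ j ∈ J, -(X M i.1 ⬝ᵥ M *ᵥ X M j.1) := hmap (fun v => -(X M i.1 ⬝ᵥ M *ᵥ X M v))
      linarith
    rw [e1, e2, hR]
    exact hJ2 ⟨i.1, hi.1⟩ hi.2
  have hR0 : 0 ≤ R := by rw [hR]; positivity
  obtain ⟨G, hG1, hG2⟩ := S60CE.good_set hM b hb (fun i : ↥V2 => X M i.1)
    (fun i => S60Geom427.X_self M i.1 (hpos i.1 (hsub i.2)))
    (fun i j hij => S60Geom427.X_off M hneg i.1 j.1 (fun h => hij (Subtype.ext h))) R hR0 hrow
  refine ⟨V2, G, hsub, ?_, ?_, hG2⟩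
  · have h1 : (univ \ J).card + J.card = Fintype.card ↥V1 := by
      rw [card_sdiff_add_card_eq_card (subset_univ _), card_univ]
    rw [Fintype.card_coe] at h1
    rw [Fintype.card_coe] at hJ1
    have h2 : (((univ \ J).card : ℕ) : ℝ) + (J.card : ℝ) = (V1.card : ℝ) := by exact_mod_cast h1
    rw [hcardV2]
    linarith
  · rw [Fintype.card_coe] at hG1
    exact hG1

/-- HEAVY MATCHING and KIND CHOICE. -/
theorem heavy_pairs (F : SimpleGraph (Fin N)) (kd : Fin N → Fin N → Bool)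
    (hkd : ∀ a b, kd a b = kd b a)
    {M : Matrix (Fin N × Fin L) (Fin N × Fin L) ℝ} (hM : M.IsSymm)
    (hneg : ∀ u v, u ≠ v → M u v ≤ 0) (hzero : ∀ u v, u ≠ v → (M u v = 0 ↔ F.Adj u.1 v.1))
    (V2 : Finset (Fin N × Fin L)) (hpos : ∀ u ∈ V2, 0 < M u u) (G : Finset ↥V2)
    (hG : ∀ i ∈ G, ∑ j, bet M (fun i : ↥V2 => X M i.1) i j ^ 2
        + ∑ w ∈ univ.erase i, (∑ u, bet M (fun i : ↥V2 => X M i.1) i u
          * bet M (fun i : ↥V2 => X M i.1) u w) ^ 2 ≤ 1001 / 1000)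
    (hrk : (M.rank : ℝ) ≤ 501 / 1000 * (G.card : ℝ)) :
    ∃ (c : Bool) (V3 : Finset (Fin N × Fin L)) (P : Finset ((Fin N × Fin L) × (Fin N × Fin L))),
      V3 ⊆ V2 ∧ V3.card = G.card ∧ IsMatch P ∧ (∀ p ∈ P, p.1 ∈ V3 ∧ p.2 ∈ V3) ∧
      (∀ p ∈ P, 9 / 10 ≤ beta M p.1 p.2) ∧
      (∀ p ∈ P, ¬ F.Adj p.1.1 p.2.1 ∧ (p.1.1 = p.2.1 ∨ kd p.1.1 p.2.1 = c)) ∧
      92 / 100 * (G.card : ℝ) ≤ 4 * (P.card : ℝ) := by
  classical
  have h1 : ∀ i : ↥V2, (fun i : ↥V2 => X M i.1) i ⬝ᵥ M *ᵥ (fun i : ↥V2 => X M i.1) i = 1 :=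
    fun i => S60Geom427.X_self M i.1 (hpos i.1 i.2)
  have hoff : ∀ i j : ↥V2, i ≠ j →
      (fun i : ↥V2 => X M i.1) i ⬝ᵥ M *ᵥ (fun i : ↥V2 => X M i.1) j ≤ 0 :=
    fun i j hij => S60Geom427.X_off M hneg i.1 j.1 (fun h => hij (Subtype.ext h))
  have hbb : ∀ i j : ↥V2, i ≠ j → bet M (fun i : ↥V2 => X M i.1) i j = beta M i.1 j.1 := by
    intro i j hij
    rw [bet_ne M _ hij]
    show -(X M i.1 ⬝ᵥ M *ᵥ X M j.1) = _
    rw [S60Geom427.X_beta, neg_neg]
  set Lt : Finset ↥V2 := G.filter (fun u => ∀ v ∈ G, bet M (fun i : ↥V2 => X M i.1) u v < 9 / 10)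
    with hLt
  have hheavy := S60CE.heavy hM (fun i : ↥V2 => X M i.1) h1 hoff G hG hrk Lt
    (fun u hu => mem_filter.1 hu)
  set V3 : Finset (Fin N × Fin L) := G.map ⟨Subtype.val, Subtype.val_injective⟩ with hV3
  have hmem : ∀ v : Fin N × Fin L, v ∈ V3 ↔ ∃ h : v ∈ V2, (⟨v, h⟩ : ↥V2) ∈ G := by
    intro v
    rw [hV3, Finset.mem_map]
    constructor
    · rintro ⟨⟨a, ha⟩, h1, h2⟩
      simp only [Function.Embedding.coeFn_mk] at h2
      subst h2
      exact ⟨ha, h1⟩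
    · rintro ⟨h, h'⟩
      exact ⟨⟨v, h⟩, h', rfl⟩
  have hsq : ∀ i ∈ G, ∑ j, bet M (fun i : ↥V2 => X M i.1) i j ^ 2 ≤ 1001 / 1000 := by
    intro i hi
    have h2 := hG i hi
    have h3 : 0 ≤ ∑ w ∈ univ.erase i, (∑ u, bet M (fun i : ↥V2 => X M i.1) i u
          * bet M (fun i : ↥V2 => X M i.1) u w) ^ 2 := sum_nonneg fun _ _ => sq_nonneg _
    linarith
  obtain ⟨c, P, hP, hPmem, hPcard⟩ := S60Geom427.exists_kind V3
    (fun u v => u ≠ v ∧ 9 / 10 ≤ beta M u v)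
    (fun u v h => ⟨h.1.symm, by rw [S60Geom427.beta_comm M hM]; exact h.2⟩)
    (fun u h => h.1 rfl)
    (fun u hu v hv w hw huv huw => by
      obtain ⟨hu2, huG⟩ := (hmem u).1 hu
      obtain ⟨hv2, hvG⟩ := (hmem v).1 hv
      obtain ⟨hw2, hwG⟩ := (hmem w).1 hw
      have e := S60CE.heavy_unique (M := M) (fun i : ↥V2 => X M i.1) ⟨u, hu2⟩ (hsq _ huG)
        (v := ⟨v, hv2⟩) (w := ⟨w, hw2⟩)
        (by rw [hbb _ _ (fun h => huv.1 (congrArg Subtype.val h))]; exact huv.2)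
        (by rw [hbb _ _ (fun h => huw.1 (congrArg Subtype.val h))]; exact huw.2)
      exact congrArg Subtype.val e)
    (fun c u v => u.1 = v.1 ∨ kd u.1 v.1 = c)
    (fun u v => by
      cases h : kd u.1 v.1
      · exact Or.inr (Or.inr rfl)
      · exact Or.inl (Or.inr rfl))
    (fun c u v h => by
      rcases h with h | h
      · exact Or.inl h.symm
      · exact Or.inr (by rw [hkd]; exact h))
  refine ⟨c, V3, P, ?_, ?_, hP, fun p hp => ⟨(hPmem p hp).1, (hPmem p hp).2.1⟩,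
    fun p hp => (hPmem p hp).2.2.1.2, ?_, ?_⟩
  · intro v hv
    exact ((hmem v).1 hv).1
  · rw [hV3, card_map]
  · intro p hp
    refine ⟨fun hadj => ?_, (hPmem p hp).2.2.2⟩
    have h0 := (hzero p.1 p.2 (hPmem p hp).2.2.1.1).2 hadj
    have h9 := (hPmem p hp).2.2.1.2
    unfold beta at h9
    rw [h0] at h9
    norm_num at h9
  · have hsub : (G \ Lt).map ⟨Subtype.val, Subtype.val_injective⟩ ⊆
        V3.filter (fun u => ∃ v ∈ V3, u ≠ v ∧ 9 / 10 ≤ beta M u v) := by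
      intro u hu
      obtain ⟨i, hi, rfl⟩ := Finset.mem_map.1 hu
      rw [mem_sdiff] at hi
      have hiG := hi.1
      have hex : ∃ v ∈ G, 9 / 10 ≤ bet M (fun i : ↥V2 => X M i.1) i v := by
        by_contra hcon
        push Not at hcon
        exact hi.2 (mem_filter.2 ⟨hiG, hcon⟩)
      obtain ⟨v, hvG, hv⟩ := hex
      have hne : i ≠ v := by
        rintro rfl
        rw [S60Core.bet_self] at hv
        norm_num at hv
      refine mem_filter.2 ⟨(hmem _).2 ⟨i.2, hiG⟩, v.1, (hmem _).2 ⟨v.2, hvG⟩,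
        fun h => hne (Subtype.ext h), ?_⟩
      rw [hbb _ _ hne] at hv
      exact hv
    have hc1 := card_le_card hsub
    rw [card_map] at hc1
    have hc2 : (G \ Lt).card + Lt.card = G.card :=
      card_sdiff_add_card_eq_card (filter_subset _ _)
    have hc3 : (V3.filter (fun u => ∃ v ∈ V3, u ≠ v ∧ 9 / 10 ≤ beta M u v)).card ≤ 4 * P.card := by
      convert hPcard
    have hc4 : (G \ Lt).card ≤ 4 * P.card := hc1.trans hc3
    have hc5 : (((G \ Lt).card : ℕ) : ℝ) ≤ 4 * (P.card : ℝ) := by exact_mod_cast hc4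
    have hc6 : (((G \ Lt).card : ℕ) : ℝ) + (Lt.card : ℝ) = (G.card : ℝ) := by exact_mod_cast hc2
    linarith

/-- STAGE 2: pairs and singles, rows and count. -/
theorem stage2 (F : SimpleGraph (Fin N)) (kd : Fin N → Fin N → Bool)
    (hkd : ∀ a b, kd a b = kd b a) (c : Bool)
    (K : ℕ) (hJ : JBK F kd c K) (hL : 0 < L) (w : ℕ) (hw : 2 * (N * L) ≤ K * w)
    {M : Matrix (Fin N × Fin L) (Fin N × Fin L) ℝ} (hM : M.IsSymm)
    (hneg : ∀ u v, u ≠ v → M u v ≤ 0) (hzero : ∀ u v, u ≠ v → (M u v = 0 ↔ F.Adj u.1 v.1))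
    (b : Fin N × Fin L → ℝ) (hb0 : ∀ v, 0 ≤ b v)
    (hb : ∀ z : Fin N × Fin L → ℝ, 0 ≤ z ⬝ᵥ M *ᵥ z + (b ⬝ᵥ z) ^ 2)
    (V3 : Finset (Fin N × Fin L)) (P : Finset ((Fin N × Fin L) × (Fin N × Fin L)))
    (hpos : ∀ u ∈ V3, 0 < M u u) (hP : IsMatch P) (hPJ : ∀ p ∈ P, p.1 ∈ V3 ∧ p.2 ∈ V3)
    (hb9 : ∀ p ∈ P, 9 / 10 ≤ beta M p.1 p.2) (hb1 : ∀ p ∈ P, beta M p.1 p.2 < 1)
    (hPc : ∀ p ∈ P, ¬ F.Adj p.1.1 p.2.1 ∧ (p.1.1 = p.2.1 ∨ kd p.1.1 p.2.1 = c))
    (η : ℝ) (hη : 0 < η) (R : ℝ) (hR : R = ((2 : ℝ) ^ N + 2) ^ 2 * 2 ^ N / η)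
    (D : ℝ) (hD : 32 * (1 + R + R ^ 2) * √(1 + R) * √((V3.card : ℕ) : ℝ) ≤ D)
    (hbig : 19 / 100 * (V3.card : ℝ) + (6 * w + η * V3.card) + D ≤ (P.card : ℝ)) :
    (V3.card : ℝ) ≤ 1832 / 1000 * (M.rank : ℝ) + 2 * D + 2 * (6 * w + η * V3.card) := by
  classical
  have h1 : ∀ i : It V3 P, Yv M i ⬝ᵥ M *ᵥ Yv M i = 1 := S60Geom427.Y_self M hM hP hPJ hpos hb1
  have hoff : ∀ i j : It V3 P, i ≠ j → Yv M i ⬝ᵥ M *ᵥ Yv M j ≤ 0 := S60Geom427.Y_off M hneg hP
  obtain ⟨J, hJ1, hJ2⟩ := S60Items822.rows_items F kd c K hJ hL w hw M hM b hb hb0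
    (I := It V3 P) (fun i => Yv M i) (fun i v => S60Geom427.Y_nonneg M i v) h1 hoff
    (fun i => supp i) (fun i => S60GeomK427.okK_item F kd hkd c _ hPc i)
    (fun i j hij => S60Geom427.supp_disj hP i j hij)
    (fun i j h => S60GeomK427.Y_joined F Prod.fst M hzero i j
      ((S60Bip427.tadj_typ F Prod.fst supp i j).2 h)) η hη
  have hR0 : 0 ≤ R := by rw [hR]; positivity
  have hcI := S60Geom427.card_It V3 P hP hPJ
  have hcP := S60Geom427.card_isP V3 P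
  have hJle : J.card ≤ V3.card := by
    have := card_le_univ J
    omega
  have hrow : ∀ i : ↥J, ∑ j ∈ univ.erase i,
      -((fun i : ↥J => Yv M i.1) i ⬝ᵥ M *ᵥ (fun i : ↥J => Yv M i.1) j) ≤ R := by
    intro i
    have e1 : ∑ j ∈ univ.erase i, -((fun i : ↥J => Yv M i.1) i ⬝ᵥ M *ᵥ (fun i : ↥J => Yv M i.1) j)
        = ∑ v ∈ J.erase i.1, -(Yv M i.1 ⬝ᵥ M *ᵥ Yv M v) :=
      sum_erase_sub J i (fun v => -(Yv M i.1 ⬝ᵥ M *ᵥ Yv M v))
    rw [e1, hR]
    exact hJ2 i.1 i.2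
  -- number of pairs among the remaining items
  set q : ℕ := (univ.filter (fun i : ↥J => isP i.1)).card with hq
  have hq1 : q = (J.filter (fun i => isP i)).card := by
    have e : J.filter (fun i => isP i) =
        (univ.filter (fun i : ↥J => isP i.1)).map ⟨Subtype.val, Subtype.val_injective⟩ := by
      ext i
      simp only [mem_filter, Finset.mem_map, mem_univ, true_and, Function.Embedding.coeFn_mk]
      constructor
      · rintro ⟨h, h'⟩
        exact ⟨⟨i, h⟩, h', rfl⟩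
      · rintro ⟨a, h, rfl⟩
        exact ⟨a.2, h⟩
    rw [e, card_map]
  have hq2 : P.card ≤ q + (univ \ J).card := by
    rw [hq1, ← hcP]
    have hs : univ.filter (isP (J := V3) (P := P)) ⊆ J.filter (fun i => isP i) ∪ (univ \ J) := by
      intro i hi
      rw [mem_filter] at hi
      by_cases hiJ : i ∈ J
      · exact mem_union_left _ (mem_filter.2 ⟨hiJ, hi.2⟩)
      · exact mem_union_right _ (mem_sdiff.2 ⟨mem_univ _, hiJ⟩)
    exact (card_le_card hs).trans (card_union_le _ _)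
  have hq3 : q ≤ P.card := by
    rw [hq1, ← hcP]
    exact card_le_card (filter_subset_filter _ (subset_univ _))
  have hJ3 : (univ \ J).card + J.card = Fintype.card (It V3 P) := by
    rw [card_sdiff_add_card_eq_card (subset_univ _), card_univ]
  have hIle : (Fintype.card (It V3 P) : ℝ) ≤ V3.card := by
    have : Fintype.card (It V3 P) ≤ V3.card := by omega
    exact_mod_cast this
  have hE : (((univ \ J).card : ℕ) : ℝ) ≤ 6 * w + η * V3.card := by
    refine hJ1.trans ?_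
    have := mul_le_mul_of_nonneg_left hIle hη.le
    linarith
  have hJ3' : (((univ \ J).card : ℕ) : ℝ) + (J.card : ℝ) + (P.card : ℝ) = V3.card := by
    have : (univ \ J).card + J.card + P.card = V3.card := by omega
    exact_mod_cast this
  have hq2' : (P.card : ℝ) ≤ q + (((univ \ J).card : ℕ) : ℝ) := by exact_mod_cast hq2
  have hq3' : (q : ℝ) ≤ P.card := by exact_mod_cast hq3
  have hE0 : (0 : ℝ) ≤ (((univ \ J).card : ℕ) : ℝ) := Nat.cast_nonneg _
  have hcJ : Fintype.card ↥J = J.card := Fintype.card_coe J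
  have hcount := S60CE.count hM b hb (fun i : ↥J => Yv M i.1) (fun i : ↥J => fv M i.1)
    (fun i : ↥J => isP i.1) (fun i => h1 i.1)
    (fun i j hij => hoff i.1 j.1 (fun h => hij (Subtype.ext h)))
    (fun i hi => S60Geom427.f_f M hM hPJ hpos hb9 i.1 hi)
    (fun i hi => S60Geom427.f_Y_self M hM hP hPJ hpos i.1 hi)
    (fun i j hi hij => S60Geom427.f_Y M hneg hP hb9 hb1 i.1 j.1 hi
      (fun h => hij (Subtype.ext h)))
    (fun i j hi hj hij => S60Geom427.f_f_off M hM hneg hP hb9 hb1 i.1 j.1 hi hj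
      (fun h => hij (Subtype.ext h)))
    R hR0 hrow D
    (by
      refine le_trans ?_ hD
      rw [hcJ]
      have : √((J.card : ℕ) : ℝ) ≤ √((V3.card : ℕ) : ℝ) :=
        Real.sqrt_le_sqrt (by exact_mod_cast hJle)
      exact mul_le_mul_of_nonneg_left this (by positivity))
    (by
      rw [hcJ]
      show 19 / 100 * ((J.card : ℝ) + (q : ℝ)) + D ≤ (q : ℝ)
      linarith)
  rw [hcJ] at hcount
  have hcount' : (J.card : ℝ) + (q : ℝ) ≤ 1832 / 1000 * (M.rank : ℝ) + 2 * D := hcount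
  linarith

/-- THE CORE: `Core N F L` for all large `L` from the kinds property. -/
theorem core_of_jbk {N : ℕ} (hN : 0 < N) (F : SimpleGraph (Fin N)) (hF : F.CliqueFree 3)
    (kd : Fin N → Fin N → Bool) (hkd : ∀ a b, kd a b = kd b a)
    (hJ : ∀ c, JBK F kd c 100000) :
    ∃ L0 : ℕ, ∀ L, L0 ≤ L → S60End427.Core N F L := by
  classical
  set η : ℝ := 1 / 10000 with hη
  have hη0 : 0 < η := by rw [hη]; norm_num
  set R : ℝ := ((2 : ℝ) ^ N + 2) ^ 2 * 2 ^ N / η with hR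
  have hR0 : 0 ≤ R := by rw [hR]; positivity
  set C : ℝ := 32 * (1 + R + R ^ 2) * √(1 + R) with hC
  have hC0 : 0 ≤ C := by rw [hC]; positivity
  refine ⟨max 1000000 ⌈(10000 * C) ^ 2⌉₊, ?_⟩
  intro L hL
  have hL1 : 1000000 ≤ L := (le_max_left _ _).trans hL
  have hL2 : ⌈(10000 * C) ^ 2⌉₊ ≤ L := (le_max_right _ _).trans hL
  have hLm : L ≤ N * L := Nat.le_mul_of_pos_left L hN
  set m : ℕ := N * L with hm
  have hm1 : (1000000 : ℝ) ≤ m := by exact_mod_cast hL1.trans hLm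
  have hm2 : (10000 * C) ^ 2 ≤ (m : ℝ) := by
    have h1 : (10000 * C) ^ 2 ≤ (⌈(10000 * C) ^ 2⌉₊ : ℝ) := Nat.le_ceil _
    have h2 : (⌈(10000 * C) ^ 2⌉₊ : ℝ) ≤ m := by exact_mod_cast hL2.trans hLm
    linarith
  have hroot : ∀ k : ℕ, k ≤ m → C * √(k : ℝ) ≤ (m : ℝ) / 10000 := by
    intro k hk
    have h0 : (0 : ℝ) ≤ m := by linarith
    have h1 : 10000 * C ≤ √(m : ℝ) := Real.le_sqrt_of_sq_le hm2
    have h2 : √(k : ℝ) ≤ √(m : ℝ) := Real.sqrt_le_sqrt (by exact_mod_cast hk)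
    have h3 : √(m : ℝ) * √(m : ℝ) = m := Real.mul_self_sqrt h0
    have h4 : 0 ≤ √(m : ℝ) := Real.sqrt_nonneg _
    have h5 : C * √(k : ℝ) ≤ C * √(m : ℝ) := mul_le_mul_of_nonneg_left h2 hC0
    have h6 : 10000 * C * √(m : ℝ) ≤ √(m : ℝ) * √(m : ℝ) := mul_le_mul_of_nonneg_right h1 h4
    linarith
  intro M hM hneg hzero b hb0 hb
  by_contra hcon
  have hrank : (M.rank : ℝ) ≤ (m : ℝ) / 2 + 1 := not_lt.1 hcon
  have hL0 : 0 < L := by omega
  set w : ℕ := 2 * m / 100000 + 1 with hw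
  have hw1 : 2 * (N * L) ≤ 100000 * w := by
    rw [← hm, hw]
    omega
  have hw2 : (w : ℝ) ≤ 2 * m / 100000 + 1 := by
    have h : 100000 * w ≤ 2 * m + 100000 := by rw [hw]; omega
    have h' : (100000 : ℝ) * w ≤ 2 * m + 100000 := by exact_mod_cast h
    linarith
  obtain ⟨V1, hpos, hbeta, hV1⟩ := S60SysK840.exists_V1 F hF kd hkd 100000 hJ (by omega) hM hneg
    hzero b hb0 hb w hw1
  have hcu : Fintype.card (Fin N × Fin L) = m := by
    rw [Fintype.card_prod, Fintype.card_fin, Fintype.card_fin]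
  have hV1' : (m : ℝ) ≤ V1.card + 10 * w := by
    have h := card_sdiff_add_card_eq_card (subset_univ V1)
    rw [card_univ, hcu] at h
    have h' : m ≤ V1.card + 10 * w := by omega
    exact_mod_cast h'
  have hV1m : V1.card ≤ m := by
    have := card_le_univ V1
    rwa [hcu] at this
  obtain ⟨V2, G, hV21, hV2c, hGc, hG⟩ := stage1 F kd true 100000 (hJ true) hL0 w hw1 hM hneg hzero
    b hb0 hb V1 hpos η hη0 R hR
  have hV2m : V2.card ≤ m := (card_le_card hV21).trans hV1m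
  have hGc' : ((univ \ G).card : ℝ) ≤ (m : ℝ) / 10000 := hGc.trans (hroot _ hV2m)
  have hG1 : (((univ \ G).card : ℕ) : ℝ) + (G.card : ℝ) = V2.card := by
    have h := card_sdiff_add_card_eq_card (subset_univ G)
    rw [card_univ, Fintype.card_coe] at h
    exact_mod_cast h
  have hV1m' : (V1.card : ℝ) ≤ m := by exact_mod_cast hV1m
  have hGbig : (99948 / 100000 : ℝ) * m - 16 ≤ G.card := by
    have h1 : η * (V1.card : ℝ) ≤ η * m := mul_le_mul_of_nonneg_left hV1m' hη0.le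
    rw [hη] at h1 hV2c
    linarith
  have hrk : (M.rank : ℝ) ≤ 501 / 1000 * (G.card : ℝ) := by linarith
  obtain ⟨c, V3, P, hV32, hV3c, hP, hPJ, hb9, hPc, hPbig⟩ := heavy_pairs F kd hkd hM hneg hzero V2
    (fun u hu => hpos u (hV21 hu)) G hG hrk
  have hV3m : V3.card ≤ m := (card_le_card hV32).trans hV2m
  have hV3m' : (V3.card : ℝ) ≤ m := by exact_mod_cast hV3m
  have hV3G : (V3.card : ℝ) = G.card := by exact_mod_cast hV3c
  have hfin := stage2 F kd hkd c 100000 (hJ c) hL0 w hw1 hM hneg hzero b hb0 hb V3 P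
    (fun u hu => hpos u (hV21 (hV32 hu))) hP hPJ hb9
    (fun p hp => hbeta p.1 (hV21 (hV32 (hPJ p hp).1)) p.2 (hV21 (hV32 (hPJ p hp).2)) (hP.1 p hp))
    hPc η hη0 R hR ((m : ℝ) / 10000) (hroot _ hV3m)
    (by
      have h1 : η * (V3.card : ℝ) ≤ η * m := mul_le_mul_of_nonneg_left hV3m' hη0.le
      rw [hη] at h1 ⊢
      linarith)
  have h1 : η * (V3.card : ℝ) ≤ η * m := mul_le_mul_of_nonneg_left hV3m' hη0.le
  rw [hη] at h1 hfin
  linarith

/-- S0060 (literal text) from `HJK 100000`. -/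
theorem s60_of_hjk (h : S59Spine883.HJK 100000) :
    ∀ m₀ : ℕ, ∃ m : ℕ, m₀ ≤ m ∧ ∃ G : SimpleGraph (Fin m),
      Gᶜ.CliqueFree 3 ∧
      (∀ M : Matrix (Fin m) (Fin m) ℝ, Crest.CombinatoricsR.SpectralGraph.IsWellSigned G M →
        Crest.CombinatoricsR.SpectralGraph.negEigenvalueCount M = 1 →
        Crest.CombinatoricsR.SpectralGraph.HasStrongArnoldProperty G M →
        (Crest.CombinatoricsR.SpectralGraph.corank M : ℝ) + 1 < (m : ℝ) / 2) ∧
      (∀ k : ℕ, G.Colorable k → m ≤ 2 * k) := by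
  obtain ⟨N, hN, F, hF, kd, hkd, H⟩ := h
  obtain ⟨L0, hcore⟩ := core_of_jbk hN F hF kd hkd
    (fun c 𝒜 ℬ hA hB h1 h2 => H c 𝒜 ℬ hA hB h1 h2)
  exact S60End427.s60_of_core hN F hF L0 hcore

end Crest.Agent.R042.S60Fin822
end

-- ▼ part R042/Final42_730

/-! # Row 42: the three remaining statements from `PairConfK 100000` (dry run, helper730) -/

set_option autoImplicit false

open Crest.CombinatoricsR.GraphMinor Crest.CombinatoricsR.SpectralGraph
open Crest Crest.CombinatoricsR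

namespace Crest.Agent.R042.Final42

open Crest.Agent.R042.S59Spine883

/-- S0057, S0059, S0060 literally -/
theorem all_of_pairConfK (h : PairConfK 100000) :
    (∀ m₀ : ℕ, ∃ m : ℕ, m₀ ≤ m ∧ ∃ G : SimpleGraph (Fin m),
      Gᶜ.CliqueFree 3 ∧ (m : ℝ) / 2 ≤ fractionalChromaticNumber G ∧
      ∀ (t : ℕ) (B : Fin t → Finset (Fin m)), IsCliqueMinorModel G B →
        (t : ℝ) < 26 * (m : ℝ) / 75 + 2 / 3 ∧ (t : ℝ) < fractionalChromaticNumber G) ∧
    (∀ m₀ : ℕ, ∃ m : ℕ, m₀ ≤ m ∧ ∃ G : SimpleGraph (Fin m),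
      Gᶜ.CliqueFree 3 ∧
      ∀ (k : ℕ) (e : Fin k → Fin m × Fin m),
        (∀ i, G.Adj (e i).1 (e i).2) →
        (∀ i j, i ≠ j → (e i).1 ≠ (e j).1 ∧ (e i).1 ≠ (e j).2 ∧ (e i).2 ≠ (e j).1 ∧ (e i).2 ≠ (e j).2) →
        (∀ i j, i ≠ j →
          G.Adj (e i).1 (e j).1 ∨ G.Adj (e i).1 (e j).2 ∨ G.Adj (e i).2 (e j).1 ∨ G.Adj (e i).2 (e j).2) →
        100 * k < m) ∧
    (∀ m₀ : ℕ, ∃ m : ℕ, m₀ ≤ m ∧ ∃ G : SimpleGraph (Fin m),
      Gᶜ.CliqueFree 3 ∧
      (∀ M : Matrix (Fin m) (Fin m) ℝ, IsWellSigned G M → negEigenvalueCount M = 1 →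
        HasStrongArnoldProperty G M → (corank M : ℝ) + 1 < (m : ℝ) / 2) ∧
      (∀ k : ℕ, G.Colorable k → m ≤ 2 * k)) := by
  have h59 := s59_of_hjk ((hjk_of_pairConfK h).mono (by norm_num : 400 ≤ 100000))
  exact ⟨From59822.s57 h59, h59, S60Fin822.s60_of_hjk (hjk_of_pairConfK h)⟩

end Crest.Agent.R042.Final42
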