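import Mathlib
import Crest.Agent.R042.Conn_353
import Crest.Agent.R042.Menger_353
import Crest.Agent.R042.AsmDefs_220

-- ▼ part R042/Short_153
section

/-! Row 42 (S0058), section 07 (5): the shortcut of one port path.  A chain of vertices ending
outside the pieces `H j` keeps its vertices outside the pieces (`Out`) and jumps, at most once in
each piece `k ∈ J`, from `en k` to `ex k`. -/

set_option autoImplicit false
set_option linter.unusedSectionVars false
set_option linter.unusedVariables false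

namespace Crest.Agent.R042.Short153

open Finset Crest.Agent.R042.Conn353 Crest.Agent.R042.Menger353

variable {V : Type*} [DecidableEq V] {ι : Type*} [DecidableEq ι]

theorem short_chain (G : SimpleGraph V) (H : ι → Finset V)
    (hdis : ∀ i j, i ≠ j → Disjoint (H i) (H j)) :
    ∀ (n : ℕ) (c : V) (t : List V), (c :: t).length ≤ n → (c :: t).IsChain G.Adj →
    ∀ (b : V) (s : List V), c :: t = s ++ [b] → (∀ j, b ∉ H j) →
    ∃ (Out : Finset V) (J : Finset ι) (en ex : ι → V),
      (∀ z ∈ Out, z ∈ c :: t) ∧ (∀ z ∈ Out, ∀ j, z ∉ H j) ∧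
      (∀ k ∈ J, en k ∈ c :: t ∧ ex k ∈ c :: t ∧ en k ∈ H k ∧ ex k ∈ H k) ∧ b ∈ Out ∧
      ∀ C : ι → Finset V, (∀ k ∈ J, Conn G (C k) ∧ en k ∈ C k ∧ ex k ∈ C k) →
        Conn G (Out ∪ J.biUnion C) ∧ c ∈ Out ∪ J.biUnion C := by
  intro n
  induction n with
  | zero => intro c t h; simp at h
  | succ n ih =>
    intro c t hlen hch b s hst hb
    by_cases hc : ∃ j, c ∈ H j
    · obtain ⟨j, hj⟩ := hc
      obtain ⟨l1, x, l2, h1, h2, h3⟩ := split_last (fun x => x ∈ H j) (c :: t) ⟨c, by simp, hj⟩
      cases l2 with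
      | nil =>
        exfalso
        have h4 : l1 ++ [x] = s ++ [b] := by rw [← h1, hst]
        obtain ⟨_, h5⟩ := last_unique h4
        exact hb j (h5 ▸ h2)
      | cons d l3 =>
        have hlen' : (d :: l3).length ≤ n := by
          have : (c :: t).length = (l1 ++ x :: d :: l3).length := by rw [h1]
          simp only [List.length_append, List.length_cons] at this hlen ⊢
          omega
        rw [h1, List.isChain_split, List.isChain_cons_cons] at hch
        obtain ⟨-, hxd, hch2⟩ := hch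
        obtain ⟨s', hs'⟩ : ∃ s', d :: l3 = s' ++ [b] := by
          rcases List.eq_nil_or_concat l3 with h | ⟨l4, e, h⟩
          · rw [h] at h1 ⊢
            have h4 : (l1 ++ [x]) ++ [d] = s ++ [b] := by rw [← hst, h1]; simp
            obtain ⟨_, h5⟩ := last_unique h4
            exact ⟨[], by rw [h5]; rfl⟩
          · rw [h] at h1 ⊢
            have h4 : (l1 ++ x :: d :: l4) ++ [e] = s ++ [b] := by rw [← hst, h1]; simp
            obtain ⟨_, h5⟩ := last_unique h4
            exact ⟨d :: l4, by rw [h5]; simp⟩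
        obtain ⟨Out, J, en, ex, a1, a2, a3, a4, a5⟩ := ih d l3 hlen' hch2 b s' hs' hb
        have hjJ : j ∉ J := fun hjJ => h3 (en j) (a3 j hjJ).1 (a3 j hjJ).2.2.1
        have hsub : ∀ z ∈ d :: l3, z ∈ c :: t := by
          intro z hz
          rw [h1]
          simp only [List.mem_append, List.mem_cons] at hz ⊢
          tauto
        refine ⟨Out, insert j J, Function.update en j c, Function.update ex j x,
          fun z hz => hsub z (a1 z hz), a2, ?_, a4, ?_⟩
        · intro k hk
          rcases Finset.mem_insert.1 hk with rfl | hk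
          · rw [Function.update_self, Function.update_self]
            refine ⟨by simp, ?_, hj, h2⟩
            rw [h1]; simp
          · have hkj : k ≠ j := fun h => hjJ (h ▸ hk)
            rw [Function.update_of_ne hkj, Function.update_of_ne hkj]
            exact ⟨hsub _ (a3 k hk).1, hsub _ (a3 k hk).2.1, (a3 k hk).2.2⟩
        · intro C hC
          have hCj := hC j (Finset.mem_insert_self _ _)
          rw [Function.update_self, Function.update_self] at hCj
          obtain ⟨b1, b2⟩ := a5 C (by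
            intro k hk
            have hkj : k ≠ j := fun h => hjJ (h ▸ hk)
            have := hC k (Finset.mem_insert_of_mem hk)
            rwa [Function.update_of_ne hkj, Function.update_of_ne hkj] at this)
          have hset : Out ∪ (insert j J).biUnion C = C j ∪ (Out ∪ J.biUnion C) := by
            rw [Finset.biUnion_insert, Finset.union_left_comm]
          rw [hset]
          exact ⟨hCj.1.union_adj b1 hCj.2.2 b2 hxd, Finset.mem_union_left _ hCj.2.1⟩
    · push Not at hc
      cases t with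
      | nil =>
        have h4 : [] ++ [c] = s ++ [b] := by rw [← hst]; rfl
        obtain ⟨_, h5⟩ := last_unique h4
        subst h5
        refine ⟨{c}, ∅, fun _ => c, fun _ => c, by simp, ?_, by simp, by simp, ?_⟩
        · intro z hz j
          rw [Finset.mem_singleton.1 hz]
          exact hc j
        · intro C _
          simp only [Finset.biUnion_empty, Finset.union_empty, Finset.mem_singleton, and_true]
          exact conn_singleton c
      | cons d l3 =>
        have hlen' : (d :: l3).length ≤ n := by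
          simp only [List.length_cons] at hlen ⊢
          omega
        rw [List.isChain_cons_cons] at hch
        obtain ⟨hcd, hch2⟩ := hch
        obtain ⟨s', hs'⟩ : ∃ s', d :: l3 = s' ++ [b] := by
          cases s with
          | nil => simp at hst
          | cons c' s' =>
            simp only [List.cons_append, List.cons.injEq] at hst
            exact ⟨s', hst.2⟩
        obtain ⟨Out, J, en, ex, a1, a2, a3, a4, a5⟩ := ih d l3 hlen' hch2 b s' hs' hb
        refine ⟨insert c Out, J, en, ex, ?_, ?_, ?_, Finset.mem_insert_of_mem a4, ?_⟩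
        · intro z hz
          rcases Finset.mem_insert.1 hz with rfl | hz
          · simp
          · exact List.mem_cons_of_mem _ (a1 z hz)
        · intro z hz
          rcases Finset.mem_insert.1 hz with rfl | hz
          · exact hc
          · exact a2 z hz
        · intro k hk
          exact ⟨List.mem_cons_of_mem _ (a3 k hk).1, List.mem_cons_of_mem _ (a3 k hk).2.1,
            (a3 k hk).2.2⟩
        · intro C hC
          obtain ⟨b1, b2⟩ := a5 C hC
          rw [Finset.insert_union]
          exact ⟨b1.insert_adj b2 hcd.symm, Finset.mem_insert_self _ _⟩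

/-- the shortcut of a whole port path: it starts in the piece `H j0`, is left by the rest at its
last vertex `x` of this piece, and ends at `b ∈ Y0`. -/
theorem short_path {G : SimpleGraph V} {H : ι → Finset V}
    (hdis : ∀ i j, i ≠ j → Disjoint (H i) (H j)) {W' A Y0 : Finset V}
    (hY0 : ∀ j, ∀ z ∈ Y0, z ∉ H j) {l : List V} (hl : IsPath G W' A Y0 l) {j0 : ι} {a : V}
    (ha : a ∈ l) (haj : a ∈ H j0) :
    ∃ (x b : V) (Out : Finset V) (J : Finset ι) (en ex : ι → V), x ∈ l ∧ x ∈ H j0 ∧ j0 ∉ J ∧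
      b ∈ l ∧ b ∈ Y0 ∧ (∀ z ∈ l, z ∈ Y0 → z = b) ∧
      (∀ z ∈ Out, z ∈ l) ∧ (∀ z ∈ Out, ∀ j, z ∉ H j) ∧
      (∀ k ∈ J, en k ∈ l ∧ ex k ∈ l ∧ en k ∈ H k ∧ ex k ∈ H k) ∧ b ∈ Out ∧
      ∀ (B : Finset V) (C : ι → Finset V), Conn G B → x ∈ B →
        (∀ k ∈ J, Conn G (C k) ∧ en k ∈ C k ∧ ex k ∈ C k) →
        Conn G (B ∪ (Out ∪ J.biUnion C)) := by
  obtain ⟨s, b, hsb, hbY, hsY⟩ := hl.stop
  obtain ⟨l1, x, l2, h1, h2, h3⟩ := split_last (fun x => x ∈ H j0) l ⟨a, ha, haj⟩
  cases l2 with
  | nil =>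
    exfalso
    have h4 : l1 ++ [x] = s ++ [b] := by rw [← h1, hsb]
    obtain ⟨_, h5⟩ := last_unique h4
    exact hY0 j0 b hbY (h5 ▸ h2)
  | cons d l3 =>
    have hch := hl.chain
    rw [h1, List.isChain_split, List.isChain_cons_cons] at hch
    obtain ⟨-, hxd, hch2⟩ := hch
    obtain ⟨s', hs'⟩ : ∃ s', d :: l3 = s' ++ [b] := by
      rcases List.eq_nil_or_concat l3 with h | ⟨l4, e, h⟩
      · rw [h] at h1 ⊢
        have h4 : (l1 ++ [x]) ++ [d] = s ++ [b] := by rw [← hsb, h1]; simp
        obtain ⟨_, h5⟩ := last_unique h4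
        exact ⟨[], by rw [h5]; rfl⟩
      · rw [h] at h1 ⊢
        have h4 : (l1 ++ x :: d :: l4) ++ [e] = s ++ [b] := by rw [← hsb, h1]; simp
        obtain ⟨_, h5⟩ := last_unique h4
        exact ⟨d :: l4, by rw [h5]; simp⟩
    obtain ⟨Out, J, en, ex, a1, a2, a3, a4, a5⟩ := short_chain G H hdis (d :: l3).length d l3 le_rfl
      hch2 b s' hs' (fun j => hY0 j b hbY)
    have hsub : ∀ z ∈ d :: l3, z ∈ l := by
      intro z hz
      rw [h1]
      simp only [List.mem_append, List.mem_cons] at hz ⊢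
      tauto
    refine ⟨x, b, Out, J, en, ex, ?_, h2, ?_, ?_, hbY, ?_, fun z hz => hsub z (a1 z hz), a2, ?_,
      a4, ?_⟩
    · rw [h1]; simp
    · intro hjJ
      exact h3 (en j0) (a3 j0 hjJ).1 (a3 j0 hjJ).2.2.1
    · rw [hsb]; simp
    · intro z hz hzY
      rw [hsb] at hl hz
      exact hl.mem_B hz hzY
    · intro k hk
      exact ⟨hsub _ (a3 k hk).1, hsub _ (a3 k hk).2.1, (a3 k hk).2.2⟩
    · intro B C hB hx hC
      obtain ⟨b1, b2⟩ := a5 C hC
      exact hB.union_adj b1 hx b2 hxd

end Crest.Agent.R042.Short153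
end

-- ▼ part R042/Legs_153

/-! Row 42 (S0058), section 07 (5)+(6): the legs.  `woven_fam`: a woven piece in family form (pairs
indexed by any finite set, equal ends allowed = blocked vertices).  `legs : LegsStmt`. -/

set_option autoImplicit false
set_option linter.unusedSectionVars false
set_option linter.unusedVariables false

namespace Crest.Agent.R042.Legs153

open Finset Crest.Agent.R042.Conn353 Crest.Agent.R042.Menger353 Crest.Agent.R042.Asm220
open Crest.Agent.R042.Short153

/-- `Woven` for a family of pairs `(s q, t q)`, `q ∈ K`, where `s q = t q` is allowed. -/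
theorem woven_fam {V : Type*} [DecidableEq V] {G : SimpleGraph V} {H Y : Finset V} {a c : ℕ}
    (hW : Woven G H Y a c) (hYH : Y ⊆ H) {κ : Type*} [DecidableEq κ] (K : Finset κ)
    (hK : K.card ≤ c) (r : Fin a → V) (s t : κ → V) (hr : Function.Injective r)
    (hrY : ∀ i, r i ∈ Y) (hsY : ∀ q ∈ K, s q ∈ Y) (htY : ∀ q ∈ K, t q ∈ Y)
    (hst : ∀ q ∈ K, ∀ q' ∈ K, q ≠ q' → s q ≠ s q' ∧ s q ≠ t q' ∧ t q ≠ t q')
    (hrs : ∀ i, ∀ q ∈ K, r i ≠ s q ∧ r i ≠ t q) :
    ∃ (B : Fin a → Finset V) (C : κ → Finset V),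
      (∀ i, B i ⊆ H ∧ Conn G (B i) ∧ r i ∈ B i) ∧
      (∀ q ∈ K, C q ⊆ H ∧ Conn G (C q) ∧ s q ∈ C q ∧ t q ∈ C q) ∧
      (∀ i j, i ≠ j → Disjoint (B i) (B j)) ∧
      (∀ q ∈ K, ∀ q' ∈ K, q ≠ q' → Disjoint (C q) (C q')) ∧
      (∀ i, ∀ q ∈ K, Disjoint (B i) (C q)) ∧
      (∀ i j, i ≠ j → ∃ x ∈ B i, ∃ y ∈ B j, G.Adj x y) := by
  classical
  set M : Finset κ := K.filter (fun q => s q ≠ t q) with hM
  set Bl : Finset V := (K.filter (fun q => s q = t q)).image s with hBl
  have hMK : ∀ q ∈ M, q ∈ K ∧ s q ≠ t q := fun q hq => by simpa [hM] using hq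
  have hBlK : ∀ v ∈ Bl, ∃ q ∈ K, s q = t q ∧ s q = v := by
    intro v hv
    rw [hBl, Finset.mem_image] at hv
    obtain ⟨q, hq, rfl⟩ := hv
    rw [Finset.mem_filter] at hq
    exact ⟨q, hq.1, hq.2, rfl⟩
  let e : Fin M.card ≃ M := M.equivFin.symm
  have heK : ∀ i, (e i : κ) ∈ K := fun i => (hMK _ (e i).2).1
  have hene : ∀ i, s (e i) ≠ t (e i) := fun i => (hMK _ (e i).2).2
  have heinj : ∀ i j, i ≠ j → (e i : κ) ≠ e j := by
    intro i j hij h
    exact hij (e.injective (Subtype.ext h))
  have hcard : 2 * M.card + Bl.card ≤ 2 * c := by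
    have h1 : Bl.card ≤ (K.filter (fun q => s q = t q)).card := Finset.card_image_le
    have h2 : (K.filter (fun q => s q = t q)).card + M.card = K.card := by
      rw [hM]
      exact Finset.card_filter_add_card_filter_not _
    omega
  obtain ⟨B, P, b1, b2, b3, b4, b5, b6, b7, b8⟩ := hW r M.card (fun i => s (e i))
    (fun i => t (e i)) Bl hr
    (by
      intro i j hij
      by_contra hne
      exact (hst _ (heK i) _ (heK j) (heinj i j hne)).1 hij)
    (by
      intro i j hij
      by_contra hne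
      exact (hst _ (heK i) _ (heK j) (heinj i j hne)).2.2 hij)
    (fun i j => (hrs i _ (heK j)).1) (fun i j => (hrs i _ (heK j)).2)
    (by
      intro i j hij
      by_cases hne : i = j
      · subst hne
        exact hene i hij
      · exact (hst _ (heK i) _ (heK j) (heinj i j hne)).2.1 hij)
    hrY (fun i => hsY _ (heK i)) (fun i => htY _ (heK i))
    (by
      intro v hv
      obtain ⟨q, hq, _, rfl⟩ := hBlK v hv
      exact hsY q hq)
    (by
      intro i hi
      obtain ⟨q, hq, _, h2⟩ := hBlK _ hi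
      exact (hrs i q hq).1 h2.symm)
    (by
      intro i hi
      obtain ⟨q, hq, h1, h2⟩ := hBlK _ hi
      by_cases hqe : q = e i
      · exact hene i (hqe ▸ h1)
      · exact (hst _ hq _ (heK i) hqe).1 h2)
    (by
      intro i hi
      obtain ⟨q, hq, h1, h2⟩ := hBlK _ hi
      by_cases hqe : q = e i
      · exact hene i (hqe ▸ h1)
      · exact (hst _ hq _ (heK i) hqe).2.1 h2)
    hcard
  refine ⟨B, fun q => if h : q ∈ M then P (e.symm ⟨q, h⟩) else {s q}, b1, ?_, b3, ?_, ?_, b8⟩
  · intro q hq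
    by_cases h : q ∈ M
    · simp only [h, dite_true]
      have := b2 (e.symm ⟨q, h⟩)
      simpa using this
    · simp only [h, dite_false]
      have hst' : s q = t q := by
        by_contra hne
        exact h (by simp [hM, hq, hne])
      refine ⟨?_, conn_singleton _, by simp, by simp [hst']⟩
      intro x hx
      rw [Finset.mem_singleton.1 hx]
      exact hYH (hsY q hq)
  · intro q hq q' hq' hne
    by_cases h : q ∈ M <;> by_cases h' : q' ∈ M
    · simp only [h, h', dite_true]
      apply b4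
      intro heq
      have := e.symm.injective heq
      exact hne (by simpa using this)
    · simp only [h, h', dite_true, dite_false]
      refine Finset.disjoint_of_subset_right ?_ (b7 _)
      intro x hx
      rw [Finset.mem_singleton.1 hx, hBl]
      refine Finset.mem_image_of_mem _ ?_
      rw [Finset.mem_filter]
      refine ⟨hq', ?_⟩
      by_contra hne
      exact h' (by simp [hM, hq', hne])
    · simp only [h, h', dite_true, dite_false]
      refine (Finset.disjoint_of_subset_right ?_ (b7 _)).symm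
      intro x hx
      rw [Finset.mem_singleton.1 hx, hBl]
      refine Finset.mem_image_of_mem _ ?_
      rw [Finset.mem_filter]
      refine ⟨hq, ?_⟩
      by_contra hne
      exact h (by simp [hM, hq, hne])
    · simp only [h, h', dite_false]
      rw [Finset.disjoint_singleton]
      exact (hst q hq q' hq' hne).1
  · intro i q hq
    by_cases h : q ∈ M
    · simp only [h, dite_true]
      exact b5 _ _
    · simp only [h, dite_false]
      refine Finset.disjoint_of_subset_right ?_ (b6 _)
      intro x hx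
      rw [Finset.mem_singleton.1 hx, hBl]
      refine Finset.mem_image_of_mem _ ?_
      rw [Finset.mem_filter]
      refine ⟨hq, ?_⟩
      by_contra hne
      exact h (by simp [hM, hq, hne])

/-- section 07 (5)+(6). -/
theorem legs : LegsStmt := by
  intro V _ G ι _ _ W H0 Y0 H Y S a c P hYH hHW hY0 hH0 hdis hdis0 hSY hSa hP hPc hac hW
  classical
  set Z : Finset V := Finset.univ.biUnion (fun j => H j \ Y j) ∪ (H0 \ Y0) with hZ
  set A : Finset V := Finset.univ.biUnion S with hA
  have hSH : ∀ j, S j ⊆ H j := fun j => (hSY j).trans (hYH j)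
  -- vertices of `W'`
  have hWY : ∀ j, ∀ z ∈ W \ Z, z ∈ H j → z ∈ Y j := by
    intro j z hz hzH
    by_contra hzY
    refine (Finset.mem_sdiff.1 hz).2 ?_
    rw [hZ]
    refine Finset.mem_union_left _ (Finset.mem_biUnion.2 ⟨j, Finset.mem_univ _, ?_⟩)
    exact Finset.mem_sdiff.2 ⟨hzH, hzY⟩
  have hWY0 : ∀ z ∈ W \ Z, z ∈ H0 → z ∈ Y0 := by
    intro z hz hzH
    by_contra hzY
    refine (Finset.mem_sdiff.1 hz).2 ?_
    rw [hZ]
    exact Finset.mem_union_right _ (Finset.mem_sdiff.2 ⟨hzH, hzY⟩)
  have hY0H : ∀ j, ∀ z ∈ Y0, z ∉ H j := by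
    intro j z hz hzH
    exact Finset.disjoint_left.1 (hdis0 j) hzH (hY0 hz)
  have huniq : ∀ i j v, v ∈ H i → v ∈ H j → i = j := by
    intro i j v hi hj
    by_contra hne
    exact Finset.disjoint_left.1 (hdis i j hne) hi hj
  -- every vertex of `A` starts a path
  have hAcard : A.card ≤ a * Fintype.card ι := by
    rw [hA]
    refine Finset.card_biUnion_le.trans ?_
    simp [hSa, mul_comm]
  have hAP : A ⊆ verts P := by
    have h1 := hP.verts_inter_card_left
    have h2 : A ⊆ verts P ∩ A := by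
      have : verts P ∩ A = A := by
        apply Finset.eq_of_subset_of_card_le Finset.inter_subset_right
        rw [h1, hPc]
        exact hAcard
      rw [this]
    exact fun x hx => Finset.mem_of_mem_inter_left (h2 hx)
  -- indexing of the starts
  let σ : ∀ j, Fin a ≃ S j := fun j => (Fin.castOrderIso (hSa j).symm).toEquiv.trans
    (S j).equivFin.symm
  have hσA : ∀ j i, ((σ j i : S j) : V) ∈ A := by
    intro j i
    rw [hA]
    exact Finset.mem_biUnion.2 ⟨j, Finset.mem_univ _, (σ j i).2⟩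
  have hpath : ∀ q : ι × Fin a, ∃ l ∈ P, ((σ q.1 q.2 : S q.1) : V) ∈ l :=
    fun q => mem_verts.1 (hAP (hσA q.1 q.2))
  choose L hLP hLσ using hpath
  have hLne : ∀ q q' : ι × Fin a, q ≠ q' → L q ≠ L q' := by
    intro q q' hne heq
    obtain ⟨a0, t, h1, h2, h3⟩ := (hP.path _ (hLP q)).start
    have h4 : ∀ z ∈ L q, z ∈ A → z = a0 := by
      intro z hz hzA
      rw [h1] at hz
      rcases List.mem_cons.1 hz with h | h
      · exact h
      · exact absurd hzA (h3 z h)
    have h5 := h4 _ (hLσ q) (hσA _ _)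
    have h6 := h4 _ (by rw [heq]; exact hLσ q') (hσA q'.1 q'.2)
    have h7 : ((σ q.1 q.2 : S q.1) : V) = ((σ q'.1 q'.2 : S q'.1) : V) := by rw [h5, h6]
    have h8 : q.1 = q'.1 := huniq _ _ _ (hSH _ (σ q.1 q.2).2) (h7 ▸ hSH _ (σ q'.1 q'.2).2)
    obtain ⟨j, i⟩ := q
    obtain ⟨j', i'⟩ := q'
    simp only at h8
    subst h8
    have h9 := (σ j).injective (Subtype.ext h7)
    exact hne (Prod.ext rfl h9)
  have hLdisj : ∀ q q' : ι × Fin a, q ≠ q' → ∀ z ∈ L q, z ∉ L q' :=
    fun q q' hne => hP.disj _ (hLP q) _ (hLP q') (hLne q q' hne)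
  -- the shortcuts
  have hshort := fun q : ι × Fin a => short_path (G := G) (H := H) hdis hY0H
    (hP.path _ (hLP q)) (hLσ q) (hSH _ (σ q.1 q.2).2)
  choose x y Out J en ex hxL hxH hJ hyL hyY hlast hOutL hOutH hJs hyOut hconn using hshort
  have hLW : ∀ q, ∀ z ∈ L q, z ∈ W \ Z := fun q => (hP.path _ (hLP q)).sub
  let K : ι → Finset (ι × Fin a) := fun k => Finset.univ.filter (fun q => k ∈ J q)
  have hKm : ∀ k q, q ∈ K k ↔ k ∈ J q := by intro k q; simp [K]
  have hKc : ∀ k, (K k).card ≤ c := by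
    intro k
    refine (Finset.card_le_univ _).trans ?_
    rw [Fintype.card_prod, Fintype.card_fin, mul_comm]
    exact hac
  have hne_of : ∀ {q q' : ι × Fin a} {u v : V}, q ≠ q' → u ∈ L q → v ∈ L q' → u ≠ v := by
    intro q q' u v hne hu hv huv
    exact hLdisj q q' hne u hu (huv ▸ hv)
  have hwov := fun k => woven_fam (hW k) (hYH k) (K k) (hKc k) (fun i => x (k, i))
    (fun q => en q k) (fun q => ex q k)
    (by
      intro i i' h
      by_contra hne
      exact hne_of (q := (k, i)) (q' := (k, i')) (by simp [hne]) (hxL _) (hxL _) h)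
    (fun i => hWY k _ (hLW _ _ (hxL _)) (hxH (k, i)))
    (by
      intro q hq
      have := hJs q k ((hKm k q).1 hq)
      exact hWY k _ (hLW _ _ this.1) this.2.2.1)
    (by
      intro q hq
      have := hJs q k ((hKm k q).1 hq)
      exact hWY k _ (hLW _ _ this.2.1) this.2.2.2)
    (by
      intro q hq q' hq' hne
      have h1 := hJs q k ((hKm k q).1 hq)
      have h2 := hJs q' k ((hKm k q').1 hq')
      exact ⟨hne_of hne h1.1 h2.1, hne_of hne h1.1 h2.2.1, hne_of hne h1.2.1 h2.2.1⟩)
    (by
      intro i q hq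
      have h1 := hJs q k ((hKm k q).1 hq)
      have hne : (k, i) ≠ q := by
        intro h
        subst h
        exact hJ (k, i) ((hKm k _).1 hq)
      exact ⟨hne_of hne (hxL _) h1.1, hne_of hne (hxL _) h1.2.1⟩)
  choose B C hB hC hBB hCC hBC hadj using hwov
  have hBH : ∀ j i, ∀ z ∈ B j i, z ∈ H j := fun j i z hz => (hB j i).1 hz
  have hCH : ∀ q, ∀ k ∈ J q, ∀ z ∈ C k q, z ∈ H k := fun q k hk z hz =>
    (hC k q ((hKm k q).2 hk)).1 hz
  have hmem : ∀ j i z, z ∈ B j i ∪ (Out (j, i) ∪ (J (j, i)).biUnion (fun k => C k (j, i))) ↔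
      z ∈ B j i ∨ z ∈ Out (j, i) ∨ ∃ k ∈ J (j, i), z ∈ C k (j, i) := by
    intro j i z
    rw [Finset.mem_union, Finset.mem_union, Finset.mem_biUnion]
  refine ⟨fun j i => B j i ∪ (Out (j, i) ∪ (J (j, i)).biUnion (fun k => C k (j, i))),
    fun j i => y (j, i), ?_, ?_, ?_, ?_, ?_, ?_, ?_⟩
  · intro j i z hz
    rcases (hmem j i z).1 hz with h | h | ⟨k, hk, h⟩
    · exact hHW j (hBH _ _ _ h)
    · exact (Finset.mem_sdiff.1 (hLW _ _ (hOutL _ _ h))).1
    · exact hHW k (hCH _ _ hk _ h)
  · intro j i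
    exact hconn (j, i) _ _ (hB j i).2.1 (hB j i).2.2
      (fun k hk => (hC k (j, i) ((hKm k _).2 hk)).2)
  · intro j i
    exact (hmem j i _).2 (Or.inr (Or.inl (hyOut _)))
  · intro j i
    exact hyY _
  · intro j i z hz hzH
    rcases (hmem j i z).1 hz with h | h | ⟨k, hk, h⟩
    · exact absurd hzH (Finset.disjoint_left.1 (hdis0 j) (hBH _ _ _ h))
    · exact hlast _ _ (hOutL _ _ h) (hWY0 _ (hLW _ _ (hOutL _ _ h)) hzH)
    · exact absurd hzH (Finset.disjoint_left.1 (hdis0 k) (hCH _ _ hk _ h))
  · intro j i j' i' hne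
    rw [Finset.disjoint_left]
    intro z hz hz'
    rcases (hmem j i z).1 hz with h | h | ⟨k, hk, h⟩ <;>
      rcases (hmem j' i' z).1 hz' with h' | h' | ⟨k', hk', h'⟩
    · have hjj : j = j' := huniq _ _ _ (hBH _ _ _ h) (hBH _ _ _ h')
      subst hjj
      have hii : i ≠ i' := fun h => hne (by rw [h])
      exact Finset.disjoint_left.1 (hBB j i i' hii) h h'
    · exact hOutH _ _ h' j (hBH _ _ _ h)
    · have hjk : j = k' := huniq _ _ _ (hBH _ _ _ h) (hCH _ _ hk' _ h')
      subst hjk
      exact Finset.disjoint_left.1 (hBC j i _ ((hKm _ _).2 hk')) h h'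
    · exact hOutH _ _ h j' (hBH _ _ _ h')
    · exact hLdisj _ _ hne z (hOutL _ _ h) (hOutL _ _ h')
    · exact hOutH _ _ h k' (hCH _ _ hk' _ h')
    · have hjk : k = j' := huniq _ _ _ (hCH _ _ hk _ h) (hBH _ _ _ h')
      subst hjk
      exact Finset.disjoint_left.1 (hBC k i' _ ((hKm _ _).2 hk)) h' h
    · exact hOutH _ _ h' k (hCH _ _ hk _ h)
    · have hkk : k = k' := huniq _ _ _ (hCH _ _ hk _ h) (hCH _ _ hk' _ h')
      subst hkk
      exact Finset.disjoint_left.1 (hCC k _ ((hKm _ _).2 hk) _ ((hKm _ _).2 hk') hne) h h'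
  · intro j i i' hne
    obtain ⟨u, hu, v, hv, huv⟩ := hadj j i i' hne
    exact ⟨u, (hmem j i u).2 (Or.inl hu), v, (hmem j i' v).2 (Or.inl hv), huv⟩

end Crest.Agent.R042.Legs153
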