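import Mathlib
import Crest.Agent.R042.Conn_353
import Crest.Agent.R042.Menger_353

/-! Row 42, LEMMA U (sec 8.4 / 10.2): a linkage of `p` disjoint `A`-`B` paths with the minimal number
of vertices spans a `(2p-1)`-degenerate graph.  Proof without flows and potentials: for a nonempty
set `S` of vertices of the linkage look at the first `S`-vertices of the paths; if each of them has a
far neighbour, reroute along a cycle of the resulting map between the paths. -/

set_option autoImplicit false
set_option linter.unusedSectionVars false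

namespace Crest.Agent.R042.LemU132

open Finset Crest.Agent.R042.Menger353 Crest.Agent.R042.Conn353

variable {V : Type*} [DecidableEq V] {G : SimpleGraph V} {W A B : Finset V} {P : Finset (List V)}

/-- a family of disjoint walks from `A` to `B` contains a linkage of the same size. -/
lemma linkage_of_walks {ι : Type*} [DecidableEq ι] (I : Finset ι) (w : ι → List V)
    (hW : ∀ i ∈ I, ∀ x ∈ w i, x ∈ W) (hc : ∀ i ∈ I, (w i).IsChain G.Adj)
    (hA : ∀ i ∈ I, ∃ a t, w i = a :: t ∧ a ∈ A) (hB : ∀ i ∈ I, ∃ s b, w i = s ++ [b] ∧ b ∈ B)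
    (hd : ∀ i ∈ I, ∀ j ∈ I, i ≠ j → ∀ x ∈ w i, x ∉ w j) :
    ∃ Q, Linkage G W A B Q ∧ Q.card = I.card ∧ ∀ x ∈ verts Q, ∃ i ∈ I, x ∈ w i := by
  have hex : ∀ i, ∃ l, i ∈ I → IsPath G W A B l ∧ ∀ x ∈ l, x ∈ w i := by
    intro i
    by_cases hi : i ∈ I
    · obtain ⟨l, h1, h2⟩ := exists_path_of_chain (A := A) (B := B) (w i).length (w i) le_rfl
        (hW i hi) (hc i hi) (hA i hi) (hB i hi)
      exact ⟨l, fun _ => ⟨h1, h2⟩⟩
    · exact ⟨[], fun h => absurd h hi⟩
  choose g hg using hex
  refine ⟨I.image g, ⟨?_, ?_⟩, ?_, ?_⟩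
  · intro l hl
    obtain ⟨i, hi, rfl⟩ := Finset.mem_image.1 hl
    exact (hg i hi).1
  · intro l hl l' hl' hne x hx hx'
    obtain ⟨i, hi, rfl⟩ := Finset.mem_image.1 hl
    obtain ⟨j, hj, rfl⟩ := Finset.mem_image.1 hl'
    exact hd i hi j hj (by rintro rfl; exact hne rfl) x ((hg i hi).2 x hx) ((hg j hj).2 x hx')
  · apply Finset.card_image_of_injOn
    intro i hi j hj hij
    by_contra hne
    obtain ⟨a, t, hat, _⟩ := (hg i hi).1.start
    have ha : a ∈ g i := by rw [hat]; simp
    have ha' : a ∈ g j := by rw [← hij]; exact ha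
    exact hd i hi j hj hne a ((hg i hi).2 a ha) ((hg j hj).2 a ha')
  · intro x hx
    obtain ⟨l, hl, hxl⟩ := mem_verts.1 hx
    obtain ⟨i, hi, rfl⟩ := Finset.mem_image.1 hl
    exact ⟨i, hi, (hg i hi).2 x hxl⟩

/-- a self map of a nonempty finite set is bijective on some nonempty invariant subset. -/
lemma exists_cycle {ι : Type*} [DecidableEq ι] (I : Finset ι) (hI : I.Nonempty) (f : ι → ι)
    (hf : ∀ i ∈ I, f i ∈ I) :
    ∃ C ⊆ I, C.Nonempty ∧ (∀ i ∈ C, f i ∈ C) ∧ ∀ i ∈ C, ∀ j ∈ C, f i = f j → i = j := by
  classical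
  induction h : I.card using Nat.strong_induction_on generalizing I with
  | _ n ih =>
  by_cases hinj : ∀ i ∈ I, ∀ j ∈ I, f i = f j → i = j
  · exact ⟨I, Finset.Subset.refl _, hI, hf, hinj⟩
  · have hlt : (I.image f).card < n := by
      rw [← h]
      refine lt_of_le_of_ne Finset.card_image_le ?_
      intro hcard
      apply hinj
      have := Finset.card_image_iff.1 hcard
      intro i hi j hj hij
      exact this hi hj hij
    obtain ⟨C, h1, h2, h3, h4⟩ := ih (I.image f).card hlt (I.image f) (hI.image f) (by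
      intro i hi
      obtain ⟨j, hj, rfl⟩ := Finset.mem_image.1 hi
      exact Finset.mem_image_of_mem f (hf j hj)) rfl
    refine ⟨C, h1.trans ?_, h2, h3, h4⟩
    intro i hi
    obtain ⟨j, hj, rfl⟩ := Finset.mem_image.1 hi
    exact hf j hj

/-- LEMMA U. -/
theorem degenerate (hP : Linkage G W A B P)
    (hmin : ∀ Q, Linkage G W A B Q → Q.card = P.card → (verts P).card ≤ (verts Q).card)
    (S : Finset V) (hS : S ⊆ verts P) (hne : S.Nonempty) :
    ∃ v ∈ S, ∀ N : Finset V, N ⊆ S → (∀ u ∈ N, G.Adj v u) → N.card < 2 * P.card := by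
  classical
  by_contra hcon
  push Not at hcon
  -- first vertices
  obtain ⟨I, hI⟩ : ∃ I : Finset (List V), I = P.filter (fun l => ∃ x ∈ l, x ∈ S) := ⟨_, rfl⟩
  have hIP : I ⊆ P := by rw [hI]; exact Finset.filter_subset _ _
  have hImem : ∀ l ∈ P, ∀ x ∈ l, x ∈ S → l ∈ I := by
    intro l hl x hx hxS
    rw [hI, Finset.mem_filter]
    exact ⟨hl, x, hx, hxS⟩
  have hdec : ∀ l : List V, ∃ (p : List V) (v : V) (q : List V), l ∈ I →
      l = p ++ v :: q ∧ v ∈ S ∧ ∀ y ∈ p, y ∉ S := by
    intro l
    by_cases hl : l ∈ I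
    · have h1 := hl
      rw [hI, Finset.mem_filter] at h1
      obtain ⟨p, v, q, h2, h3, h4⟩ := split_first (fun x => x ∈ S) l h1.2
      exact ⟨p, v, q, fun _ => ⟨h2, h3, h4⟩⟩
    · obtain ⟨x, _⟩ := hne
      exact ⟨[], x, [], fun h => absurd h hl⟩
  choose pre v post hdec using hdec
  obtain ⟨Near, hNear⟩ : ∃ Near : Finset V,
      Near = I.image v ∪ I.biUnion (fun l => (post l).head?.toFinset) := ⟨_, rfl⟩
  have hNearcard : Near.card ≤ 2 * P.card := by
    rw [hNear]
    refine (Finset.card_union_le _ _).trans ?_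
    have h1 : (I.image v).card ≤ P.card := Finset.card_image_le.trans (Finset.card_le_card hIP)
    have h2 : (I.biUnion (fun l => (post l).head?.toFinset)).card ≤ P.card := by
      refine Finset.card_biUnion_le.trans ?_
      refine (Finset.sum_le_card_nsmul I _ 1 ?_).trans ?_
      · intro l _
        cases (post l).head? <;> simp
      · rw [smul_eq_mul, mul_one]
        exact Finset.card_le_card hIP
    omega
  have hfar : ∀ l : List V, ∃ (m : List V) (x y : V) (r1 r2 : List V), l ∈ I →
      m ∈ I ∧ G.Adj (v l) x ∧ m = pre m ++ v m :: y :: (r1 ++ x :: r2) := by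
    intro l
    by_cases hl : l ∈ I
    swap
    · exact ⟨[], v l, v l, [], [], fun h => absurd h hl⟩
    obtain ⟨N, hN1, hN2, hN3⟩ := hcon (v l) (hdec l hl).2.1
    have hvN : v l ∉ N := fun h => G.loopless.irrefl _ (hN2 _ h)
    have hvNear : v l ∈ Near := by
      rw [hNear]
      exact Finset.mem_union_left _ (Finset.mem_image_of_mem v hl)
    have hex : ∃ x ∈ N, x ∉ Near := by
      by_contra hall
      push Not at hall
      have h1 : N ⊆ Near.erase (v l) := by
        intro x hx
        rw [Finset.mem_erase]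
        exact ⟨by rintro rfl; exact hvN hx, hall x hx⟩
      have h2 := Finset.card_le_card h1
      rw [Finset.card_erase_of_mem hvNear] at h2
      have h3 : 0 < Near.card := Finset.card_pos.2 ⟨_, hvNear⟩
      omega
    obtain ⟨x, hxN, hxNear⟩ := hex
    have hxS : x ∈ S := hN1 hxN
    obtain ⟨m, hm, hxm⟩ := mem_verts.1 (hS hxS)
    have hmI := hImem m hm x hxm hxS
    obtain ⟨h1, h2, h3⟩ := hdec m hmI
    have hxm' : x ∈ pre m ++ v m :: post m := by rw [← h1]; exact hxm
    rw [List.mem_append, List.mem_cons] at hxm'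
    have hxv : x ≠ v m := by
      rintro rfl
      apply hxNear
      rw [hNear]
      exact Finset.mem_union_left _ (Finset.mem_image_of_mem v hmI)
    have hxpost : x ∈ post m := by
      rcases hxm' with h | h | h
      · exact absurd hxS (h3 x h)
      · exact absurd h hxv
      · exact h
    cases hpm : post m with
    | nil => rw [hpm] at hxpost; simp at hxpost
    | cons y rest =>
      have hxy : x ≠ y := by
        rintro rfl
        apply hxNear
        rw [hNear]
        refine Finset.mem_union_right _ (Finset.mem_biUnion.2 ⟨m, hmI, ?_⟩)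
        rw [hpm]
        simp
      rw [hpm] at hxpost
      have hxrest : x ∈ rest := by
        rcases List.mem_cons.1 hxpost with h | h
        · exact absurd h hxy
        · exact h
      obtain ⟨r1, r2, hr⟩ := List.append_of_mem hxrest
      refine ⟨m, x, y, r1, r2, fun _ => ⟨hmI, hN2 x hxN, ?_⟩⟩
      rw [← hr, ← hpm]
      exact h1
  choose f x y r1 r2 hfar using hfar
  have hI0 : I.Nonempty := by
    obtain ⟨z, hz⟩ := hne
    obtain ⟨l, hl, hzl⟩ := mem_verts.1 (hS hz)
    exact ⟨l, hImem l hl z hzl hz⟩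
  obtain ⟨C, hCI, hC0, hfC, hinj⟩ := exists_cycle I hI0 f (fun l hl => (hfar l hl).1)
  obtain ⟨w, hwC, hwN⟩ : ∃ w : List V → List V,
      (∀ l ∈ C, w l = (pre l ++ [v l]) ++ x l :: r2 l) ∧ ∀ l, l ∉ C → w l = l := by
    refine ⟨fun l => if l ∈ C then (pre l ++ [v l]) ++ x l :: r2 l else l, ?_, ?_⟩
    · intro l hl; simp [hl]
    · intro l hl; simp [hl]
  have hCP : ∀ l ∈ C, l ∈ P := fun l hl => hIP (hCI hl)
  -- the two halves
  have hfst : ∀ l ∈ C, ∀ z ∈ pre l ++ [v l], z ∈ l := by
    intro l hl z hz
    rw [(hdec l (hCI hl)).1]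
    simp only [List.mem_append, List.mem_cons, List.not_mem_nil, or_false] at hz ⊢
    tauto
  have hsnd : ∀ l ∈ C, ∀ z ∈ x l :: r2 l, z ∈ f l := by
    intro l hl z hz
    have := (hfar l (hCI hl)).2.2
    rw [this]
    simp only [List.mem_append, List.mem_cons] at hz ⊢
    tauto
  have hnd : ∀ l ∈ C, (pre (f l) ++ v (f l) :: y l :: (r1 l ++ x l :: r2 l)).Nodup := by
    intro l hl
    have := (hP.path _ (hCP _ (hfC l hl))).nodup
    rwa [(hfar l (hCI hl)).2.2] at this
  have hnd1 : ∀ l ∈ C, ∀ z ∈ pre (f l) ++ [v (f l)], z ∉ x l :: r2 l := by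
    intro l hl z hz hz'
    have := hnd l hl
    rw [show pre (f l) ++ v (f l) :: y l :: (r1 l ++ x l :: r2 l)
      = (pre (f l) ++ [v (f l)]) ++ (y l :: (r1 l ++ x l :: r2 l)) by simp] at this
    rw [List.nodup_append] at this
    refine this.2.2 z hz z ?_ rfl
    simp only [List.mem_append, List.mem_cons] at hz' ⊢
    tauto
  have hy1 : ∀ l ∈ C, y l ∉ pre (f l) ++ [v (f l)] := by
    intro l hl hz
    have := hnd l hl
    rw [show pre (f l) ++ v (f l) :: y l :: (r1 l ++ x l :: r2 l)
      = (pre (f l) ++ [v (f l)]) ++ (y l :: (r1 l ++ x l :: r2 l)) by simp] at this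
    rw [List.nodup_append] at this
    exact this.2.2 _ hz (y l) (by simp) rfl
  have hy2 : ∀ l ∈ C, y l ∉ x l :: r2 l := by
    intro l hl hz
    have := hnd l hl
    rw [show pre (f l) ++ v (f l) :: y l :: (r1 l ++ x l :: r2 l)
      = (pre (f l) ++ [v (f l)]) ++ (y l :: (r1 l ++ x l :: r2 l)) by simp] at this
    rw [List.nodup_append, List.nodup_cons] at this
    apply this.2.1.1
    simp only [List.mem_append, List.mem_cons] at hz ⊢
    tauto
  have hyf : ∀ l ∈ C, y l ∈ f l := by
    intro l hl
    have := (hfar l (hCI hl)).2.2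
    rw [this]
    simp
  have hcross : ∀ l ∈ C, ∀ l' ∈ C, ∀ z ∈ pre l ++ [v l], z ∉ x l' :: r2 l' := by
    intro l hl l' hl' z hz hz'
    by_cases hll : l = f l'
    · rw [hll] at hz
      exact hnd1 l' hl' z hz hz'
    · exact hP.disj l (hCP l hl) (f l') (hCP _ (hfC l' hl')) hll z (hfst l hl z hz)
        (hsnd l' hl' z hz')
  obtain ⟨Q, hQ, hQcard, hQv⟩ := linkage_of_walks (G := G) (W := W) (A := A) (B := B) P w
    (by
      intro l hl z hz
      by_cases hlC : l ∈ C
      · rw [hwC l hlC, List.mem_append] at hz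
        rcases hz with h | h
        · exact (hP.path l hl).sub z (hfst l hlC z h)
        · exact (hP.path _ (hCP _ (hfC l hlC))).sub z (hsnd l hlC z h)
      · rw [hwN l hlC] at hz
        exact (hP.path l hl).sub z hz)
    (by
      intro l hl
      by_cases hlC : l ∈ C
      · rw [hwC l hlC]
        have h1 : (pre l ++ [v l]).IsChain G.Adj := by
          have := (hP.path l hl).chain
          rw [(hdec l (hCI hlC)).1, List.isChain_split] at this
          exact this.1
        have h2 : (x l :: r2 l).IsChain G.Adj := by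
          have := (hP.path _ (hCP _ (hfC l hlC))).chain
          rw [(hfar l (hCI hlC)).2.2] at this
          rw [show pre (f l) ++ v (f l) :: y l :: (r1 l ++ x l :: r2 l)
            = (pre (f l) ++ v (f l) :: y l :: r1 l) ++ x l :: r2 l by simp] at this
          rw [List.isChain_split] at this
          exact this.2
        rw [List.append_assoc, List.singleton_append, List.isChain_split]
        refine ⟨h1, ?_⟩
        rw [List.isChain_cons_cons]
        exact ⟨(hfar l (hCI hlC)).2.1, h2⟩
      · rw [hwN l hlC]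
        exact (hP.path l hl).chain)
    (by
      intro l hl
      obtain ⟨a, t, h1, h2, _⟩ := (hP.path l hl).start
      by_cases hlC : l ∈ C
      · rw [hwC l hlC]
        have h3 := (hdec l (hCI hlC)).1
        cases hpl : pre l with
        | nil =>
          rw [hpl] at h3
          refine ⟨v l, x l :: r2 l, rfl, ?_⟩
          have : a :: t = v l :: post l := h1.symm.trans h3
          rw [List.cons.injEq] at this
          rw [← this.1]; exact h2
        | cons c p =>
          rw [hpl] at h3
          refine ⟨c, (p ++ [v l]) ++ x l :: r2 l, rfl, ?_⟩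
          have : a :: t = c :: (p ++ v l :: post l) := h1.symm.trans h3
          rw [List.cons.injEq] at this
          rw [← this.1]; exact h2
      · rw [hwN l hlC]
        exact ⟨a, t, h1, h2⟩)
    (by
      intro l hl
      by_cases hlC : l ∈ C
      · rw [hwC l hlC]
        have h1 := hP.path _ (hCP _ (hfC l hlC))
        rw [(hfar l (hCI hlC)).2.2] at h1
        rw [show pre (f l) ++ v (f l) :: y l :: (r1 l ++ x l :: r2 l)
          = (pre (f l) ++ v (f l) :: y l :: r1 l) ++ x l :: r2 l by simp] at h1
        obtain ⟨s, b, h2, h3, _⟩ := h1.tail_data.2.2.2.2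
        refine ⟨(pre l ++ [v l]) ++ s, b, by rw [h2]; simp, h3⟩
      · rw [hwN l hlC]
        obtain ⟨s, b, h1, h2, _⟩ := (hP.path l hl).stop
        exact ⟨s, b, h1, h2⟩)
    (by
      intro l hl l' hl' hne z hz hz'
      by_cases hlC : l ∈ C <;> by_cases hlC' : l' ∈ C
      · rw [hwC l hlC, List.mem_append] at hz
        rw [hwC l' hlC', List.mem_append] at hz'
        rcases hz with h | h <;> rcases hz' with h' | h'
        · exact hP.disj l hl l' hl' hne z (hfst l hlC z h) (hfst l' hlC' z h')
        · exact hcross l hlC l' hlC' z h h'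
        · exact hcross l' hlC' l hlC z h' h
        · refine hP.disj (f l) (hCP _ (hfC l hlC)) (f l') (hCP _ (hfC l' hlC')) ?_ z
            (hsnd l hlC z h) (hsnd l' hlC' z h')
          intro hff
          exact hne (hinj l hlC l' hlC' hff)
      · rw [hwC l hlC, List.mem_append] at hz
        rw [hwN l' hlC'] at hz'
        rcases hz with h | h
        · exact hP.disj l hl l' hl' hne z (hfst l hlC z h) hz'
        · refine hP.disj (f l) (hCP _ (hfC l hlC)) l' hl' ?_ z (hsnd l hlC z h) hz'
          intro hff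
          exact hlC' (hff ▸ hfC l hlC)
      · rw [hwN l hlC] at hz
        rw [hwC l' hlC', List.mem_append] at hz'
        rcases hz' with h' | h'
        · exact hP.disj l hl l' hl' hne z hz (hfst l' hlC' z h')
        · refine hP.disj l hl (f l') (hCP _ (hfC l' hlC')) ?_ z hz (hsnd l' hlC' z h')
          intro hff
          exact hlC (hff ▸ hfC l' hlC')
      · rw [hwN l hlC] at hz
        rw [hwN l' hlC'] at hz'
        exact hP.disj l hl l' hl' hne z hz hz')
  have hle := hmin Q hQ hQcard
  obtain ⟨l0, hl0⟩ := hC0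
  have hlt : (verts Q).card < (verts P).card := by
    apply Finset.card_lt_card
    rw [Finset.ssubset_iff_of_subset]
    · refine ⟨y l0, mem_verts.2 ⟨f l0, hCP _ (hfC l0 hl0), hyf l0 hl0⟩, ?_⟩
      intro hy
      obtain ⟨l, hl, hyl⟩ := hQv _ hy
      by_cases hlC : l ∈ C
      · rw [hwC l hlC, List.mem_append] at hyl
        rcases hyl with h | h
        · by_cases hlf : l = f l0
          · rw [hlf] at h
            exact hy1 l0 hl0 h
          · exact hP.disj l hl (f l0) (hCP _ (hfC l0 hl0)) hlf _ (hfst l hlC _ h) (hyf l0 hl0)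
        · by_cases hff : f l = f l0
          · have := hinj l hlC l0 hl0 hff
            rw [this] at h
            exact hy2 l0 hl0 h
          · exact hP.disj (f l) (hCP _ (hfC l hlC)) (f l0) (hCP _ (hfC l0 hl0)) hff _
              (hsnd l hlC _ h) (hyf l0 hl0)
      · rw [hwN l hlC] at hyl
        refine hP.disj l hl (f l0) (hCP _ (hfC l0 hl0)) ?_ _ hyl (hyf l0 hl0)
        intro hff
        exact hlC (hff ▸ hfC l0 hl0)
    · intro z hz
      obtain ⟨l, hl, hzl⟩ := hQv _ hz
      by_cases hlC : l ∈ C
      · rw [hwC l hlC, List.mem_append] at hzl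
        rcases hzl with h | h
        · exact mem_verts.2 ⟨l, hl, hfst l hlC z h⟩
        · exact mem_verts.2 ⟨f l, hCP _ (hfC l hlC), hsnd l hlC z h⟩
      · rw [hwN l hlC] at hzl
        exact mem_verts.2 ⟨l, hl, hzl⟩
  omega


/-- greedy list colouring of a `< d`-degenerate set. -/
theorem list_colour_of_degenerate {U : Finset V} {d : ℕ}
    (hdeg : ∀ S, S ⊆ U → S.Nonempty → ∃ v ∈ S, ∀ N : Finset V, N ⊆ S →
      (∀ u ∈ N, G.Adj v u) → N.card < d) (L : V → Finset ℕ) (hL : ∀ v ∈ U, d ≤ (L v).card) :
    ∃ c : V → ℕ, (∀ v ∈ U, c v ∈ L v) ∧ ∀ u ∈ U, ∀ v ∈ U, G.Adj u v → c u ≠ c v := by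
  classical
  have key : ∀ (n : ℕ) (S : Finset V), S.card = n → S ⊆ U →
      ∃ c : V → ℕ, (∀ v ∈ S, c v ∈ L v) ∧ ∀ u ∈ S, ∀ v ∈ S, G.Adj u v → c u ≠ c v := by
    intro n
    induction n with
    | zero =>
      intro S hS _
      rw [Finset.card_eq_zero] at hS
      subst hS
      exact ⟨fun _ => 0, by simp, by simp⟩
    | succ n ih =>
      intro S hS hSU
      obtain ⟨v, hv, hN⟩ := hdeg S hSU (Finset.card_pos.1 (by omega))
      obtain ⟨c, h1, h2⟩ := ih (S.erase v) (by rw [Finset.card_erase_of_mem hv, hS]; rfl)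
        ((Finset.erase_subset _ _).trans hSU)
      have h3 := hN (S.filter (G.Adj v)) (Finset.filter_subset _ _)
        (fun u hu => (Finset.mem_filter.1 hu).2)
      have h4 : (((S.filter (G.Adj v)).image c)).card < (L v).card :=
        lt_of_le_of_lt Finset.card_image_le (lt_of_lt_of_le h3 (hL v (hSU hv)))
      obtain ⟨a, haL, haN⟩ := Finset.exists_mem_notMem_of_card_lt_card h4
      refine ⟨Function.update c v a, ?_, ?_⟩
      · intro u hu
        by_cases huv : u = v
        · subst huv; rw [Function.update_self]; exact haL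
        · rw [Function.update_of_ne huv]
          exact h1 u (Finset.mem_erase.2 ⟨huv, hu⟩)
      · intro u hu u' hu' hadj
        by_cases huv : u = v <;> by_cases huv' : u' = v
        · subst huv; subst huv'; exact absurd hadj (G.loopless.irrefl _)
        · subst huv
          rw [Function.update_self, Function.update_of_ne huv']
          rintro rfl
          exact haN (Finset.mem_image.2 ⟨u', Finset.mem_filter.2 ⟨hu', hadj⟩, rfl⟩)
        · subst huv'
          rw [Function.update_self, Function.update_of_ne huv]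
          intro h
          exact haN (Finset.mem_image.2 ⟨u, Finset.mem_filter.2 ⟨hu, hadj.symm⟩, h⟩)
        · rw [Function.update_of_ne huv, Function.update_of_ne huv']
          exact h2 u (Finset.mem_erase.2 ⟨huv, hu⟩) u' (Finset.mem_erase.2 ⟨huv', hu'⟩) hadj
  exact key U.card U rfl (Finset.Subset.refl _)

/-- the vertex set of a minimal linkage of `p` paths is `2p`-choosable. -/
theorem list_colour (hP : Linkage G W A B P)
    (hmin : ∀ Q, Linkage G W A B Q → Q.card = P.card → (verts P).card ≤ (verts Q).card)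
    (L : V → Finset ℕ) (hL : ∀ v ∈ verts P, 2 * P.card ≤ (L v).card) :
    ∃ c : V → ℕ, (∀ v ∈ verts P, c v ∈ L v) ∧
      ∀ u ∈ verts P, ∀ v ∈ verts P, G.Adj u v → c u ≠ c v :=
  list_colour_of_degenerate (fun S hS hne => degenerate hP hmin S hS hne) L hL


/-- a vertex outside a minimal linkage has at most three neighbours on each of its paths. -/
theorem outside_three (hP : Linkage G W A B P)
    (hmin : ∀ Q, Linkage G W A B Q → Q.card = P.card → (verts P).card ≤ (verts Q).card)
    {v : V} (hvW : v ∈ W) (hv : v ∉ verts P) {l : List V} (hl : l ∈ P) (N : Finset V)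
    (hNl : ∀ u ∈ N, u ∈ l) (hN : ∀ u ∈ N, G.Adj v u) : N.card ≤ 3 := by
  classical
  by_contra hcon
  push Not at hcon
  -- the first neighbour
  have hN0 : ∃ x ∈ l, x ∈ N := by
    obtain ⟨x, hx⟩ := Finset.card_pos.1 (show 0 < N.card by omega)
    exact ⟨x, hNl x hx, hx⟩
  obtain ⟨l1, a, l2, h1, h2, h3⟩ := split_first (fun x => x ∈ N) l hN0
  -- the rest of the neighbours lie in `l2`
  have hrest : ∀ u ∈ N.erase a, u ∈ l2 := by
    intro u hu
    rw [Finset.mem_erase] at hu
    have := hNl u hu.2
    rw [h1, List.mem_append, List.mem_cons] at this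
    rcases this with h | h | h
    · exact absurd hu.2 (h3 u h)
    · exact absurd h hu.1
    · exact h
  have hcard : 3 ≤ (N.erase a).card := by
    rw [Finset.card_erase_of_mem h2]; omega
  obtain ⟨b, r1, r2, hl2, hb, hr1⟩ : ∃ b r1 r2, l2 = r1 ++ b :: r2 ∧ G.Adj v b ∧ 2 ≤ r1.length := by
    by_contra hno
    push Not at hno
    have hsub : N.erase a ⊆ (l2.take 2).toFinset := by
      intro u hu
      have hu2 := hrest u hu
      obtain ⟨s, t, hst⟩ := List.append_of_mem hu2
      have hlen := hno u s t hst (hN u (Finset.mem_erase.1 hu).2)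
      rw [List.mem_toFinset, hst, List.take_append]
      have : 2 - s.length = (1 - s.length) + 1 := by omega
      rw [this, List.take_succ_cons]
      simp
    have := (Finset.card_le_card hsub).trans (List.toFinset_card_le _)
    rw [List.length_take] at this
    omega
  -- the shortcut
  have hpl := hP.path l hl
  have hldec : l = l1 ++ a :: (r1 ++ b :: r2) := by rw [h1, hl2]
  have hvl : ∀ m ∈ P, v ∉ m := fun m hm h => hv (mem_verts.2 ⟨m, hm, h⟩)
  obtain ⟨w, hw1, hw2⟩ : ∃ w : List V → List V, w l = (l1 ++ [a]) ++ v :: (b :: r2) ∧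
      ∀ m, m ≠ l → w m = m := by
    refine ⟨fun m => if m = l then (l1 ++ [a]) ++ v :: (b :: r2) else m, by simp, ?_⟩
    intro m hm; simp [hm]
  have hwsub : ∀ z ∈ w l, z = v ∨ z ∈ l := by
    intro z hz
    rw [hw1] at hz
    rw [hldec]
    simp only [List.mem_append, List.mem_cons, List.not_mem_nil, or_false] at hz ⊢
    tauto
  obtain ⟨Q, hQ, hQcard, hQv⟩ := linkage_of_walks (G := G) (W := W) (A := A) (B := B) P w
    (by
      intro m hm z hz
      by_cases hml : m = l
      · subst hml
        rcases hwsub z hz with rfl | h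
        · exact hvW
        · exact hpl.sub z h
      · rw [hw2 m hml] at hz
        exact (hP.path m hm).sub z hz)
    (by
      intro m hm
      by_cases hml : m = l
      · subst hml
        rw [hw1]
        have hc := hpl.chain
        have hc1 : (l1 ++ [a]).IsChain G.Adj := by
          rw [hldec, List.isChain_split] at hc
          exact hc.1
        have hc2 : (b :: r2).IsChain G.Adj := by
          rw [hldec, show l1 ++ a :: (r1 ++ b :: r2) = (l1 ++ a :: r1) ++ b :: r2 by simp,
            List.isChain_split] at hc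
          exact hc.2
        rw [List.append_assoc, List.singleton_append, List.isChain_split]
        refine ⟨hc1, ?_⟩
        rw [List.isChain_cons_cons, List.isChain_cons_cons]
        exact ⟨(hN a h2).symm, hb, hc2⟩
      · rw [hw2 m hml]
        exact (hP.path m hm).chain)
    (by
      intro m hm
      by_cases hml : m = l
      · subst hml
        rw [hw1]
        obtain ⟨c, t, h4, h5, _⟩ := hpl.start
        cases l1 with
        | nil =>
          refine ⟨a, v :: (b :: r2), rfl, ?_⟩
          have : c :: t = a :: (r1 ++ b :: r2) := h4.symm.trans hldec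
          rw [List.cons.injEq] at this
          rw [← this.1]; exact h5
        | cons d l1 =>
          refine ⟨d, (l1 ++ [a]) ++ v :: (b :: r2), rfl, ?_⟩
          have : c :: t = d :: (l1 ++ a :: (r1 ++ b :: r2)) := h4.symm.trans hldec
          rw [List.cons.injEq] at this
          rw [← this.1]; exact h5
      · rw [hw2 m hml]
        obtain ⟨c, t, h4, h5, _⟩ := (hP.path m hm).start
        exact ⟨c, t, h4, h5⟩)
    (by
      intro m hm
      by_cases hml : m = l
      · subst hml
        rw [hw1]
        have h4 := hpl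
        rw [hldec, show l1 ++ a :: (r1 ++ b :: r2) = (l1 ++ a :: r1) ++ b :: r2 by simp] at h4
        obtain ⟨s, e, h5, h6, _⟩ := h4.tail_data.2.2.2.2
        exact ⟨(l1 ++ [a]) ++ v :: s, e, by rw [h5]; simp, h6⟩
      · rw [hw2 m hml]
        obtain ⟨s, e, h5, h6, _⟩ := (hP.path m hm).stop
        exact ⟨s, e, h5, h6⟩)
    (by
      intro m hm m' hm' hne z hz hz'
      by_cases hml : m = l <;> by_cases hml' : m' = l
      · exact hne (hml.trans hml'.symm)
      · subst hml
        rw [hw2 m' hml'] at hz'
        rcases hwsub z hz with rfl | h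
        · exact hvl m' hm' hz'
        · exact hP.disj m hm m' hm' hne z h hz'
      · subst hml'
        rw [hw2 m hml] at hz
        rcases hwsub z hz' with rfl | h
        · exact hvl m hm hz
        · exact hP.disj m hm m' hm' hne z hz h
      · rw [hw2 m hml] at hz
        rw [hw2 m' hml'] at hz'
        exact hP.disj m hm m' hm' hne z hz hz')
  have hle := hmin Q hQ hQcard
  -- two vertices of `r1` are lost, one vertex `v` is gained
  obtain ⟨c, d, r3, hr3⟩ : ∃ c d r3, r1 = c :: d :: r3 := by
    match r1, hr1 with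
    | [], h => simp at h
    | [_], h => simp at h
    | c :: d :: r3, _ => exact ⟨c, d, r3, rfl⟩
  have hnd : (l1 ++ a :: (r1 ++ b :: r2)).Nodup := by
    rw [← hldec]; exact hpl.nodup
  rw [hr3] at hnd hldec
  have hcd : c ∉ w l ∧ d ∉ w l ∧ c ≠ d := by
    rw [hw1]
    have hcv : c ≠ v := by
      rintro rfl
      exact hvl l hl (by rw [hldec]; simp)
    have hdv : d ≠ v := by
      rintro rfl
      exact hvl l hl (by rw [hldec]; simp)
    simp only [List.nodup_append, List.nodup_cons, List.mem_append, List.mem_cons, not_or,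
      List.cons_append, List.append_assoc] at hnd ⊢
    obtain ⟨_, ⟨ha, hcd, hd, _⟩, hx⟩ := hnd
    refine ⟨⟨?_, ?_⟩, ⟨?_, ?_⟩, ?_⟩
    · intro h; exact hx c h c (by simp) rfl
    · tauto
    · intro h; exact hx d h d (by simp) rfl
    · tauto
    · tauto
  have hc_l : c ∈ l := by rw [hldec]; simp
  have hd_l : d ∈ l := by rw [hldec]; simp
  have hsub : verts Q ⊆ insert v (((verts P).erase c).erase d) := by
    intro z hz
    obtain ⟨m, hm, hzm⟩ := hQv z hz
    rw [Finset.mem_insert, Finset.mem_erase, Finset.mem_erase]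
    by_cases hml : m = l
    · subst hml
      rcases hwsub z hzm with h | h
      · exact Or.inl h
      · right
        refine ⟨?_, ?_, mem_verts.2 ⟨m, hm, h⟩⟩
        · rintro rfl; exact hcd.2.1 hzm
        · rintro rfl; exact hcd.1 hzm
    · rw [hw2 m hml] at hzm
      right
      refine ⟨?_, ?_, mem_verts.2 ⟨m, hm, hzm⟩⟩
      · rintro rfl; exact hP.disj m hm l hl hml _ hzm hd_l
      · rintro rfl; exact hP.disj m hm l hl hml _ hzm hc_l
  have h4 := (Finset.card_le_card hsub).trans (Finset.card_insert_le _ _)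
  have hcP : c ∈ verts P := mem_verts.2 ⟨l, hl, hc_l⟩
  have hdP : d ∈ (verts P).erase c :=
    Finset.mem_erase.2 ⟨fun h => hcd.2.2 h.symm, mem_verts.2 ⟨l, hl, hd_l⟩⟩
  rw [Finset.card_erase_of_mem hdP, Finset.card_erase_of_mem hcP] at h4
  have h5 : 2 ≤ (verts P).card := by
    have : 0 < ((verts P).erase c).card := Finset.card_pos.2 ⟨_, hdP⟩
    rw [Finset.card_erase_of_mem hcP] at this
    omega
  omega

end Crest.Agent.R042.LemU132
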