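import Crest.Agent.R042.Conn_353
import Crest.Prelude.Def_CliqueMinor

/-! Row 42, sec 10.1, first half: Mader's bound with constant `2 ^ h`. Everything is stated inside a
finite set `W` of a fixed vertex type. -/

set_option autoImplicit false
set_option linter.unusedSectionVars false

namespace Crest.Agent.R042.Mader375

open Finset SimpleGraph Crest.Agent.R042.Conn353
open scoped Classical

variable {V : Type*}

/-- `K_n` model inside `W`. -/
def Model (G : SimpleGraph V) (W : Finset V) (n : ℕ) : Prop :=
  ∃ B : Fin n → Finset V, (∀ i, B i ⊆ W ∧ (B i).Nonempty ∧ Conn G (B i)) ∧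
    (∀ i j, i ≠ j → Disjoint (B i) (B j)) ∧
    ∀ i j, i ≠ j → ∃ x ∈ B i, ∃ y ∈ B j, G.Adj x y

/-- number of neighbours of `v` in `S`. -/
noncomputable def dg (G : SimpleGraph V) (S : Finset V) (v : V) : ℕ := (S.filter (G.Adj v)).card

/-- twice the number of edges inside `S`. -/
noncomputable def e2 (G : SimpleGraph V) (S : Finset V) : ℕ := ∑ v ∈ S, dg G S v

lemma e2_eq_card (G : SimpleGraph V) (S : Finset V) :
    e2 G S = ((S ×ˢ S).filter fun p => G.Adj p.1 p.2).card := by
  unfold e2 dg
  rw [Finset.card_filter, Finset.sum_product]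
  refine Finset.sum_congr rfl fun v _ => ?_
  rw [Finset.card_filter]

lemma Model.mono {G : SimpleGraph V} {W W' : Finset V} {n : ℕ} (h : Model G W n) (hW : W ⊆ W') :
    Model G W' n := by
  obtain ⟨B, h1, h2, h3⟩ := h
  exact ⟨B, fun i => ⟨(h1 i).1.trans hW, (h1 i).2⟩, h2, h3⟩

lemma Model.le {G : SimpleGraph V} {W : Finset V} {m n : ℕ} (h : Model G W n) (hmn : m ≤ n) :
    Model G W m := by
  obtain ⟨B, h1, h2, h3⟩ := h
  refine ⟨fun i => B (Fin.castLE hmn i), fun i => h1 _, fun i j hij => h2 _ _ ?_,
    fun i j hij => h3 _ _ ?_⟩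
  · intro h; exact hij (Fin.castLE_injective hmn h)
  · intro h; exact hij (Fin.castLE_injective hmn h)

lemma model_iff [DecidableEq V] {G : SimpleGraph V} {W : Finset V} {n : ℕ} :
    Model G W n ↔ ∃ B : Fin n → Finset V, (∀ i, B i ⊆ W) ∧
      Crest.CombinatoricsR.GraphMinor.IsCliqueMinorModel G B := by
  constructor
  · rintro ⟨B, h1, h2, h3⟩
    refine ⟨B, fun i => (h1 i).1, fun i => (h1 i).2.1, ?_, fun i => (h1 i).2.2, h3⟩
    intro i j hij
    exact h2 i j hij
  · rintro ⟨B, h0, h1, h2, h3, h4⟩
    refine ⟨B, fun i => ⟨h0 i, h1 i, h3 i⟩, ?_, h4⟩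
    intro i j hij
    exact h2 i j hij

/-- adding one more branch set to a model. -/
lemma Model.cons {G : SimpleGraph V} {W N U : Finset V} {n : ℕ} (h : Model G N n) (hN : N ⊆ W)
    (hUW : U ⊆ W) (hU : Conn G U) (hUN : Disjoint U N)
    (hadj : ∀ v ∈ N, ∃ u ∈ U, G.Adj u v) : Model G W (n + 1) := by
  obtain ⟨B, h1, h2, h3⟩ := h
  have hdis : ∀ i, Disjoint U (B i) := fun i => hUN.mono_right (h1 i).1
  have hedge : ∀ i, ∃ x ∈ U, ∃ y ∈ B i, G.Adj x y := by
    intro i
    obtain ⟨y, hy⟩ := (h1 i).2.1
    obtain ⟨u, hu, huy⟩ := hadj y ((h1 i).1 hy)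
    exact ⟨u, hu, y, hy, huy⟩
  refine ⟨Fin.cons U B, ?_, ?_, ?_⟩
  · intro i
    refine Fin.cases ?_ (fun i => ?_) i
    · exact ⟨hUW, hU.nonempty, hU⟩
    · simp only [Fin.cons_succ]
      exact ⟨(h1 i).1.trans hN, (h1 i).2⟩
  · intro i j
    refine Fin.cases ?_ (fun i => ?_) i
    · refine Fin.cases ?_ (fun j => ?_) j
      · intro h; exact absurd rfl h
      · intro _; simpa using hdis j
    · refine Fin.cases ?_ (fun j => ?_) j
      · intro _; simpa using (hdis i).symm
      · intro hij; simpa using h2 i j (fun h => hij (by rw [h]))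
  · intro i j
    refine Fin.cases ?_ (fun i => ?_) i
    · refine Fin.cases ?_ (fun j => ?_) j
      · intro h; exact absurd rfl h
      · intro _; simpa using hedge j
    · refine Fin.cases ?_ (fun j => ?_) j
      · intro _
        obtain ⟨x, hx, y, hy, hxy⟩ := hedge i
        exact ⟨y, by simpa using hy, x, by simpa using hx, hxy.symm⟩
      · intro hij; simpa using h3 i j (fun h => hij (by rw [h]))

lemma dg_erase_self (G : SimpleGraph V) (S : Finset V) (v : V) :
    dg G (S.erase v) v = dg G S v := by
  unfold dg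
  congr 1
  ext x
  simp only [mem_filter, mem_erase]
  constructor
  · rintro ⟨⟨_, h⟩, h'⟩; exact ⟨h, h'⟩
  · rintro ⟨h, h'⟩; exact ⟨⟨h'.ne', h⟩, h'⟩

lemma e2_erase {G : SimpleGraph V} {S : Finset V} {v : V} (hv : v ∈ S) :
    e2 G S = e2 G (S.erase v) + 2 * dg G S v := by
  have h1 : ∀ w ∈ S.erase v, dg G S w = dg G (S.erase v) w + if G.Adj w v then 1 else 0 := by
    intro w _
    unfold dg
    conv_lhs => rw [← Finset.insert_erase hv]
    rw [Finset.filter_insert]
    by_cases h : G.Adj w v
    · rw [if_pos h, if_pos h, Finset.card_insert_of_notMem]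
      simp
    · rw [if_neg h, if_neg h, add_zero]
  have h2 : ∑ w ∈ S.erase v, (if G.Adj w v then 1 else 0) = dg G S v := by
    rw [← dg_erase_self]
    unfold dg
    rw [Finset.card_filter]
    refine Finset.sum_congr rfl fun w _ => ?_
    simp only [G.adj_comm]
  unfold e2
  rw [← Finset.add_sum_erase S _ hv, Finset.sum_congr rfl h1, Finset.sum_add_distrib, h2]
  ring

/-- the neighbourhood of `U` in `W`. -/
noncomputable def nb (G : SimpleGraph V) (W U : Finset V) : Finset V :=
  (W \ U).filter fun v => ∃ u ∈ U, G.Adj u v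

lemma nb_insert {G : SimpleGraph V} {W U : Finset V} {v : V} (hv : v ∈ nb G W U) :
    (nb G W (insert v U)).card + 1 + (((W \ U).filter (G.Adj v)) ∩ nb G W U).card =
      (nb G W U).card + dg G (W \ U) v := by
  have hvv : v ∈ W \ U := (Finset.mem_filter.1 hv).1
  have h1 : nb G W (insert v U) =
      (nb G W U).erase v ∪ (((W \ U).filter (G.Adj v)) \ nb G W U) := by
    ext x
    simp only [nb, mem_filter, mem_sdiff, mem_insert, mem_union, mem_erase, exists_eq_or_imp]
    constructor
    · rintro ⟨⟨h1, h2⟩, h3⟩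
      rw [not_or] at h2
      rcases h3 with h3 | h3
      · by_cases h4 : ∃ u ∈ U, G.Adj u x
        · exact Or.inl ⟨h2.1, ⟨h1, h2.2⟩, h4⟩
        · exact Or.inr ⟨⟨⟨h1, h2.2⟩, h3⟩, fun h => h4 h.2⟩
      · exact Or.inl ⟨h2.1, ⟨h1, h2.2⟩, h3⟩
    · rintro (⟨h1, ⟨h2, h3⟩, h4⟩ | ⟨⟨⟨h1, h2⟩, h3⟩, h4⟩)
      · exact ⟨⟨h2, not_or.2 ⟨h1, h3⟩⟩, Or.inr h4⟩
      · exact ⟨⟨h1, not_or.2 ⟨h3.ne', h2⟩⟩, Or.inl h3⟩
  have h2 : Disjoint ((nb G W U).erase v) (((W \ U).filter (G.Adj v)) \ nb G W U) := by
    rw [Finset.disjoint_left]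
    intro x hx hx'
    exact (Finset.mem_sdiff.1 hx').2 (Finset.mem_of_mem_erase hx)
  rw [h1, Finset.card_union_of_disjoint h2, Finset.card_erase_of_mem hv]
  have h3 := Finset.card_sdiff_add_card_inter ((W \ U).filter (G.Adj v)) (nb G W U)
  have h4 : 0 < (nb G W U).card := Finset.card_pos.2 ⟨v, hv⟩
  unfold dg
  omega

theorem exists_model (G : SimpleGraph V) (n : ℕ) : ∀ (W : Finset V), W.Nonempty →
    2 ^ n * W.card ≤ e2 G W → Model G W n := by
  induction n with
  | zero =>
    intro W _ _
    exact ⟨fun i => i.elim0, fun i => i.elim0, fun i => i.elim0, fun i => i.elim0⟩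
  | succ n ih =>
    intro W
    induction hk : W.card using Nat.strong_induction_on generalizing W with
    | _ k ihk =>
    subst hk
    intro hne he
    by_cases hmin : ∃ W' ⊂ W, W'.Nonempty ∧ 2 ^ (n + 1) * W'.card ≤ e2 G W'
    · obtain ⟨W', h1, h2, h3⟩ := hmin
      exact (ihk W'.card (Finset.card_lt_card h1) W' rfl h2 h3).mono h1.1
    · -- `W` minimal
      let F : Finset (Finset V) := W.powerset.filter fun U => Conn G U ∧
        2 ^ (n + 1) * ((W \ U).card + 1) ≤ e2 G (W \ U) + 2 * (nb G W U).card
      have hFne : F.Nonempty := by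
        obtain ⟨v, hv⟩ := hne
        refine ⟨{v}, ?_⟩
        rw [Finset.mem_filter]
        refine ⟨by simpa using hv, conn_singleton v, ?_⟩
        have e1 : W \ {v} = W.erase v := by rw [Finset.sdiff_singleton_eq_erase]
        have e3 : (nb G W {v}).card = dg G W v := by
          rw [← dg_erase_self]
          unfold nb dg
          rw [e1]
          congr 1
          ext x
          simp
        have e4 : (W.erase v).card + 1 = W.card := Finset.card_erase_add_one hv
        rw [e3, e1, e4, ← e2_erase hv]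
        exact he
      obtain ⟨U, hU, hmax⟩ := Finset.exists_max_image F Finset.card hFne
      rw [Finset.mem_filter, Finset.mem_powerset] at hU
      obtain ⟨hUW, hUc, hUe⟩ := hU
      have hpos : 0 < 2 ^ (n + 1) := Nat.two_pow_pos _
      have hNne : (nb G W U).Nonempty := by
        rw [Finset.nonempty_iff_ne_empty]
        intro h0
        rw [h0, Finset.card_empty, mul_zero, add_zero] at hUe
        apply hmin
        have hUne := hUc.nonempty
        have hss : W \ U ⊂ W := by
          refine Finset.ssubset_iff_subset_ne.2 ⟨Finset.sdiff_subset, ?_⟩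
          intro h
          obtain ⟨u, hu⟩ := hUne
          have := hUW hu
          rw [← h] at this
          exact (Finset.mem_sdiff.1 this).2 hu
        have hne' : (W \ U).Nonempty := by
          rw [Finset.nonempty_iff_ne_empty]
          intro h
          rw [h] at hUe
          simp [e2] at hUe
        exact ⟨W \ U, hss, hne', le_trans (by nlinarith) hUe⟩
      have hdeg : ∀ v ∈ nb G W U, 2 ^ n ≤ dg G (nb G W U) v := by
        intro v hv
        have hvv : v ∈ W \ U := (Finset.mem_filter.1 hv).1
        have hvW : v ∈ W := (Finset.mem_sdiff.1 hvv).1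
        have hvU : v ∉ U := (Finset.mem_sdiff.1 hvv).2
        obtain ⟨u, hu, huv⟩ := (Finset.mem_filter.1 hv).2
        have hconn : Conn G (insert v U) := hUc.insert_adj hu huv
        have hnot : insert v U ∉ F := by
          intro h
          have := hmax _ h
          rw [Finset.card_insert_of_notMem hvU] at this
          omega
        have hlt : e2 G (W \ insert v U) + 2 * (nb G W (insert v U)).card <
            2 ^ (n + 1) * ((W \ insert v U).card + 1) := by
          by_contra hcon
          push Not at hcon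
          apply hnot
          rw [Finset.mem_filter, Finset.mem_powerset]
          exact ⟨Finset.insert_subset hvW hUW, hconn, hcon⟩
        have e5 : W \ insert v U = (W \ U).erase v := by
          rw [Finset.sdiff_insert]
        rw [e5, Finset.card_erase_add_one hvv] at hlt
        have e6 := e2_erase (G := G) hvv
        have e7 := nb_insert hv
        have e8 : (((W \ U).filter (G.Adj v)) ∩ nb G W U).card ≤ dg G (nb G W U) v := by
          refine Finset.card_le_card ?_
          intro x hx
          rw [Finset.mem_inter, Finset.mem_filter] at hx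
          rw [Finset.mem_filter]
          exact ⟨hx.2, hx.1.2⟩
        have e9 : 2 ^ (n + 1) * ((W \ U).card + 1) = 2 ^ (n + 1) * (W \ U).card + 2 * 2 ^ n := by
          ring
        rw [e9] at hUe
        omega
      have hmod : Model G (nb G W U) n := by
        refine ih _ hNne ?_
        have : ∑ _v ∈ nb G W U, 2 ^ n ≤ e2 G (nb G W U) := Finset.sum_le_sum hdeg
        rw [Finset.sum_const, smul_eq_mul] at this
        linarith [Nat.mul_comm (2 ^ n) (nb G W U).card]
      refine hmod.cons (U := U) ?_ hUW hUc ?_ ?_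
      · exact (Finset.filter_subset _ _).trans Finset.sdiff_subset
      · rw [Finset.disjoint_left]
        intro x hx hx'
        exact (Finset.mem_sdiff.1 (Finset.mem_filter.1 hx').1).2 hx
      · intro v hv
        exact (Finset.mem_filter.1 hv).2

/-- **Mader, weak form**: a graph without `K_{h+1}` minor has at most `2 ^ h * |W|` edges. -/
theorem mader_e2 (G : SimpleGraph V) (W : Finset V) (h : ℕ) (hno : ¬ Model G W (h + 1)) :
    e2 G W ≤ 2 ^ (h + 1) * W.card := by
  by_contra hcon
  push Not at hcon
  apply hno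
  refine exists_model G (h + 1) W ?_ hcon.le
  rw [Finset.nonempty_iff_ne_empty]
  intro h0
  rw [h0] at hcon
  simp [e2] at hcon


end Crest.Agent.R042.Mader375
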