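import Crest.Agent.R042.SmallBase_333
import Mathlib
import Crest.Agent.R042.Crit_374
import Crest.Agent.R042.Palette_365
import Crest.Prelude.Def_CliqueMinor
import Crest.Agent.R042.Conn_353
import Crest.Agent.R042.Menger_353
import Crest.Agent.R042.Mader_375
import Crest.Agent.R042.LinkDefs_870
import Crest.Agent.R042.AsmDefs_220
import Crest.Agent.R042.LemU_132
import Crest.Agent.R042.WovenStmt_671

-- ▼ part R042/Small_333
section

/-! Row 42 / S0058, (10.0) = Theorem B: sets of small order (`|X| ≤ 2^(C h)`) are choosable from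
lists of size `F h / s`.  The leaves (Kalton-Roberts for lists, hub, assembly, woven pieces) enter
as literal hypotheses. -/

set_option autoImplicit false
set_option linter.unusedSectionVars false

namespace Crest.Agent.R042.Small333

open Finset Crest.Agent.R042.Conn353 Crest.Agent.R042.Menger353 Crest.Agent.R042.Crit374
open Crest.Agent.R042.Mader375 (Model)
open Crest.Agent.R042.Asm220 (Woven HubLinked Pr)
open Crest.Agent.R042.Link870 (Linked)

/-- (8.2) Kalton-Roberts in list form (with RS2 inside: `a = 3h`). -/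
def KRStmt : Prop :=
  ∀ {V : Type} [DecidableEq V] (G : SimpleGraph V) (W : Finset V) (h k N : ℕ), 1 ≤ h → 1 ≤ N →
    ¬ Model G W (h + 1) → (4 * W.card : ℝ) < Real.exp ((k : ℝ) / 32) →
    4 * Real.exp 2 * (N : ℝ) ^ 2 ≤ Real.exp ((k : ℝ) / (24 * h)) → ¬ Choos G W k →
    ∃ X : Fin N → Finset V, (∀ i, X i ⊆ W ∧ ¬ Choos G (X i) (k / 8)) ∧
      ∀ i j, i ≠ j → Disjoint (X i) (X j)

/-- (10.4) hub: large minimum degree gives a linked subset. -/
def HubStmt (D0 : ℕ) : Prop :=
  ∀ {V : Type} [DecidableEq V] (G : SimpleGraph V) (W : Finset V) (κ h : ℕ), 1 ≤ κ →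
    W.Nonempty → ¬ Model G W (h + 1) → (∀ v ∈ W, D0 * κ ≤ (Link870.nb G W v).card) →
    ∃ J, J ⊆ W ∧ 2 * κ ≤ J.card ∧ ∀ Y, Y ⊆ J → Y.card ≤ 2 * κ → Linked G J Y

/-- 07 (4)-(8): the assembly. -/
def AsmStmt : Prop :=
  ∀ {V : Type} [DecidableEq V] (G : SimpleGraph V) {s g θ : ℕ} (W Z : Finset V)
    (H Y : Pr s → Finset V) (H0 Y0 : Finset V), 2 ≤ s → 1 ≤ g → Z ⊆ W →
    (∀ j, Y j ⊆ H j) → (∀ j, H j ⊆ W) → Y0 ⊆ H0 → H0 ⊆ W →
    (∀ i j, i ≠ j → Disjoint (H i) (H j)) → (∀ j, Disjoint (H j) H0) →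
    (∀ j, Disjoint (Y j) Z) → Disjoint Y0 Z →
    (∀ j, 4 * g ≤ (Y j).card) → 4 * g * Fintype.card (Pr s) ≤ Y0.card →
    (∀ A B, Sep G W A B → (A ∩ B).card ≤ θ → A \ B ⊆ Z ∨ B \ A ⊆ Z) →
    4 * g * Fintype.card (Pr s) + ∑ j, (H j \ Y j).card + (H0 \ Y0).card ≤ θ →
    (∀ j, Woven G (H j) (Y j) (4 * g) (4 * g * Fintype.card (Pr s))) →
    HubLinked G H0 Y0 (4 * g * Fintype.card (Pr s)) →
    Model G W (s * g)

/-- 8.5: woven pieces of small order. -/
def SmallWovenStmt (D0 : ℕ) : Prop :=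
  ∀ {V : Type} [DecidableEq V] (G : SimpleGraph V) (H Z : Finset V) (a c κ k' q1 kH : ℕ),
    1 ≤ a → a + c ≤ κ → Crit G H Z kH (4 * κ) →
    (∀ W, W ⊆ H → W.Nonempty → (∀ v ∈ W, D0 * κ ≤ (Link870.nb G W v).card) →
      ∃ J, J ⊆ W ∧ 2 * κ ≤ J.card ∧ ∀ Y, Y ⊆ J → Y.card ≤ 2 * κ → Linked G J Y) →
    (∀ W, W ⊆ H → ¬ Choos G W (k' - 2 * a) → Model G W (2 * a)) →
    4 * κ + 2 * a ≤ k' → kH = 8 * κ + 6 * q1 → D0 * κ + 4 * κ + 1 ≤ q1 → k' ≤ q1 →
    (3 * H.card : ℝ) < Real.exp ((q1 : ℝ) / 4) → Woven G H (H \ Z) a c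

lemma hubLinked_of_linked {V : Type} [DecidableEq V] {G : SimpleGraph V} {J : Finset V} {n : ℕ}
    (h : ∀ Y, Y ⊆ J → Y.card ≤ n → Linked G J Y) : HubLinked G J J n := by
  intro m s t Bl hs ht hst hsJ htJ hBl hsB htB hc
  set X : Finset V := Finset.univ.image s ∪ Finset.univ.image t ∪ Bl with hX
  have hXJ : X ⊆ J := by
    intro x hx
    rw [hX, Finset.mem_union, Finset.mem_union, Finset.mem_image, Finset.mem_image] at hx
    rcases hx with (⟨i, _, rfl⟩ | ⟨i, _, rfl⟩) | hx
    · exact hsJ i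
    · exact htJ i
    · exact hBl hx
  have hXc : X.card ≤ n := by
    have h1 : (Finset.univ.image s).card ≤ m := by
      refine Finset.card_image_le.trans ?_
      simp
    have h2 : (Finset.univ.image t).card ≤ m := by
      refine Finset.card_image_le.trans ?_
      simp
    have h3 := Finset.card_union_le (Finset.univ.image s ∪ Finset.univ.image t) Bl
    have h4 := Finset.card_union_le (Finset.univ.image s) (Finset.univ.image t)
    rw [← hX] at h3
    omega
  have hsX : ∀ i, s i ∈ X := fun i => by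
    rw [hX]
    exact Finset.mem_union_left _ (Finset.mem_union_left _
      (Finset.mem_image_of_mem _ (Finset.mem_univ _)))
  have htX : ∀ i, t i ∈ X := fun i => by
    rw [hX]
    exact Finset.mem_union_left _ (Finset.mem_union_right _
      (Finset.mem_image_of_mem _ (Finset.mem_univ _)))
  obtain ⟨P, hP⟩ := h X hXJ hXc m s t hsX htX hs ht hst
  refine ⟨P, fun i => ⟨hP.sub i, hP.conn i, hP.left i, hP.right i⟩, hP.disj, ?_⟩
  intro i
  rw [Finset.disjoint_left]
  intro x hx hxB
  have hxX : x ∈ X := by rw [hX]; exact Finset.mem_union_right _ hxB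
  rcases hP.meet i x hx hxX with rfl | rfl
  · exact hsB i hxB
  · exact htB i hxB

/-- core of (10.0): all numbers explicit. -/
theorem core {V : Type} [DecidableEq V] (G : SimpleGraph V) {D0 : ℕ} (hKR : KRStmt)
    (hHub : HubStmt D0) (hAsm : AsmStmt) (hSW : SmallWovenStmt D0)
    {s g m κ k' q1 kH θ k h F : ℕ} (hs : 2 ≤ s) (hg : 1 ≤ g) (hh : 1 ≤ h)
    (hm : m = Fintype.card (Pr s)) (hκ : κ = 4 * g + 4 * g * m)
    (hk' : k' = F * (8 * g - 1) + 8 * g + 4 * κ)
    (hkH : kH = 8 * κ + 6 * q1) (hq1 : D0 * κ + 4 * κ + 1 ≤ q1) (hq1' : k' ≤ q1)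
    (hθ : θ = 4 * g * m + m * (8 * κ)) (hsg : h + 1 ≤ s * g)
    (hn1 : kH ≤ (k - 2 * θ) / 8)
    (X : Finset V) (hX : ¬ Model G X (h + 1))
    (IH : ∀ W : Finset V, ¬ Model G W (8 * g) → Choos G W (F * (8 * g - 1)))
    (hsize1 : (4 * X.card : ℝ) < Real.exp (((k - 2 * θ : ℕ) : ℝ) / 32))
    (hsize2 : 4 * Real.exp 2 * ((m + 1 : ℕ) : ℝ) ^ 2 ≤
      Real.exp (((k - 2 * θ : ℕ) : ℝ) / (24 * h)))
    (hsize3 : (3 * X.card : ℝ) < Real.exp ((q1 : ℝ) / 4)) : Choos G X k := by
  classical
  by_contra hbad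
  obtain ⟨S, Z, hSX, hcrit⟩ := exists_crit hbad θ
  have hS0 : ¬ Model G S (h + 1) := fun hM => hX (hM.mono hSX)
  have hSZ : ¬ Model G (S \ Z) (h + 1) := fun hM => hS0 (hM.mono Finset.sdiff_subset)
  have hcard : (S \ Z).card ≤ X.card := Finset.card_le_card (Finset.sdiff_subset.trans hSX)
  have hcardR : ((S \ Z).card : ℝ) ≤ (X.card : ℝ) := by exact_mod_cast hcard
  -- (2) Kalton-Roberts
  obtain ⟨W, hW, hWd⟩ := hKR G (S \ Z) h (k - 2 * θ) (m + 1) hh (by omega) hSZ
    (by linarith) hsize2 hcrit.hard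
  -- an enumeration of the pieces
  have hcardPr : Fintype.card (Pr s) = Fintype.card (Fin m) := by rw [Fintype.card_fin, hm]
  let e : Pr s ≃ Fin m := Fintype.equivOfCardEq hcardPr
  -- (3) critical pairs
  have hpiece : ∀ j : Pr s, ∃ H ZH : Finset V, H ⊆ W (Fin.castSucc (e j)) ∧
      Crit G H ZH kH (4 * κ) := by
    intro j
    obtain ⟨H, ZH, h1, h2⟩ := exists_crit
      (not_choos_mono (le_refl _) hn1 (hW (Fin.castSucc (e j))).2) (4 * κ)
    exact ⟨H, ZH, h1, h2⟩
  choose H ZH hHW hHcrit using hpiece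
  have hκ1 : 1 ≤ κ := by rw [hκ]; omega
  -- the hub
  have hhubhard : ¬ Choos G (W (Fin.last m)) (D0 * κ) :=
    not_choos_mono (le_refl _) (by omega) (hW (Fin.last m)).2
  obtain ⟨J0, hJ0W, hJ0, hJ0min⟩ := exists_min_hard _ _ rfl hhubhard
  have hJ0deg : ∀ v ∈ J0, D0 * κ ≤ (Link870.nb G J0 v).card := by
    intro v hv
    have := min_hard_deg hJ0 hJ0min hv
    unfold Link870.nb
    convert this using 2
  have hWS : ∀ i, W i ⊆ S := fun i => (hW i).1.trans Finset.sdiff_subset
  obtain ⟨H0, hH0J, hH0c, hH0l⟩ := hHub G J0 κ h hκ1 (nonempty_of_not_choos hJ0)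
    (fun hM => hS0 (hM.mono (hJ0W.trans (hWS _)))) hJ0deg
  have hH0W : H0 ⊆ W (Fin.last m) := hH0J.trans hJ0W
  have hHS : ∀ j, H j ⊆ S \ Z := fun j => (hHW j).trans (hW _).1
  -- the woven pieces
  have hwov : ∀ j, Woven G (H j) (H j \ ZH j) (4 * g) (4 * g * Fintype.card (Pr s)) := by
    intro j
    refine hSW G (H j) (ZH j) (4 * g) (4 * g * Fintype.card (Pr s)) κ k' q1 kH (by omega)
      (by rw [← hm, hκ]) (hHcrit j) ?_ ?_ (by rw [hk']; omega) hkH hq1 hq1' ?_
    · intro W' hW' hne hdeg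
      exact hHub G W' κ h hκ1 hne
        (fun hM => hS0 (hM.mono (hW'.trans ((hHS j).trans Finset.sdiff_subset)))) hdeg
    · intro W' hW' hnc
      by_contra hM
      have h1 : 2 * (4 * g) = 8 * g := by ring
      rw [h1] at hM hnc
      exact hnc ((IH W' hM).mono_card (by rw [hk']; omega))
    · have h1 : (H j).card ≤ X.card :=
        Finset.card_le_card ((hHS j).trans (Finset.sdiff_subset.trans hSX))
      have h2 : ((H j).card : ℝ) ≤ (X.card : ℝ) := by exact_mod_cast h1
      linarith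
  have hYcard : ∀ j, 4 * g ≤ (H j \ ZH j).card := by
    intro j
    have h1 := lt_card_of_not_choos (hHcrit j).hard
    have h2 : 4 * g ≤ κ := by rw [hκ]; omega
    have h3 : 4 * κ ≤ q1 := by omega
    omega
  have hmodel : Model G S (s * g) := by
    refine hAsm G (θ := θ) S Z H (fun j => H j \ ZH j) H0 H0 hs hg hcrit.sub
      (fun j => Finset.sdiff_subset) (fun j => (hHS j).trans Finset.sdiff_subset) (le_refl _)
      (hH0W.trans (hWS _)) ?_ ?_ ?_ ?_ hYcard ?_ (fun A B hAB hc => hcrit.sep hAB hc) ?_ hwov ?_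
    · intro i j hij
      refine Finset.disjoint_of_subset_left (hHW i) (Finset.disjoint_of_subset_right (hHW j) ?_)
      refine hWd _ _ ?_
      intro heq
      exact hij (e.injective (Fin.castSucc_injective _ heq))
    · intro j
      refine Finset.disjoint_of_subset_left (hHW j) (Finset.disjoint_of_subset_right hH0W ?_)
      refine hWd _ _ ?_
      exact (Fin.castSucc_lt_last _).ne
    · intro j
      refine Finset.disjoint_of_subset_left (Finset.sdiff_subset.trans (hHS j)) ?_
      exact Finset.sdiff_disjoint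
    · refine Finset.disjoint_of_subset_left (hH0W.trans (hW _).1) ?_
      exact Finset.sdiff_disjoint
    · rw [← hm]
      have h2 : 4 * g * m ≤ κ := by rw [hκ]; omega
      omega
    · have h1 : ∀ j, (H j \ (H j \ ZH j)).card ≤ 8 * κ := by
        intro j
        have h2 : H j \ (H j \ ZH j) ⊆ ZH j := by
          intro x hx
          rw [Finset.mem_sdiff, Finset.mem_sdiff] at hx
          by_contra hcon
          exact hx.2 ⟨hx.1, hcon⟩
        have h3 := (Finset.card_le_card h2).trans (hHcrit j).card_le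
        omega
      have h4 : ∑ j, (H j \ (H j \ ZH j)).card ≤ m * (8 * κ) := by
        refine (Finset.sum_le_card_nsmul _ _ _ (fun j _ => h1 j)).trans ?_
        rw [Finset.card_univ, ← hm, smul_eq_mul]
      have h5 : (H0 \ H0).card = 0 := by simp
      rw [← hm, h5, hθ]
      omega
    · refine hubLinked_of_linked ?_
      intro Y hY hYc
      refine hH0l Y hY (hYc.trans ?_)
      rw [← hm]
      have h2 : 4 * g * m ≤ κ := by rw [hκ]; omega
      omega
  exact hS0 (hmodel.le hsg)

end Crest.Agent.R042.Small333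
end

-- ▼ part R042/SmallNum_333
section

/-! Row 42 / S0058, (10.0): the numbers.  `B0` = block B0 of the spine, from the four leaf
statements. -/

set_option autoImplicit false
set_option linter.unusedSectionVars false

namespace Crest.Agent.R042.Small333

open Finset Crest.Agent.R042.Conn353 Crest.Agent.R042.Menger353 Crest.Agent.R042.Crit374
open Crest.Agent.R042.Mader375 (Model)
open Crest.Agent.R042.Asm220 (Woven HubLinked Pr)
open Crest.Agent.R042.Link870 (Linked)

/-- induction hypothesis of the main induction (model form). -/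
def IHypM (F h : ℕ) : Prop :=
  ∀ h', h' < h → ∀ {V : Type} [DecidableEq V] (G : SimpleGraph V) (W : Finset V),
    ¬ Model G W (h' + 1) → Choos G W (F * h')

/-- sets of small order are cheap (model form). -/
def SmallSetsM (F h C s : ℕ) : Prop :=
  ∀ {V : Type} [DecidableEq V] (G : SimpleGraph V) (X : Finset V),
    ¬ Model G X (h + 1) → X.card ≤ 2 ^ (C * h) → Choos G X (F * h / s)

lemma four_mul_two_pow_lt (n : ℕ) {x : ℝ} (hx : (n : ℝ) + 3 ≤ x) :
    4 * (2 : ℝ) ^ n < Real.exp x := by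
  have h1 : (2 : ℝ) ^ n ≤ Real.exp n := by
    have h2 : (2 : ℝ) ≤ Real.exp 1 := by
      have := Real.add_one_le_exp (1 : ℝ)
      linarith
    calc (2 : ℝ) ^ n ≤ (Real.exp 1) ^ n := by gcongr
      _ = Real.exp n := by rw [← Real.exp_nat_mul, mul_one]
  have h3 : (4 : ℝ) < Real.exp 3 := by
    have := Real.add_one_lt_exp (x := (3 : ℝ)) (by norm_num)
    linarith
  have h4 : Real.exp (n + 3) ≤ Real.exp x := Real.exp_le_exp.2 hx
  have h5 : 0 < Real.exp (n : ℝ) := Real.exp_pos _
  calc 4 * (2 : ℝ) ^ n ≤ 4 * Real.exp n := by linarith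
    _ < Real.exp 3 * Real.exp n := by nlinarith
    _ = Real.exp (n + 3) := by rw [← Real.exp_add, add_comm]
    _ ≤ Real.exp x := h4

/-- block B0 of the spine: (10.0), small sets are cheap. -/
theorem B0M {D0 : ℕ} (hKR : KRStmt) (hHub : HubStmt D0) (hAsm : AsmStmt)
    (hSW : SmallWovenStmt D0) (C s0 : ℕ) (hs0 : 1 ≤ s0) :
    ∃ F1 : ℕ, ∀ F, F1 ≤ F → ∀ h, 1 ≤ h → IHypM F h → SmallSetsM F h C s0 := by
  classical
  obtain ⟨S, hS⟩ : ∃ S : ℕ, S = 1536 * s0 := ⟨_, rfl⟩
  obtain ⟨m, hm⟩ : ∃ m : ℕ, m = Fintype.card (Pr S) := ⟨_, rfl⟩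
  obtain ⟨K1, hK1⟩ : ∃ K1 : ℕ, K1 = 64 * (4 * (m + 1)) +
    48 * (8 + (8 + D0) * (4 * (m + 1)) + 13 + 4 * C) +
    2 * (4 * m + 32 * m * (m + 1)) := ⟨_, rfl⟩
  refine ⟨2 * s0 * K1 + S * (32 * (m + 1) ^ 2) + s0 * (2 ^ (S + 1) + 1), ?_⟩
  intro F hF h hh IH V _ G X hX hXc
  have hF1 : 2 * s0 * K1 ≤ F := by omega
  have hF2 : S * (32 * (m + 1) ^ 2) ≤ F := by omega
  have hF3 : s0 * (2 ^ (S + 1) + 1) ≤ F := by omega
  by_cases hhS : h < S
  · -- small `h`: Mader
    refine (choos_of_no_model hX).mono_card ?_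
    rw [Nat.le_div_iff_mul_le (by omega)]
    have h1 : 2 ^ (h + 1) ≤ 2 ^ (S + 1) := Nat.pow_le_pow_right (by norm_num) (by omega)
    calc (2 ^ (h + 1) + 1) * s0 ≤ (2 ^ (S + 1) + 1) * s0 := Nat.mul_le_mul_right _ (by omega)
      _ = s0 * (2 ^ (S + 1) + 1) := Nat.mul_comm _ _
      _ ≤ F := hF3
      _ = F * 1 := (Nat.mul_one F).symm
      _ ≤ F * h := Nat.mul_le_mul_left _ hh
  push Not at hhS
  obtain ⟨g, hg⟩ : ∃ g : ℕ, g = h / S + 1 := ⟨_, rfl⟩
  have hSpos : 0 < S := by omega
  have hg1 : 1 ≤ g := by rw [hg]; exact Nat.le_add_left 1 _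
  have hSg : h + 1 ≤ S * g := by
    have := Nat.lt_mul_div_succ h hSpos
    rw [hg]
    exact this
  have hSg2 : S * g ≤ 2 * h := by
    have h1 : S * (h / S) ≤ h := Nat.mul_div_le h S
    rw [hg, Nat.mul_add, Nat.mul_one]
    omega
  have hgh : g ≤ h := by
    have h1 : 1536 * g ≤ S * g := Nat.mul_le_mul_right _ (by omega)
    omega
  obtain ⟨κ, hκ⟩ : ∃ κ : ℕ, κ = 4 * g + 4 * g * m := ⟨_, rfl⟩
  obtain ⟨k', hk'⟩ : ∃ k' : ℕ, k' = F * (8 * g - 1) + 8 * g + 4 * κ := ⟨_, rfl⟩
  obtain ⟨q1, hq1⟩ : ∃ q1 : ℕ, q1 = k' + D0 * κ + 4 * κ + 1 + (4 * (C * h) + 12) := ⟨_, rfl⟩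
  obtain ⟨kH, hkH⟩ : ∃ kH : ℕ, kH = 8 * κ + 6 * q1 := ⟨_, rfl⟩
  obtain ⟨θ, hθ⟩ : ∃ θ : ℕ, θ = 4 * g * m + m * (8 * κ) := ⟨_, rfl⟩
  obtain ⟨k, hk⟩ : ∃ k : ℕ, k = F * h / s0 := ⟨_, rfl⟩
  rw [← hk]
  -- bounds
  have hκh : κ ≤ 4 * (m + 1) * h := by
    calc κ = 4 * (m + 1) * g := by rw [hκ]; ring
      _ ≤ 4 * (m + 1) * h := Nat.mul_le_mul_left _ hgh
  have hθh : θ ≤ (4 * m + 32 * m * (m + 1)) * h := by
    calc θ = 4 * m * g + 8 * m * κ := by rw [hθ]; ring
      _ ≤ 4 * m * h + 8 * m * (4 * (m + 1) * h) :=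
        Nat.add_le_add (Nat.mul_le_mul_left _ hgh) (Nat.mul_le_mul_left _ hκh)
      _ = (4 * m + 32 * m * (m + 1)) * h := by ring
  have hF8 : F * (8 * g - 1) ≤ 8 * (F * g) := by
    calc F * (8 * g - 1) ≤ F * (8 * g) := Nat.mul_le_mul_left _ (Nat.sub_le _ _)
      _ = 8 * (F * g) := by ring
  obtain ⟨R, hR⟩ : ∃ R : ℕ, R = 64 * κ + 48 * (8 * g + (8 + D0) * κ + 13 + 4 * (C * h)) +
    2 * θ := ⟨_, rfl⟩
  have hRh : R ≤ K1 * h := by
    have e1 : (8 + D0) * κ ≤ (8 + D0) * (4 * (m + 1) * h) := Nat.mul_le_mul_left _ hκh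
    calc R ≤ 64 * (4 * (m + 1) * h) +
          48 * (8 * h + (8 + D0) * (4 * (m + 1) * h) + 13 * h + 4 * (C * h)) +
          2 * ((4 * m + 32 * m * (m + 1)) * h) := by
            rw [hR]
            have e2 : 13 ≤ 13 * h := by omega
            omega
      _ = K1 * h := by rw [hK1]; ring
  have hmain : 8 * kH + 2 * θ ≤ 384 * (F * g) + R := by
    rw [hkH, hq1, hk', hR]
    have e1 : (8 + D0) * κ = 8 * κ + D0 * κ := by ring
    rw [e1]
    omega
  have hkey : s0 * (8 * kH + 2 * θ) ≤ F * h := by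
    have e1 : 2 * (s0 * (8 * kH + 2 * θ)) ≤ 2 * (F * h) := by
      calc 2 * (s0 * (8 * kH + 2 * θ)) ≤ 2 * (s0 * (384 * (F * g) + R)) :=
            Nat.mul_le_mul_left _ (Nat.mul_le_mul_left _ hmain)
        _ = F * (768 * s0 * g) + 2 * s0 * R := by ring
        _ ≤ F * h + F * h := by
            refine Nat.add_le_add (Nat.mul_le_mul_left _ ?_) ?_
            · have e2 : 2 * (768 * s0 * g) = S * g := by rw [hS]; ring
              omega
            · calc 2 * s0 * R ≤ 2 * s0 * (K1 * h) := Nat.mul_le_mul_left _ hRh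
                _ = (2 * s0 * K1) * h := by ring
                _ ≤ F * h := Nat.mul_le_mul_right _ hF1
        _ = 2 * (F * h) := by ring
    omega
  have hkk : 8 * kH + 2 * θ ≤ k := by
    rw [hk, Nat.le_div_iff_mul_le (by omega)]
    rw [Nat.mul_comm] at hkey
    exact hkey
  have hk8 : 8 * kH ≤ k - 2 * θ := by omega
  have hq48 : 48 * q1 ≤ k - 2 * θ := by omega
  have hq48R : (48 : ℝ) * q1 ≤ ((k - 2 * θ : ℕ) : ℝ) := by exact_mod_cast hq48
  have hXR : (X.card : ℝ) ≤ (2 : ℝ) ^ (C * h) := by exact_mod_cast hXc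
  have hq1C : 4 * (C * h) + 13 ≤ q1 := by omega
  have hq1CR : (4 : ℝ) * ((C * h : ℕ) : ℝ) + 13 ≤ (q1 : ℝ) := by exact_mod_cast hq1C
  have hCh0 : (0 : ℝ) ≤ ((C * h : ℕ) : ℝ) := Nat.cast_nonneg _
  refine core G hKR hHub hAsm hSW (s := S) (g := g) (m := m) (κ := κ) (k' := k') (q1 := q1)
    (kH := kH) (θ := θ) (h := h) (F := F) (by omega) hg1 hh hm hκ hk' hkH (by omega) (by omega)
    hθ hSg (by omega) X hX ?_ ?_ ?_ ?_
  · -- induction hypothesis
    intro W hW
    have h1 : 8 * g - 1 < h := by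
      have h2 : 1536 * g ≤ S * g := Nat.mul_le_mul_right _ (by omega)
      omega
    refine IH (8 * g - 1) h1 G W ?_
    have h3 : 8 * g - 1 + 1 = 8 * g := by omega
    rw [h3]
    exact hW
  · have h1 := four_mul_two_pow_lt (C * h) (x := ((k - 2 * θ : ℕ) : ℝ) / 32) (by
      rw [le_div_iff₀ (by norm_num)]
      nlinarith)
    linarith
  · have h24 : (0 : ℝ) < 24 * h := by
      have : (1 : ℝ) ≤ h := by exact_mod_cast hh
      linarith
    have hx : (32 : ℝ) * ((m + 1 : ℕ) : ℝ) ^ 2 ≤ ((k - 2 * θ : ℕ) : ℝ) / (24 * h) := by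
      rw [le_div_iff₀ h24]
      have e0 : 32 * (m + 1) ^ 2 * (24 * h) ≤ k - 2 * θ := by
        have e1 : 32 * (m + 1) ^ 2 * (24 * h) ≤ 24 * (F * g) := by
          calc 32 * (m + 1) ^ 2 * (24 * h) ≤ 32 * (m + 1) ^ 2 * (24 * (S * g)) :=
                Nat.mul_le_mul_left _ (Nat.mul_le_mul_left _ (by omega))
            _ = 24 * ((S * (32 * (m + 1) ^ 2)) * g) := by ring
            _ ≤ 24 * (F * g) :=
                Nat.mul_le_mul_left _ (Nat.mul_le_mul_right _ hF2)
        have e2 : F * g ≤ q1 := by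
          have e3 : F * g ≤ F * (8 * g - 1) := Nat.mul_le_mul_left _ (by omega)
          omega
        omega
      exact_mod_cast e0
    have he2 : Real.exp 2 ≤ 8 := by
      have h1 := Real.exp_one_lt_d9
      have h2 : Real.exp 2 = Real.exp 1 * Real.exp 1 := by
        rw [← Real.exp_add]; norm_num
      have h3 : 0 < Real.exp 1 := Real.exp_pos _
      rw [h2]
      nlinarith
    have hsq : (0 : ℝ) ≤ ((m + 1 : ℕ) : ℝ) ^ 2 := by positivity
    calc 4 * Real.exp 2 * ((m + 1 : ℕ) : ℝ) ^ 2 ≤ 32 * ((m + 1 : ℕ) : ℝ) ^ 2 := by nlinarith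
      _ ≤ ((k - 2 * θ : ℕ) : ℝ) / (24 * h) := hx
      _ ≤ Real.exp (((k - 2 * θ : ℕ) : ℝ) / (24 * h)) := by
          have := Real.add_one_le_exp (((k - 2 * θ : ℕ) : ℝ) / (24 * h))
          linarith
  · have h1 := four_mul_two_pow_lt (C * h) (x := (q1 : ℝ) / 4) (by
      rw [le_div_iff₀ (by norm_num)]
      nlinarith)
    have h2 : (0 : ℝ) ≤ (2 : ℝ) ^ (C * h) := by positivity
    linarith

end Crest.Agent.R042.Small333
end

-- ▼ part R042/Expander_492
section

/-! Row 42, sec 02 (Kalton-Roberts): existence of the bipartite expander of degree 3, by counting. -/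

set_option autoImplicit false

namespace Crest.Agent.R042.Expander492

open Finset

/-- `choose n s * s! ≤ n^s`, in the reals, and `s^s ≤ e^s s!`. -/
lemma choose_le_real (n s : ℕ) : (n.choose s : ℝ) ≤ (n : ℝ) ^ s / (s.factorial : ℝ) := by
  exact_mod_cast Nat.choose_le_pow_div s n

lemma pow_self_div_factorial_le (s : ℕ) : (s : ℝ) ^ s / (s.factorial : ℝ) ≤ Real.exp s :=
  Real.pow_div_factorial_le_exp (s : ℝ) (Nat.cast_nonneg s) s

/-- one term of the union bound. -/
lemma term_le {N n m s : ℕ} {ε : ℝ} (hn : n ≤ N * m) (hm : 1 ≤ m) (hs : 1 ≤ s)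
    (hε : 4 * Real.exp 2 * (N : ℝ) ^ 2 * ε ≤ 1) (hse : (s : ℝ) ≤ ε * (N * m)) :
    (n.choose s : ℝ) * (m.choose s : ℝ) * ((s : ℝ) / m) ^ (3 * s) ≤ (1 / 4) ^ s := by
  have hm0 : (0 : ℝ) < m := by exact_mod_cast hm
  have hs0 : (0 : ℝ) < s := by exact_mod_cast hs
  have hf : (0 : ℝ) < (s.factorial : ℝ) := by exact_mod_cast Nat.factorial_pos s
  have h1 := choose_le_real n s
  have h2 := choose_le_real m s
  have h3 := pow_self_div_factorial_le s
  have hnR : (n : ℝ) ≤ N * m := by exact_mod_cast hn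
  have h1' : (n.choose s : ℝ) ≤ ((N : ℝ) * m) ^ s / (s.factorial : ℝ) := by
    refine h1.trans ?_
    gcongr
  have hpos : 0 ≤ ((s : ℝ) / m) ^ (3 * s) := by positivity
  calc (n.choose s : ℝ) * (m.choose s : ℝ) * ((s : ℝ) / m) ^ (3 * s)
      ≤ (((N : ℝ) * m) ^ s / (s.factorial : ℝ)) * ((m : ℝ) ^ s / (s.factorial : ℝ))
          * ((s : ℝ) / m) ^ (3 * s) := by
        gcongr
    _ = ((N : ℝ) * s / m) ^ s * (((s : ℝ) ^ s / (s.factorial : ℝ)) ^ 2) := by
        have h5 : ((s : ℝ) / m) ^ (3 * s) = (((s : ℝ) / m) ^ 3) ^ s := by rw [pow_mul]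
        have h6 : ((N : ℝ) * m) ^ s * (m : ℝ) ^ s * (((s : ℝ) / m) ^ 3) ^ s
            = ((N : ℝ) * s / m) ^ s * (s : ℝ) ^ s * (s : ℝ) ^ s := by
          rw [← mul_pow, ← mul_pow, ← mul_pow, ← mul_pow]
          congr 1
          field_simp
        have h7 : (((N : ℝ) * m) ^ s / (s.factorial : ℝ)) * ((m : ℝ) ^ s / (s.factorial : ℝ))
          * ((s : ℝ) / m) ^ (3 * s) = (((N : ℝ) * m) ^ s * (m : ℝ) ^ s * (((s : ℝ) / m) ^ 3) ^ s)
            / (s.factorial : ℝ) ^ 2 := by
          rw [h5]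
          field_simp
        rw [h7, h6]
        field_simp
    _ ≤ ((N : ℝ) * s / m) ^ s * ((Real.exp s) ^ 2) := by
        gcongr
    _ = ((N : ℝ) * s / m * Real.exp 2) ^ s := by
        rw [mul_pow, ← Real.exp_nat_mul, ← Real.exp_nat_mul]
        congr 2
        push_cast
        ring
    _ ≤ (1 / 4) ^ s := by
        have hA : (N : ℝ) * s / m * Real.exp 2 ≤ 1 / 4 := by
          have : (N : ℝ) * s / m ≤ (N : ℝ) * (ε * N) := by
            rw [div_le_iff₀ hm0]
            have hN0 : (0 : ℝ) ≤ N := Nat.cast_nonneg N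
            nlinarith
          have he : (0 : ℝ) < Real.exp 2 := Real.exp_pos 2
          nlinarith
        gcongr

/-- The expander: `card ι ≤ N * card μ`, sets of at most `ε N (card μ)` indices expand. -/
theorem expander {ι μ : Type*} [Fintype ι] [Fintype μ] [DecidableEq ι] [DecidableEq μ]
    (N : ℕ) {ε : ℝ} (hε : 4 * Real.exp 2 * (N : ℝ) ^ 2 * ε ≤ 1)
    (hcard : Fintype.card ι ≤ N * Fintype.card μ) (hμ : 1 ≤ Fintype.card μ) :
    ∃ nbr : ι → Fin 3 → μ, ∀ S : Finset ι, (S.card : ℝ) ≤ ε * (N * Fintype.card μ) →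
      S.card ≤ (S.biUnion fun i => Finset.univ.image (nbr i)).card := by
  classical
  set m := Fintype.card μ with hmdef
  set n := Fintype.card ι with hndef
  have hm0 : (0 : ℝ) < m := by exact_mod_cast hμ
  by_contra hcon
  push Not at hcon
  -- the bad sets
  let box (S : Finset ι) (J : Finset μ) : Finset (ι × Fin 3 → μ) :=
    Fintype.piFinset (fun x => if x.1 ∈ S then J else Finset.univ)
  let M : ℕ := ⌊ε * (N * m)⌋₊
  have hbox : ∀ (S : Finset ι) (J : Finset μ),
      ((box S J).card : ℝ) = ((J.card : ℝ) / m) ^ (3 * S.card) * (m : ℝ) ^ (3 * n) := by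
    intro S J
    have h1 : (box S J).card = ∏ x : ι × Fin 3, (if x.1 ∈ S then J.card else m) := by
      simp only [box, Fintype.card_piFinset]
      refine Finset.prod_congr rfl fun x _ => ?_
      split_ifs <;> simp [hmdef]
    have h2 : (∏ x : ι × Fin 3, (if x.1 ∈ S then J.card else m))
        = J.card ^ (3 * S.card) * m ^ (3 * (n - S.card)) := by
      rw [Fintype.prod_prod_type]
      have key : ∀ i : ι, (∏ r : Fin 3, (if ((i, r) : ι × Fin 3).1 ∈ S then J.card else m))
          = if i ∈ S then J.card ^ 3 else m ^ 3 := by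
        intro i
        by_cases h : i ∈ S <;> simp [h]
      rw [Finset.prod_congr rfl fun i _ => key i]
      rw [Finset.prod_ite]
      simp only [Finset.prod_const, ← pow_mul]
      have hc1 : (Finset.univ.filter fun i => i ∈ S).card = S.card := by simp
      have hc2 : (Finset.univ.filter fun i => ¬ i ∈ S).card = n - S.card := by
        rw [Finset.filter_not, Finset.card_sdiff_of_subset (Finset.filter_subset _ _), hc1]
        simp [hndef]
      rw [hc1, hc2]
    have hSn : S.card ≤ n := by simpa [hndef] using Finset.card_le_univ S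
    rw [h1, h2]
    push_cast
    have h3 : (m : ℝ) ^ (3 * n) = (m : ℝ) ^ (3 * S.card) * (m : ℝ) ^ (3 * (n - S.card)) := by
      rw [← pow_add]; congr 1; omega
    rw [h3, div_pow]
    field_simp
  -- every function is in some box
  have hcover : (Finset.univ : Finset (ι × Fin 3 → μ)) ⊆
      (Finset.Icc 1 M).biUnion fun s =>
        ((Finset.univ : Finset ι).powersetCard s ×ˢ (Finset.univ : Finset μ).powersetCard s).biUnion
          fun p => box p.1 p.2 := by
    intro f _
    obtain ⟨S, hS1, hS2⟩ := hcon (fun i r => f (i, r))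
    have hSM : S.card ≤ M := Nat.le_floor hS1
    have hS0 : 1 ≤ S.card := by
      by_contra h
      have : S.card = 0 := by omega
      omega
    have hSm : S.card ≤ m := by
      by_contra h
      push Not at h
      have h4 : (m : ℝ) < S.card := by exact_mod_cast h
      have he : (1 : ℝ) ≤ Real.exp 2 := Real.one_le_exp (by norm_num)
      rcases Nat.eq_zero_or_pos N with hN | hN
      · subst hN
        have h9 : (S.card : ℝ) ≤ ε * (((0 : ℕ) : ℝ) * m) := hS1
        rw [Nat.cast_zero, zero_mul, mul_zero] at h9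
        have h10 : S.card ≤ 0 := by exact_mod_cast h9
        omega
      · have hN1 : (1 : ℝ) ≤ N := by exact_mod_cast hN
        by_cases hε0 : ε ≤ 0
        · have : ε * (N * m) ≤ 0 := mul_nonpos_of_nonpos_of_nonneg hε0 (by positivity)
          linarith
        · push Not at hε0
          have hNN : (N : ℝ) ≤ (N : ℝ) ^ 2 := by nlinarith
          have h5 : ε * N ≤ 1 := by
            have h6 : (N : ℝ) * ε ≤ (N : ℝ) ^ 2 * ε := by gcongr
            have h7 : (N : ℝ) ^ 2 * ε ≤ Real.exp 2 * ((N : ℝ) ^ 2 * ε) := by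
              have : 0 ≤ (N : ℝ) ^ 2 * ε := by positivity
              nlinarith
            nlinarith [mul_pos (mul_pos (by positivity : (0:ℝ) < (N:ℝ)^2) hε0) (Real.exp_pos 2)]
          have h8 : ε * (N * m) ≤ m := by nlinarith
          linarith
    obtain ⟨J, hJ1, hJ2⟩ := Finset.exists_superset_card_eq
      (s := S.biUnion fun i => Finset.univ.image (fun r => f (i, r))) (n := S.card) hS2.le
      (by simpa [hmdef] using hSm)
    simp only [Finset.mem_biUnion, Finset.mem_Icc, Finset.mem_product, Finset.mem_powersetCard]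
    refine ⟨S.card, ⟨hS0, hSM⟩, (S, J), ⟨⟨Finset.subset_univ _, rfl⟩, ⟨Finset.subset_univ _, hJ2⟩⟩, ?_⟩
    simp only [box, Fintype.mem_piFinset]
    rintro ⟨i, r⟩
    split_ifs with hi
    · apply hJ1
      simp only [Finset.mem_biUnion, Finset.mem_image, Finset.mem_univ, true_and]
      exact ⟨i, hi, r, rfl⟩
    · exact Finset.mem_univ _
  have hcard_le := Finset.card_le_card hcover
  have htot : ((Finset.univ : Finset (ι × Fin 3 → μ)).card : ℝ) = (m : ℝ) ^ (3 * n) := by
    rw [Finset.card_univ, Fintype.card_fun, Fintype.card_prod, Fintype.card_fin]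
    push_cast
    rw [mul_comm]
  have hbound : ((Finset.univ : Finset (ι × Fin 3 → μ)).card : ℝ)
      ≤ ∑ s ∈ Finset.Icc 1 M, (1 / 4 : ℝ) ^ s * (m : ℝ) ^ (3 * n) := by
    calc ((Finset.univ : Finset (ι × Fin 3 → μ)).card : ℝ)
        ≤ (((Finset.Icc 1 M).biUnion fun s =>
        ((Finset.univ : Finset ι).powersetCard s ×ˢ (Finset.univ : Finset μ).powersetCard s).biUnion
          fun p => box p.1 p.2).card : ℝ) := by exact_mod_cast hcard_le
      _ ≤ ∑ s ∈ Finset.Icc 1 M, ((((Finset.univ : Finset ι).powersetCard s ×ˢ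
            (Finset.univ : Finset μ).powersetCard s).biUnion fun p => box p.1 p.2).card : ℝ) := by
          exact_mod_cast Finset.card_biUnion_le
      _ ≤ ∑ s ∈ Finset.Icc 1 M, (1 / 4 : ℝ) ^ s * (m : ℝ) ^ (3 * n) := by
          refine Finset.sum_le_sum fun s hs => ?_
          rw [Finset.mem_Icc] at hs
          have h1 : ((((Finset.univ : Finset ι).powersetCard s ×ˢ
            (Finset.univ : Finset μ).powersetCard s).biUnion fun p => box p.1 p.2).card : ℝ)
              ≤ ∑ p ∈ ((Finset.univ : Finset ι).powersetCard s ×ˢ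
            (Finset.univ : Finset μ).powersetCard s), ((box p.1 p.2).card : ℝ) := by
            exact_mod_cast Finset.card_biUnion_le
          refine h1.trans ?_
          have h2 : ∀ p ∈ ((Finset.univ : Finset ι).powersetCard s ×ˢ
            (Finset.univ : Finset μ).powersetCard s), ((box p.1 p.2).card : ℝ)
              = ((s : ℝ) / m) ^ (3 * s) * (m : ℝ) ^ (3 * n) := by
            rintro ⟨S, J⟩ hp
            rw [Finset.mem_product, Finset.mem_powersetCard, Finset.mem_powersetCard] at hp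
            rw [hbox, hp.1.2, hp.2.2]
          rw [Finset.sum_congr rfl h2, Finset.sum_const, Finset.card_product,
            Finset.card_powersetCard, Finset.card_powersetCard, nsmul_eq_mul]
          push_cast
          rw [← mul_assoc]
          have h3 : (Fintype.card ι : ℕ) = n := rfl
          have hsM : (s : ℝ) ≤ ε * (N * m) := by
            have hM0 : 0 ≤ ε * (N * m) := by
              by_contra hneg
              push Not at hneg
              have : M = 0 := Nat.floor_of_nonpos hneg.le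
              omega
            exact (Nat.cast_le.mpr hs.2).trans (Nat.floor_le hM0)
          have h4 := term_le (N := N) (n := n) (m := m) (s := s) (ε := ε) hcard hμ hs.1 hε hsM
          have h5 : (0 : ℝ) ≤ (m : ℝ) ^ (3 * n) := by positivity
          simp only [Finset.card_univ]
          exact mul_le_mul_of_nonneg_right h4 h5
  have hgeom : ∑ s ∈ Finset.Icc 1 M, (1 / 4 : ℝ) ^ s ≤ 1 / 3 := by
    have : ∀ K : ℕ, ∑ s ∈ Finset.Icc 1 K, (1 / 4 : ℝ) ^ s = 1 / 3 - (1 / 3) * (1 / 4) ^ K := by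
      intro K
      induction K with
      | zero => simp
      | succ K ih =>
        rw [Finset.sum_Icc_succ_top (by omega), ih, pow_succ]
        ring
    rw [this]
    have : (0 : ℝ) ≤ (1 / 3) * (1 / 4) ^ M := by positivity
    linarith
  rw [htot, ← Finset.sum_mul] at hbound
  have hmpos : (0 : ℝ) < (m : ℝ) ^ (3 * n) := by positivity
  nlinarith

end Crest.Agent.R042.Expander492
end

-- ▼ part R042/KR_492
section

/-! Row 42 / S0058, sec 02 + (8.2): the Kalton-Roberts lemma in list form.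
If every induced subgraph has fractional chromatic number `≤ a` (`Frac`) and `G[W]` is hard for some
lists, then there are `N` disjoint sets hard for lists of size `k/8`. -/

set_option autoImplicit false
set_option linter.unusedSectionVars false

namespace Crest.Agent.R042.KR492

open Finset Crit374

variable {V : Type*} [DecidableEq V] {G : SimpleGraph V}

/-- `G[S]` has fractional chromatic number at most `a` (integer form). -/
def Frac (G : SimpleGraph V) (S : Finset V) (a : ℕ) : Prop :=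
  ∃ (T : ℕ) (I : Fin T → Finset V), 1 ≤ T ∧
    (∀ i, I i ⊆ S ∧ ∀ u ∈ I i, ∀ v ∈ I i, ¬ G.Adj u v) ∧
    ∀ v ∈ S, T ≤ a * (Finset.univ.filter fun i => v ∈ I i).card

/-- The samples: a finite nonempty family of sets `X ω`, each colourable from `L ∩ C0`, such that
every vertex is missed by a small proportion of them. -/
theorem samples (W : Finset V) (L : V → Finset ℕ) (C0 : Finset ℕ) (a : ℕ) (ha : 1 ≤ a)
    (hfrac : ∀ S ⊆ W, Frac G S a) (x : ℝ) (hx : ∀ v ∈ W, x ≤ ((L v ∩ C0).card : ℝ)) :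
    ∃ (Ω : Type) (_ : Fintype Ω) (_ : DecidableEq Ω) (X : Ω → Finset V), Nonempty Ω ∧
      (∀ ω, ColOn G (X ω) (fun v => L v ∩ C0)) ∧
      ∀ v ∈ W, ((Finset.univ.filter fun ω => v ∉ X ω).card : ℝ)
        ≤ Real.exp (-(x / a)) * Fintype.card Ω := by
  classical
  have hF : ∀ c : ℕ, ∃ (T : ℕ) (I : Fin T → Finset V), 1 ≤ T ∧
    (∀ i, I i ⊆ W.filter (fun v => c ∈ L v) ∧ ∀ u ∈ I i, ∀ v ∈ I i, ¬ G.Adj u v) ∧
    ∀ v ∈ W.filter (fun v => c ∈ L v), T ≤ a * (Finset.univ.filter fun i => v ∈ I i).card :=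
    fun c => hfrac _ (Finset.filter_subset _ _)
  choose T I hT hI hcov using hF
  have ha0 : (0 : ℝ) < a := by exact_mod_cast ha
  refine ⟨(c : {c // c ∈ C0}) → Fin (T c), inferInstance, inferInstance,
    fun ω => W.filter (fun v => ∃ c : {c // c ∈ C0}, v ∈ I c (ω c)), ?_, ?_, ?_⟩
  · exact ⟨fun c => ⟨0, hT c⟩⟩
  · intro ω
    have hch : ∀ v : V, ∃ c : ℕ, (∃ d : {c // c ∈ C0}, v ∈ I d (ω d)) →
        ∃ hc : c ∈ C0, v ∈ I c (ω ⟨c, hc⟩) := by
      intro v
      by_cases h : ∃ d : {c // c ∈ C0}, v ∈ I d (ω d)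
      · obtain ⟨d, hd⟩ := h
        exact ⟨d, fun _ => ⟨d.2, hd⟩⟩
      · exact ⟨0, fun h' => absurd h' h⟩
    choose col hcol using hch
    refine ⟨col, ?_, ?_⟩
    · intro v hv
      obtain ⟨hc, hv'⟩ := hcol v (Finset.mem_filter.mp hv).2
      have := (hI (col v) (ω ⟨col v, hc⟩)).1 hv'
      exact Finset.mem_inter.mpr ⟨(Finset.mem_filter.mp this).2, hc⟩
    · intro u hu v hv huv heq
      obtain ⟨hcu, hu'⟩ := hcol u (Finset.mem_filter.mp hu).2
      obtain ⟨hcv, hv'⟩ := hcol v (Finset.mem_filter.mp hv).2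
      have hv'' : v ∈ I (col u) (ω ⟨col u, hcu⟩) := by
        have : ∀ (d : ℕ) (hd : d ∈ C0), d = col v → v ∈ I d (ω ⟨d, hd⟩) := by
          intro d hd h
          subst h
          exact hv'
        exact this _ hcu heq
      exact (hI (col u) (ω ⟨col u, hcu⟩)).2 u hu' v hv'' huv
  · intro v hv
    have h1 : (Finset.univ.filter fun ω : (c : {c // c ∈ C0}) → Fin (T c) =>
        v ∉ W.filter (fun v => ∃ c : {c // c ∈ C0}, v ∈ I c (ω c)))
        = Fintype.piFinset (fun c : {c // c ∈ C0} => Finset.univ.filter fun i => v ∉ I c i) := by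
      ext ω
      simp [hv]
    rw [h1, Fintype.card_piFinset, Fintype.card_pi]
    push_cast
    simp only [Fintype.card_fin]
    have h2 : ∀ c : {c // c ∈ C0}, ((Finset.univ.filter fun i => v ∉ I c i).card : ℝ)
        ≤ (T c : ℝ) * (if (c : ℕ) ∈ L v then (1 - 1 / (a : ℝ)) else 1) := by
      intro c
      have h3 : (Finset.univ.filter fun i => v ∉ I c i).card
          + (Finset.univ.filter fun i => v ∈ I c i).card = T c := by
        have := Finset.card_filter_add_card_filter_not (s := (Finset.univ : Finset (Fin (T c))))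
          (fun i => v ∈ I c i)
        simp only [Finset.card_univ, Fintype.card_fin] at this
        omega
      have h3' : ((Finset.univ.filter fun i => v ∉ I c i).card : ℝ)
          + ((Finset.univ.filter fun i => v ∈ I c i).card : ℝ) = T c := by exact_mod_cast h3
      split_ifs with hc
      · have h4 := hcov c v (Finset.mem_filter.mpr ⟨hv, hc⟩)
        have h4' : (T c : ℝ) ≤ a * ((Finset.univ.filter fun i => v ∈ I c i).card : ℝ) := by
          exact_mod_cast h4
        have h5 : (T c : ℝ) / a ≤ ((Finset.univ.filter fun i => v ∈ I c i).card : ℝ) := by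
          rw [div_le_iff₀ ha0]
          linarith
        have h6 : (T c : ℝ) * (1 - 1 / (a : ℝ)) = T c - (T c : ℝ) / a := by ring
        linarith
      · have : (0 : ℝ) ≤ ((Finset.univ.filter fun i => v ∈ I c i).card : ℝ) := Nat.cast_nonneg _
        linarith
    have h7 : ∏ c : {c // c ∈ C0}, ((Finset.univ.filter fun i => v ∉ I c i).card : ℝ)
        ≤ ∏ c : {c // c ∈ C0}, ((T c : ℝ) * (if (c : ℕ) ∈ L v then (1 - 1 / (a : ℝ)) else 1)) :=
      Finset.prod_le_prod (fun _ _ => Nat.cast_nonneg _) (fun c _ => h2 c)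
    refine h7.trans ?_
    rw [Finset.prod_mul_distrib]
    have h8 : ∏ c : {c // c ∈ C0}, (if (c : ℕ) ∈ L v then (1 - 1 / (a : ℝ)) else 1)
        = (1 - 1 / (a : ℝ)) ^ (L v ∩ C0).card := by
      rw [Finset.prod_coe_sort C0 (fun c => if c ∈ L v then (1 - 1 / (a : ℝ)) else 1)]
      rw [Finset.prod_ite_mem, Finset.prod_const, Finset.inter_comm]
    rw [h8]
    have h9 : (1 - 1 / (a : ℝ)) ^ (L v ∩ C0).card ≤ Real.exp (-(x / a)) := by
      have h10 : 0 ≤ 1 - 1 / (a : ℝ) := by
        rw [sub_nonneg, div_le_iff₀ ha0]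
        have : (1 : ℝ) ≤ a := by exact_mod_cast ha
        linarith
      have h11 : 1 - 1 / (a : ℝ) ≤ Real.exp (-(1 / a)) := by
        have := Real.add_one_le_exp (-(1 / (a : ℝ)))
        linarith
      calc (1 - 1 / (a : ℝ)) ^ (L v ∩ C0).card
          ≤ (Real.exp (-(1 / a))) ^ (L v ∩ C0).card := by gcongr
        _ = Real.exp (-(((L v ∩ C0).card : ℝ) / a)) := by
            rw [← Real.exp_nat_mul]
            congr 1
            ring
        _ ≤ Real.exp (-(x / a)) := by
            apply Real.exp_le_exp.mpr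
            apply neg_le_neg
            exact div_le_div_of_nonneg_right (hx v hv) ha0.le
    have h12 : (0 : ℝ) ≤ ∏ c : {c // c ∈ C0}, (T c : ℝ) :=
      Finset.prod_nonneg fun _ _ => Nat.cast_nonneg _
    calc (∏ c : {c // c ∈ C0}, (T c : ℝ)) * (1 - 1 / (a : ℝ)) ^ (L v ∩ C0).card
        ≤ (∏ c : {c // c ∈ C0}, (T c : ℝ)) * Real.exp (-(x / a)) := by gcongr
      _ = Real.exp (-(x / a)) * ∏ c : {c // c ∈ C0}, (T c : ℝ) := mul_comm _ _

/-- Hall: in an expander every small index set has an injective choice of neighbours. -/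
theorem hall {ι μ : Type*} [Fintype ι] [DecidableEq ι] [DecidableEq μ] [Nonempty μ]
    (nbr : ι → Fin 3 → μ) {y : ℝ}
    (hexp : ∀ S : Finset ι, (S.card : ℝ) ≤ y →
      S.card ≤ (S.biUnion fun i => Finset.univ.image (nbr i)).card)
    (J : Finset ι) (hJ : (J.card : ℝ) ≤ y) :
    ∃ f : ι → μ, (∀ i ∈ J, ∀ j ∈ J, f i = f j → i = j) ∧ ∀ i ∈ J, ∃ r, nbr i r = f i := by
  classical
  have h1 : ∀ s : Finset {i // i ∈ J},
      s.card ≤ (s.biUnion fun i => Finset.univ.image (nbr (i : ι))).card := by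
    intro s
    have h2 : (s.image (Subtype.val)).card = s.card :=
      Finset.card_image_of_injective _ Subtype.val_injective
    have h3 : ((s.image (Subtype.val)).card : ℝ) ≤ y := by
      refine le_trans ?_ hJ
      rw [Nat.cast_le]
      apply Finset.card_le_card
      intro i hi
      obtain ⟨j, _, rfl⟩ := Finset.mem_image.mp hi
      exact j.2
    have h4 := hexp _ h3
    rw [h2] at h4
    refine h4.trans (Finset.card_le_card ?_)
    intro m hm
    simp only [Finset.mem_biUnion, Finset.mem_image] at hm ⊢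
    obtain ⟨i, ⟨j, hj, rfl⟩, hm⟩ := hm
    exact ⟨j, hj, hm⟩
  obtain ⟨f, hf1, hf2⟩ := (Finset.all_card_le_biUnion_card_iff_exists_injective
    (fun i : {i // i ∈ J} => Finset.univ.image (nbr (i : ι)))).mp h1
  refine ⟨fun i => if h : i ∈ J then f ⟨i, h⟩ else Classical.arbitrary μ, ?_, ?_⟩
  · intro i hi j hj h
    simp only [hi, hj, dite_true] at h
    have := hf1 h
    simpa using this
  · intro i hi
    have := hf2 ⟨i, hi⟩
    simp only [hi, dite_true]
    simpa using this

/-- KR with the palette given. -/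
theorem kr_core (W : Finset V) (L : V → Finset ℕ) (χ : ℕ → Fin 4) (a q N : ℕ) (ha : 1 ≤ a)
    (hfrac : ∀ S ⊆ W, Frac G S a) (x : ℝ)
    (hx : ∀ v ∈ W, x ≤ (((L v).filter fun c => χ c = 0).card : ℝ))
    (hq : ∀ v ∈ W, ∀ r, q ≤ ((L v).filter fun c => χ c = r).card)
    (hbig : 4 * Real.exp 2 * (N : ℝ) ^ 2 ≤ Real.exp (x / a)) (hard : ¬ ColOn G W L) :
    ∃ X : Fin N → Finset V, (∀ i, X i ⊆ W ∧ ¬ Choos G (X i) q) ∧
      ∀ i j, i ≠ j → Disjoint (X i) (X j) := by
  classical
  set C0 : Finset ℕ := (W.biUnion L).filter (fun c => χ c = 0) with hC0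
  have hLC : ∀ v ∈ W, L v ∩ C0 = (L v).filter fun c => χ c = 0 := by
    intro v hv
    ext c
    simp only [hC0, Finset.mem_inter, Finset.mem_filter, Finset.mem_biUnion]
    constructor
    · rintro ⟨h1, _, h2⟩; exact ⟨h1, h2⟩
    · rintro ⟨h1, h2⟩; exact ⟨h1, ⟨v, hv, h1⟩, h2⟩
  obtain ⟨Ω, iF, iD, X, hΩ, hXcol, hXmiss⟩ := samples (G := G) W L C0 a ha hfrac x
    (fun v hv => by rw [hLC v hv]; exact hx v hv)
  set ε : ℝ := Real.exp (-(x / a)) with hε
  have hε1 : 4 * Real.exp 2 * (N : ℝ) ^ 2 * ε ≤ 1 := by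
    have h1 : Real.exp (x / a) * ε = 1 := by
      rw [hε, ← Real.exp_add]; simp
    have h2 : 0 ≤ ε := (Real.exp_pos _).le
    nlinarith
  have hcard : Fintype.card (Fin N × Ω) ≤ N * Fintype.card Ω := by
    rw [Fintype.card_prod, Fintype.card_fin]
  obtain ⟨nbr, hnbr⟩ := Expander492.expander (ι := Fin N × Ω) (μ := Ω) N hε1 hcard
    Fintype.card_pos
  -- the index sets
  have hI : ∀ v ∈ W, ((Finset.univ.filter fun i : Fin N × Ω => v ∉ X i.2).card : ℝ)
      ≤ ε * (N * Fintype.card Ω) := by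
    intro v hv
    have h1 : (Finset.univ.filter fun i : Fin N × Ω => v ∉ X i.2)
        = (Finset.univ : Finset (Fin N)) ×ˢ (Finset.univ.filter fun ω => v ∉ X ω) := by
      ext ⟨b, ω⟩
      simp
    rw [h1, Finset.card_product, Finset.card_univ, Fintype.card_fin]
    push_cast
    have h2 := hXmiss v hv
    have h3 : (0 : ℝ) ≤ N := Nat.cast_nonneg N
    nlinarith
  have hf : ∀ v : V, ∃ f : Fin N × Ω → Ω, v ∈ W →
      (∀ i, v ∉ X i.2 → ∀ j, v ∉ X j.2 → f i = f j → i = j) ∧
      ∀ i, v ∉ X i.2 → ∃ r, nbr i r = f i := by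
    intro v
    by_cases hv : v ∈ W
    · obtain ⟨f, h1, h2⟩ := hall nbr hnbr _ (hI v hv)
      refine ⟨f, fun _ => ⟨?_, ?_⟩⟩
      · intro i hi j hj
        exact h1 i (by simpa using hi) j (by simpa using hj)
      · intro i hi
        exact h2 i (by simpa using hi)
    · exact ⟨fun i => i.2, fun h => absurd h hv⟩
  choose f hf using hf
  let B (i : Fin N × Ω) (m : Ω) : Finset V := W.filter fun v => v ∉ X i.2 ∧ f v i = m
  have hBhard : ∀ i, ∃ r, ¬ Choos G (B i (nbr i r)) q := by
    intro i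
    by_contra hcon
    push Not at hcon
    apply hard
    obtain ⟨c0, hc0, hp0⟩ := hXcol i.2
    -- colour `B i (nbr i r)` from the palette `r+1`
    have hcr : ∀ r : Fin 3, ∃ c : V → ℕ, (∀ v ∈ B i (nbr i r),
        c v ∈ (L v).filter (fun d => χ d = r.succ)) ∧ ProperOn G (B i (nbr i r)) c := by
      intro r
      apply hcon r (fun v => (L v).filter (fun d => χ d = r.succ))
      intro v hv
      exact hq v (Finset.mem_filter.mp hv).1 _
    choose c hc hp using hcr
    have hr : ∀ v : V, ∃ r : Fin 3, v ∈ W → v ∉ X i.2 → v ∈ B i (nbr i r) := by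
      intro v
      by_cases hv : v ∈ W ∧ v ∉ X i.2
      · obtain ⟨r, hr⟩ := (hf v hv.1).2 i hv.2
        refine ⟨r, fun _ _ => ?_⟩
        exact Finset.mem_filter.mpr ⟨hv.1, hv.2, hr.symm⟩
      · exact ⟨0, fun h1 h2 => absurd ⟨h1, h2⟩ hv⟩
    choose r hr using hr
    refine ⟨fun v => if v ∈ X i.2 then c0 v else c (r v) v, ?_, ?_⟩
    · intro v hv
      by_cases hvX : v ∈ X i.2
      · simp only [hvX, if_true]
        exact (Finset.mem_inter.mp (hc0 v hvX)).1
      · simp only [hvX, if_false]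
        exact (Finset.mem_filter.mp (hc (r v) v (hr v hv hvX))).1
    · intro u hu v hv huv
      by_cases huX : u ∈ X i.2 <;> by_cases hvX : v ∈ X i.2
      · simp only [huX, hvX, if_true]
        exact hp0 u huX v hvX huv
      · simp only [huX, hvX, if_true, if_false]
        intro heq
        have h1 := (Finset.mem_filter.mp (Finset.mem_inter.mp (hc0 u huX)).2).2
        have h2 := (Finset.mem_filter.mp (hc (r v) v (hr v hv hvX))).2
        rw [heq] at h1
        rw [h1] at h2
        exact absurd h2 (Fin.succ_ne_zero _).symm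
      · simp only [huX, hvX, if_true, if_false]
        intro heq
        have h1 := (Finset.mem_filter.mp (Finset.mem_inter.mp (hc0 v hvX)).2).2
        have h2 := (Finset.mem_filter.mp (hc (r u) u (hr u hu huX))).2
        rw [heq, h1] at h2
        exact absurd h2 (Fin.succ_ne_zero _).symm
      · simp only [huX, hvX, if_false]
        intro heq
        have hu1 := hr u hu huX
        have hv1 := hr v hv hvX
        have h1 := (Finset.mem_filter.mp (hc (r u) u hu1)).2
        have h2 := (Finset.mem_filter.mp (hc (r v) v hv1)).2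
        rw [heq, h2] at h1
        have h3 : r v = r u := Fin.succ_injective _ h1
        rw [h3] at hv1 heq
        exact hp (r u) u hu1 v hv1 huv heq
  choose r hr using hBhard
  have hΩ' : Nonempty Ω := hΩ
  obtain ⟨m, hm⟩ := Fintype.exists_le_card_fiber_of_mul_le_card (n := N)
    (fun i : Fin N × Ω => nbr i (r i)) (by
      rw [Fintype.card_prod, Fintype.card_fin, mul_comm])
  obtain ⟨F, hF1, hF2⟩ := Finset.exists_subset_card_eq hm
  let e := F.equivFinOfCardEq hF2
  refine ⟨fun l => B (e.symm l) m, ?_, ?_⟩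
  · intro l
    refine ⟨Finset.filter_subset _ _, ?_⟩
    have h1 := hF1 (e.symm l).2
    have h2 : nbr (e.symm l) (r (e.symm l)) = m := by simpa using h1
    have h3 := hr (e.symm l)
    rw [h2] at h3
    exact h3
  · intro l l' hll
    rw [Finset.disjoint_left]
    intro v hv hv'
    obtain ⟨hvW, hvX, hvf⟩ := Finset.mem_filter.mp hv
    obtain ⟨_, hvX', hvf'⟩ := Finset.mem_filter.mp hv'
    have := (hf v hvW).1 _ hvX _ hvX' (hvf.trans hvf'.symm)
    apply hll
    have h5 : e.symm l = e.symm l' := Subtype.ext this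
    exact e.symm.injective h5

/-- LEMMA KR (8.2): `N` disjoint sets hard for lists of size `k/8`. -/
theorem kr_list (G : SimpleGraph V) (W : Finset V) (a k N : ℕ) (ha : 1 ≤ a)
    (hfrac : ∀ S ⊆ W, Frac G S a)
    (hsize : (4 * W.card : ℝ) < Real.exp (k / 32))
    (hbig : 4 * Real.exp 2 * (N : ℝ) ^ 2 ≤ Real.exp (k / (8 * a)))
    (hard : ¬ Choos G W k) :
    ∃ X : Fin N → Finset V, (∀ i, X i ⊆ W ∧ ¬ Choos G (X i) (k / 8)) ∧
      ∀ i j, i ≠ j → Disjoint (X i) (X j) := by
  unfold Choos at hard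
  push Not at hard
  obtain ⟨L, hL, hcol⟩ := hard
  obtain ⟨χ, hχ⟩ := Pal365.palette W L 4 k (by norm_num) hL (by
    push_cast
    have : (8 * 4 : ℝ) = 32 := by norm_num
    rw [this]
    exact hsize)
  refine kr_core W L χ a (k / 8) N ha hfrac ((k : ℝ) / 8) ?_ ?_ ?_ hcol
  · intro v hv
    have h1 := hχ v hv 0
    have h2 : (k : ℝ) ≤ 2 * 4 * (((L v).filter fun c => χ c = 0).card : ℝ) := by exact_mod_cast h1
    linarith
  · intro v hv r
    have h1 := hχ v hv r
    omega
  · have h1 : (k : ℝ) / 8 / a = k / (8 * a) := by rw [div_div]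
    rw [h1]
    exact hbig

end Crest.Agent.R042.KR492
end

-- ▼ part R042/RSBip_803
section

/-! Row 42, sec 01 (Reed-Seymour): a connected graph in which all non-cut vertices are pairwise at
even distance is bipartite. -/

set_option autoImplicit false
set_option linter.unusedSectionVars false

namespace Crest.Agent.R042.RS803

open SimpleGraph

variable {U : Type*} {H : SimpleGraph U}

/-- every walk from `x` to `z` passes through `u`. -/
def Thr (H : SimpleGraph U) (x u z : U) : Prop := ∀ p : H.Walk x z, u ∈ p.support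

lemma Thr.dist (hH : H.Connected) {x u z : U} (h : Thr H x u z) :
    H.dist x z = H.dist x u + H.dist u z := by
  classical
  refine le_antisymm hH.dist_triangle ?_
  obtain ⟨p, hp⟩ := hH.exists_walk_length_eq_dist x z
  have hu := h p
  have h1 := p.take_spec hu
  have h2 : (p.takeUntil u hu).length + (p.dropUntil u hu).length = p.length := by
    rw [← Walk.length_append, h1]
  have h3 := SimpleGraph.dist_le (p.takeUntil u hu)
  have h4 := SimpleGraph.dist_le (p.dropUntil u hu)
  omega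

/-- vertices on a geodesic. -/
lemma geod_dist (hH : H.Connected) {x z : U} (p : H.Walk x z) (hp : p.length = H.dist x z)
    {u : U} (hu : u ∈ p.support) : H.dist x z = H.dist x u + H.dist u z := by
  classical
  refine le_antisymm hH.dist_triangle ?_
  have h1 := p.take_spec hu
  have h2 : (p.takeUntil u hu).length + (p.dropUntil u hu).length = p.length := by
    rw [← Walk.length_append, h1]
  have h3 := SimpleGraph.dist_le (p.takeUntil u hu)
  have h4 := SimpleGraph.dist_le (p.dropUntil u hu)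
  omega

/-- two vertices on a geodesic at the same distance from the start are equal. -/
lemma geod_inj (hH : H.Connected) {x z : U} (p : H.Walk x z) (hp : p.length = H.dist x z)
    {u v : U} (hu : u ∈ p.support) (hv : v ∈ p.support) (huv : H.dist x u = H.dist x v) :
    u = v := by
  classical
  -- v lies before or after u
  have h1 := p.take_spec hu
  have hlen : (p.takeUntil u hu).length + (p.dropUntil u hu).length = p.length := by
    rw [← Walk.length_append, h1]
  have h3 := SimpleGraph.dist_le (p.takeUntil u hu)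
  have h4 := SimpleGraph.dist_le (p.dropUntil u hu)
  have h5 : H.dist x z ≤ H.dist x u + H.dist u z := hH.dist_triangle
  have e1 : (p.takeUntil u hu).length = H.dist x u := by omega
  have e2 : (p.dropUntil u hu).length = H.dist u z := by omega
  rw [← h1, Walk.mem_support_append_iff] at hv
  rcases hv with hv | hv
  · have h6 := geod_dist hH _ e1 hv
    have h7 : H.dist v u = 0 := by omega
    exact ((hH.dist_eq_zero_iff).1 h7).symm
  · have h6 := geod_dist hH _ e2 hv
    have h8 : H.dist x z ≤ H.dist x v + H.dist v z := hH.dist_triangle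
    have h7 : H.dist u v = 0 := by omega
    exact (hH.dist_eq_zero_iff).1 h7

/-- the farthest vertex among those beyond `u` is a non-cut vertex. -/
lemma exists_beyond [Finite U] (hH : H.Connected) (x u : U) :
    ∃ c, Thr H x u c ∧ ∀ z, z ≠ c → ∃ p : H.Walk x z, c ∉ p.support := by
  classical
  have hfin : {z | Thr H x u z}.Finite := Set.toFinite _
  have hne : {z | Thr H x u z}.Nonempty := ⟨u, fun p => Walk.end_mem_support p⟩
  obtain ⟨c, hc, hmax⟩ := hfin.exists_maximalFor (fun z => H.dist x z) _ hne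
  refine ⟨c, hc, ?_⟩
  intro z hz
  by_cases hzu : Thr H x u z
  · obtain ⟨p, hp⟩ := hH.exists_walk_length_eq_dist x z
    refine ⟨p, fun hcp => ?_⟩
    have h1 := geod_dist hH p hp hcp
    have h2 : H.dist x z ≤ H.dist x c := by
      by_contra hcon
      push Not at hcon
      exact absurd (hmax hzu (le_of_lt hcon)) (not_le.2 hcon)
    have h3 : H.dist c z = 0 := by omega
    exact hz ((hH.dist_eq_zero_iff).1 h3).symm
  · unfold Thr at hzu
    push Not at hzu
    obtain ⟨p, hp⟩ := hzu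
    refine ⟨p, fun hcp => hp ?_⟩
    have := hc (p.takeUntil c hcp)
    exact Walk.support_takeUntil_subset_support _ _ this

/-- if all non-cut vertices are in `T` and all distances in `T` are even then `H` is bipartite. -/
theorem bip [Finite U] [Nontrivial U] (hH : H.Connected) (T : Set U)
    (hT : ∀ r c : U, r ≠ c → (∀ z, z ≠ c → ∃ p : H.Walk r z, c ∉ p.support) → c ∈ T)
    (heven : ∀ c ∈ T, ∀ c' ∈ T, Even (H.dist c c')) :
    ∃ r, ∀ u v, H.Adj u v → (Even (H.dist r u) ↔ ¬ Even (H.dist r v)) := by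
  classical
  obtain ⟨x0⟩ := hH.nonempty
  -- a first non-cut vertex
  obtain ⟨r, hr1, hr2⟩ := exists_beyond hH x0 (Classical.choose (exists_ne x0))
  have hx0 : Classical.choose (exists_ne x0) ≠ x0 := Classical.choose_spec (exists_ne x0)
  have hrx0 : x0 ≠ r := by
    rintro rfl
    have := hr1 Walk.nil
    simp only [Walk.support_nil, List.mem_cons, List.not_mem_nil, or_false] at this
    exact hx0 this
  have hrT : r ∈ T := hT x0 r hrx0 hr2
  refine ⟨r, ?_⟩
  -- it suffices that adjacent vertices are not at the same distance from r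
  have key : ∀ u v, H.Adj u v → H.dist r u ≠ H.dist r v := by
    intro u v huv hd
    have hur : u ≠ r := by
      rintro rfl
      rw [SimpleGraph.dist_self] at hd
      exact huv.ne ((hH.dist_eq_zero_iff).1 hd.symm)
    have hvr : v ≠ r := by
      rintro rfl
      rw [SimpleGraph.dist_self] at hd
      exact huv.ne ((hH.dist_eq_zero_iff).1 hd).symm
    obtain ⟨cu, hcu1, hcu2⟩ := exists_beyond hH r u
    obtain ⟨cv, hcv1, hcv2⟩ := exists_beyond hH r v
    have hrcu : r ≠ cu := by
      rintro rfl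
      have := hcu1 Walk.nil
      simp only [Walk.support_nil, List.mem_cons, List.not_mem_nil, or_false] at this
      exact hur this
    have hrcv : r ≠ cv := by
      rintro rfl
      have := hcv1 Walk.nil
      simp only [Walk.support_nil, List.mem_cons, List.not_mem_nil, or_false] at this
      exact hvr this
    have hcuT := hT r cu hrcu hcu2
    have hcvT := hT r cv hrcv hcv2
    -- a walk from r to cv avoiding u
    have avu : ∃ p : H.Walk r cv, u ∉ p.support := by
      obtain ⟨p, hp⟩ := hH.exists_walk_length_eq_dist r cv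
      refine ⟨p, fun h => ?_⟩
      exact huv.ne (geod_inj hH p hp h (hcv1 p) hd)
    -- a walk from r to u avoiding v
    have avv : ∃ p : H.Walk r u, v ∉ p.support := by
      obtain ⟨p, hp⟩ := hH.exists_walk_length_eq_dist r u
      refine ⟨p, fun h => ?_⟩
      exact huv.ne (geod_inj hH p hp (Walk.end_mem_support p) h hd)
    have t1 : Thr H cv u cu := by
      intro p
      by_contra hup
      obtain ⟨q, hq⟩ := avu
      have := hcu1 (q.append p)
      rw [Walk.mem_support_append_iff] at this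
      tauto
    have t2 : Thr H u v cv := by
      intro p
      by_contra hvp
      obtain ⟨q, hq⟩ := avv
      have := hcv1 (q.append p)
      rw [Walk.mem_support_append_iff] at this
      tauto
    have e1 := hcu1.dist hH
    have e2 := hcv1.dist hH
    have e3 := t1.dist hH
    have e4 := t2.dist hH
    have e5 : H.dist u v = 1 := SimpleGraph.dist_eq_one_iff_adj.2 huv
    have c1 := H.dist_comm (u := cv) (v := u)
    have d1 := heven r hrT cu hcuT
    have d2 := heven r hrT cv hcvT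
    have d3 := heven cv hcvT cu hcuT
    rw [Nat.even_iff] at d1 d2 d3
    omega
  intro u v huv
  have h1 := key u v huv
  have h2 : H.dist r u ≤ H.dist r v + H.dist v u := hH.dist_triangle
  have h3 : H.dist r v ≤ H.dist r u + H.dist u v := hH.dist_triangle
  have e5 : H.dist u v = 1 := SimpleGraph.dist_eq_one_iff_adj.2 huv
  have e6 : H.dist v u = 1 := SimpleGraph.dist_eq_one_iff_adj.2 huv.symm
  rw [Nat.even_iff, Nat.even_iff]
  omega

end Crest.Agent.R042.RS803
end

-- ▼ part R042/RS_803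
section

/-! Row 42, sec 01: Reed-Seymour weighted stable set. -/

set_option autoImplicit false
set_option linter.unusedSectionVars false

namespace Crest.Agent.R042.RS803

open Finset Crest.Agent.R042.Conn353
open Crest.CombinatoricsR.GraphMinor

variable {V : Type*} [DecidableEq V] {G : SimpleGraph V} {w : V → ℝ}

/-- stable set. -/
def Stab (G : SimpleGraph V) (S : Finset V) : Prop := ∀ u ∈ S, ∀ v ∈ S, ¬ G.Adj u v

/-- there is an edge between `X` and `Y`. -/
def Touch (G : SimpleGraph V) (X Y : Finset V) : Prop := ∃ x ∈ X, ∃ y ∈ Y, G.Adj x y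

/-- nice set. -/
def Nice (G : SimpleGraph V) (w : V → ℝ) (X : Finset V) : Prop :=
  Conn G X ∧ ∃ S ⊆ X, Stab G S ∧ ∑ v ∈ X, w v ≤ 2 * ∑ v ∈ S, w v

lemma Touch.symm {X Y : Finset V} (h : Touch G X Y) : Touch G Y X := by
  obtain ⟨x, hx, y, hy, hxy⟩ := h
  exact ⟨y, hy, x, hx, hxy.symm⟩

lemma Touch.mono {X Y X' Y' : Finset V} (hX : X ⊆ X') (hY : Y ⊆ Y') (h : Touch G X Y) :
    Touch G X' Y' := by
  obtain ⟨x, hx, y, hy, hxy⟩ := h
  exact ⟨x, hX hx, y, hY hy, hxy⟩

lemma Conn.union_touch {X Y : Finset V} (hX : Conn G X) (hY : Conn G Y) (h : Touch G X Y) :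
    Conn G (X ∪ Y) := by
  obtain ⟨x, hx, y, hy, hxy⟩ := h
  exact hX.union_adj hY hx hy hxy

/-- splitting a set in its two parity classes. -/
lemma half (hw : ∀ v, 0 ≤ w v) (Q : Finset V) (d : V → ℕ)
    (hd : ∀ x ∈ Q, ∀ y ∈ Q, G.Adj x y → (Even (d x) ↔ ¬ Even (d y))) :
    Stab G (Q.filter fun x => Even (d x)) ∧ Stab G (Q.filter fun x => ¬ Even (d x)) ∧
    (∑ v ∈ Q, w v ≤ 2 * ∑ v ∈ Q.filter (fun x => Even (d x)), w v ∨
     ∑ v ∈ Q, w v ≤ 2 * ∑ v ∈ Q.filter (fun x => ¬ Even (d x)), w v) := by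
  refine ⟨?_, ?_, ?_⟩
  · intro u hu v hv huv
    rw [mem_filter] at hu hv
    have := hd u hu.1 v hv.1 huv
    tauto
  · intro u hu v hv huv
    rw [mem_filter] at hu hv
    have := hd u hu.1 v hv.1 huv
    tauto
  · have h := Finset.sum_filter_add_sum_filter_not Q (fun x => Even (d x)) w
    rcases le_total (∑ v ∈ Q.filter (fun x => Even (d x)), w v)
      (∑ v ∈ Q.filter (fun x => ¬ Even (d x)), w v) with h1 | h1
    · right; linarith
    · left; linarith

/-- enlarging a nice set. -/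
lemma ext_nice {Y Q E : Finset V} (hY : Nice G w Y) (hQ : Conn G Q) (hYQ : Touch G Y Q)
    (hdisj : Disjoint Y Q) (hE : E ⊆ Q) (hEs : Stab G E) (hEw : ∑ v ∈ Q, w v ≤ 2 * ∑ v ∈ E, w v)
    (hYE : ¬ Touch G Y E) : Nice G w (Y ∪ Q) := by
  obtain ⟨hYc, S, hSY, hSs, hSw⟩ := hY
  refine ⟨Conn.union_touch hYc hQ hYQ, S ∪ E, union_subset_union hSY hE, ?_, ?_⟩
  · intro u hu v hv huv
    rcases mem_union.1 hu with hu | hu <;> rcases mem_union.1 hv with hv | hv
    · exact hSs u hu v hv huv
    · exact hYE ⟨u, hSY hu, v, hv, huv⟩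
    · exact hYE ⟨v, hSY hv, u, hu, huv.symm⟩
    · exact hEs u hu v hv huv
  · rw [sum_union hdisj, sum_union (hdisj.mono hSY hE)]
    linarith

/-- a walk in an induced graph avoiding `c` gives reachability. -/
lemma reach_of_walk {X : Finset V} {c : V} :
    ∀ {a b : (X : Set V)} (p : (G.induce (X : Set V)).Walk a b),
      (∀ z ∈ p.support, (z : V) ≠ c) → Reach G (X.erase c) a.1 b.1 := by
  intro a b p
  induction p with
  | nil => intro _; exact Reach.refl _
  | cons h p ih =>
    rename_i x y z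
    intro hc
    have h1 : (y : V) ≠ c := hc y (by simp)
    refine (Reach.single (by simpa using h) (mem_erase.2 ⟨h1, y.2⟩)).trans
      (ih fun z hz => hc z (by simp [hz]))

/-- STEP: a nice subset of `C` touching all the members of `J`. -/
theorem step (hw : ∀ v, 0 ≤ w v) (C : Finset V) (hC : Conn G C) (J : Set (Finset V))
    (hnice : ∀ Y ∈ J, Nice G w Y) (hdisj : ∀ Y ∈ J, Disjoint Y C) (htouch : ∀ Y ∈ J, Touch G Y C)
    (hmax : ∀ Y ∈ J, ∀ Q ⊆ C, Q.Nonempty → ¬ Nice G w (Y ∪ Q)) :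
    ∃ X ⊆ C, Nice G w X ∧ ∀ Y ∈ J, Touch G Y X := by
  classical
  -- a minimal connected subset touching every member of J
  have hne : (C.powerset.filter fun X => Conn G X ∧ ∀ Y ∈ J, Touch G Y X).Nonempty :=
    ⟨C, by rw [mem_filter, mem_powerset]; exact ⟨Subset.refl _, hC, htouch⟩⟩
  obtain ⟨X, hX, hmin⟩ := Finset.exists_min_image _ (fun X => X.card) hne
  rw [mem_filter, mem_powerset] at hX
  obtain ⟨hXC, hXc, hXt⟩ := hX
  refine ⟨X, hXC, ?_, hXt⟩
  obtain ⟨x0, hx0⟩ := hXc.nonempty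
  by_cases hcard : X = {x0}
  · refine ⟨hXc, X, Subset.refl _, ?_, ?_⟩
    · intro u hu v hv huv
      rw [hcard, mem_singleton] at hu hv
      rw [hu, hv] at huv
      exact huv.ne rfl
    · have : 0 ≤ ∑ v ∈ X, w v := sum_nonneg fun v _ => hw v
      linarith
  · -- at least two vertices
    have hconn : (G.induce (X : Set V)).Connected := hXc
    have : Finite (X : Set V) := Set.toFinite _
    have hnt : Nontrivial (X : Set V) := by
      have : ∃ y ∈ X, y ≠ x0 := by
        by_contra hcon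
        push Not at hcon
        apply hcard
        ext z
        rw [mem_singleton]
        exact ⟨fun hz => hcon z hz, fun hz => by rw [hz]; exact hx0⟩
      obtain ⟨y, hy, hyx⟩ := this
      exact ⟨⟨⟨y, hy⟩, ⟨x0, hx0⟩, fun h => hyx (congrArg Subtype.val h)⟩⟩
    set H := G.induce (X : Set V) with hH
    let T : Set (X : Set V) := {c | ∃ Y ∈ J, ∀ x ∈ X, (∃ y ∈ Y, G.Adj y x) → x = c.1}
    have hT : ∀ r c : (X : Set V), r ≠ c → (∀ z, z ≠ c → ∃ p : H.Walk r z, c ∉ p.support) →
        c ∈ T := by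
      intro r c hrc hav
      by_contra hcT
      have hconn' : Conn G (X.erase c.1) := by
        have hrmem : r.1 ∈ X.erase c.1 :=
          mem_erase.2 ⟨fun h => hrc (Subtype.ext h), r.2⟩
        refine conn_of_reach hrmem ?_
        intro z hz
        rw [mem_erase] at hz
        obtain ⟨p, hp⟩ := hav ⟨z, hz.2⟩ (fun h => hz.1 (congrArg Subtype.val h))
        refine reach_of_walk p ?_
        intro y hy hyc
        apply hp
        have : y = c := Subtype.ext hyc
        rwa [this] at hy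
      have ht : ∀ Y ∈ J, Touch G Y (X.erase c.1) := by
        intro Y hY
        by_contra hcon
        apply hcT
        refine ⟨Y, hY, ?_⟩
        rintro x hx ⟨y, hy, hyx⟩
        by_contra hxc
        exact hcon ⟨y, hy, x, mem_erase.2 ⟨hxc, hx⟩, hyx⟩
      have := hmin (X.erase c.1) (by
        rw [mem_filter, mem_powerset]
        exact ⟨(erase_subset _ _).trans hXC, hconn', ht⟩)
      rw [card_erase_of_mem c.2] at this
      have hpos : 0 < X.card := card_pos.2 ⟨c.1, c.2⟩
      omega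
    have heven : ∀ c ∈ T, ∀ c' ∈ T, Even (H.dist c c') := by
      intro c hc c' hc'
      by_contra hodd
      obtain ⟨Y, hY, hYc⟩ := hc
      obtain ⟨Y', hY', hYc'⟩ := hc'
      obtain ⟨p, hp⟩ := hconn.exists_walk_length_eq_dist c c'
      let d : V → ℕ := fun x => if hx : x ∈ X then H.dist c ⟨x, hx⟩ else 0
      have hdX : ∀ x (hx : x ∈ X), d x = H.dist c ⟨x, hx⟩ := by
        intro x hx
        simp only [d]
        rw [dif_pos hx]
      let Q : Finset V := (p.support.map Subtype.val).toFinset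
      have hQmem : ∀ x, x ∈ Q ↔ ∃ hx : x ∈ X, (⟨x, hx⟩ : (X : Set V)) ∈ p.support := by
        intro x
        simp only [Q, List.mem_toFinset, List.mem_map]
        constructor
        · rintro ⟨y, hy, rfl⟩
          exact ⟨y.2, hy⟩
        · rintro ⟨hx, h⟩
          exact ⟨_, h, rfl⟩
      have hQX : Q ⊆ X := fun x hx => ((hQmem x).1 hx).1
      have hQC : Q ⊆ C := hQX.trans hXC
      have hcQ : c.1 ∈ Q := (hQmem _).2 ⟨c.2, p.start_mem_support⟩
      have hcQ' : c'.1 ∈ Q := (hQmem _).2 ⟨c'.2, p.end_mem_support⟩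
      have hQconn : Conn G Q := by
        have h1 : ∀ z ∈ Q, Reach G Q c.1 z := by
          intro z hz
          obtain ⟨hzX, hz'⟩ := (hQmem z).1 hz
          -- walk from c to z inside the support
          have h2 : ∀ {a b : (X : Set V)} (q : H.Walk a b), (∀ y ∈ q.support, (y : V) ∈ Q) →
              Reach G Q a.1 b.1 := by
            intro a b q
            induction q with
            | nil => intro _; exact Reach.refl _
            | cons h q ih =>
              rename_i x y z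
              intro hc
              exact (Reach.single (by simpa [hH] using h) (hc y (by simp))).trans
                (ih fun z hz => hc z (by simp [hz]))
          refine h2 (p.takeUntil ⟨z, hzX⟩ hz') ?_
          intro y hy
          exact (hQmem _).2 ⟨y.2, SimpleGraph.Walk.support_takeUntil_subset_support _ _ hy⟩
        exact conn_of_reach hcQ h1
      have hpar : ∀ x ∈ Q, ∀ y ∈ Q, G.Adj x y → (Even (d x) ↔ ¬ Even (d y)) := by
        intro x hx y hy hxy
        obtain ⟨hxX, hx'⟩ := (hQmem x).1 hx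
        obtain ⟨hyX, hy'⟩ := (hQmem y).1 hy
        rw [hdX x hxX, hdX y hyX]
        have hadj : H.Adj ⟨x, hxX⟩ ⟨y, hyX⟩ := by simpa [hH] using hxy
        have hne : H.dist c ⟨x, hxX⟩ ≠ H.dist c ⟨y, hyX⟩ := by
          intro h
          have := geod_inj hconn p hp hx' hy' h
          exact hxy.ne (congrArg Subtype.val this)
        have h2 : H.dist c ⟨x, hxX⟩ ≤ H.dist c ⟨y, hyX⟩ + H.dist ⟨y, hyX⟩ ⟨x, hxX⟩ :=
          hconn.dist_triangle
        have h3 : H.dist c ⟨y, hyX⟩ ≤ H.dist c ⟨x, hxX⟩ + H.dist ⟨x, hxX⟩ ⟨y, hyX⟩ :=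
          hconn.dist_triangle
        have e5 : H.dist ⟨x, hxX⟩ ⟨y, hyX⟩ = 1 := SimpleGraph.dist_eq_one_iff_adj.2 hadj
        have e6 : H.dist ⟨y, hyX⟩ ⟨x, hxX⟩ = 1 := SimpleGraph.dist_eq_one_iff_adj.2 hadj.symm
        rw [Nat.even_iff, Nat.even_iff]
        omega
      obtain ⟨hs0, hs1, h2⟩ := half hw Q d hpar
      -- the part Y touches Q exactly in c
      have touchQ : ∀ (Y : Finset V) (c : (X : Set V)), Y ∈ J → c.1 ∈ Q →
          (∀ x ∈ X, (∃ y ∈ Y, G.Adj y x) → x = c.1) → Touch G Y Q := by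
        intro Y c hY hcQ hYc
        obtain ⟨y, hy, x, hx, hyx⟩ := hXt Y hY
        have := hYc x hx ⟨y, hy, hyx⟩
        exact ⟨y, hy, x, by rw [this]; exact hcQ, hyx⟩
      rcases h2 with h2 | h2
      · -- E = even class, misses c'
        refine hmax Y' hY' Q hQC ⟨_, hcQ⟩ (ext_nice (hnice Y' hY') hQconn
          (touchQ Y' c' hY' hcQ' hYc') ((hdisj Y' hY').mono_right hQC) (filter_subset _ _) hs0 h2 ?_)
        rintro ⟨y, hy, x, hx, hyx⟩
        rw [mem_filter] at hx
        have hxX := hQX hx.1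
        have := hYc' x hxX ⟨y, hy, hyx⟩
        subst this
        apply hodd
        have h3 := hx.2
        rw [hdX _ hxX] at h3
        exact h3
      · refine hmax Y hY Q hQC ⟨_, hcQ⟩ (ext_nice (hnice Y hY) hQconn
          (touchQ Y c hY hcQ hYc) ((hdisj Y hY).mono_right hQC) (filter_subset _ _) hs1 h2 ?_)
        rintro ⟨y, hy, x, hx, hyx⟩
        rw [mem_filter] at hx
        have hxX := hQX hx.1
        have := hYc x hxX ⟨y, hy, hyx⟩
        subst this
        apply hx.2
        rw [hdX _ hxX]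
        have : (⟨c.1, hxX⟩ : (X : Set V)) = c := rfl
        rw [this, SimpleGraph.dist_self]
        exact ⟨0, rfl⟩
    obtain ⟨r, hr⟩ := bip hconn T hT heven
    let d : V → ℕ := fun x => if hx : x ∈ X then H.dist r ⟨x, hx⟩ else 0
    have hdX : ∀ x (hx : x ∈ X), d x = H.dist r ⟨x, hx⟩ := by
      intro x hx
      simp only [d]
      rw [dif_pos hx]
    obtain ⟨hs0, hs1, h2⟩ := half (G := G) hw X d (by
      intro x hx y hy hxy
      rw [hdX x hx, hdX y hy]
      exact hr _ _ (by simpa [hH] using hxy))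
    rcases h2 with h2 | h2
    · exact ⟨hXc, _, filter_subset _ _, hs0, h2⟩
    · exact ⟨hXc, _, filter_subset _ _, hs1, h2⟩

end Crest.Agent.R042.RS803
end

-- ▼ part R042/RSMain_803
section

/-! Row 42, sec 01: Reed-Seymour, the main induction. -/

set_option autoImplicit false
set_option linter.unusedSectionVars false

namespace Crest.Agent.R042.RS803

open Finset Crest.Agent.R042.Conn353
open Crest.CombinatoricsR.GraphMinor

variable {V : Type*} [DecidableEq V] {G : SimpleGraph V} {w : V → ℝ}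

/-- the component of `v` in `G[D]`. -/
lemma exists_comp (D : Finset V) {v : V} (hv : v ∈ D) :
    ∃ C ⊆ D, v ∈ C ∧ Conn G C ∧ ∀ C' ⊆ D, Conn G C' → (∃ x ∈ C', x ∈ C) → C' ⊆ C := by
  classical
  let C := D.filter fun x => Reach G D v x
  have hmem : ∀ x, x ∈ C ↔ x ∈ D ∧ Reach G D v x := fun x => by simp [C]
  have hvC : v ∈ C := (hmem v).2 ⟨hv, Reach.refl _⟩
  refine ⟨C, filter_subset _ _, hvC, ?_, ?_⟩
  · refine conn_of_reach hvC ?_
    intro x hx
    have h := ((hmem x).1 hx).2
    -- all intermediate vertices are in C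
    have : ∀ {a b : V}, Reach G D a b → Reach G D v a → Reach G C a b := by
      intro a b hab
      induction hab with
      | refl => intro _; exact Reach.refl _
      | tail h1 h2 ih =>
        intro hva
        refine (ih hva).step h2.1 ((hmem _).2 ⟨h2.2, ?_⟩)
        exact (hva.trans h1).step h2.1 h2.2
    exact this h (Reach.refl _)
  · rintro C' hC'D hC' ⟨x, hx, hxC⟩
    intro y hy
    refine (hmem y).2 ⟨hC'D hy, ((hmem x).1 hxC).2.trans ((hC'.reach hx hy).mono hC'D)⟩

/-- a maximal nice subset of `C` above a given one. -/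
lemma exists_max_nice {X0 C : Finset V} (hX0 : X0 ⊆ C) (hn : Nice G w X0) :
    ∃ X, X0 ⊆ X ∧ X ⊆ C ∧ Nice G w X ∧ ∀ Y ⊆ C, Nice G w Y → X ⊆ Y → Y = X := by
  classical
  have hne : (C.powerset.filter fun X => Nice G w X ∧ X0 ⊆ X).Nonempty :=
    ⟨X0, by rw [mem_filter, mem_powerset]; exact ⟨hX0, hn, Subset.refl _⟩⟩
  obtain ⟨X, hX, hmax⟩ := Finset.exists_max_image _ (fun X => X.card) hne
  rw [mem_filter, mem_powerset] at hX
  refine ⟨X, hX.2.2, hX.1, hX.2.1, ?_⟩
  intro Y hYC hY hXY
  have := hmax Y (by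
    rw [mem_filter, mem_powerset]
    exact ⟨hYC, hY, hX.2.2.trans hXY⟩)
  exact (Finset.eq_of_subset_of_card_le hXY this).symm

/-- few pairwise touching connected sets. -/
lemma card_lt_of_touch {W : Finset V} {h : ℕ}
    (hmin : ∀ B : Fin (h + 1) → Finset V, (∀ i, B i ⊆ W) → ¬ IsCliqueMinorModel G B)
    (C : Finset V) (hC : Conn G C) (hCW : C ⊆ W) (J : Finset (Finset V))
    (hJ : ∀ Y ∈ J, Conn G Y ∧ Y ⊆ W ∧ Disjoint Y C ∧ Touch G Y C)
    (hJd : ∀ Y ∈ J, ∀ Z ∈ J, Y ≠ Z → Disjoint Y Z) (hJt : ∀ Y ∈ J, ∀ Z ∈ J, Y ≠ Z → Touch G Y Z) :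
    J.card < h := by
  by_contra hcon
  push Not at hcon
  -- an injection Fin h → J
  obtain ⟨J', hJ'J, hJ'⟩ := Finset.exists_subset_card_eq hcon
  let e := (Finset.equivFinOfCardEq hJ').symm
  let f : Fin h → Finset V := fun i => (e i).1
  have hfJ : ∀ i, f i ∈ J := fun i => hJ'J (e i).2
  have hfi : ∀ i j, i ≠ j → f i ≠ f j := by
    intro i j hij h
    exact hij (e.injective (Subtype.ext h))
  refine hmin (Fin.cons C f) ?_ ⟨?_, ?_, ?_, ?_⟩
  · intro i
    refine Fin.cases ?_ (fun i => ?_) i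
    · simpa using hCW
    · simpa using (hJ _ (hfJ i)).2.1
  · intro i
    refine Fin.cases ?_ (fun i => ?_) i
    · simpa using hC.nonempty
    · simpa using (hJ _ (hfJ i)).1.nonempty
  · intro i j
    refine Fin.cases ?_ (fun i => ?_) i <;> refine Fin.cases ?_ (fun j => ?_) j
    · intro h; exact absurd rfl h
    · intro _
      simpa using (hJ _ (hfJ j)).2.2.1.symm
    · intro _
      simpa using (hJ _ (hfJ i)).2.2.1
    · intro hij
      have : i ≠ j := fun h => hij (by rw [h])
      simpa using hJd _ (hfJ i) _ (hfJ j) (hfi i j this)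
  · intro i
    refine Fin.cases ?_ (fun i => ?_) i
    · exact hC
    · exact (hJ _ (hfJ i)).1
  · intro i j
    refine Fin.cases ?_ (fun i => ?_) i <;> refine Fin.cases ?_ (fun j => ?_) j
    · intro h; exact absurd rfl h
    · intro _
      exact (hJ _ (hfJ j)).2.2.2.symm
    · intro _
      exact (hJ _ (hfJ i)).2.2.2
    · intro hij
      have : i ≠ j := fun h => hij (by rw [h])
      exact hJt _ (hfJ i) _ (hfJ j) (hfi i j this)

/-- the main induction. -/
theorem main {W : Finset V} {h : ℕ}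
    (hmin : ∀ B : Fin (h + 1) → Finset V, (∀ i, B i ⊆ W) → ¬ IsCliqueMinorModel G B)
    (hw : ∀ v, 0 ≤ w v) :
    ∀ (n : ℕ) (D : Finset V) (P : Finset (Finset V × Fin h)), D.card ≤ n → D ⊆ W →
      (∀ X ∈ P, Nice G w X.1 ∧ Disjoint X.1 D ∧ X.1 ⊆ W) →
      (∀ C ⊆ D, Conn G C → ∀ X ∈ P, ∀ Y ∈ P, Touch G X.1 C → Touch G Y.1 C → X.1 ≠ Y.1 →
        Touch G X.1 Y.1) →
      (∀ X ∈ P, ∀ Y ∈ P, X ≠ Y → Disjoint X.1 Y.1) →
      (∀ X ∈ P, ∀ Q ⊆ D, Q.Nonempty → ¬ Nice G w (X.1 ∪ Q)) →
      ∃ T : Fin h → Finset V, (∀ q, T q ⊆ D ∧ Stab G (T q)) ∧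
        (∀ q, ∀ X ∈ P, X.2 = q → ¬ Touch G X.1 (T q)) ∧
        ∑ v ∈ D, w v ≤ 2 * ∑ q, ∑ v ∈ T q, w v := by
  classical
  intro n
  induction n with
  | zero =>
    intro D P hD _ _ _ _ _
    have hD0 : D = ∅ := card_eq_zero.1 (Nat.le_zero.1 hD)
    refine ⟨fun _ => ∅, fun q => ⟨empty_subset _, fun u hu => absurd hu (notMem_empty _)⟩, ?_, ?_⟩
    · rintro q X _ _ ⟨x, _, y, hy, _⟩
      exact absurd hy (notMem_empty _)
    · rw [hD0]; simp
  | succ n ih =>
    intro D P hD hDW hP1 hP2 hP3 hP4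
    rcases D.eq_empty_or_nonempty with hD0 | ⟨v0, hv0⟩
    · refine ⟨fun _ => ∅, fun q => ⟨empty_subset _, fun u hu => absurd hu (notMem_empty _)⟩,
        ?_, ?_⟩
      · rintro q X _ _ ⟨x, _, y, hy, _⟩
        exact absurd hy (notMem_empty _)
      · rw [hD0]; simp
    · obtain ⟨C, hCD, hv0C, hCc, hCmax⟩ := exists_comp (G := G) D hv0
      set J := P.filter fun X => Touch G X.1 C with hJ
      have hJmem : ∀ X, X ∈ J ↔ X ∈ P ∧ Touch G X.1 C := fun X => by rw [hJ, mem_filter]
      set J1 := J.image Prod.fst with hJ1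
      have hJ1mem : ∀ Y ∈ J1, ∃ X ∈ P, Touch G X.1 C ∧ X.1 = Y := by
        intro Y hY
        rw [hJ1, mem_image] at hY
        obtain ⟨X, hX, rfl⟩ := hY
        exact ⟨X, ((hJmem X).1 hX).1, ((hJmem X).1 hX).2, rfl⟩
      have hcard1 : J1.card = J.card := by
        rw [hJ1]
        refine card_image_of_injOn ?_
        intro X hX Y hY hXY
        by_contra hne
        have hXP := ((hJmem X).1 (by simpa using hX)).1
        have hYP := ((hJmem Y).1 (by simpa using hY)).1
        have hd := hP3 X hXP Y hYP hne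
        have hXY' : X.1 = Y.1 := hXY
        rw [hXY', disjoint_self, bot_eq_empty] at hd
        have := (hP1 Y hYP).1.1.nonempty
        rw [hd] at this
        exact absurd this not_nonempty_empty
      have hJlt : J.card < h := by
        rw [← hcard1]
        refine card_lt_of_touch hmin C hCc (hCD.trans hDW) J1 ?_ ?_ ?_
        · intro Y hY
          obtain ⟨X, hX, hXt, rfl⟩ := hJ1mem Y hY
          exact ⟨(hP1 X hX).1.1, (hP1 X hX).2.2, (hP1 X hX).2.1.mono_right hCD, hXt⟩
        · intro Y hY Z hZ hYZ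
          obtain ⟨X, hX, hXt, rfl⟩ := hJ1mem Y hY
          obtain ⟨X', hX', hXt', rfl⟩ := hJ1mem Z hZ
          exact hP3 X hX X' hX' (fun h => hYZ (by rw [h]))
        · intro Y hY Z hZ hYZ
          obtain ⟨X, hX, hXt, rfl⟩ := hJ1mem Y hY
          obtain ⟨X', hX', hXt', rfl⟩ := hJ1mem Z hZ
          exact hP2 C hCD hCc X hX X' hX' hXt hXt' hYZ
      -- a free colour
      obtain ⟨q0, hq0⟩ : ∃ q0 : Fin h, ∀ X ∈ J, X.2 ≠ q0 := by
        by_contra hcon
        push Not at hcon
        have : (univ : Finset (Fin h)) ⊆ J.image Prod.snd := by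
          intro q _
          obtain ⟨X, hX, hXq⟩ := hcon q
          exact mem_image.2 ⟨X, hX, hXq⟩
        have h1 := card_le_card this
        rw [card_univ, Fintype.card_fin] at h1
        have h2 := card_image_le (s := J) (f := Prod.snd)
        omega
      -- the new part
      obtain ⟨X0, hX0C, hX0n, hX0t⟩ := step hw C hCc {Y | Y ∈ J1}
        (fun Y hY => by
          obtain ⟨X, hX, _, rfl⟩ := hJ1mem Y hY
          exact (hP1 X hX).1)
        (fun Y hY => by
          obtain ⟨X, hX, _, rfl⟩ := hJ1mem Y hY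
          exact (hP1 X hX).2.1.mono_right hCD)
        (fun Y hY => by
          obtain ⟨X, hX, ht, rfl⟩ := hJ1mem Y hY
          exact ht)
        (fun Y hY Q hQ hQn => by
          obtain ⟨X, hX, _, rfl⟩ := hJ1mem Y hY
          exact hP4 X hX Q (hQ.trans hCD) hQn)
      obtain ⟨X, hX0X, hXC, hXn, hXmax⟩ := exists_max_nice hX0C hX0n
      have hXt : ∀ Y ∈ P, Touch G Y.1 C → Touch G Y.1 X := by
        intro Y hY ht
        refine (hX0t Y.1 ?_).mono (Subset.refl _) hX0X
        rw [Set.mem_ofPred_eq, hJ1]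
        exact mem_image.2 ⟨Y, (hJmem Y).2 ⟨hY, ht⟩, rfl⟩
      obtain ⟨hXc, S, hSX, hSs, hSw⟩ := id hXn
      have hXD : X ⊆ D := hXC.trans hCD
      obtain ⟨x0, hx0⟩ := hXc.nonempty
      have hcardD : (D \ X).card ≤ n := by
        have h1 := card_sdiff_add_card_eq_card hXD
        have h2 : 0 < X.card := card_pos.2 ⟨x0, hx0⟩
        omega
      have hXP : ∀ Y ∈ P, Disjoint Y.1 X := fun Y hY => (hP1 Y hY).2.1.mono_right hXD
      have ha' : ∀ Y ∈ insert (X, q0) P, Nice G w Y.1 ∧ Disjoint Y.1 (D \ X) ∧ Y.1 ⊆ W := by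
        intro Y hY
        rcases mem_insert.1 hY with rfl | hY
        · exact ⟨hXn, disjoint_sdiff, hXD.trans hDW⟩
        · exact ⟨(hP1 Y hY).1, (hP1 Y hY).2.1.mono_right sdiff_subset, (hP1 Y hY).2.2⟩
      have hb' : ∀ C' ⊆ D \ X, Conn G C' → ∀ Y ∈ insert (X, q0) P, ∀ Z ∈ insert (X, q0) P,
          Touch G Y.1 C' → Touch G Z.1 C' → Y.1 ≠ Z.1 → Touch G Y.1 Z.1 := by
        intro C' hC'D hC' Y hY Z hZ hYt hZt hYZ
        -- a connected set touching X is inside C
        have hsub : Touch G X C' → C' ⊆ C := by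
          intro ht
          have h1 : Conn G (X ∪ C') := Conn.union_touch hXc hC' ht
          have h2 : X ∪ C' ⊆ D := union_subset hXD (hC'D.trans sdiff_subset)
          exact subset_union_right.trans
            (hCmax _ h2 h1 ⟨x0, mem_union_left _ hx0, hXC hx0⟩)
        rcases mem_insert.1 hY with rfl | hY <;> rcases mem_insert.1 hZ with rfl | hZ
        · exact absurd rfl hYZ
        · exact (hXt Z hZ (hZt.mono (Subset.refl _) (hsub hYt))).symm
        · exact hXt Y hY (hYt.mono (Subset.refl _) (hsub hZt))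
        · exact hP2 C' (hC'D.trans sdiff_subset) hC' Y hY Z hZ hYt hZt hYZ
      have hc' : ∀ Y ∈ insert (X, q0) P, ∀ Z ∈ insert (X, q0) P, Y ≠ Z → Disjoint Y.1 Z.1 := by
        intro Y hY Z hZ hYZ
        rcases mem_insert.1 hY with rfl | hY <;> rcases mem_insert.1 hZ with rfl | hZ
        · exact absurd rfl hYZ
        · exact (hXP Z hZ).symm
        · exact hXP Y hY
        · exact hP3 Y hY Z hZ hYZ
      have hd' : ∀ Y ∈ insert (X, q0) P, ∀ Q ⊆ D \ X, Q.Nonempty → ¬ Nice G w (Y.1 ∪ Q) := by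
        intro Y hY Q hQ hQn hn
        rcases mem_insert.1 hY with rfl | hY
        · have h1 : X ∪ Q ⊆ D := union_subset hXD (hQ.trans sdiff_subset)
          have h2 : X ∪ Q ⊆ C := hCmax _ h1 hn.1 ⟨x0, mem_union_left _ hx0, hXC hx0⟩
          have h3 := hXmax (X ∪ Q) h2 hn subset_union_left
          obtain ⟨z, hz⟩ := hQn
          have h4 : z ∈ X := by rw [← h3]; exact mem_union_right _ hz
          exact (mem_sdiff.1 (hQ hz)).2 h4
        · exact hP4 Y hY Q (hQ.trans sdiff_subset) hQn hn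
      obtain ⟨T, hT1, hT2, hT3⟩ := ih (D \ X) (insert (X, q0) P) hcardD
        (sdiff_subset.trans hDW) ha' hb' hc' hd'
      · -- assemble
        refine ⟨fun q => if q = q0 then T q ∪ S else T q, ?_, ?_, ?_⟩
        · intro q
          by_cases hq : q = q0
          · simp only [if_pos hq]
            refine ⟨union_subset ((hT1 q).1.trans sdiff_subset) (hSX.trans hXD), ?_⟩
            have hno : ¬ Touch G X (T q) := hT2 q (X, q0) (mem_insert_self _ _) hq.symm
            intro u hu v hv huv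
            rcases mem_union.1 hu with hu | hu <;> rcases mem_union.1 hv with hv | hv
            · exact (hT1 q).2 u hu v hv huv
            · exact hno ⟨v, hSX hv, u, hu, huv.symm⟩
            · exact hno ⟨u, hSX hu, v, hv, huv⟩
            · exact hSs u hu v hv huv
          · simp only [if_neg hq]
            exact ⟨(hT1 q).1.trans sdiff_subset, (hT1 q).2⟩
        · intro q Y hY hYq
          by_cases hq : q = q0
          · simp only [if_pos hq]
            rintro ⟨y, hy, z, hz, hyz⟩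
            rcases mem_union.1 hz with hz | hz
            · exact hT2 q Y (mem_insert_of_mem hY) hYq ⟨y, hy, z, hz, hyz⟩
            · have : Touch G Y.1 C := ⟨y, hy, z, hXC (hSX hz), hyz⟩
              exact hq0 Y ((hJmem Y).2 ⟨hY, this⟩) (hYq.trans hq)
          · simp only [if_neg hq]
            exact hT2 q Y (mem_insert_of_mem hY) hYq
        · have h1 : ∑ v ∈ D, w v = ∑ v ∈ D \ X, w v + ∑ v ∈ X, w v :=
            (sum_sdiff hXD).symm
          have h2 : ∀ q, ∑ v ∈ (if q = q0 then T q ∪ S else T q), w v =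
              ∑ v ∈ T q, w v + if q = q0 then ∑ v ∈ S, w v else 0 := by
            intro q
            by_cases hq : q = q0
            · rw [if_pos hq, if_pos hq, sum_union]
              have : Disjoint (D \ X) X := sdiff_disjoint
              exact this.mono (hT1 q).1 hSX
            · rw [if_neg hq, if_neg hq, add_zero]
          have h3 : ∑ q, ∑ v ∈ (if q = q0 then T q ∪ S else T q), w v =
              ∑ q, ∑ v ∈ T q, w v + ∑ v ∈ S, w v := by
            rw [sum_congr rfl fun q _ => h2 q, sum_add_distrib]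
            simp
          rw [h1, h3]
          linarith

/-- REED-SEYMOUR: if `G[W]` has no `K_{h+1}` model, there is a stable set with `w(W) ≤ 2h w(S)`. -/
theorem stable (G : SimpleGraph V) (W : Finset V) (h : ℕ)
    (hmin : ∀ B : Fin (h + 1) → Finset V, (∀ i, B i ⊆ W) → ¬ IsCliqueMinorModel G B)
    (w : V → ℝ) (hw : ∀ v, 0 ≤ w v) :
    ∃ S ⊆ W, (∀ u ∈ S, ∀ v ∈ S, ¬ G.Adj u v) ∧ ∑ v ∈ W, w v ≤ 2 * h * ∑ v ∈ S, w v := by
  obtain ⟨T, hT1, _, hT3⟩ := main (w := w) hmin hw W.card W ∅ le_rfl (Subset.refl _)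
    (by simp) (by simp) (by simp) (by simp)
  rcases Nat.eq_zero_or_pos h with h0 | h0
  · subst h0
    refine ⟨∅, empty_subset _, by simp, ?_⟩
    simpa using hT3
  · have : Nonempty (Fin h) := ⟨⟨0, h0⟩⟩
    obtain ⟨q, _, hq⟩ := Finset.exists_max_image (univ : Finset (Fin h))
      (fun q => ∑ v ∈ T q, w v) univ_nonempty
    refine ⟨T q, (hT1 q).1, (hT1 q).2, ?_⟩
    have h1 : ∑ q', ∑ v ∈ T q', w v ≤ ∑ _q' : Fin h, ∑ v ∈ T q, w v :=
      sum_le_sum fun q' _ => hq q' (mem_univ _)
    rw [sum_const, card_univ, Fintype.card_fin, nsmul_eq_mul] at h1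
    nlinarith [hT3, h1]

end Crest.Agent.R042.RS803
end

-- ▼ part R042/RS2_803
section

/-! Row 42, sec 01, COROLLARY RS2: fractional covering by stable sets. -/

set_option autoImplicit false
set_option linter.unusedSectionVars false

namespace Crest.Agent.R042.RS803

open Finset Crest.Agent.R042.Conn353
open Crest.CombinatoricsR.GraphMinor

variable {V : Type*} [DecidableEq V]

/-- `2 (1 - 1/(4h))^(3h) < 1`. -/
lemma rho_lt_one {h : ℕ} (hh : 1 ≤ h) : 2 * (1 - 1 / (4 * (h : ℝ))) ^ (3 * h) < 1 := by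
  have hh' : (1 : ℝ) ≤ h := by exact_mod_cast hh
  have h0 : (0 : ℝ) < h := by linarith
  have h1 : 1 - 1 / (4 * (h : ℝ)) ≤ Real.exp (-(1 / (4 * (h : ℝ)))) := by
    have := Real.add_one_le_exp (-(1 / (4 * (h : ℝ))))
    linarith
  have h1' : 0 ≤ 1 - 1 / (4 * (h : ℝ)) := by
    have : 1 / (4 * (h : ℝ)) ≤ 1 := by
      rw [div_le_one (by linarith)]
      linarith
    linarith
  have h2 : (1 - 1 / (4 * (h : ℝ))) ^ (3 * h) ≤ Real.exp (-(3 / 4)) := by
    calc (1 - 1 / (4 * (h : ℝ))) ^ (3 * h) ≤ Real.exp (-(1 / (4 * (h : ℝ)))) ^ (3 * h) :=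
          pow_le_pow_left₀ h1' h1 _
      _ = Real.exp (-(3 / 4)) := by
          rw [← Real.exp_nat_mul]
          congr 1
          push_cast
          field_simp
  have h3 : (2 : ℝ) < Real.exp (3 / 4) := by
    have := Real.quadratic_le_exp_of_nonneg (show (0 : ℝ) ≤ 3 / 4 by norm_num)
    norm_num at this ⊢
    linarith
  have h4 : Real.exp (-(3 / 4)) < 1 / 2 := by
    rw [Real.exp_neg, ← one_div]
    exact one_div_lt_one_div_of_lt (by norm_num) h3
  linarith

/-- RS2: every vertex of `W` is in at least `T/(3h)` of the stable sets. -/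
theorem frac (G : SimpleGraph V) (W : Finset V) (h : ℕ)
    (hmin : ∀ B : Fin (h + 1) → Finset V, (∀ i, B i ⊆ W) → ¬ IsCliqueMinorModel G B) :
    ∃ (T : ℕ) (I : Fin T → Finset V), 1 ≤ T ∧
      (∀ i, I i ⊆ W ∧ ∀ u ∈ I i, ∀ v ∈ I i, ¬ G.Adj u v) ∧
      ∀ v ∈ W, T ≤ 3 * h * (Finset.univ.filter fun i => v ∈ I i).card := by
  classical
  rcases W.eq_empty_or_nonempty with hW | ⟨x0, hx0⟩
  · refine ⟨1, fun _ => ∅, le_rfl, fun i => ⟨empty_subset _, by simp⟩, ?_⟩
    intro v hv
    rw [hW] at hv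
    exact absurd hv (notMem_empty _)
  · -- h ≥ 1
    have hh : 1 ≤ h := by
      by_contra hcon
      have h0 : h = 0 := by omega
      subst h0
      refine hmin (fun _ => {x0}) (fun _ => by simpa using hx0) ⟨?_, ?_, ?_, ?_⟩
      · intro _; exact singleton_nonempty _
      · intro i j hij; exact absurd (Fin.ext (by omega)) hij
      · intro _; exact conn_singleton x0
      · intro i j hij; exact absurd (Fin.ext (by omega)) hij
    have hh' : (1 : ℝ) ≤ h := by exact_mod_cast hh
    have hhp : (0 : ℝ) < h := by linarith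
    -- the choice of the stable sets
    have hpick : ∀ m : V → ℕ, ∃ S ⊆ W, (∀ u ∈ S, ∀ v ∈ S, ¬ G.Adj u v) ∧
        ∑ v ∈ W, (1 / 2 : ℝ) ^ m v ≤ 2 * h * ∑ v ∈ S, (1 / 2 : ℝ) ^ m v := fun m =>
      stable G W h hmin (fun v => (1 / 2 : ℝ) ^ m v) (fun v => by positivity)
    choose f hfW hfs hfw using hpick
    let m : ℕ → V → ℕ := fun n => Nat.rec (fun _ => 0)
      (fun _ mm v => mm v + if v ∈ f mm then 1 else 0) n
    have hm0 : ∀ v, m 0 v = 0 := fun v => rfl
    have hms : ∀ n v, m (n + 1) v = m n v + if v ∈ f (m n) then 1 else 0 := fun n v => rfl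
    -- total weight
    have htot : ∀ n, ∑ v ∈ W, (1 / 2 : ℝ) ^ m n v ≤ W.card * (1 - 1 / (4 * (h : ℝ))) ^ n := by
      intro n
      induction n with
      | zero => simp [hm0]
      | succ n ih =>
        have h1 : ∑ v ∈ W, (1 / 2 : ℝ) ^ m (n + 1) v =
            ∑ v ∈ W, (1 / 2 : ℝ) ^ m n v - (1 / 2) * ∑ v ∈ f (m n), (1 / 2 : ℝ) ^ m n v := by
          have h2 : ∑ v ∈ f (m n), (1 / 2 : ℝ) ^ m n v =
              ∑ v ∈ W, if v ∈ f (m n) then (1 / 2 : ℝ) ^ m n v else 0 := by
            rw [← sum_filter]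
            congr 1
            ext v
            rw [mem_filter]
            exact ⟨fun h => ⟨hfW _ h, h⟩, fun h => h.2⟩
          rw [h2, mul_sum, ← sum_sub_distrib]
          refine sum_congr rfl fun v _ => ?_
          rw [hms]
          by_cases hv : v ∈ f (m n)
          · rw [if_pos hv, if_pos hv, pow_succ]; ring
          · rw [if_neg hv, if_neg hv]; simp
        have h3 := hfw (m n)
        have h4 : (1 / (2 * (h : ℝ))) * ∑ v ∈ W, (1 / 2 : ℝ) ^ m n v ≤
            ∑ v ∈ f (m n), (1 / 2 : ℝ) ^ m n v := by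
          rw [one_div, inv_mul_le_iff₀ (by linarith)]
          exact h3
        have h5 : (1 / (2 * (h : ℝ))) = 2 * (1 / (4 * (h : ℝ))) := by field_simp; norm_num
        have h6 : 0 ≤ 1 - 1 / (4 * (h : ℝ)) := by
          have : 1 / (4 * (h : ℝ)) ≤ 1 := by
            rw [div_le_one (by linarith)]
            linarith
          linarith
        rw [h5] at h4
        rw [h1, pow_succ]
        have h7 := mul_le_mul_of_nonneg_right ih h6
        nlinarith [h7, h4]
    -- counting
    have hcount : ∀ n v, m n v = ∑ i ∈ range n, if v ∈ f (m i) then 1 else 0 := by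
      intro n v
      induction n with
      | zero => simp [hm0]
      | succ n ih => rw [hms, ih, sum_range_succ]
    -- the choice of M
    have hrho := rho_lt_one hh
    have hρ0 : 0 ≤ 2 * (1 - 1 / (4 * (h : ℝ))) ^ (3 * h) := by
      have h6 : 0 ≤ 1 - 1 / (4 * (h : ℝ)) := by
        have : 1 / (4 * (h : ℝ)) ≤ 1 := by
          rw [div_le_one (by linarith)]
          linarith
        linarith
      positivity
    have hWpos : (0 : ℝ) < W.card := by exact_mod_cast card_pos.2 ⟨x0, hx0⟩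
    obtain ⟨n0, hn0⟩ := exists_pow_lt_of_lt_one (show (0 : ℝ) < 1 / W.card by positivity) hrho
    set ρ := 2 * (1 - 1 / (4 * (h : ℝ))) ^ (3 * h) with hρ
    have hM : (W.card : ℝ) * ρ ^ (n0 + 1) < 1 := by
      have h1 : ρ ^ (n0 + 1) ≤ ρ ^ n0 := pow_le_pow_of_le_one hρ0 hrho.le (Nat.le_succ _)
      have h2 : ρ ^ (n0 + 1) < 1 / W.card := lt_of_le_of_lt h1 hn0
      rw [lt_div_iff₀ hWpos] at h2
      linarith
    set M := n0 + 1 with hMdef
    have hTpos : 1 ≤ 3 * h * M := by
      have : 0 < 3 * h * M := by positivity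
      omega
    refine ⟨3 * h * M, fun i => f (m i), hTpos, fun i => ⟨hfW _, hfs _⟩, ?_⟩
    intro v hv
    have hcard : (univ.filter fun i : Fin (3 * h * M) => v ∈ f (m i)).card = m (3 * h * M) v := by
      rw [hcount, card_filter, Fin.sum_univ_eq_sum_range (fun i => if v ∈ f (m i) then 1 else 0)]
    rw [hcard]
    refine Nat.mul_le_mul_left _ ?_
    rcases Nat.lt_or_ge (m (3 * h * M) v) M with hcon | hcon
    swap
    · exact hcon
    exfalso
    have h1 : (1 / 2 : ℝ) ^ m (3 * h * M) v ≤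
        ∑ v ∈ W, (1 / 2 : ℝ) ^ m (3 * h * M) v :=
      single_le_sum (f := fun v => (1 / 2 : ℝ) ^ m (3 * h * M) v)
        (fun v _ => by positivity) hv
    have h2 := htot (3 * h * M)
    have h3 : (1 / 2 : ℝ) ^ M ≤ (1 / 2 : ℝ) ^ m (3 * h * M) v :=
      pow_le_pow_of_le_one (by norm_num) (by norm_num) hcon.le
    have h4 : (W.card : ℝ) * (1 - 1 / (4 * (h : ℝ))) ^ (3 * h * M) < (1 / 2) ^ M := by
      have h5 : ρ ^ M = 2 ^ M * (1 - 1 / (4 * (h : ℝ))) ^ (3 * h * M) := by
        rw [hρ, mul_pow, ← pow_mul]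
      rw [h5] at hM
      have h6 : (0 : ℝ) < 2 ^ M := by positivity
      have h7 : ((1 : ℝ) / 2) ^ M = 1 / 2 ^ M := by rw [one_div_pow]
      rw [h7, lt_div_iff₀ h6]
      linarith
    linarith

/-- RS2 for all subsets (the hypothesis `∀ S ⊆ W, Frac G S (3 * h)` of sec 02 / 8.2). -/
theorem frac_sub (G : SimpleGraph V) (W : Finset V) (h : ℕ)
    (hmin : ∀ B : Fin (h + 1) → Finset V, (∀ i, B i ⊆ W) → ¬ IsCliqueMinorModel G B) :
    ∀ S ⊆ W, ∃ (T : ℕ) (I : Fin T → Finset V), 1 ≤ T ∧
      (∀ i, I i ⊆ S ∧ ∀ u ∈ I i, ∀ v ∈ I i, ¬ G.Adj u v) ∧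
      ∀ v ∈ S, T ≤ 3 * h * (Finset.univ.filter fun i => v ∈ I i).card :=
  fun S hS => frac G S h fun B hB => hmin B fun i => (hB i).trans hS

end Crest.Agent.R042.RS803
end

-- ▼ part R042/TreeSep_136
section

/-! Row 42, item 10.3: the Alon-Seymour-Thomas lemma "small connected set meeting all `A i`, or a
small set cutting them" (BFS in stacked copies of the graph). -/
namespace Crest.Agent.R042.TreeSep136
end Crest.Agent.R042.TreeSep136
end

-- ▼ part R042/Covey_136
section

/-! Row 42, item 10.3: Alon-Seymour-Thomas: if every small vertex set leaves a component with more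
than half of the vertices then there is a complete minor. -/

set_option autoImplicit false
set_option linter.unusedSectionVars false

namespace Crest.Agent.R042.Covey136

open Finset Crest.Agent.R042.Conn353 Crest.Agent.R042.TreeSep136

variable {V : Type*} [DecidableEq V] {G : SimpleGraph V}

/-- `K` is a component of `G[W \ X]` with more than half of the vertices of `W`. -/
structure BigComp (G : SimpleGraph V) (W X K : Finset V) : Prop where
  sub : K ⊆ W \ X
  conn : Conn G K
  cl : ∀ x ∈ K, ∀ y ∈ W, G.Adj x y → y ∈ K ∨ y ∈ X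
  big : W.card < 2 * K.card

/-- pairwise disjoint, pairwise adjacent connected subsets of `W`. -/
structure IsCovey (G : SimpleGraph V) (W : Finset V) (C : Finset (Finset V)) : Prop where
  sub : ∀ A ∈ C, A ⊆ W
  conn : ∀ A ∈ C, Conn G A
  disj : ∀ A ∈ C, ∀ B ∈ C, A ≠ B → Disjoint A B
  adj : ∀ A ∈ C, ∀ B ∈ C, A ≠ B → ∃ x ∈ A, ∃ y ∈ B, G.Adj x y

structure St (G : SimpleGraph V) (W : Finset V) (r : ℕ) (C : Finset (Finset V))
    (X K : Finset V) : Prop where
  cov : IsCovey G W C
  Xsub : X ⊆ C.biUnion id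
  Xcard : ∀ A ∈ C, (X ∩ A).card ≤ r
  comp : BigComp G W X K
  KC : ∀ A ∈ C, Disjoint A K

variable {W X X' K K' : Finset V}








end Crest.Agent.R042.Covey136
namespace Crest.Agent.R042.Covey136.St
end Crest.Agent.R042.Covey136.St
end

-- ▼ part R042/Sep_136
section

/-! Row 42, item 10.3: the Alon-Seymour-Thomas separator theorem, in the form: no `K_H` model in
`G[W]` and `H |W| ≤ r²` give a separation of order `≤ r H` with both sides `≤ 2|W|/3`. -/

set_option autoImplicit false
set_option linter.unusedSectionVars false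

namespace Crest.Agent.R042.Sep136

open Finset Crest.Agent.R042.Conn353 Crest.Agent.R042.Menger353 Crest.Agent.R042.Covey136
open Crest.Agent.R042.Mader375

variable {V : Type*} [DecidableEq V] {G : SimpleGraph V} {W : Finset V}


/-- `U` is a union of components of `G[S]`. -/
def Closed (G : SimpleGraph V) (S U : Finset V) : Prop :=
  U ⊆ S ∧ ∀ x ∈ U, ∀ y ∈ S, G.Adj x y → y ∈ U

open Classical in
/-- the component of `v` in `G[S]`. -/
noncomputable def comp (G : SimpleGraph V) (S : Finset V) (v : V) : Finset V :=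
  S.filter (fun w => Reach G S v w)







lemma Closed.union {S U U' : Finset V} (hU : Closed G S U) (hU' : Closed G S U') :
    Closed G S (U ∪ U') := by
  refine ⟨union_subset hU.1 hU'.1, fun x hx y hy hxy => ?_⟩
  rcases mem_union.1 hx with h | h
  · exact mem_union_left _ (hU.2 x h y hy hxy)
  · exact mem_union_right _ (hU'.2 x h y hy hxy)



/-- edges across a separation. -/
lemma e2_le_add {A B : Finset V} (h : Sep G W A B) : e2 G W ≤ e2 G A + e2 G B := by
  classical
  rw [e2_eq_card, e2_eq_card, e2_eq_card]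
  refine (card_le_card ?_).trans (card_union_le _ _)
  intro p hp
  rw [mem_filter, mem_product] at hp
  obtain ⟨⟨h1, h2⟩, h3⟩ := hp
  rw [mem_union, mem_filter, mem_filter, mem_product, mem_product]
  rw [← h.union, mem_union] at h1 h2
  by_cases hA1 : p.1 ∈ A
  · by_cases hA2 : p.2 ∈ A
    · exact Or.inl ⟨⟨hA1, hA2⟩, h3⟩
    · have hB2 : p.2 ∈ B := h2.resolve_left hA2
      by_cases hB1 : p.1 ∈ B
      · exact Or.inr ⟨⟨hB1, hB2⟩, h3⟩
      · exact absurd h3 (h.nadj _ hA1 hB1 _ hB2 hA2)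
  · have hB1 : p.1 ∈ B := h1.resolve_left hA1
    by_cases hB2 : p.2 ∈ B
    · exact Or.inr ⟨⟨hB1, hB2⟩, h3⟩
    · have hA2 : p.2 ∈ A := h2.resolve_right hB2
      exact absurd h3.symm (h.nadj _ hA2 hB2 _ hB1 hA1)

lemma e2_le_sq (S : Finset V) : e2 G S ≤ S.card * S.card := by
  classical
  rw [e2_eq_card]
  exact (card_filter_le _ _).trans (card_product _ _).le

end Crest.Agent.R042.Sep136
end

-- ▼ part R042/SmallDense_136
section

/-! Row 42, item 10.3: a dense set without `K_{h+1}` model contains a small dense subset. -/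
namespace Crest.Agent.R042.SmallDense136
end Crest.Agent.R042.SmallDense136
end

-- ▼ part R042/SmallHub_136
section

/-! Row 42, item 10.4: a dense set contains a hub `J` (every `X ⊆ J` with `|X| ≤ 2q` is linked in
`J`), and without a `K_{h+1}` model a hub with at most `1000 (h+1)³` vertices. The
Thomas-Wollan theorem is used as the hypothesis `TWStmt V`. -/

set_option autoImplicit false
set_option linter.unusedSectionVars false

namespace Crest.Agent.R042.SmallHub136

open Finset Crest.Agent.R042.Conn353 Crest.Agent.R042.Menger353 Crest.Agent.R042.Mader375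
open Crest.Agent.R042.Sep136 Crest.Agent.R042.Link870 Crest.Agent.R042.SmallDense136

variable {V : Type*} [DecidableEq V] {G : SimpleGraph V} {W : Finset V}

/-- the Thomas-Wollan theorem of sec 05 (literal output form of `TW870.tw`). -/
def TWStmt (V : Type*) [DecidableEq V] : Prop :=
  ∀ (G : SimpleGraph V) (W X : Finset V) (k : ℕ), 1 ≤ k → Massed G W X (8 * k) →
    X.card ≤ 2 * k → Linked G W X

lemma dg_le_card (S : Finset V) (v : V) : dg G S v ≤ S.card := by
  classical
  unfold dg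
  exact card_filter_le _ _

/-- **Mader's argument**: a set with average degree `≥ 2γ ≥ 8q` contains a set `J` of minimum
degree `> γ` without a proper separation of order `≤ 2q`. -/
theorem hub_core {J0 : Finset V} {q γ : ℕ} (hq : 1 ≤ q) (hγ : 4 * q ≤ γ) (hne : J0.Nonempty)
    (hE : 2 * γ * J0.card ≤ e2 G J0) :
    ∃ J ⊆ J0, γ < J.card ∧ (∀ v ∈ J, γ < dg G J v) ∧
      ∀ A B, Sep G J A B → (A ∩ B).card ≤ 2 * q → A \ B = ∅ ∨ B \ A = ∅ := by
  classical
  have hJ0c : 1 ≤ J0.card := card_pos.2 hne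
  have hsq0 : e2 G J0 ≤ J0.card * J0.card := e2_le_sq J0
  have h02 : 2 * γ ≤ J0.card := by
    by_contra hcon
    push Not at hcon
    nlinarith
  obtain ⟨J, hJ, hmin⟩ := exists_min_image
    (J0.powerset.filter (fun J => 4 * q ≤ J.card ∧ 2 * γ * J.card < e2 G J + 4 * γ * q))
    Finset.card ⟨J0, by
      simp only [mem_filter, mem_powerset]
      refine ⟨Subset.refl _, by omega, ?_⟩
      have : 1 ≤ γ * q := Nat.one_le_iff_ne_zero.2 (Nat.mul_ne_zero (by omega) (by omega))
      nlinarith⟩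
  simp only [mem_filter, mem_powerset] at hJ hmin
  obtain ⟨hJJ, hJc, hJE⟩ := hJ
  -- a smaller set fails
  have hfail : ∀ S : Finset V, S ⊆ J → S.card < J.card → 4 * q ≤ S.card →
      e2 G S + 4 * γ * q ≤ 2 * γ * S.card := by
    intro S hS hlt h4
    by_contra hcon
    push Not at hcon
    have := hmin S ⟨hS.trans hJJ, h4, hcon⟩
    omega
  have hsq : e2 G J ≤ J.card * J.card := e2_le_sq J
  have hJc' : 4 * q < J.card := by
    rcases Nat.lt_or_ge (4 * q) J.card with h | h
    · exact h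
    · exfalso
      have h1 : J.card = 4 * q := by omega
      rw [h1] at hJE hsq
      nlinarith
  have hdeg : ∀ v ∈ J, γ < dg G J v := by
    intro v hv
    by_contra hcon
    push Not at hcon
    have h3 : e2 G J = e2 G (J.erase v) + 2 * dg G J v := by
      convert e2_erase (G := G) hv
    have h4 : (J.erase v).card = J.card - 1 := card_erase_of_mem hv
    have h5 := hfail (J.erase v) (erase_subset _ _) (by omega) (by omega)
    rw [h4] at h5
    have h6 : 2 * γ * (J.card - 1) + 2 * γ = 2 * γ * J.card := by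
      obtain ⟨c, hc⟩ : ∃ c, J.card = c + 1 := ⟨J.card - 1, by omega⟩
      rw [hc, Nat.add_sub_cancel]
      ring
    omega
  have hne' : J.Nonempty := card_pos.1 (by omega)
  refine ⟨J, hJJ, ?_, hdeg, ?_⟩
  · obtain ⟨v, hv⟩ := hne'
    exact (hdeg v hv).trans_le (dg_le_card J v)
  · intro A B hsep hord
    by_contra hcon
    push Not at hcon
    obtain ⟨hA, hB⟩ := hcon
    have hAJ : A ⊆ J := hsep.left_sub
    have hBJ : B ⊆ J := hsep.right_sub
    have side : ∀ A B : Finset V, Sep G J A B → (A \ B).Nonempty → γ < A.card := by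
      intro A B hsep hA
      obtain ⟨v, hv⟩ := hA
      obtain ⟨hvA, hvB⟩ := mem_sdiff.1 hv
      refine (hdeg v (hsep.left_sub hvA)).trans_le ?_
      unfold dg
      refine card_le_card ?_
      intro w hw
      obtain ⟨hwJ, hvw⟩ := mem_filter.1 hw
      by_contra hwA
      have hwB : w ∈ B := by
        rw [← hsep.union, mem_union] at hwJ
        exact hwJ.resolve_left hwA
      exact hsep.nadj v hvA hvB w hwB hwA hvw
    have hA1 := side A B hsep hA
    have hB1 := side B A hsep.symm hB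
    have c1 : A.card + B.card = J.card + (A ∩ B).card := by
      rw [← hsep.union, card_union_add_card_inter]
    have c2 : (A \ B).card + (A ∩ B).card = A.card := by
      rw [add_comm, card_inter_add_card_sdiff]
    have c3 : (B \ A).card + (A ∩ B).card = B.card := by
      rw [inter_comm, add_comm, card_inter_add_card_sdiff]
    have c4 : 1 ≤ (A \ B).card := card_pos.2 hA
    have c5 : 1 ≤ (B \ A).card := card_pos.2 hB
    have f1 := hfail A hAJ (by omega) (by omega)
    have f2 := hfail B hBJ (by omega) (by omega)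
    have f3 : e2 G J ≤ e2 G A + e2 G B := e2_le_add hsep
    have f4 : 2 * γ * A.card + 2 * γ * B.card = 2 * γ * J.card + 2 * γ * (A ∩ B).card := by
      rw [← mul_add, c1, mul_add]
    have f5 : 2 * γ * (A ∩ B).card ≤ 2 * γ * (2 * q) := Nat.mul_le_mul_left _ hord
    have f6 : 2 * γ * (2 * q) = 4 * γ * q := by ring
    omega

/-- the set of `hub_core` with `γ ≥ 16 q` is massed over every small set. -/
theorem massed_of_core {J X : Finset V} {q γ : ℕ} (hq : 1 ≤ q) (hγ : 16 * q ≤ γ)
    (hJ : γ < J.card) (hdeg : ∀ v ∈ J, γ < dg G J v)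
    (hsep : ∀ A B, Sep G J A B → (A ∩ B).card ≤ 2 * q → A \ B = ∅ ∨ B \ A = ∅)
    (hX : X ⊆ J) (hXc : X.card ≤ 2 * q) : Massed G J X (8 * q) := by
  classical
  refine ⟨hX, ?_, ?_⟩
  · have h1 : ∑ v ∈ J \ X, (Link870.nb G J v).card ≤ rho G J (J \ X) :=
      sum_nb_le_rho sdiff_subset
    have h2 : ∀ v ∈ J \ X, γ + 1 ≤ (Link870.nb G J v).card := by
      intro v hv
      have := hdeg v (sdiff_subset hv)
      unfold dg at this
      unfold Link870.nb
      convert Nat.succ_le_of_lt this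
    have h3 : (J \ X).card * (γ + 1) ≤ ∑ v ∈ J \ X, (Link870.nb G J v).card := by
      rw [← smul_eq_mul]
      exact card_nsmul_le_sum _ _ _ h2
    have h4 : (J \ X).card + X.card = J.card := card_sdiff_add_card_eq_card hX
    have h5 : 1 ≤ (J \ X).card := by omega
    have h6 : 2 * (8 * q) * (J \ X).card ≤ (J \ X).card * γ := by
      rw [mul_comm]
      exact Nat.mul_le_mul_left _ (by omega)
    have h7 : (J \ X).card * (γ + 1) = (J \ X).card * γ + (J \ X).card := by ring
    omega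
  · intro A B hAB hXA hlt
    have h1 : (A \ B).Nonempty := by
      rw [nonempty_iff_ne_empty]
      intro h
      have h2 : A ⊆ A ∩ B := by
        intro x hx
        rw [mem_inter]
        refine ⟨hx, ?_⟩
        by_contra hxB
        have : x ∈ A \ B := mem_sdiff.2 ⟨hx, hxB⟩
        rw [h] at this
        simp at this
      have := card_le_card (hXA.trans h2)
      omega
    have h3 : B \ A = ∅ := by
      rcases hsep A B hAB (by omega) with h | h
      · exact absurd h (nonempty_iff_ne_empty.1 h1)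
      · exact h
    rw [h3]
    have : rho G J ∅ = 0 := by
      unfold rho
      simp
    omega

/-- **hub of a dense set** (no bound on the size of the hub): average degree `≥ 32 q`. -/
theorem hub_of_dense (TW : TWStmt V) {J0 : Finset V} {q : ℕ} (hq : 1 ≤ q) (hne : J0.Nonempty)
    (hE : 32 * q * J0.card ≤ e2 G J0) :
    ∃ J ⊆ J0, 16 * q < J.card ∧ (∀ v ∈ J, 16 * q < dg G J v) ∧
      ∀ X ⊆ J, X.card ≤ 2 * q → Linked G J X := by
  classical
  obtain ⟨J, h1, h2, h3, h4⟩ := hub_core (G := G) (J0 := J0) (q := q) (γ := 16 * q) hq (by omega)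
    hne (by
      have : 2 * (16 * q) * J0.card = 32 * q * J0.card := by ring
      omega)
  exact ⟨J, h1, h2, h3, fun X hX hXc =>
    TW G J X q hq (massed_of_core hq le_rfl h2 h3 h4 hX hXc) hXc⟩


lemma e2_ge_of_deg {W : Finset V} {d : ℕ} (hd : ∀ v ∈ W, d ≤ dg G W v) :
    d * W.card ≤ e2 G W := by
  classical
  unfold e2
  rw [mul_comm, ← smul_eq_mul]
  exact card_nsmul_le_sum _ _ _ hd


end Crest.Agent.R042.SmallHub136
end

-- ▼ part R042/SmallW_132

/-! Row 42 / S0058, leaf 8.5: THEOREM W for pieces of small order (palette splitting). -/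

set_option autoImplicit false
set_option linter.unusedSectionVars false

namespace Crest.Agent.R042.SmallW132

open Finset Crest.Agent.R042.Conn353 Crest.Agent.R042.Menger353 Crest.Agent.R042.Crit374
  Crest.Agent.R042.Link870 Crest.Agent.R042.Mader375

/-- quasi-subadditivity of hardness on sets of small order. -/
theorem choos_cover {V : Type*} [DecidableEq V] {G : SimpleGraph V} {m : ℕ} (hm : 1 ≤ m)
    {S : Finset V} (A : Fin m → Finset V) (hS : ∀ v ∈ S, ∃ i, v ∈ A i) {q1 : ℕ}
    (hA : ∀ i, Choos G (A i) q1)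
    (hsize : ((m * S.card : ℕ) : ℝ) < Real.exp ((q1 : ℝ) / 4)) : Choos G S (2 * m * q1) := by
  classical
  intro L hL
  have hm0 : (0 : ℝ) < m := by exact_mod_cast hm
  have hexp : ((2 * m * q1 : ℕ) : ℝ) / (8 * m) = (q1 : ℝ) / 4 := by
    push_cast
    field_simp
    ring
  obtain ⟨χ, hχ⟩ := Pal365.palette S L m (2 * m * q1) hm hL (by rw [hexp]; exact hsize)
  have hbig : ∀ i ∈ S, ∀ a, q1 ≤ ((L i).filter fun c => χ c = a).card := by
    intro i hi a
    have h := hχ i hi a
    exact Nat.le_of_mul_le_mul_left h (by omega)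
  have hcol : ∀ a : Fin m, ∃ c : V → ℕ, (∀ v ∈ A a ∩ S, c v ∈ (L v).filter fun c => χ c = a) ∧
      ProperOn G (A a ∩ S) c := by
    intro a
    exact ((hA a).mono Finset.inter_subset_left) (fun v => (L v).filter fun c => χ c = a)
      (fun v hv => hbig v (Finset.mem_inter.1 hv).2 a)
  choose c hc1 hc2 using hcol
  have hidx : ∀ v, ∃ i : Fin m, v ∈ S → v ∈ A i := by
    intro v
    by_cases hv : v ∈ S
    · obtain ⟨i, hi⟩ := hS v hv
      exact ⟨i, fun _ => hi⟩
    · exact ⟨⟨0, hm⟩, fun h => absurd h hv⟩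
  choose idx hidx using hidx
  refine ⟨fun v => c (idx v) v, ?_, ?_⟩
  · intro v hv
    exact (Finset.mem_filter.1 (hc1 (idx v) v (Finset.mem_inter.2 ⟨hidx v hv, hv⟩))).1
  · intro u hu v hv huv
    have h1 := (Finset.mem_filter.1 (hc1 (idx u) u (Finset.mem_inter.2 ⟨hidx u hu, hu⟩))).2
    have h2 := (Finset.mem_filter.1 (hc1 (idx v) v (Finset.mem_inter.2 ⟨hidx v hv, hv⟩))).2
    show c (idx u) u ≠ c (idx v) v
    by_cases hi : idx u = idx v
    · rw [← hi]
      exact hc2 (idx u) u (Finset.mem_inter.2 ⟨hidx u hu, hu⟩) v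
        (Finset.mem_inter.2 ⟨by rw [hi]; exact hidx v hv, hv⟩) huv
    · intro heq
      apply hi
      rw [← h1, ← h2, heq]

/-- the vertices of a minimal linkage of at most `n` paths are `2n`-choosable. -/
theorem choos_verts {V : Type*} [DecidableEq V] {G : SimpleGraph V} {W A B : Finset V}
    {P : Finset (List V)} (hP : Linkage G W A B P)
    (hmin : ∀ Q, Linkage G W A B Q → Q.card = P.card → (verts P).card ≤ (verts Q).card) :
    Choos G (verts P) (2 * P.card) := by
  intro L hL
  obtain ⟨c, h1, h2⟩ := LemU132.list_colour hP hmin L hL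
  exact ⟨c, h1, h2⟩

/-- the `rest` hypothesis of THEOREM W for pieces of small order. -/
theorem small_rest {V : Type} [DecidableEq V] (G : SimpleGraph V) (H Z : Finset V)
    (a κ k' q1 kH D0 : ℕ) (ha : a ≤ κ) (hcrit : Crit G H Z kH (4 * κ))
    (hub : ∀ W, W ⊆ H → W.Nonempty → (∀ v ∈ W, D0 * κ ≤ (Link870.nb G W v).card) →
      ∃ J, J ⊆ W ∧ 2 * κ ≤ J.card ∧ ∀ Y, Y ⊆ J → Y.card ≤ 2 * κ → Linked G J Y)
    (IH : ∀ W, W ⊆ H → ¬ Choos G W (k' - 2 * a) → Model G W (2 * a))
    (hk' : 4 * κ + 2 * a ≤ k') (hq : 8 * κ + 6 * q1 ≤ kH) (hq1 : D0 * κ + 4 * κ + 1 ≤ q1)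
    (hq1' : k' ≤ q1) (hsize : (3 * H.card : ℝ) < Real.exp ((q1 : ℝ) / 4))
    (X : Finset V) (hXc : X.card ≤ 2 * κ) :
    ∃ J, J ⊆ (H \ Z) \ X ∧ 2 * κ ≤ J.card ∧
      (∀ Y, Y ⊆ J → Y.card ≤ 2 * κ → Linked G J Y) ∧
      ∀ U : Finset (List V), Linkage G H X J U → U.card = X.card →
        (∀ Q, Linkage G H X J Q → Q.card = U.card → (verts U).card ≤ (verts Q).card) →
        ∃ J' Z', J' ⊆ ((H \ Z) \ J) \ verts U ∧ Crit G J' Z' k' a ∧
          2 * κ ≤ (J' \ Z').card ∧ Model G (J' \ Z') (2 * a) := by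
  classical
  have hhard : ¬ Choos G (H \ Z) (6 * q1) := by
    have h := hcrit.hard
    exact fun hc => h (hc.mono_card (by omega))
  have h1 : ¬ Choos G ((H \ Z) \ X) (D0 * κ) := by
    have h2 := Small333.not_choos_sdiff hhard hXc (by omega)
    exact fun hc => h2 (hc.mono_card (by omega))
  obtain ⟨Jt, hJt, hJt1, hJt2⟩ := Small333.exists_min_hard _ _ rfl h1
  have hJtH : Jt ⊆ H := hJt.trans (Finset.sdiff_subset.trans Finset.sdiff_subset)
  obtain ⟨J, hJ, hJc, hJl⟩ := hub Jt hJtH (nonempty_of_not_choos hJt1) (by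
    intro v hv
    have := Small333.min_hard_deg hJt1 hJt2 hv
    unfold Link870.nb
    convert this)
  refine ⟨J, hJ.trans hJt, hJc, hJl, ?_⟩
  intro U hU hUX hmin
  obtain ⟨R, hR⟩ : ∃ R : Finset V, R = ((H \ Z) \ Jt) \ verts U := ⟨_, rfl⟩
  have hRhard : ¬ Choos G R q1 := by
    intro hc
    apply hhard
    have h3 := choos_cover (G := G) (m := 3) (by norm_num) (S := H \ Z) ![Jt, verts U, R]
      (by
        intro v hv
        by_cases hvJ : v ∈ Jt
        · exact ⟨0, by simpa using hvJ⟩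
        · by_cases hvU : v ∈ verts U
          · exact ⟨1, by simpa using hvU⟩
          · refine ⟨2, ?_⟩
            show v ∈ R
            rw [hR, Finset.mem_sdiff, Finset.mem_sdiff]
            exact ⟨⟨hv, hvJ⟩, hvU⟩) (q1 := q1)
      (by
        intro i
        fin_cases i
        · exact (Small333.min_hard_choos_succ hJt2).mono_card (by omega)
        · exact (choos_verts hU hmin).mono_card (by rw [hUX]; omega)
        · exact hc)
      (by
        refine lt_of_le_of_lt ?_ hsize
        have : (H \ Z).card ≤ H.card := Finset.card_le_card Finset.sdiff_subset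
        have h4 : ((H \ Z).card : ℝ) ≤ (H.card : ℝ) := by exact_mod_cast this
        push_cast
        linarith)
    exact h3
  have hRhard' : ¬ Choos G R k' := fun hc => hRhard (hc.mono_card hq1')
  obtain ⟨J', Z', hJ'R, hcr⟩ := exists_crit hRhard' a
  have hRH : R ⊆ H := by
    rw [hR]
    exact Finset.sdiff_subset.trans (Finset.sdiff_subset.trans Finset.sdiff_subset)
  refine ⟨J', Z', ?_, hcr, ?_, ?_⟩
  · refine hJ'R.trans ?_
    rw [hR]
    intro v hv
    rw [Finset.mem_sdiff, Finset.mem_sdiff] at hv ⊢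
    exact ⟨⟨hv.1.1, fun h => hv.1.2 (hJ h)⟩, hv.2⟩
  · have := hcr.card_lt (by omega)
    omega
  · exact IH _ (Finset.sdiff_subset.trans (hJ'R.trans hRH)) hcr.hard

/-- THEOREM W for pieces of small order (leaf 8.5, literal form of helper333 #25123). -/
theorem small_woven {V : Type} [DecidableEq V] (G : SimpleGraph V)
    (H Z : Finset V) (a c κ k' q1 kH D0 : ℕ) (ha : 1 ≤ a) (hκ : a + c ≤ κ)
    (hcrit : Crit G H Z kH (4 * κ))
    (hub : ∀ W, W ⊆ H → W.Nonempty → (∀ v ∈ W, D0 * κ ≤ (Link870.nb G W v).card) →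
      ∃ J, J ⊆ W ∧ 2 * κ ≤ J.card ∧ ∀ Y, Y ⊆ J → Y.card ≤ 2 * κ → Linked G J Y)
    (IH : ∀ W, W ⊆ H → ¬ Choos G W (k' - 2 * a) → Model G W (2 * a))
    (hk' : 4 * κ + 2 * a ≤ k') (hq : 8 * κ + 6 * q1 ≤ kH) (hq1 : D0 * κ + 4 * κ + 1 ≤ q1)
    (hq1' : k' ≤ q1) (hsize : (3 * H.card : ℝ) < Real.exp ((q1 : ℝ) / 4)) :
    Asm220.Woven G H (H \ Z) a c := by
  refine WovenStmt671.wovenStmt G H Z a c κ (4 * κ) ha hcrit.sub (fun A B h1 h2 => hcrit.sep h1 h2) hκ (by omega) ?_
  intro X _ hXc
  obtain ⟨J, h1, h2, h3, h4⟩ := small_rest G H Z a κ k' q1 kH D0 (by omega) hcrit hub IH hk' hq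
    hq1 hq1' hsize X hXc
  refine ⟨J, h1, h2, h3, ?_⟩
  intro U hU hUX hmin
  obtain ⟨J', Z', h5, h6, h7, h8⟩ := h4 U hU hUX hmin
  exact ⟨J', Z', h5, h6.sub, h6.card_le, fun A B h9 h10 => h6.sep h9 h10, h7, h8⟩

/-- leaf 8.5 in the form consumed by `Small333.core`. -/
theorem smallWovenStmt (D0 : ℕ) : Small333.SmallWovenStmt D0 := by
  intro V _ G H Z a c κ k' q1 kH ha hκ hcrit hub IH hk' hq hq1 hq1' hsize
  exact small_woven G H Z a c κ k' q1 kH D0 ha hκ hcrit hub IH hk' (by omega) hq1 hq1' hsize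

end Crest.Agent.R042.SmallW132
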