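import Mathlib
import Crest.Agent.R042.LinkDefs_870
import Crest.Agent.R042.Conn_353
import Crest.Agent.R042.Menger_353

-- ▼ part R042/TWA_870
section

/-! Row 42, sec 05 (Thomas-Wollan), part A: composition of linkages, rerouting through a rigid
side, minimal violations, CLAIM A (no rigid separation of small order). -/

set_option autoImplicit false
set_option linter.unusedSectionVars false

namespace Crest.Agent.R042.TW870

open Finset Crest.Agent.R042.Conn353 Crest.Agent.R042.Menger353 Crest.Agent.R042.Link870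

variable {V : Type*} [DecidableEq V] {G : SimpleGraph V} {W X : Finset V}

/-- a smaller root set is linked too. -/
lemma linked_anti {X' : Finset V} (h : X' ⊆ X) (hl : Linked G W X) : Linked G W X' := by
  intro n s t hs ht h1 h2 h3
  obtain ⟨P, hP⟩ := hl n s t (fun i => h (hs i)) (fun i => h (ht i)) h1 h2 h3
  exact ⟨P, hP.sub, hP.conn, hP.left, hP.right, fun i x hx hxX => hP.meet i x hx (h hxX), hP.disj⟩

/-! ### composition -/

/-- `|Y|` disjoint `Y`-`T` paths in `G[W1]` whose ends are linked in `G[W2]`. -/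
theorem comp {W1 W2 Y T : Finset V} {P : Finset (List V)} (hP : Linkage G W1 Y T P)
    (hY : Y ⊆ verts P) (hE : verts P ∩ W2 ⊆ T) (hlink : Linked G W2 (verts P ∩ T)) :
    Linked G (W1 ∪ W2) Y := by
  classical
  obtain ⟨f, g, hf, hdis, -, -, hginj⟩ := hP.family
  have hYm : ∀ y ∈ Y, y ∈ verts P ∩ Y := fun y hy => Finset.mem_inter.2 ⟨hY hy, hy⟩
  have hfv : ∀ y ∈ Y, ∀ x ∈ f y, x ∈ verts P := fun y hy x hx =>
    mem_verts.2 ⟨f y, (hf y (hYm y hy)).1, hx⟩
  have hgE : ∀ y ∈ Y, g y ∈ verts P ∩ T := by
    intro y hy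
    obtain ⟨h1, h2, h3, h4, h5, h6, h7, h8, h9⟩ := hf y (hYm y hy)
    exact Finset.mem_inter.2 ⟨hfv y hy _ h7, h5⟩
  intro n s t hs ht hsi hti hst
  obtain ⟨Q, hQ⟩ := hlink n (fun i => g (s i)) (fun i => g (t i)) (fun i => hgE _ (hs i))
    (fun i => hgE _ (ht i))
    (fun i j hij => hsi (hginj _ (hYm _ (hs i)) _ (hYm _ (hs j)) hij))
    (fun i j hij => hti (hginj _ (hYm _ (ht i)) _ (hYm _ (ht j)) hij))
    (fun i j hij => hst i j (hginj _ (hYm _ (hs i)) _ (hYm _ (ht j)) hij))
  -- a vertex of some `f y` in some `Q j` is `g y`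
  have hfQ : ∀ y ∈ Y, ∀ j, ∀ x ∈ f y, x ∈ Q j → x = g y ∧ (x = g (s j) ∨ x = g (t j)) := by
    intro y hy j x hx hxQ
    obtain ⟨h1, h2, h3, h4, h5, h6, h7, h8, h9⟩ := hf y (hYm y hy)
    have hxv := hfv y hy x hx
    have hxT : x ∈ T := hE (Finset.mem_inter.2 ⟨hxv, hQ.sub j hxQ⟩)
    exact ⟨h9 x hx hxT, hQ.meet j x hxQ (Finset.mem_inter.2 ⟨hxv, hxT⟩)⟩
  refine ⟨fun i => ((f (s i)).toFinset ∪ Q i) ∪ (f (t i)).toFinset, ⟨?_, ?_, ?_, ?_, ?_, ?_⟩⟩
  · intro i
    refine Finset.union_subset (Finset.union_subset ?_ ?_) ?_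
    · intro x hx
      exact Finset.mem_union_left _ ((hf _ (hYm _ (hs i))).2.1.sub x (List.mem_toFinset.1 hx))
    · exact (hQ.sub i).trans Finset.subset_union_right
    · intro x hx
      exact Finset.mem_union_left _ ((hf _ (hYm _ (ht i))).2.1.sub x (List.mem_toFinset.1 hx))
  · intro i
    obtain ⟨h1, h2, h3, h4, h5, h6, h7, h8, h9⟩ := hf _ (hYm _ (hs i))
    obtain ⟨k1, k2, k3, k4, k5, k6, k7, k8, k9⟩ := hf _ (hYm _ (ht i))
    refine Conn.union (x := g (t i)) (Conn.union (x := g (s i)) h2.conn (hQ.conn i) ?_ ?_)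
      k2.conn ?_ ?_
    · exact List.mem_toFinset.2 h7
    · exact hQ.left i
    · exact Finset.mem_union_right _ (hQ.right i)
    · exact List.mem_toFinset.2 k7
  · intro i
    exact Finset.mem_union_left _ (Finset.mem_union_left _
      (List.mem_toFinset.2 (hf _ (hYm _ (hs i))).2.2.2.2.2.1))
  · intro i
    exact Finset.mem_union_right _ (List.mem_toFinset.2 (hf _ (hYm _ (ht i))).2.2.2.2.2.1)
  · intro i x hx hxY
    rcases Finset.mem_union.1 hx with hx | hx
    · rcases Finset.mem_union.1 hx with hx | hx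
      · exact Or.inl ((hf _ (hYm _ (hs i))).2.2.2.2.2.2.2.1 x (List.mem_toFinset.1 hx) hxY)
      · have hxT : x ∈ T := hE (Finset.mem_inter.2 ⟨hY hxY, hQ.sub i hx⟩)
        rcases hQ.meet i x hx (Finset.mem_inter.2 ⟨hY hxY, hxT⟩) with h | h
        · left
          apply (hf _ (hYm _ (hs i))).2.2.2.2.2.2.2.1 x _ hxY
          rw [h]; exact (hf _ (hYm _ (hs i))).2.2.2.2.2.2.1
        · right
          apply (hf _ (hYm _ (ht i))).2.2.2.2.2.2.2.1 x _ hxY
          rw [h]; exact (hf _ (hYm _ (ht i))).2.2.2.2.2.2.1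
    · exact Or.inr ((hf _ (hYm _ (ht i))).2.2.2.2.2.2.2.1 x (List.mem_toFinset.1 hx) hxY)
  · intro i j hij
    have hff : ∀ y ∈ Y, ∀ y' ∈ Y, y ≠ y' → ∀ x, x ∈ f y → x ∈ f y' → False :=
      fun y hy y' hy' hne x hx hx' => hdis y (hYm y hy) y' (hYm y' hy') hne x hx hx'
    rw [Finset.disjoint_left]
    intro x hx hx'
    simp only [Finset.mem_union, List.mem_toFinset] at hx hx'
    have hss : s i ≠ s j := fun h => hij (hsi h)
    have htt : t i ≠ t j := fun h => hij (hti h)
    have gne : ∀ y ∈ Y, ∀ y' ∈ Y, y ≠ y' → g y ≠ g y' := fun y hy y' hy' hne h =>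
      hne (hginj _ (hYm _ hy) _ (hYm _ hy') h)
    rcases hx with (hx | hx) | hx <;> rcases hx' with (hx' | hx') | hx'
    · exact hff _ (hs i) _ (hs j) hss x hx hx'
    · obtain ⟨h1, h2⟩ := hfQ _ (hs i) j x hx hx'
      rcases h2 with h2 | h2
      · exact gne _ (hs i) _ (hs j) hss (h1.symm.trans h2)
      · exact gne _ (hs i) _ (ht j) (hst i j) (h1.symm.trans h2)
    · exact hff _ (hs i) _ (ht j) (hst i j) x hx hx'
    · obtain ⟨h1, h2⟩ := hfQ _ (hs j) i x hx' hx
      rcases h2 with h2 | h2
      · exact gne _ (hs j) _ (hs i) hss.symm (h1.symm.trans h2)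
      · exact gne _ (hs j) _ (ht i) (hst j i) (h1.symm.trans h2)
    · exact Finset.disjoint_left.1 (hQ.disj i j hij) hx hx'
    · obtain ⟨h1, h2⟩ := hfQ _ (ht j) i x hx' hx
      rcases h2 with h2 | h2
      · exact gne _ (ht j) _ (hs i) (hst i j).symm (h1.symm.trans h2)
      · exact gne _ (ht j) _ (ht i) htt.symm (h1.symm.trans h2)
    · exact hff _ (ht i) _ (hs j) (hst j i).symm x hx hx'
    · obtain ⟨h1, h2⟩ := hfQ _ (ht i) j x hx hx'
      rcases h2 with h2 | h2
      · exact gne _ (ht i) _ (hs j) (hst j i).symm (h1.symm.trans h2)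
      · exact gne _ (ht i) _ (ht j) htt (h1.symm.trans h2)
    · exact hff _ (ht i) _ (ht j) htt x hx hx'

/-! ### rerouting -/

/-- `G` plus all edges inside `S`. -/
def addClique (G : SimpleGraph V) (S : Finset V) : SimpleGraph V where
  Adj x y := x ≠ y ∧ (G.Adj x y ∨ (x ∈ S ∧ y ∈ S))
  symm := ⟨fun _ _ h => ⟨h.1.symm, h.2.imp (fun h => h.symm) (fun h => ⟨h.2, h.1⟩)⟩⟩
  loopless := ⟨fun _ h => h.1 rfl⟩

lemma adj_addClique {S : Finset V} {x y : V} (h : G.Adj x y) : (addClique G S).Adj x y :=
  ⟨h.ne, Or.inl h⟩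

open Classical in
/-- the component of `s` in `G[P]`. -/
noncomputable def cmp (G : SimpleGraph V) (P : Finset V) (s : V) : Finset V :=
  P.filter (fun x => Reach G P s x)

lemma mem_cmp {P : Finset V} {s x : V} : x ∈ cmp G P s ↔ x ∈ P ∧ Reach G P s x := by
  simp [cmp]

lemma cmp_sub {P : Finset V} {s : V} : cmp G P s ⊆ P := fun _ hx => (mem_cmp.1 hx).1

lemma self_mem_cmp {P : Finset V} {s : V} (hs : s ∈ P) : s ∈ cmp G P s :=
  mem_cmp.2 ⟨hs, Reach.refl _⟩

lemma conn_cmp {P : Finset V} {s : V} (hs : s ∈ P) : Conn G (cmp G P s) := by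
  refine conn_of_reach (self_mem_cmp hs) ?_
  intro v hv
  have hv' := (mem_cmp.1 hv).2
  clear hv
  induction hv' with
  | refl => exact Reach.refl _
  | tail h1 h2 ih =>
    exact Relation.ReflTransGen.tail ih ⟨h2.1, mem_cmp.2 ⟨h2.2, Relation.ReflTransGen.tail h1 h2⟩⟩

lemma reach_or {S P : Finset V} {s x : V} (hs : s ∈ P) (h : Reach (addClique G S) P s x) :
    Reach G P s x ∨ ∃ a ∈ S, a ∈ P ∧ Reach G P s a := by
  induction h with
  | refl => exact Or.inl (Reach.refl _)
  | tail h1 h2 ih =>
    rename_i y z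
    rcases ih with ih | ih
    · rcases h2.1.2 with h | h
      · exact Or.inl (ih.step h h2.2)
      · exact Or.inr ⟨y, h.1, ih.mem hs, ih⟩
    · exact Or.inr ih

/-- REROUTING: sets joined in `G[A0] + clique on S` are joined in `G[A0 ∪ B]` if `(G[B], S)` is
linked and `A0 ∩ B = S`. -/
theorem reroute {A0 B S : Finset V} (hS : A0 ∩ B = S) (hlink : Linked G B S) (hXA : X ⊆ A0)
    {ι : Type*} [Finite ι] {s t : ι → V} {P : ι → Finset V}
    (hP : Joined (addClique G S) A0 X s t P) : ∃ Q : ι → Finset V, Joined G (A0 ∪ B) X s t Q := by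
  classical
  have hex : ∀ i, ∃ a b, ¬ Reach G (P i) (s i) (t i) →
      a ∈ S ∧ a ∈ cmp G (P i) (s i) ∧ b ∈ S ∧ b ∈ cmp G (P i) (t i) := by
    intro i
    by_cases hr : Reach G (P i) (s i) (t i)
    · exact ⟨s i, s i, fun h => absurd hr h⟩
    · have h1 := reach_or (hP.left i) ((hP.conn i).reach (hP.left i) (hP.right i))
      have h2 := reach_or (hP.right i) ((hP.conn i).reach (hP.right i) (hP.left i))
      obtain ⟨a, ha1, ha2, ha3⟩ := h1.resolve_left hr
      obtain ⟨b, hb1, hb2, hb3⟩ := h2.resolve_left (fun h => hr (h.symm (hP.right i)))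
      exact ⟨a, b, fun _ => ⟨ha1, mem_cmp.2 ⟨ha2, ha3⟩, hb1, mem_cmp.2 ⟨hb2, hb3⟩⟩⟩
  choose a b hab using hex
  have hdisj : ∀ i, ¬ Reach G (P i) (s i) (t i) → ∀ x, x ∈ cmp G (P i) (s i) →
      x ∈ cmp G (P i) (t i) → False := by
    intro i hi x hx hx'
    rw [mem_cmp] at hx hx'
    exact hi (hx.2.trans (hx'.2.symm (hP.right i)))
  have hPd : ∀ i j, ∀ x, x ∈ P i → x ∈ P j → i = j := by
    intro i j x hx hx'
    by_contra hij
    exact Finset.disjoint_left.1 (hP.disj i j hij) hx hx'
  obtain ⟨R, hR⟩ := hlink.family (ι := {i : ι // ¬ Reach G (P i) (s i) (t i)})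
    (fun i => a i.1) (fun i => b i.1) (fun i => (hab _ i.2).1) (fun i => (hab _ i.2).2.2.1)
    (by
      intro i j hij
      have h1 := cmp_sub (hab _ i.2).2.1
      have h2 := cmp_sub (hab _ j.2).2.1
      simp only at hij
      rw [hij] at h1
      exact Subtype.ext (hPd _ _ _ h1 h2))
    (by
      intro i j hij
      have h1 := cmp_sub (hab _ i.2).2.2.2
      have h2 := cmp_sub (hab _ j.2).2.2.2
      simp only at hij
      rw [hij] at h1
      exact Subtype.ext (hPd _ _ _ h1 h2))
    (by
      intro i j hij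
      have h1 := cmp_sub (hab _ i.2).2.1
      have h2 := cmp_sub (hab _ j.2).2.2.2
      rw [hij] at h1
      have h3 := Subtype.ext (hPd _ _ _ h1 h2)
      subst h3
      refine hdisj _ i.2 (a i.1) (hab _ i.2).2.1 ?_
      rw [hij]; exact (hab _ i.2).2.2.2)
  have hRA : ∀ i, ∀ x ∈ R i, x ∈ A0 → x = a i.1 ∨ x = b i.1 := by
    intro i x hx hxA
    apply hR.meet i x hx
    rw [← hS]
    exact Finset.mem_inter.2 ⟨hxA, hR.sub i hx⟩
  have hRP : ∀ i, ∀ x ∈ R i, ∀ j, x ∈ P j → i.1 = j := by
    intro i x hx j hxP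
    rcases hRA i x hx (hP.sub j hxP) with h | h
    · rw [h] at hxP
      exact hPd _ _ _ (cmp_sub (hab _ i.2).2.1) hxP
    · rw [h] at hxP
      exact hPd _ _ _ (cmp_sub (hab _ i.2).2.2.2) hxP
  -- the new sets
  have hQ : ∀ i, ∃ Q : Finset V, Q ⊆ A0 ∪ B ∧ Conn G Q ∧ s i ∈ Q ∧ t i ∈ Q ∧
      ∀ x ∈ Q, x ∈ P i ∨ ∃ h : ¬ Reach G (P i) (s i) (t i), x ∈ R ⟨i, h⟩ := by
    intro i
    by_cases hr : Reach G (P i) (s i) (t i)
    · refine ⟨cmp G (P i) (s i), (cmp_sub.trans (hP.sub i)).trans Finset.subset_union_left,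
        conn_cmp (hP.left i), self_mem_cmp (hP.left i), mem_cmp.2 ⟨hP.right i, hr⟩,
        fun x hx => Or.inl (cmp_sub hx)⟩
    · refine ⟨(cmp G (P i) (s i) ∪ R ⟨i, hr⟩) ∪ cmp G (P i) (t i), ?_, ?_, ?_, ?_, ?_⟩
      · refine Finset.union_subset (Finset.union_subset ?_ ?_) ?_
        · exact (cmp_sub.trans (hP.sub i)).trans Finset.subset_union_left
        · exact (hR.sub _).trans Finset.subset_union_right
        · exact (cmp_sub.trans (hP.sub i)).trans Finset.subset_union_left
      · refine Conn.union (x := b i) (Conn.union (x := a i) (conn_cmp (hP.left i))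
          (hR.conn ⟨i, hr⟩) (hab i hr).2.1 (hR.left ⟨i, hr⟩)) (conn_cmp (hP.right i)) ?_
          (hab i hr).2.2.2
        exact Finset.mem_union_right _ (hR.right ⟨i, hr⟩)
      · exact Finset.mem_union_left _ (Finset.mem_union_left _ (self_mem_cmp (hP.left i)))
      · exact Finset.mem_union_right _ (self_mem_cmp (hP.right i))
      · intro x hx
        rcases Finset.mem_union.1 hx with hx | hx
        · rcases Finset.mem_union.1 hx with hx | hx
          · exact Or.inl (cmp_sub hx)
          · exact Or.inr ⟨hr, hx⟩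
        · exact Or.inl (cmp_sub hx)
  choose Q hQ1 hQ2 hQ3 hQ4 hQ5 using hQ
  refine ⟨Q, ⟨hQ1, hQ2, hQ3, hQ4, ?_, ?_⟩⟩
  · intro i x hx hxX
    rcases hQ5 i x hx with h | ⟨hr, h⟩
    · exact hP.meet i x h hxX
    · have hxA := hXA hxX
      rcases hRA _ x h hxA with h' | h'
      · exact hP.meet i x (by rw [h']; exact cmp_sub (hab _ hr).2.1) hxX
      · exact hP.meet i x (by rw [h']; exact cmp_sub (hab _ hr).2.2.2) hxX
  · intro i j hij
    rw [Finset.disjoint_left]
    intro x hx hx'
    rcases hQ5 i x hx with h | ⟨hr, h⟩ <;> rcases hQ5 j x hx' with h' | ⟨hr', h'⟩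
    · exact hij (hPd _ _ _ h h')
    · exact hij (hRP _ x h' i h).symm
    · exact hij (hRP _ x h j h')
    · exact Finset.disjoint_left.1 (hR.disj _ _ (fun he => hij (congrArg Subtype.val he))) h h'

theorem Linked.reroute {A0 B S : Finset V} (hS : A0 ∩ B = S) (hlink : Linked G B S)
    (hXA : X ⊆ A0) (h : Linked (addClique G S) A0 X) : Linked G (A0 ∪ B) X := by
  intro n s t hs ht h1 h2 h3
  obtain ⟨P, hP⟩ := h n s t hs ht h1 h2 h3
  exact TW870.reroute hS hlink hXA hP

/-! ### minimal separations and minimal violations -/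

/-- a separation of minimal order: the other side is joined to the target. -/
theorem exists_min_sep {T : Finset V} (hX : X ⊆ W) (hT : T ⊆ W) {m : ℕ}
    (h : ¬ ∃ Q, Linkage G W X T Q ∧ Q.card = m) :
    ∃ A B Q, Sep G W A B ∧ X ⊆ A ∧ T ⊆ B ∧ (A ∩ B).card < m ∧ Linkage G B (A ∩ B) T Q ∧
      Q.card = (A ∩ B).card := by
  classical
  have h0 : ∃ r, ∃ A B, Sep G W A B ∧ X ⊆ A ∧ T ⊆ B ∧ (A ∩ B).card = r := by
    rcases menger_sep (G := G) hX hT m with h' | ⟨A, B, h1, h2, h3, h4⟩
    · exact absurd h' h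
    · exact ⟨_, A, B, h1, h2, h3, rfl⟩
  have hlt : Nat.find h0 < m := by
    rcases menger_sep (G := G) hX hT m with h' | ⟨A, B, h1, h2, h3, h4⟩
    · exact absurd h' h
    · exact lt_of_le_of_lt (Nat.find_min' h0 ⟨A, B, h1, h2, h3, rfl⟩) h4
  obtain ⟨A, B, h1, h2, h3, h4⟩ := Nat.find_spec h0
  rcases menger_sep (G := G) (W := B) (A := A ∩ B) (B := T) Finset.inter_subset_right h3
    (A ∩ B).card with ⟨Q, hQ1, hQ2⟩ | ⟨P, Q, k1, k2, k3, k4⟩
  · exact ⟨A, B, Q, h1, h2, h3, by omega, hQ1, hQ2⟩
  · exfalso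
    have hPB := k1.left_sub
    have hQB := k1.right_sub
    have heq : (A ∪ P) ∩ Q = P ∩ Q := by
      ext x
      simp only [Finset.mem_inter, Finset.mem_union]
      constructor
      · rintro ⟨h | h, h'⟩
        · exact ⟨k2 (Finset.mem_inter.2 ⟨h, hQB h'⟩), h'⟩
        · exact ⟨h, h'⟩
      · rintro ⟨h, h'⟩
        exact ⟨Or.inr h, h'⟩
    have hsep : Sep G W (A ∪ P) Q := by
      refine ⟨?_, ?_⟩
      · rw [Finset.union_assoc, k1.union, h1.union]
      · intro a ha haQ b hb hbA hadj
        rw [Finset.mem_union, not_or] at hbA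
        rw [Finset.mem_union] at ha
        by_cases haB : a ∈ B
        · have haP : a ∈ P := by
            rw [← k1.union, Finset.mem_union] at haB
            exact haB.resolve_right haQ
          exact k1.nadj a haP haQ b hb hbA.2 hadj
        · have haA : a ∈ A := by
            rcases ha with h | h
            · exact h
            · exact absurd (hPB h) haB
          exact h1.nadj a haA haB b (hQB hb) hbA.1 hadj
    have := Nat.find_min' h0 ⟨A ∪ P, Q, hsep, h2.trans Finset.subset_union_left, k3, rfl⟩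
    rw [heq] at this
    omega

lemma rho_ground_mono {W' S : Finset V} (h : W ⊆ W') : rho G W S ≤ rho G W' S := by
  classical
  unfold rho
  apply Finset.card_le_card
  intro p hp
  rw [Finset.mem_filter, Finset.mem_product] at hp ⊢
  exact ⟨⟨h hp.1.1, h hp.1.2⟩, hp.2⟩

/-- the right difference of a separation sees only the right side. -/
lemma Sep.rho_right {A B : Finset V} (h : Sep G W A B) {S : Finset V} (hS : S ⊆ B \ A) :
    rho G W S ≤ rho G B S := by
  classical
  unfold rho
  apply Finset.card_le_card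
  intro p hp
  rw [Finset.mem_filter, Finset.mem_product] at hp ⊢
  obtain ⟨⟨h1, h2⟩, h3, h4⟩ := hp
  have key : ∀ x y, x ∈ S → y ∈ W → G.Adj x y → x ∈ B ∧ y ∈ B := by
    intro x y hx hy hxy
    have hx' := Finset.mem_sdiff.1 (hS hx)
    refine ⟨hx'.1, ?_⟩
    by_contra hyB
    have hyA : y ∈ A := by
      rw [← h.union, Finset.mem_union] at hy
      exact hy.resolve_right hyB
    exact h.nadj y hyA hyB x hx'.1 hx'.2 hxy.symm
  rcases h4 with h4 | h4
  · obtain ⟨k1, k2⟩ := key _ _ h4 h2 h3
    exact ⟨⟨k1, k2⟩, h3, Or.inl h4⟩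
  · obtain ⟨k1, k2⟩ := key _ _ h4 h1 h3.symm
    exact ⟨⟨k2, k1⟩, h3, Or.inr h4⟩

/-- a minimal violation of (M2) is massed. -/
theorem viol {lam : ℕ} (h : ¬ ∀ A B, Sep G W A B → X ⊆ A → (A ∩ B).card < X.card →
      rho G W (B \ A) ≤ 2 * lam * (B \ A).card) :
    ∃ A B, Sep G W A B ∧ X ⊆ A ∧ (A ∩ B).card < X.card ∧
      2 * lam * (B \ A).card < rho G W (B \ A) ∧ Massed G B (A ∩ B) lam := by
  classical
  by_contra hcon
  apply h
  have key : ∀ (m : ℕ) (A B : Finset V), B.card = m → Sep G W A B → X ⊆ A →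
      (A ∩ B).card < X.card → rho G W (B \ A) ≤ 2 * lam * (B \ A).card := by
    intro m
    induction m using Nat.strong_induction_on with
    | _ m ih =>
      intro A B hm hsep hXA hlt
      by_contra hgt
      push Not at hgt
      apply hcon
      refine ⟨A, B, hsep, hXA, hlt, hgt, ⟨Finset.inter_subset_right, ?_, ?_⟩⟩
      · have heq : B \ (A ∩ B) = B \ A := by
          ext x; simp only [Finset.mem_sdiff, Finset.mem_inter]; tauto
        rw [heq]
        exact lt_of_lt_of_le hgt (Sep.rho_right hsep (le_refl _))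
      · intro P Q hPQ hAP hcard
        have hPB := hPQ.left_sub
        have hQB := hPQ.right_sub
        have heq : (A ∪ P) ∩ Q = P ∩ Q := by
          ext x
          simp only [Finset.mem_inter, Finset.mem_union]
          constructor
          · rintro ⟨h | h, h'⟩
            · exact ⟨hAP (Finset.mem_inter.2 ⟨h, hQB h'⟩), h'⟩
            · exact ⟨h, h'⟩
          · rintro ⟨h, h'⟩
            exact ⟨Or.inr h, h'⟩
        have heq2 : Q \ (A ∪ P) = Q \ P := by
          ext x
          simp only [Finset.mem_sdiff, Finset.mem_union, not_or]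
          constructor
          · rintro ⟨h, h', h''⟩; exact ⟨h, h''⟩
          · rintro ⟨h, h'⟩
            exact ⟨h, fun hA => h' (hAP (Finset.mem_inter.2 ⟨hA, hQB h⟩)), h'⟩
        have hsep' : Sep G W (A ∪ P) Q := by
          refine ⟨?_, ?_⟩
          · rw [Finset.union_assoc, hPQ.union, hsep.union]
          · intro a ha haQ b hb hbA hadj
            rw [Finset.mem_union, not_or] at hbA
            rw [Finset.mem_union] at ha
            by_cases haB : a ∈ B
            · have haP : a ∈ P := by
                rw [← hPQ.union, Finset.mem_union] at haB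
                exact haB.resolve_right haQ
              exact hPQ.nadj a haP haQ b hb hbA.2 hadj
            · have haA : a ∈ A := by
                rcases ha with h | h
                · exact h
                · exact absurd (hPB h) haB
              exact hsep.nadj a haA haB b (hQB hb) hbA.1 hadj
        have hQcard : Q.card < m := by
          rw [← hm]
          refine Finset.card_lt_card ⟨hQB, fun hBQ => ?_⟩
          have hQe : Q = B := le_antisymm hQB hBQ
          rw [hQe] at hcard
          have : A ∩ B ⊆ P ∩ B := fun x hx =>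
            Finset.mem_inter.2 ⟨hAP hx, (Finset.mem_inter.1 hx).2⟩
          exact absurd (Finset.card_le_card this) (by omega)
        have := ih Q.card hQcard (A ∪ P) Q rfl hsep' (hXA.trans Finset.subset_union_left)
          (by rw [heq]; omega)
        rw [heq2] at this
        exact (rho_ground_mono hsep.right_sub).trans this
  exact fun A B => key B.card A B rfl

lemma clique_side {S A B : Finset V} (h : Sep (addClique G S) W A B) (hS : S ⊆ W) :
    S ⊆ A ∨ S ⊆ B := by
  by_contra hcon
  rw [not_or, Finset.not_subset, Finset.not_subset] at hcon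
  obtain ⟨⟨x, hx, hxA⟩, ⟨y, hy, hyB⟩⟩ := hcon
  have hxB : x ∈ B := by
    have := hS hx
    rw [← h.union, Finset.mem_union] at this
    exact this.resolve_left hxA
  have hyA : y ∈ A := by
    have := hS hy
    rw [← h.union, Finset.mem_union] at this
    exact this.resolve_right hyB
  refine h.nadj y hyA hyB x hxB hxA ⟨?_, Or.inr ⟨hy, hx⟩⟩
  rintro rfl
  exact hxA hyA

/-- CLAIM A: in a minimal counterexample there is no rigid separation of order at most `|X|`. -/
theorem claimA {lam m : ℕ}
    (IH : ∀ (G' : SimpleGraph V) (W' X' : Finset V), W'.card < W.card → Massed G' W' X' lam →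
      X'.card ≤ m → Linked G' W' X')
    (hM : Massed G W X lam) (hXc : X.card ≤ m) {n : ℕ} {s t : Fin n → V}
    (hs : ∀ i, s i ∈ X) (ht : ∀ i, t i ∈ X) (hsi : Function.Injective s)
    (hti : Function.Injective t) (hst : ∀ i j, s i ≠ t j)
    (hbad : ¬ ∃ P : Fin n → Finset V, Joined G W X s t P) :
    ∀ (c : ℕ) (A B : Finset V), A.card = c → Sep G W A B → X ⊆ A → (B \ A).Nonempty →
      (A ∩ B).card ≤ X.card → ¬ Linked G B (A ∩ B) := by
  classical
  have hnl : ¬ Linked G W X := fun h => hbad (h n s t hs ht hsi hti hst)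
  intro c
  induction c using Nat.strong_induction_on with
  | _ c ihA =>
  intro A B hAc hsep hXA hBA hle hrig
  have hAW := hsep.left_sub
  have hBW := hsep.right_sub
  have hAlt : A.card < W.card := by
    refine Finset.card_lt_card ⟨hAW, fun hWA => ?_⟩
    obtain ⟨x, hx⟩ := hBA
    rw [Finset.mem_sdiff] at hx
    exact hx.2 (hWA (hBW hx.1))
  have hcardsplit : (W \ X).card = (A \ X).card + (B \ A).card := by
    rw [← Finset.card_union_of_disjoint]
    · congr 1
      ext x
      simp only [Finset.mem_sdiff, Finset.mem_union]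
      constructor
      · rintro ⟨h1, h2⟩
        by_cases hxA : x ∈ A
        · exact Or.inl ⟨hxA, h2⟩
        · rw [← hsep.union, Finset.mem_union] at h1
          exact Or.inr ⟨h1.resolve_left hxA, hxA⟩
      · rintro (⟨h1, h2⟩ | ⟨h1, h2⟩)
        · exact ⟨hAW h1, h2⟩
        · exact ⟨hBW h1, fun h => h2 (hXA h)⟩
    · rw [Finset.disjoint_left]
      intro x hx hx'
      exact (Finset.mem_sdiff.1 hx').2 (Finset.mem_sdiff.1 hx).1
  -- `(G[A] + clique on S, X)` is not massed
  have hnm : ¬ Massed (addClique G (A ∩ B)) A X lam := by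
    intro hm
    have hl := IH _ A X hAlt hm hXc
    apply hnl
    have := Linked.reroute rfl hrig hXA hl
    rwa [hsep.union] at this
  apply hnm
  refine ⟨hXA, ?_, ?_⟩
  · -- (M1)
    rcases Nat.lt_or_ge (A ∩ B).card X.card with hlt | hge
    · have h1 := hM.m2 A B hsep hXA hlt
      have h2 := hM.m1
      have h3 : rho G W (W \ X) ≤ rho (addClique G (A ∩ B)) A (A \ X) + rho G W (B \ A) := by
        unfold rho
        refine le_trans (Finset.card_le_card ?_) (Finset.card_union_le _ _)
        intro p hp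
        rw [Finset.mem_filter, Finset.mem_product] at hp
        obtain ⟨⟨k1, k2⟩, k3, k4⟩ := hp
        rw [Finset.mem_union, Finset.mem_filter, Finset.mem_filter, Finset.mem_product,
          Finset.mem_product]
        by_cases hp1 : p.1 ∈ A
        · by_cases hp2 : p.2 ∈ A
          · left
            refine ⟨⟨hp1, hp2⟩, adj_addClique k3, ?_⟩
            rcases k4 with k4 | k4
            · exact Or.inl (Finset.mem_sdiff.2 ⟨hp1, (Finset.mem_sdiff.1 k4).2⟩)
            · exact Or.inr (Finset.mem_sdiff.2 ⟨hp2, (Finset.mem_sdiff.1 k4).2⟩)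
          · right
            refine ⟨⟨k1, k2⟩, k3, Or.inr (Finset.mem_sdiff.2 ⟨?_, hp2⟩)⟩
            rw [← hsep.union, Finset.mem_union] at k2
            exact k2.resolve_left hp2
        · right
          refine ⟨⟨k1, k2⟩, k3, Or.inl (Finset.mem_sdiff.2 ⟨?_, hp1⟩)⟩
          rw [← hsep.union, Finset.mem_union] at k1
          exact k1.resolve_left hp1
      rw [hcardsplit, Nat.mul_add] at h2
      omega
    · exfalso
      have hSA : A ∩ B ⊆ A := Finset.inter_subset_left
      by_cases hlk : ∃ Q, Linkage G A X (A ∩ B) Q ∧ Q.card = X.card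
      · obtain ⟨Q, hQ, hQc⟩ := hlk
        apply hnl
        have hXv : X ⊆ verts Q := by
          have h1 := hQ.verts_inter_card_left
          have h2 : verts Q ∩ X = X :=
            Finset.eq_of_subset_of_card_le Finset.inter_subset_right (by omega)
          intro x hx
          rw [← h2] at hx
          exact (Finset.mem_inter.1 hx).1
        have hend : verts Q ∩ (A ∩ B) = A ∩ B := by
          refine Finset.eq_of_subset_of_card_le Finset.inter_subset_right ?_
          rw [hQ.verts_inter_card]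
          omega
        have hvA : verts Q ⊆ A := by
          intro x hx
          obtain ⟨l, hl, hxl⟩ := mem_verts.1 hx
          exact (hQ.path l hl).sub x hxl
        have := comp (W2 := B) hQ hXv (fun x hx => Finset.mem_inter.2
          ⟨hvA (Finset.mem_inter.1 hx).1, (Finset.mem_inter.1 hx).2⟩) (by rw [hend]; exact hrig)
        rwa [hsep.union] at this
      · obtain ⟨A1, A2, Q, k1, k2, k3, k4, k5, k6⟩ := exists_min_sep hXA hSA hlk
        have hA1 := k1.left_sub
        have hA2 := k1.right_sub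
        have heq : A1 ∩ (A2 ∪ B) = A1 ∩ A2 := by
          ext x
          simp only [Finset.mem_inter, Finset.mem_union]
          constructor
          · rintro ⟨h1, h2 | h2⟩
            · exact ⟨h1, h2⟩
            · exact ⟨h1, k3 (Finset.mem_inter.2 ⟨hA1 h1, h2⟩)⟩
          · rintro ⟨h1, h2⟩
            exact ⟨h1, Or.inl h2⟩
        have hlt1 : A1.card < c := by
          rw [← hAc]
          refine Finset.card_lt_card ⟨hA1, fun hAA => ?_⟩
          have : A ∩ B ⊆ A1 ∩ A2 := fun x hx =>
            Finset.mem_inter.2 ⟨hAA (Finset.mem_inter.1 hx).1, k3 hx⟩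
          have := Finset.card_le_card this
          omega
        have hsep1 : Sep G W A1 (A2 ∪ B) := by
          refine ⟨by rw [← Finset.union_assoc, k1.union, hsep.union], ?_⟩
          intro a ha haB b hb hbA hadj
          rw [Finset.mem_union, not_or] at haB
          have haA := hA1 ha
          by_cases hbA' : b ∈ A
          · have hb2 : b ∈ A2 := by
              rw [← k1.union, Finset.mem_union] at hbA'
              exact hbA'.resolve_left hbA
            exact k1.nadj a ha haB.1 b hb2 hbA hadj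
          · have hbB : b ∈ B := by
              rcases Finset.mem_union.1 hb with h | h
              · exact absurd (hA2 h) hbA'
              · exact h
            exact hsep.nadj a haA haB.2 b hbB hbA' hadj
        refine ihA A1.card hlt1 A1 (A2 ∪ B) rfl hsep1 k2 ?_ (by rw [heq]; omega) ?_
        · obtain ⟨x, hx⟩ := hBA
          rw [Finset.mem_sdiff] at hx
          exact ⟨x, Finset.mem_sdiff.2 ⟨Finset.mem_union_right _ hx.1, fun h => hx.2 (hA1 h)⟩⟩
        · rw [heq]
          have hv1 : A1 ∩ A2 ⊆ verts Q := by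
            have h1 := k5.verts_inter_card_left
            have h2 : verts Q ∩ (A1 ∩ A2) = A1 ∩ A2 :=
              Finset.eq_of_subset_of_card_le Finset.inter_subset_right (by omega)
            intro x hx
            rw [← h2] at hx
            exact (Finset.mem_inter.1 hx).1
          have hvA : verts Q ⊆ A2 := by
            intro x hx
            obtain ⟨l, hl, hxl⟩ := mem_verts.1 hx
            exact (k5.path l hl).sub x hxl
          refine comp (W2 := B) k5 hv1 (fun x hx => Finset.mem_inter.2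
            ⟨hA2 (hvA (Finset.mem_inter.1 hx).1), (Finset.mem_inter.1 hx).2⟩) ?_
          -- the set of ends is a subset of `S`
          exact linked_anti Finset.inter_subset_right hrig
  · -- (M2)
    by_contra hviol
    obtain ⟨A', B', h1, h2, h3, h4, h5⟩ := viol hviol
    have hA'A := h1.left_sub
    have hB'A := h1.right_sub
    rcases clique_side h1 Finset.inter_subset_left with hS | hS
    · -- `S ⊆ A'`
      have heq : (A' ∪ B) ∩ B' = A' ∩ B' := by
        ext x
        simp only [Finset.mem_inter, Finset.mem_union]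
        constructor
        · rintro ⟨k | k, k'⟩
          · exact ⟨k, k'⟩
          · exact ⟨hS (Finset.mem_inter.2 ⟨hB'A k', k⟩), k'⟩
        · rintro ⟨k, k'⟩
          exact ⟨Or.inl k, k'⟩
      have heq2 : B' \ (A' ∪ B) = B' \ A' := by
        ext x
        simp only [Finset.mem_sdiff, Finset.mem_union, not_or]
        constructor
        · rintro ⟨k, k', k''⟩; exact ⟨k, k'⟩
        · rintro ⟨k, k'⟩
          exact ⟨k, k', fun hB => k' (hS (Finset.mem_inter.2 ⟨hB'A k, hB⟩))⟩
      have hsep' : Sep G W (A' ∪ B) B' := by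
        refine ⟨?_, ?_⟩
        · have : A' ∪ B ∪ B' = (A' ∪ B') ∪ B := by
            ext x; simp only [Finset.mem_union]; tauto
          rw [this, h1.union, hsep.union]
        · intro a ha haB b hb hbA hadj
          rw [Finset.mem_union, not_or] at hbA
          by_cases haA : a ∈ A
          · have haA' : a ∈ A' := by
              rw [← h1.union, Finset.mem_union] at haA
              exact haA.resolve_right haB
            exact h1.nadj a haA' haB b hb hbA.1 (adj_addClique hadj)
          · have haB' : a ∈ B := by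
              rcases Finset.mem_union.1 ha with k | k
              · exact absurd (hA'A k) haA
              · exact k
            exact hsep.nadj b (hB'A hb) hbA.2 a haB' haA hadj.symm
      have k1 := hM.m2 (A' ∪ B) B' hsep' (h2.trans Finset.subset_union_left) (by rw [heq]; exact h3)
      rw [heq2] at k1
      have k2 : rho (addClique G (A ∩ B)) A (B' \ A') ≤ rho G W (B' \ A') := by
        unfold rho
        apply Finset.card_le_card
        intro p hp
        rw [Finset.mem_filter, Finset.mem_product] at hp ⊢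
        obtain ⟨⟨j1, j2⟩, j3, j4⟩ := hp
        refine ⟨⟨hAW j1, hAW j2⟩, ?_, j4⟩
        rcases j3.2 with j | j
        · exact j
        · exfalso
          rcases j4 with j4 | j4
          · exact (Finset.mem_sdiff.1 j4).2 (hS j.1)
          · exact (Finset.mem_sdiff.1 j4).2 (hS j.2)
      omega
    · -- `S ⊆ B'`
      by_cases hSA' : A ∩ B ⊆ A'
      · -- then the first case applies again
        have heq : (A' ∪ B) ∩ B' = A' ∩ B' := by
          ext x
          simp only [Finset.mem_inter, Finset.mem_union]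
          constructor
          · rintro ⟨k | k, k'⟩
            · exact ⟨k, k'⟩
            · exact ⟨hSA' (Finset.mem_inter.2 ⟨hB'A k', k⟩), k'⟩
          · rintro ⟨k, k'⟩
            exact ⟨Or.inl k, k'⟩
        have heq2 : B' \ (A' ∪ B) = B' \ A' := by
          ext x
          simp only [Finset.mem_sdiff, Finset.mem_union, not_or]
          constructor
          · rintro ⟨k, k', k''⟩; exact ⟨k, k'⟩
          · rintro ⟨k, k'⟩
            exact ⟨k, k', fun hB => k' (hSA' (Finset.mem_inter.2 ⟨hB'A k, hB⟩))⟩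
        have hsep' : Sep G W (A' ∪ B) B' := by
          refine ⟨?_, ?_⟩
          · have : A' ∪ B ∪ B' = (A' ∪ B') ∪ B := by
              ext x; simp only [Finset.mem_union]; tauto
            rw [this, h1.union, hsep.union]
          · intro a ha haB b hb hbA hadj
            rw [Finset.mem_union, not_or] at hbA
            by_cases haA : a ∈ A
            · have haA' : a ∈ A' := by
                rw [← h1.union, Finset.mem_union] at haA
                exact haA.resolve_right haB
              exact h1.nadj a haA' haB b hb hbA.1 (adj_addClique hadj)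
            · have haB' : a ∈ B := by
                rcases Finset.mem_union.1 ha with k | k
                · exact absurd (hA'A k) haA
                · exact k
              exact hsep.nadj b (hB'A hb) hbA.2 a haB' haA hadj.symm
        have k1 := hM.m2 (A' ∪ B) B' hsep' (h2.trans Finset.subset_union_left)
          (by rw [heq]; exact h3)
        rw [heq2] at k1
        have k2 : rho (addClique G (A ∩ B)) A (B' \ A') ≤ rho G W (B' \ A') := by
          unfold rho
          apply Finset.card_le_card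
          intro p hp
          rw [Finset.mem_filter, Finset.mem_product] at hp ⊢
          obtain ⟨⟨j1, j2⟩, j3, j4⟩ := hp
          refine ⟨⟨hAW j1, hAW j2⟩, ?_, j4⟩
          rcases j3.2 with j | j
          · exact j
          · exfalso
            rcases j4 with j4 | j4
            · exact (Finset.mem_sdiff.1 j4).2 (hSA' j.1)
            · exact (Finset.mem_sdiff.1 j4).2 (hSA' j.2)
        omega
      · have hl := IH _ B' (A' ∩ B') (lt_of_le_of_lt (Finset.card_le_card hB'A) hAlt) h5
          (by omega)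
        have hBB : B' ∩ B = A ∩ B := by
          ext x
          simp only [Finset.mem_inter]
          constructor
          · rintro ⟨k, k'⟩; exact ⟨hB'A k, k'⟩
          · rintro ⟨k, k'⟩; exact ⟨hS (Finset.mem_inter.2 ⟨k, k'⟩), k'⟩
        have hl2 := Linked.reroute hBB hrig Finset.inter_subset_right hl
        have heq : A' ∩ (B' ∪ B) = A' ∩ B' := by
          ext x
          simp only [Finset.mem_inter, Finset.mem_union]
          constructor
          · rintro ⟨k, k' | k'⟩
            · exact ⟨k, k'⟩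
            · exact ⟨k, hS (Finset.mem_inter.2 ⟨hA'A k, k'⟩)⟩
          · rintro ⟨k, k'⟩
            exact ⟨k, Or.inl k'⟩
        have hlt1 : A'.card < c := by
          rw [← hAc]
          exact Finset.card_lt_card ⟨hA'A, fun hAA => hSA' (Finset.inter_subset_left.trans hAA)⟩
        have hsep' : Sep G W A' (B' ∪ B) := by
          refine ⟨by rw [← Finset.union_assoc, h1.union, hsep.union], ?_⟩
          intro a ha haB b hb hbA hadj
          rw [Finset.mem_union, not_or] at haB
          by_cases hbA' : b ∈ A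
          · have hb2 : b ∈ B' := by
              rw [← h1.union, Finset.mem_union] at hbA'
              exact hbA'.resolve_left hbA
            exact h1.nadj a ha haB.1 b hb2 hbA (adj_addClique hadj)
          · have hbB : b ∈ B := by
              rcases Finset.mem_union.1 hb with k | k
              · exact absurd (hB'A k) hbA'
              · exact k
            exact hsep.nadj a (hA'A ha) haB.2 b hbB hbA' hadj
        refine ihA A'.card hlt1 A' (B' ∪ B) rfl hsep' h2 ?_ (by rw [heq]; omega)
          (by rw [heq]; exact hl2)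
        obtain ⟨x, hx⟩ := hBA
        rw [Finset.mem_sdiff] at hx
        exact ⟨x, Finset.mem_sdiff.2 ⟨Finset.mem_union_right _ hx.1, fun h => hx.2 (hA'A h)⟩⟩

end Crest.Agent.R042.TW870
end

-- ▼ part R042/LemD_473
section

/-! Row 42, S0058, section 05, LEMMA D: a graph with minimum degree `≥ 8k` on at most `16k+1`
vertices contains a highly linked vertex set. -/

set_option autoImplicit false
set_option linter.unusedSectionVars false

namespace Crest.Agent.R042.LemD473

open Finset Classical
open Crest.Agent.R042.Conn353 Crest.Agent.R042.Menger353 Crest.Agent.R042.Link870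

variable {V : Type*} {G : SimpleGraph V}

/-! ### list lemmas -/

lemma chain_mid {a : List V} {x : V} {b : List V} {z : V} {c : List V} {v : V}
    (h : (a ++ x :: (b ++ z :: c)).IsChain G.Adj) (h1 : G.Adj x v) (h2 : G.Adj v z) :
    (a ++ x :: v :: z :: c).IsChain G.Adj := by
  rw [List.isChain_split] at h ⊢
  refine ⟨h.1, ?_⟩
  have h3 : (z :: c).IsChain G.Adj := by
    have := h.2
    rw [← List.cons_append, List.isChain_split] at this
    exact this.2
  rw [List.isChain_cons_cons, List.isChain_cons_cons]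
  exact ⟨h1, h2, h3⟩

lemma chain_mid' {a : List V} {x : V} {b : List V} {z : V} {c : List V}
    (h : (a ++ x :: (b ++ z :: c)).IsChain G.Adj) (h1 : G.Adj x z) :
    (a ++ x :: z :: c).IsChain G.Adj := by
  rw [List.isChain_split] at h ⊢
  refine ⟨h.1, ?_⟩
  have h3 : (z :: c).IsChain G.Adj := by
    have := h.2
    rw [← List.cons_append, List.isChain_split] at this
    exact this.2
  rw [List.isChain_cons_cons]
  exact ⟨h1, h3⟩

lemma chain_eq {a : List V} {x : V} {b : List V} {c : List V}
    (h : (a ++ x :: (b ++ x :: c)).IsChain G.Adj) :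
    (a ++ x :: c).IsChain G.Adj := by
  rw [List.isChain_split] at h ⊢
  refine ⟨h.1, ?_⟩
  have := h.2
  rw [← List.cons_append, List.isChain_split] at this
  exact this.2


/-- `l` is a walk inside `K` from `A` to `B`. -/
def Wk (G : SimpleGraph V) (K A B : Finset V) (l : List V) : Prop :=
  (∀ x ∈ l, x ∈ K) ∧ l.IsChain G.Adj ∧ (∃ a ∈ A, l.head? = some a) ∧ (∃ b ∈ B, l.getLast? = some b)

lemma head_mid (a : List V) (x : V) (r r' : List V) :
    (a ++ x :: r).head? = (a ++ x :: r').head? := by
  cases a <;> simp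

lemma last_mid (a a' : List V) (z : V) (c : List V) :
    (a ++ z :: c).getLast? = (a' ++ z :: c).getLast? := by
  rw [List.getLast?_append_of_ne_nil _ (by simp), List.getLast?_append_of_ne_nil _ (by simp)]

/-- in a shortest walk vertices at distance `≥ 3` have disjoint closed neighbourhoods. -/
lemma far_disj {K A B : Finset V} {l : List V} (hl : Wk G K A B l)
    (hmin : ∀ l', Wk G K A B l' → l.length ≤ l'.length)
    {a : List V} {x : V} {b : List V} {z : V} {c : List V} (h : l = a ++ x :: (b ++ z :: c))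
    (hb : 2 ≤ b.length) :
    Disjoint (K.filter fun y => y = x ∨ G.Adj x y) (K.filter fun y => y = z ∨ G.Adj z y) := by
  rw [Finset.disjoint_left]
  intro y hy hy'
  rw [Finset.mem_filter] at hy hy'
  obtain ⟨hyK, hy⟩ := hy
  obtain ⟨-, hy'⟩ := hy'
  obtain ⟨hK, hc, ⟨u, hu, hhd⟩, ⟨w, hw, hlt⟩⟩ := hl
  subst h
  have e2 : a ++ x :: (b ++ z :: c) = (a ++ x :: b) ++ z :: c := by simp
  have hzK : z ∈ K := hK z (by simp)
  have hxK : x ∈ K := hK x (by simp)
  have haK : ∀ q ∈ a, q ∈ K := fun q hq => hK q (by simp [hq])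
  have hcK : ∀ q ∈ c, q ∈ K := fun q hq => hK q (by simp [hq])
  rcases eq_or_ne x z with hxz | hxz
  · subst hxz
    have := hmin (a ++ x :: c) ⟨?_, chain_eq hc, ⟨u, hu, ?_⟩, ⟨w, hw, ?_⟩⟩
    · simp only [List.length_append, List.length_cons] at this
      omega
    · intro q hq
      rw [List.mem_append, List.mem_cons] at hq
      rcases hq with hq | rfl | hq
      · exact haK q hq
      · exact hxK
      · exact hcK q hq
    · rw [← hhd]; exact head_mid _ _ _ _
    · rw [← hlt, e2]; exact last_mid _ _ _ _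
  by_cases hxz' : G.Adj x z
  · have := hmin (a ++ x :: z :: c) ⟨?_, chain_mid' hc hxz', ⟨u, hu, ?_⟩, ⟨w, hw, ?_⟩⟩
    · simp only [List.length_append, List.length_cons] at this
      omega
    · intro q hq
      simp only [List.mem_append, List.mem_cons] at hq
      rcases hq with hq | rfl | rfl | hq
      · exact haK q hq
      · exact hxK
      · exact hzK
      · exact hcK q hq
    · rw [← hhd]; exact head_mid _ _ _ _
    · rw [← hlt, e2]
      have : a ++ x :: z :: c = (a ++ [x]) ++ z :: c := by simp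
      rw [this]; exact last_mid _ _ _ _
  have h1 : G.Adj x y := by
    rcases hy with rfl | h
    · rcases hy' with h | h
      · exact absurd h hxz
      · exact absurd h.symm hxz'
    · exact h
  have h2 : G.Adj y z := by
    rcases hy' with rfl | h
    · exact absurd h1 hxz'
    · exact h.symm
  have := hmin (a ++ x :: y :: z :: c) ⟨?_, chain_mid hc h1 h2, ⟨u, hu, ?_⟩, ⟨w, hw, ?_⟩⟩
  · simp only [List.length_append, List.length_cons] at this
    omega
  · intro q hq
    simp only [List.mem_append, List.mem_cons] at hq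
    rcases hq with hq | rfl | rfl | rfl | hq
    · exact haK q hq
    · exact hxK
    · exact hyK
    · exact hzK
    · exact hcK q hq
  · rw [← hhd]; exact head_mid _ _ _ _
  · rw [← hlt, e2]
    have : a ++ x :: y :: z :: c = (a ++ [x, y]) ++ z :: c := by simp
    rw [this]; exact last_mid _ _ _ _

/-- a shortest walk in a graph on `≤ 14k+1` vertices with minimum degree `≥ 5k` has at most
six vertices. -/
lemma short_walk {K A B : Finset V} {k : ℕ} (hcard : K.card ≤ 14 * k + 1)
    (hdeg : ∀ v ∈ K, 5 * k ≤ (K.filter (G.Adj v)).card) {l : List V} (hl : Wk G K A B l)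
    (hmin : ∀ l', Wk G K A B l' → l.length ≤ l'.length) : l.length ≤ 6 := by
  by_contra hlen
  push Not at hlen
  obtain ⟨x0, x1, x2, x3, x4, x5, x6, c, rfl⟩ :
      ∃ x0 x1 x2 x3 x4 x5 x6 c, l = x0 :: x1 :: x2 :: x3 :: x4 :: x5 :: x6 :: c := by
    match l, hlen with
    | x0 :: x1 :: x2 :: x3 :: x4 :: x5 :: x6 :: c, _ => exact ⟨x0, x1, x2, x3, x4, x5, x6, c, rfl⟩
  have d03 := far_disj hl hmin (a := []) (x := x0) (b := [x1, x2]) (z := x3)
    (c := x4 :: x5 :: x6 :: c) rfl (by simp)
  have d36 := far_disj hl hmin (a := [x0, x1, x2]) (x := x3) (b := [x4, x5]) (z := x6)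
    (c := c) rfl (by simp)
  have d06 := far_disj hl hmin (a := []) (x := x0) (b := [x1, x2, x3, x4, x5]) (z := x6)
    (c := c) rfl (by simp)
  have hcl : ∀ x ∈ K, 5 * k + 1 ≤ (K.filter fun y => y = x ∨ G.Adj x y).card := by
    intro x hx
    have h1 : insert x (K.filter (G.Adj x)) ⊆ K.filter fun y => y = x ∨ G.Adj x y := by
      intro y hy
      rw [Finset.mem_insert, Finset.mem_filter] at hy
      rw [Finset.mem_filter]
      rcases hy with rfl | hy
      · exact ⟨hx, Or.inl rfl⟩
      · exact ⟨hy.1, Or.inr hy.2⟩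
    have h2 := Finset.card_le_card h1
    rw [Finset.card_insert_of_notMem (by simp)] at h2
    have := hdeg x hx
    omega
  have hK := hl.1
  have c0 := hcl x0 (hK x0 (by simp))
  have c3 := hcl x3 (hK x3 (by simp))
  have c6 := hcl x6 (hK x6 (by simp))
  have hsub : (K.filter fun y => y = x0 ∨ G.Adj x0 y) ∪ (K.filter fun y => y = x3 ∨ G.Adj x3 y) ∪
      (K.filter fun y => y = x6 ∨ G.Adj x6 y) ⊆ K :=
    Finset.union_subset (Finset.union_subset (Finset.filter_subset _ _) (Finset.filter_subset _ _))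
      (Finset.filter_subset _ _)
  have h3 := Finset.card_le_card hsub
  rw [Finset.card_union_of_disjoint (Finset.disjoint_union_left.2 ⟨d06, d36⟩),
    Finset.card_union_of_disjoint d03] at h3
  omega

/-- reachability gives a walk. -/
lemma exists_wk {K A B : Finset V} {x y : V} (hx : x ∈ K) (hxA : x ∈ A) (hyB : y ∈ B)
    (h : Reach G K x y) : ∃ l, Wk G K A B l := by
  obtain ⟨l, h1, h2, s, h3⟩ := h.exists_chain
  refine ⟨x :: l, ?_, h1, ⟨x, hxA, rfl⟩, ⟨y, hyB, ?_⟩⟩
  · intro z hz
    rcases List.mem_cons.1 hz with rfl | hz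
    · exact hx
    · exact h2 z hz
  · rw [h3]; simp

lemma exists_min_wk {K A B : Finset V} (h : ∃ l, Wk G K A B l) :
    ∃ l, Wk G K A B l ∧ ∀ l', Wk G K A B l' → l.length ≤ l'.length := by
  have h' : ∃ n, ∃ l, Wk G K A B l ∧ l.length = n := by
    obtain ⟨l, hl⟩ := h
    exact ⟨_, l, hl, rfl⟩
  obtain ⟨l, hl, hn⟩ := Nat.find_spec h'
  refine ⟨l, hl, fun l' hl' => ?_⟩
  rw [hn]
  exact Nat.find_min' h' ⟨l', hl', rfl⟩

lemma min_wk_nodup {K A B : Finset V} {l : List V} (hl : Wk G K A B l)
    (hmin : ∀ l', Wk G K A B l' → l.length ≤ l'.length) : l.Nodup := by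
  by_contra hn
  obtain ⟨a, x, b, c, rfl⟩ := split_dup l hn
  obtain ⟨hK, hc, ⟨u, hu, hhd⟩, ⟨w, hw, hlt⟩⟩ := hl
  have e2 : a ++ x :: (b ++ x :: c) = (a ++ x :: b) ++ x :: c := by simp
  have := hmin (a ++ x :: c) ⟨?_, chain_eq hc, ⟨u, hu, ?_⟩, ⟨w, hw, ?_⟩⟩
  · simp only [List.length_append, List.length_cons] at this
    omega
  · intro q hq
    rw [List.mem_append, List.mem_cons] at hq
    rcases hq with hq | rfl | hq
    · exact hK q (by simp [hq])
    · exact hK q (by simp)
    · exact hK q (by simp [hq])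
  · rw [← hhd]; exact head_mid _ _ _ _
  · rw [← hlt, e2]; exact last_mid _ _ _ _


/-! ### partial systems of short paths -/

section Core

variable {ι : Type*}

/-- the pairs `s i, t i`, `i ∈ S`, are joined by disjoint paths with at most eight vertices which
avoid all other terminals. -/
structure Sys (G : SimpleGraph V) (L : Finset V) (s t : ι → V) (S : Finset ι)
    (P : ι → List V) : Prop where
  chain : ∀ i ∈ S, (P i).IsChain G.Adj
  nodup : ∀ i ∈ S, (P i).Nodup
  sub : ∀ i ∈ S, ∀ x ∈ P i, x ∈ L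
  hd : ∀ i ∈ S, (P i).head? = some (s i)
  lt : ∀ i ∈ S, (P i).getLast? = some (t i)
  len : ∀ i ∈ S, (P i).length ≤ 8
  av : ∀ i ∈ S, ∀ x ∈ P i, ∀ j, (x = s j → j = i) ∧ (x = t j → j = i)
  disj : ∀ i ∈ S, ∀ j ∈ S, i ≠ j → ∀ x ∈ P i, x ∉ P j

lemma Sys.upd {L : Finset V} {s t : ι → V} {S : Finset ι} {P : ι → List V}
    (h : Sys G L s t S P) (i : ι) (p : List V) (hc : p.IsChain G.Adj) (hn : p.Nodup)
    (hs : ∀ x ∈ p, x ∈ L) (hh : p.head? = some (s i)) (hl : p.getLast? = some (t i))
    (h8 : p.length ≤ 8) (hav : ∀ x ∈ p, ∀ j, (x = s j → j = i) ∧ (x = t j → j = i))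
    (hd : ∀ j ∈ S, j ≠ i → ∀ x ∈ p, x ∉ P j) :
    Sys G L s t (insert i S) (Function.update P i p) := by
  have key : ∀ j ∈ insert i S, (j = i ∧ Function.update P i p j = p) ∨
      (j ≠ i ∧ j ∈ S ∧ Function.update P i p j = P j) := by
    intro j hj
    by_cases hji : j = i
    · subst hji; left; simp
    · right
      refine ⟨hji, ?_, by simp [hji]⟩
      rcases Finset.mem_insert.1 hj with h | h
      · exact absurd h hji
      · exact h
  refine ⟨?_, ?_, ?_, ?_, ?_, ?_, ?_, ?_⟩
  · intro j hj
    rcases key j hj with ⟨rfl, e⟩ | ⟨_, hjS, e⟩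
    · rw [e]; exact hc
    · rw [e]; exact h.chain j hjS
  · intro j hj
    rcases key j hj with ⟨rfl, e⟩ | ⟨_, hjS, e⟩
    · rw [e]; exact hn
    · rw [e]; exact h.nodup j hjS
  · intro j hj
    rcases key j hj with ⟨rfl, e⟩ | ⟨_, hjS, e⟩
    · rw [e]; exact hs
    · rw [e]; exact h.sub j hjS
  · intro j hj
    rcases key j hj with ⟨rfl, e⟩ | ⟨_, hjS, e⟩
    · rw [e]; exact hh
    · rw [e]; exact h.hd j hjS
  · intro j hj
    rcases key j hj with ⟨rfl, e⟩ | ⟨_, hjS, e⟩
    · rw [e]; exact hl
    · rw [e]; exact h.lt j hjS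
  · intro j hj
    rcases key j hj with ⟨rfl, e⟩ | ⟨_, hjS, e⟩
    · rw [e]; exact h8
    · rw [e]; exact h.len j hjS
  · intro j hj
    rcases key j hj with ⟨rfl, e⟩ | ⟨_, hjS, e⟩
    · rw [e]; exact hav
    · rw [e]; exact h.av j hjS
  · intro j hj j' hj' hjj'
    rcases key j hj with ⟨e1, e⟩ | ⟨hne, hjS, e⟩ <;>
      rcases key j' hj' with ⟨e1', e'⟩ | ⟨hne', hjS', e'⟩
    · exact absurd (e1.trans e1'.symm) hjj'
    · rw [e, e']; exact hd j' hjS' hne'
    · rw [e, e']
      intro x hx hx'
      exact hd j hjS hne x hx' hx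
    · rw [e, e']; exact h.disj j hjS j' hjS' hjj'

/-- a vertex outside a shortest system has at most three neighbours on each path. -/
lemma nbr_le_three {L : Finset V} {s t : ι → V} {S : Finset ι} {P : ι → List V}
    (h : Sys G L s t S P) {i : ι} (hi : i ∈ S) {v : V} (hv : v ∈ L)
    (hvs : ∀ j, v ≠ s j) (hvt : ∀ j, v ≠ t j) (hvP : ∀ j ∈ S, v ∉ P j)
    (hmin : ∀ P', Sys G L s t S P' → ∑ j ∈ S, (P j).length ≤ ∑ j ∈ S, (P' j).length) :
    ((P i).toFinset.filter (G.Adj v)).card ≤ 3 := by
  by_contra hcon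
  push Not at hcon
  have hne : ∃ x ∈ P i, G.Adj v x := by
    have : ((P i).toFinset.filter (G.Adj v)).Nonempty := by
      rw [← Finset.card_pos]; omega
    obtain ⟨x, hx⟩ := this
    rw [Finset.mem_filter, List.mem_toFinset] at hx
    exact ⟨x, hx⟩
  obtain ⟨a, x, r, e1, hx, ha⟩ := split_first (fun y => G.Adj v y) (P i) hne
  have hne2 : ∃ z ∈ r, G.Adj v z := by
    by_contra hr
    push Not at hr
    have : (P i).toFinset.filter (G.Adj v) ⊆ {x} := by
      intro y hy
      rw [Finset.mem_filter, List.mem_toFinset, e1] at hy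
      rw [Finset.mem_singleton]
      rcases List.mem_append.1 hy.1 with h1 | h1
      · exact absurd hy.2 (ha y h1)
      · rcases List.mem_cons.1 h1 with h1 | h1
        · exact h1
        · exact absurd hy.2 (hr y h1)
    have := Finset.card_le_card this
    simp at this
    omega
  obtain ⟨b, z, c, e2, hz, hc⟩ := split_last (fun y => G.Adj v y) r hne2
  subst e2
  have hb : 2 ≤ b.length := by
    have : (P i).toFinset.filter (G.Adj v) ⊆ insert x (insert z b.toFinset) := by
      intro y hy
      rw [Finset.mem_filter, List.mem_toFinset, e1] at hy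
      rw [Finset.mem_insert, Finset.mem_insert, List.mem_toFinset]
      rcases List.mem_append.1 hy.1 with h1 | h1
      · exact absurd hy.2 (ha y h1)
      · rcases List.mem_cons.1 h1 with h1 | h1
        · exact Or.inl h1
        · rcases List.mem_append.1 h1 with h1 | h1
          · exact Or.inr (Or.inr h1)
          · rcases List.mem_cons.1 h1 with h1 | h1
            · exact Or.inr (Or.inl h1)
            · exact absurd hy.2 (hc y h1)
    have h1 := Finset.card_le_card this
    have h2 := Finset.card_insert_le x (insert z b.toFinset)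
    have h3 := Finset.card_insert_le z b.toFinset
    have h4 := List.toFinset_card_le b
    omega
  have hmem : ∀ y ∈ a ++ x :: v :: z :: c, y = v ∨ y ∈ P i := by
    intro y hy
    rw [e1]
    simp only [List.mem_append, List.mem_cons] at hy ⊢
    tauto
  have hnd : (a ++ x :: v :: z :: c).Nodup := by
    have h1 := h.nodup i hi
    have hvn := hvP i hi
    rw [e1] at h1 hvn
    have h2 : (a ++ x :: z :: c).Nodup := by
      refine h1.sublist ?_
      refine List.Sublist.append (List.Sublist.refl a) ?_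
      refine List.Sublist.cons_cons x ?_
      exact List.sublist_append_right _ _
    have h3 : (a ++ x :: v :: z :: c).Perm (v :: (a ++ x :: z :: c)) := by
      have := @List.perm_middle _ v (a ++ [x]) (z :: c)
      simpa using this
    rw [h3.nodup_iff, List.nodup_cons]
    refine ⟨?_, h2⟩
    intro hm
    apply hvn
    simp only [List.mem_append, List.mem_cons] at hm ⊢
    tauto
  have hsys := h.upd i (a ++ x :: v :: z :: c) (chain_mid (by rw [← e1]; exact h.chain i hi)
    hx.symm hz) hnd ?_ ?_ ?_ ?_ ?_ ?_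
  · rw [Finset.insert_eq_of_mem hi] at hsys
    have h5 := hmin _ hsys
    rw [← Finset.add_sum_erase _ _ hi, ← Finset.add_sum_erase _ _ hi] at h5
    have h6 : ∑ j ∈ S.erase i, (Function.update P i (a ++ x :: v :: z :: c) j).length =
        ∑ j ∈ S.erase i, (P j).length := by
      refine Finset.sum_congr rfl fun j hj => ?_
      rw [Function.update_of_ne (Finset.ne_of_mem_erase hj)]
    rw [h6, Function.update_self, e1] at h5
    simp only [List.length_append, List.length_cons] at h5
    omega
  · intro y hy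
    rcases hmem y hy with rfl | h1
    · exact hv
    · exact h.sub i hi y h1
  · rw [← h.hd i hi, e1]; exact head_mid _ _ _ _
  · have e3 : a ++ x :: (b ++ z :: c) = (a ++ x :: b) ++ z :: c := by simp
    have e4 : a ++ x :: v :: z :: c = (a ++ [x, v]) ++ z :: c := by simp
    rw [← h.lt i hi, e1, e3, e4]; exact last_mid _ _ _ _
  · have := h.len i hi
    rw [e1] at this
    simp only [List.length_append, List.length_cons] at this ⊢
    omega
  · intro y hy j
    rcases hmem y hy with rfl | h1
    · exact ⟨fun h => absurd h (hvs j), fun h => absurd h (hvt j)⟩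
    · exact h.av i hi y h1 j
  · intro j hj hji y hy hyj
    rcases hmem y hy with rfl | h1
    · exact hvP j hj hyj
    · exact h.disj i hi j hj (Ne.symm hji) y h1 hyj


theorem core [Fintype ι] {L : Finset V} {k : ℕ} (hk1 : 1 ≤ k)
    (hk : Fintype.card ι = k) {s t : ι → V} (hsL : ∀ i, s i ∈ L) (htL : ∀ i, t i ∈ L)
    (hsi : Function.Injective s) (hti : Function.Injective t) (hst : ∀ i j, s i ≠ t j)
    (hdeg : ∀ v ∈ L, 8 * k ≤ (L.filter (G.Adj v)).card) (hcard : L.card ≤ 16 * k + 1) :
    (∃ P, Sys G L s t univ P) ∨ ∃ C ⊆ L, C.Nonempty ∧ C.card ≤ 7 * k ∧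
      ∀ v ∈ C, 5 * k ≤ (C.filter (G.Adj v)).card := by
  by_cases hall : ∃ P, Sys G L s t univ P
  · exact Or.inl hall
  right
  -- a maximal system
  have hQ : ∃ N, ∀ S P, Sys G L s t S P → S.card ≤ N :=
    ⟨Fintype.card ι, fun S P _ => Finset.card_le_univ S⟩
  have hmax := Nat.find_spec hQ
  set N := Nat.find hQ with hN
  obtain ⟨S, P0, hSP0, hSN⟩ : ∃ S P, Sys G L s t S P ∧ S.card = N := by
    by_contra hno
    push Not at hno
    have h1 : ∀ S P, Sys G L s t S P → S.card ≤ N - 1 := by
      intro S P h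
      have := hmax S P h
      have := hno S P h
      omega
    have h2 : N ≤ N - 1 := Nat.find_min' hQ h1
    have h0 : N = 0 := by omega
    refine hno ∅ (fun _ => []) ?_ (by simp [h0])
    refine ⟨?_, ?_, ?_, ?_, ?_, ?_, ?_, ?_⟩ <;> intro i hi <;> simp at hi
  obtain ⟨P, hSP, hmin⟩ : ∃ P, Sys G L s t S P ∧
      ∀ P', Sys G L s t S P' → ∑ j ∈ S, (P j).length ≤ ∑ j ∈ S, (P' j).length := by
    have h' : ∃ n, ∃ P, Sys G L s t S P ∧ ∑ j ∈ S, (P j).length = n := ⟨_, P0, hSP0, rfl⟩
    obtain ⟨P, hP, hn⟩ := Nat.find_spec h'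
    refine ⟨P, hP, fun P' hP' => ?_⟩
    rw [hn]
    exact Nat.find_min' h' ⟨P', hP', rfl⟩
  have hSne : ∃ i0, i0 ∉ S := by
    by_contra h
    push Not at h
    have : S = univ := by ext i; simp [h i]
    subst this
    exact hall ⟨P, hSP⟩
  obtain ⟨i0, hi0⟩ := hSne
  have hSk : S.card < k := by
    rw [← hk]
    exact Finset.card_lt_univ_of_notMem hi0
  -- the used vertices
  set J : Finset V := S.biUnion (fun i => (P i).toFinset) ∪ Sᶜ.biUnion (fun j => {s j, t j})
    with hJ
  have hsJ : ∀ j, s j ∈ J := by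
    intro j
    rw [hJ, Finset.mem_union, Finset.mem_biUnion, Finset.mem_biUnion]
    by_cases hj : j ∈ S
    · left
      refine ⟨j, hj, ?_⟩
      rw [List.mem_toFinset]
      exact List.mem_of_mem_head? (by rw [hSP.hd j hj]; rfl)
    · right
      exact ⟨j, by simpa using hj, by simp⟩
  have htJ : ∀ j, t j ∈ J := by
    intro j
    rw [hJ, Finset.mem_union, Finset.mem_biUnion, Finset.mem_biUnion]
    by_cases hj : j ∈ S
    · left
      refine ⟨j, hj, ?_⟩
      rw [List.mem_toFinset]
      exact List.mem_of_mem_getLast? (by rw [hSP.lt j hj]; rfl)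
    · right
      exact ⟨j, by simpa using hj, by simp⟩
  have hPJ : ∀ j ∈ S, ∀ x ∈ P j, x ∈ J := by
    intro j hj x hx
    rw [hJ, Finset.mem_union, Finset.mem_biUnion]
    exact Or.inl ⟨j, hj, by rwa [List.mem_toFinset]⟩
  have hcompl : Sᶜ.card = k - S.card := by rw [Finset.card_compl, hk]
  have hJle : J.card ≤ 8 * k - 6 := by
    have h1 : (S.biUnion (fun i => (P i).toFinset)).card ≤ S.card * 8 :=
      Finset.card_biUnion_le_card_mul _ _ _ fun i hi =>
        (List.toFinset_card_le _).trans (hSP.len i hi)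
    have h2 : (Sᶜ.biUnion (fun j => ({s j, t j} : Finset V))).card ≤ Sᶜ.card * 2 :=
      Finset.card_biUnion_le_card_mul _ _ _ fun i _ => Finset.card_le_two
    have h3 := Finset.card_union_le (S.biUnion (fun i => (P i).toFinset))
      (Sᶜ.biUnion (fun j => ({s j, t j} : Finset V)))
    rw [hcompl] at h2
    rw [← hJ] at h3
    omega
  have hJge : 2 * k ≤ J.card := by
    have h1 : univ.image s ∪ univ.image t ⊆ J := by
      intro x hx
      rcases Finset.mem_union.1 hx with h | h
      · obtain ⟨j, -, rfl⟩ := Finset.mem_image.1 h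
        exact hsJ j
      · obtain ⟨j, -, rfl⟩ := Finset.mem_image.1 h
        exact htJ j
    have h2 : Disjoint (univ.image s) (univ.image t) := by
      rw [Finset.disjoint_left]
      intro x hx hx'
      obtain ⟨i, -, rfl⟩ := Finset.mem_image.1 hx
      obtain ⟨j, -, h⟩ := Finset.mem_image.1 hx'
      exact hst i j h.symm
    have h3 := Finset.card_le_card h1
    rw [Finset.card_union_of_disjoint h2, Finset.card_image_of_injective _ hsi,
      Finset.card_image_of_injective _ hti, Finset.card_univ, hk] at h3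
    omega
  have hJL : J ⊆ L := by
    intro x hx
    rw [hJ, Finset.mem_union, Finset.mem_biUnion, Finset.mem_biUnion] at hx
    rcases hx with ⟨j, hj, hx⟩ | ⟨j, hj, hx⟩
    · exact hSP.sub j hj x (by rwa [List.mem_toFinset] at hx)
    · rw [Finset.mem_insert, Finset.mem_singleton] at hx
      rcases hx with rfl | rfl
      · exact hsL j
      · exact htL j
  set K : Finset V := L \ J with hK
  have hKL : K ⊆ L := Finset.sdiff_subset
  have hKJ : ∀ v ∈ K, v ∉ J := fun v hv => (Finset.mem_sdiff.1 hv).2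
  have hKcard : K.card ≤ 14 * k + 1 := by
    rw [hK, Finset.card_sdiff_of_subset hJL]
    omega
  have hnJ : ∀ v ∈ K, (J.filter (G.Adj v)).card ≤ 3 * k := by
    intro v hv
    have hvJ := hKJ v hv
    have h1 : J.filter (G.Adj v) ⊆ S.biUnion (fun i => (P i).toFinset.filter (G.Adj v)) ∪
        Sᶜ.biUnion (fun j => {s j, t j}) := by
      intro x hx
      rw [Finset.mem_filter, hJ, Finset.mem_union, Finset.mem_biUnion] at hx
      rw [Finset.mem_union, Finset.mem_biUnion]
      rcases hx.1 with ⟨j, hj, h⟩ | h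
      · exact Or.inl ⟨j, hj, Finset.mem_filter.2 ⟨h, hx.2⟩⟩
      · exact Or.inr h
    have h2 : (S.biUnion (fun i => (P i).toFinset.filter (G.Adj v))).card ≤ S.card * 3 :=
      Finset.card_biUnion_le_card_mul _ _ _ fun i hi =>
        nbr_le_three hSP hi (hKL hv) (fun j h => hvJ (h ▸ hsJ j)) (fun j h => hvJ (h ▸ htJ j))
          (fun j hj h => hvJ (hPJ j hj v h)) hmin
    have h3 : (Sᶜ.biUnion (fun j => ({s j, t j} : Finset V))).card ≤ Sᶜ.card * 2 :=
      Finset.card_biUnion_le_card_mul _ _ _ fun i _ => Finset.card_le_two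
    have h4 := (Finset.card_le_card h1).trans (Finset.card_union_le _ _)
    rw [hcompl] at h3
    omega
  have hdegK : ∀ v ∈ K, 5 * k ≤ (K.filter (G.Adj v)).card := by
    intro v hv
    have h1 : L.filter (G.Adj v) ⊆ J.filter (G.Adj v) ∪ K.filter (G.Adj v) := by
      intro x hx
      rw [Finset.mem_filter] at hx
      rw [Finset.mem_union, Finset.mem_filter, Finset.mem_filter, hK, Finset.mem_sdiff]
      by_cases hxJ : x ∈ J
      · exact Or.inl ⟨hxJ, hx.2⟩
      · exact Or.inr ⟨⟨hx.1, hxJ⟩, hx.2⟩
    have h2 := (Finset.card_le_card h1).trans (Finset.card_union_le _ _)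
    have h3 := hdeg v (hKL hv)
    have h4 := hnJ v hv
    omega
  have hout : ∀ u ∈ J, ∃ x ∈ K, G.Adj u x := by
    intro u hu
    by_contra hno
    push Not at hno
    have h1 : L.filter (G.Adj u) ⊆ J.erase u := by
      intro x hx
      rw [Finset.mem_filter] at hx
      rw [Finset.mem_erase]
      refine ⟨fun h => ?_, ?_⟩
      · rw [h] at hx; exact G.irrefl hx.2
      · by_contra hxJ
        exact hno x (Finset.mem_sdiff.2 ⟨hx.1, hxJ⟩) hx.2
    have h2 := Finset.card_le_card h1
    rw [Finset.card_erase_of_mem hu] at h2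
    have h3 := hdeg u (hJL hu)
    omega
  have hnr : ∀ x ∈ K, G.Adj (s i0) x → ∀ y ∈ K, G.Adj (t i0) y → ¬ Reach G K x y := by
    intro x hx hsx y hy hty hr
    obtain ⟨l, hl, hlmin⟩ := exists_min_wk (G := G) (K := K) (A := K.filter (G.Adj (s i0)))
      (B := K.filter (G.Adj (t i0)))
      (exists_wk hx (Finset.mem_filter.2 ⟨hx, hsx⟩) (Finset.mem_filter.2 ⟨hy, hty⟩) hr)
    have hlen := short_walk hKcard hdegK hl hlmin
    have hnd := min_wk_nodup hl hlmin
    obtain ⟨hlK, hlc, ⟨a, ha, hhd⟩, ⟨b, hb, hlt⟩⟩ := hl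
    rw [Finset.mem_filter] at ha hb
    have hsl : s i0 ∉ l := fun h => hKJ _ (hlK _ h) (hsJ i0)
    have htl : t i0 ∉ l := fun h => hKJ _ (hlK _ h) (htJ i0)
    have hsys := hSP.upd i0 (s i0 :: (l ++ [t i0])) ?_ ?_ ?_ ?_ ?_ ?_ ?_ ?_
    · have h1 := hmax _ _ hsys
      rw [Finset.card_insert_of_notMem hi0] at h1
      omega
    · rw [List.isChain_cons, List.isChain_append]
      refine ⟨?_, hlc, by simp, ?_⟩
      · intro y hy
        have : (l ++ [t i0]).head? = some a := by
          rw [List.head?_append, hhd]; rfl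
        rw [this, Option.mem_some_iff] at hy
        rw [← hy]; exact ha.2
      · intro u hu w hw
        rw [hlt, Option.mem_some_iff] at hu
        simp only [List.head?_cons, Option.mem_some_iff] at hw
        rw [← hu, ← hw]; exact hb.2.symm
    · rw [List.nodup_cons]
      refine ⟨?_, ?_⟩
      · rw [List.mem_append, List.mem_singleton]
        rintro (h | h)
        · exact hsl h
        · exact hst _ _ h
      · refine List.Nodup.append hnd (List.nodup_singleton _) ?_
        simpa using htl
    · intro u hu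
      simp only [List.mem_cons, List.mem_append, List.not_mem_nil, or_false] at hu
      rcases hu with rfl | hu | rfl
      · exact hsL i0
      · exact hKL (hlK u hu)
      · exact htL i0
    · simp
    · have : s i0 :: (l ++ [t i0]) = (s i0 :: l) ++ t i0 :: [] := rfl
      rw [this, last_mid _ [] _ _]; rfl
    · simp only [List.length_cons, List.length_append, List.length_nil]; omega
    · intro u hu j
      simp only [List.mem_cons, List.mem_append, List.not_mem_nil, or_false] at hu
      rcases hu with rfl | hu | rfl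
      · exact ⟨fun h => hsi h.symm, fun h => absurd h (hst _ _)⟩
      · exact ⟨fun h => absurd (h ▸ hsJ j) (hKJ u (hlK u hu)),
          fun h => absurd (h ▸ htJ j) (hKJ u (hlK u hu))⟩
      · exact ⟨fun h => absurd h.symm (hst _ _), fun h => hti h.symm⟩
    · intro j hj hji u hu huj
      simp only [List.mem_cons, List.mem_append, List.not_mem_nil, or_false] at hu
      rcases hu with rfl | hu | rfl
      · exact hji ((hSP.av j hj _ huj i0).1 rfl).symm
      · exact hKJ u (hlK u hu) (hPJ j hj u huj)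
      · exact hji ((hSP.av j hj _ huj i0).2 rfl).symm
  obtain ⟨x, hx, hsx⟩ := hout _ (hsJ i0)
  obtain ⟨y, hy, hty⟩ := hout _ (htJ i0)
  have hxy := hnr x hx hsx y hy hty
  have hcomp : ∀ u ∈ K, (K.filter (Reach G K u)).card ≤ 7 * k →
      ∃ C ⊆ L, C.Nonempty ∧ C.card ≤ 7 * k ∧ ∀ v ∈ C, 5 * k ≤ (C.filter (G.Adj v)).card := by
    intro u hu hle
    refine ⟨K.filter (Reach G K u), (Finset.filter_subset _ _).trans hKL,
      ⟨u, Finset.mem_filter.2 ⟨hu, Reach.refl u⟩⟩, hle, ?_⟩
    intro v hv
    rw [Finset.mem_filter] at hv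
    refine (hdegK v hv.1).trans (Finset.card_le_card ?_)
    intro w hw
    rw [Finset.mem_filter] at hw
    rw [Finset.mem_filter, Finset.mem_filter]
    exact ⟨⟨hw.1, hv.2.step hw.2 hw.1⟩, hw.2⟩
  have hdj : Disjoint (K.filter (Reach G K x)) (K.filter (Reach G K y)) := by
    rw [Finset.disjoint_left]
    intro z hz hz'
    rw [Finset.mem_filter] at hz hz'
    exact hxy (hz.2.trans (hz'.2.symm hy))
  have hsum : (K.filter (Reach G K x)).card + (K.filter (Reach G K y)).card ≤ K.card := by
    rw [← Finset.card_union_of_disjoint hdj]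
    exact Finset.card_le_card
      (Finset.union_subset (Finset.filter_subset _ _) (Finset.filter_subset _ _))
  rcases le_total (K.filter (Reach G K x)).card (K.filter (Reach G K y)).card with h | h
  · exact hcomp x hx (by omega)
  · exact hcomp y hy (by omega)

end Core

/-! ### Lemma D -/

lemma nb_eq (W : Finset V) (v : V) : nb G W v = W.filter (G.Adj v) := by
  ext x; rw [mem_nb, Finset.mem_filter]

/-- two pairs of injective families with disjoint images inside `X`. -/
lemma two_mul_le {X : Finset V} {n : ℕ} {s t : Fin n → V} (hs : ∀ i, s i ∈ X) (ht : ∀ i, t i ∈ X)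
    (hsi : Function.Injective s) (hti : Function.Injective t) (hst : ∀ i j, s i ≠ t j) :
    (univ.image s ∪ univ.image t).card = 2 * n ∧ univ.image s ∪ univ.image t ⊆ X := by
  have h2 : Disjoint (univ.image s) (univ.image t) := by
    rw [Finset.disjoint_left]
    intro x hx hx'
    obtain ⟨i, -, rfl⟩ := Finset.mem_image.1 hx
    obtain ⟨j, -, h⟩ := Finset.mem_image.1 hx'
    exact hst i j h.symm
  refine ⟨?_, ?_⟩
  · rw [Finset.card_union_of_disjoint h2, Finset.card_image_of_injective _ hsi,
      Finset.card_image_of_injective _ hti, Finset.card_univ, Fintype.card_fin]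
    omega
  · intro x hx
    rcases Finset.mem_union.1 hx with h | h
    · obtain ⟨j, -, rfl⟩ := Finset.mem_image.1 h
      exact hs j
    · obtain ⟨j, -, rfl⟩ := Finset.mem_image.1 h
      exact ht j

/-- a dense small graph is linked through common neighbours. -/
theorem linked_of_dense {C : Finset V} {k : ℕ} (hC : C.card ≤ 7 * k)
    (hdeg : ∀ v ∈ C, 5 * k ≤ (nb G C v).card) {X : Finset V} (hX : X ⊆ C)
    (hXc : X.card ≤ 2 * k) : Linked G C X := by
  intro n s t hs ht hsi hti hst
  have hn : n ≤ k := by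
    obtain ⟨h1, h2⟩ := two_mul_le hs ht hsi hti hst
    have := Finset.card_le_card h2
    omega
  have hA : ∀ i, k ≤ ((nb G C (s i) ∩ nb G C (t i)) \ X).card := by
    intro i
    have h1 := hdeg _ (hX (hs i))
    have h2 := hdeg _ (hX (ht i))
    have h3 := Finset.card_union_add_card_inter (nb G C (s i)) (nb G C (t i))
    have h4 : (nb G C (s i) ∪ nb G C (t i)).card ≤ C.card := by
      apply Finset.card_le_card
      apply Finset.union_subset <;> (intro x hx; exact (mem_nb.1 hx).1)
    have h5 := Finset.le_card_sdiff X (nb G C (s i) ∩ nb G C (t i))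
    omega
  obtain ⟨f, hfi, hf⟩ := (Finset.all_card_le_biUnion_card_iff_exists_injective
    (fun i : Fin n => (nb G C (s i) ∩ nb G C (t i)) \ X)).1 (by
      intro T
      rcases T.eq_empty_or_nonempty with rfl | ⟨i, hi⟩
      · simp
      · have h1 : T.card ≤ n := by simpa using Finset.card_le_univ T
        refine h1.trans (hn.trans ((hA i).trans (Finset.card_le_card ?_)))
        exact Finset.subset_biUnion_of_mem
          (fun i : Fin n => (nb G C (s i) ∩ nb G C (t i)) \ X) hi)
  have hf1 : ∀ i, f i ∈ C ∧ G.Adj (s i) (f i) ∧ G.Adj (t i) (f i) ∧ f i ∉ X := by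
    intro i
    have := hf i
    rw [Finset.mem_sdiff, Finset.mem_inter, mem_nb, mem_nb] at this
    exact ⟨this.1.1.1, this.1.1.2, this.1.2.2, this.2⟩
  refine ⟨fun i => {s i, f i, t i}, ⟨?_, ?_, ?_, ?_, ?_, ?_⟩⟩
  · intro i x hx
    simp only [Finset.mem_insert, Finset.mem_singleton] at hx
    rcases hx with rfl | rfl | rfl
    · exact hX (hs i)
    · exact (hf1 i).1
    · exact hX (ht i)
  · intro i
    have h1 := chain_conn (G := G) [s i, f i, t i] (by simp)
      (by
        rw [List.isChain_cons_cons, List.isChain_cons_cons]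
        exact ⟨(hf1 i).2.1, (hf1 i).2.2.1.symm, by simp⟩)
    have h2 : ([s i, f i, t i] : List V).toFinset = {s i, f i, t i} := by
      ext x; simp
    rwa [h2] at h1
  · intro i; simp
  · intro i; simp
  · intro i x hx hxX
    simp only [Finset.mem_insert, Finset.mem_singleton] at hx
    rcases hx with rfl | rfl | rfl
    · exact Or.inl rfl
    · exact absurd hxX (hf1 i).2.2.2
    · exact Or.inr rfl
  · intro i j hij
    rw [Finset.disjoint_left]
    intro x hx hx'
    simp only [Finset.mem_insert, Finset.mem_singleton] at hx hx'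
    rcases hx with rfl | rfl | rfl
    · rcases hx' with h | h | h
      · exact hij (hsi h)
      · exact (hf1 j).2.2.2 (h ▸ hs i)
      · exact hst _ _ h
    · rcases hx' with h | h | h
      · exact (hf1 i).2.2.2 (h ▸ hs j)
      · exact hij (hfi h)
      · exact (hf1 i).2.2.2 (h ▸ ht j)
    · rcases hx' with h | h | h
      · exact hst _ _ h.symm
      · exact (hf1 j).2.2.2 (h ▸ ht i)
      · exact hij (hti h)

/-- **LEMMA D** (sec 05). A nonempty graph on at most `16k+1` vertices with minimum degree `≥ 8k`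
contains a vertex set `C`, `|C| ≥ 2k`, such that `(G[C], X)` is linked for all `X ⊆ C` with
`|X| ≤ 2k`. -/
theorem lemD {k : ℕ} (hk : 1 ≤ k) {L : Finset V} (hne : L.Nonempty)
    (hdeg : ∀ v ∈ L, 8 * k ≤ (nb G L v).card) (hcard : L.card ≤ 16 * k + 1) :
    ∃ C ⊆ L, 2 * k ≤ C.card ∧ ∀ X ⊆ C, X.card ≤ 2 * k → Linked G C X := by
  have hLcard : 8 * k + 1 ≤ L.card := by
    obtain ⟨v, hv⟩ := hne
    have h1 : nb G L v ⊆ L.erase v := by
      intro x hx
      rw [mem_nb] at hx
      rw [Finset.mem_erase]
      exact ⟨fun h => by rw [h] at hx; exact G.irrefl hx.2, hx.1⟩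
    have h2 := Finset.card_le_card h1
    rw [Finset.card_erase_of_mem hv] at h2
    have := hdeg v hv
    omega
  by_cases hL : ∀ X ⊆ L, X.card ≤ 2 * k → Linked G L X
  · exact ⟨L, Finset.Subset.refl L, by omega, hL⟩
  push Not at hL
  obtain ⟨X, hXL, hXc, hnl⟩ := hL
  unfold Linked at hnl
  push Not at hnl
  obtain ⟨n, s, t, hs, ht, hsi, hti, hst, hno⟩ := hnl
  obtain ⟨him, hsub⟩ := two_mul_le hs ht hsi hti hst
  have hn : n ≤ k := by
    have := Finset.card_le_card hsub
    omega
  obtain ⟨X', hXX', hX'L, hX'c⟩ := Finset.exists_subsuperset_card_eq hXL (n := 2 * k) hXc (by omega)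
  set I := univ.image s ∪ univ.image t with hI
  have hIX' : I ⊆ X' := hsub.trans hXX'
  have hR : (X' \ I).card = 2 * k - 2 * n := by
    rw [Finset.card_sdiff_of_subset hIX']
    omega
  obtain ⟨R1, hR1, hR1c⟩ := Finset.exists_subset_card_eq (s := X' \ I) (n := k - n) (by omega)
  have hR2c : ((X' \ I) \ R1).card = k - n := by
    rw [Finset.card_sdiff_of_subset hR1]
    omega
  let e1 : Fin (k - n) ≃ R1 := (Finset.equivFinOfCardEq hR1c).symm
  let e2 : Fin (k - n) ≃ ((X' \ I) \ R1 : Finset V) := (Finset.equivFinOfCardEq hR2c).symm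
  set s' : Fin n ⊕ Fin (k - n) → V := Sum.elim s (fun j => (e1 j : V)) with hs'
  set t' : Fin n ⊕ Fin (k - n) → V := Sum.elim t (fun j => (e2 j : V)) with ht'
  have hsI : ∀ i, s i ∈ I := fun i => Finset.mem_union_left _ (Finset.mem_image_of_mem _ (mem_univ i))
  have htI : ∀ i, t i ∈ I := fun i => Finset.mem_union_right _ (Finset.mem_image_of_mem _ (mem_univ i))
  have he1 : ∀ j, (e1 j : V) ∈ X' ∧ (e1 j : V) ∉ I ∧ (e1 j : V) ∈ R1 := by
    intro j
    have h := hR1 (e1 j).2
    rw [Finset.mem_sdiff] at h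
    exact ⟨h.1, h.2, (e1 j).2⟩
  have he2 : ∀ j, (e2 j : V) ∈ X' ∧ (e2 j : V) ∉ I ∧ (e2 j : V) ∉ R1 := by
    intro j
    have h := (e2 j).2
    rw [Finset.mem_sdiff, Finset.mem_sdiff] at h
    exact ⟨h.1.1, h.1.2, h.2⟩
  have hsi' : Function.Injective s' := by
    rintro (i | i) (j | j) h
    · exact congrArg Sum.inl (hsi h)
    · exact absurd (show s i = (e1 j : V) from h) (fun h => (he1 j).2.1 (h ▸ hsI i))
    · exact absurd (show (e1 i : V) = s j from h) (fun h => (he1 i).2.1 (h ▸ hsI j))
    · exact congrArg Sum.inr (e1.injective (Subtype.ext (show (e1 i : V) = e1 j from h)))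
  have hti' : Function.Injective t' := by
    rintro (i | i) (j | j) h
    · exact congrArg Sum.inl (hti h)
    · exact absurd (show t i = (e2 j : V) from h) (fun h => (he2 j).2.1 (h ▸ htI i))
    · exact absurd (show (e2 i : V) = t j from h) (fun h => (he2 i).2.1 (h ▸ htI j))
    · exact congrArg Sum.inr (e2.injective (Subtype.ext (show (e2 i : V) = e2 j from h)))
  have hst' : ∀ i j, s' i ≠ t' j := by
    rintro (i | i) (j | j) h
    · exact hst i j h
    · exact (he2 j).2.1 ((show s i = (e2 j : V) from h) ▸ hsI i)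
    · exact (he1 i).2.1 ((show (e1 i : V) = t j from h) ▸ htI j)
    · exact (he2 j).2.2 ((show (e1 i : V) = (e2 j : V) from h) ▸ (he1 i).2.2)
  have hcardι : Fintype.card (Fin n ⊕ Fin (k - n)) = k := by
    simp; omega
  have hdeg' : ∀ v ∈ L, 8 * k ≤ (L.filter (G.Adj v)).card := by
    intro v hv
    rw [← nb_eq]; exact hdeg v hv
  have hsL' : ∀ i, s' i ∈ L := by
    rintro (i | i)
    · exact hXL (hs i)
    · exact hX'L (he1 i).1
  have htL' : ∀ i, t' i ∈ L := by
    rintro (i | i)
    · exact hXL (ht i)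
    · exact hX'L (he2 i).1
  rcases core (G := G) hk hcardι hsL' htL' hsi' hti' hst' hdeg' hcard with
    ⟨P, hP⟩ | ⟨C, hCL, hCne, hCc, hCd⟩
  · exfalso
    refine hno (fun i => (P (Sum.inl i)).toFinset) ⟨?_, ?_, ?_, ?_, ?_, ?_⟩
    · intro i x hx
      exact hP.sub (Sum.inl i) (mem_univ _) x (List.mem_toFinset.1 hx)
    · intro i
      refine chain_conn _ ?_ (hP.chain (Sum.inl i) (mem_univ _))
      intro h
      have := hP.hd (Sum.inl i) (mem_univ _)
      rw [h] at this
      simp at this
    · intro i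
      rw [List.mem_toFinset]
      exact List.mem_of_mem_head? (by rw [hP.hd (Sum.inl i) (mem_univ _)]; rfl)
    · intro i
      rw [List.mem_toFinset]
      exact List.mem_of_mem_getLast? (by rw [hP.lt (Sum.inl i) (mem_univ _)]; rfl)
    · intro i x hx hxX
      rw [List.mem_toFinset] at hx
      have hxX' : x ∈ X' := hXX' hxX
      have hcase : ∃ j, x = s' j ∨ x = t' j := by
        by_cases hxI : x ∈ I
        · rcases Finset.mem_union.1 hxI with h | h
          · obtain ⟨j, -, rfl⟩ := Finset.mem_image.1 h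
            exact ⟨Sum.inl j, Or.inl rfl⟩
          · obtain ⟨j, -, rfl⟩ := Finset.mem_image.1 h
            exact ⟨Sum.inl j, Or.inr rfl⟩
        · by_cases hx1 : x ∈ R1
          · refine ⟨Sum.inr (e1.symm ⟨x, hx1⟩), Or.inl ?_⟩
            simp [hs']
          · have hx2 : x ∈ (X' \ I) \ R1 :=
              Finset.mem_sdiff.2 ⟨Finset.mem_sdiff.2 ⟨hxX', hxI⟩, hx1⟩
            refine ⟨Sum.inr (e2.symm ⟨x, hx2⟩), Or.inr ?_⟩
            simp [ht']
      obtain ⟨j, hj⟩ := hcase
      have hav := hP.av (Sum.inl i) (mem_univ _) x hx j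
      rcases hj with h | h
      · have := hav.1 h
        subst this
        exact Or.inl h
      · have := hav.2 h
        subst this
        exact Or.inr h
    · intro i j hij
      rw [Finset.disjoint_left]
      intro x hx hx'
      rw [List.mem_toFinset] at hx hx'
      exact hP.disj (Sum.inl i) (mem_univ _) (Sum.inl j) (mem_univ _)
        (fun h => hij (Sum.inl_injective h)) x hx hx'
  · have hCd' : ∀ v ∈ C, 5 * k ≤ (nb G C v).card := by
      intro v hv
      rw [nb_eq]; exact hCd v hv
    refine ⟨C, hCL, ?_, fun X hX hXc => linked_of_dense hCc hCd' hX hXc⟩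
    obtain ⟨v, hv⟩ := hCne
    have h1 := hCd' v hv
    have h2 : (nb G C v).card ≤ C.card := Finset.card_le_card fun x hx => (mem_nb.1 hx).1
    omega

end Crest.Agent.R042.LemD473
end

-- ▼ part R042/TWC_870
section

/-! Row 42, sec 05 (Thomas-Wollan), part C: CLAIM C and the END, from claim A and claim B. -/

set_option autoImplicit false
set_option linter.unusedSectionVars false

namespace Crest.Agent.R042.TW870

open Finset Crest.Agent.R042.Conn353 Crest.Agent.R042.Menger353 Crest.Agent.R042.Link870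

variable {V : Type*} [DecidableEq V] {G : SimpleGraph V} {W X : Finset V}

/-! ### monotonicity in the graph -/

lemma Linked.mono_graph {H : SimpleGraph V} (hGH : ∀ x y, G.Adj x y → H.Adj x y)
    (h : Linked G W X) : Linked H W X := by
  intro n s t hs ht h1 h2 h3
  obtain ⟨P, hP⟩ := h n s t hs ht h1 h2 h3
  exact ⟨P, hP.sub, fun i => (hP.conn i).mono_graph hGH, hP.left, hP.right, hP.meet, hP.disj⟩

lemma rho_mono_graph {H : SimpleGraph V} (hGH : ∀ x y, G.Adj x y → H.Adj x y) (S : Finset V) :
    rho G W S ≤ rho H W S := by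
  classical
  unfold rho
  apply Finset.card_le_card
  intro p hp
  rw [Finset.mem_filter] at hp ⊢
  exact ⟨hp.1, hGH _ _ hp.2.1, hp.2.2⟩

/-! ### deleting one edge -/

/-- `G` minus the edge `uv`. -/
def delE (G : SimpleGraph V) (u v : V) : SimpleGraph V where
  Adj x y := G.Adj x y ∧ ¬ (x = u ∧ y = v) ∧ ¬ (x = v ∧ y = u)
  symm := ⟨fun _ _ h => ⟨h.1.symm, fun k => h.2.2 ⟨k.2, k.1⟩, fun k => h.2.1 ⟨k.2, k.1⟩⟩⟩
  loopless := ⟨fun _ h => h.1.ne rfl⟩

lemma delE_le {u v : V} : ∀ x y, (delE G u v).Adj x y → G.Adj x y := fun _ _ h => h.1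

lemma rho_delE {u v : V} (S : Finset V) : rho G W S ≤ rho (delE G u v) W S + 2 := by
  classical
  have h : ((W ×ˢ W).filter (fun p => G.Adj p.1 p.2 ∧ (p.1 ∈ S ∨ p.2 ∈ S))) ⊆
      ((W ×ˢ W).filter (fun p => (delE G u v).Adj p.1 p.2 ∧ (p.1 ∈ S ∨ p.2 ∈ S))) ∪
        {(u, v), (v, u)} := by
    intro p hp
    rw [Finset.mem_filter] at hp
    rw [Finset.mem_union, Finset.mem_filter, Finset.mem_insert, Finset.mem_singleton]
    by_cases h1 : p.1 = u ∧ p.2 = v
    · right; left; exact Prod.ext h1.1 h1.2
    · by_cases h2 : p.1 = v ∧ p.2 = u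
      · right; right; exact Prod.ext h2.1 h2.2
      · left; exact ⟨hp.1, ⟨hp.2.1, h1, h2⟩, hp.2.2⟩
  unfold rho
  refine (Finset.card_le_card h).trans ((Finset.card_union_le _ _).trans ?_)
  exact Nat.add_le_add_left Finset.card_le_two _

lemma rho_delE_lt {u v : V} {S : Finset V} (hu : u ∈ W) (hv : v ∈ W) (hvS : v ∈ S)
    (huv : G.Adj u v) : rho (delE G u v) W S < rho G W S := by
  classical
  unfold rho
  apply Finset.card_lt_card
  refine ⟨?_, ?_⟩
  · intro p hp
    rw [Finset.mem_filter] at hp ⊢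
    exact ⟨hp.1, hp.2.1.1, hp.2.2⟩
  · intro hsub
    have : (u, v) ∈ ((W ×ˢ W).filter (fun p => G.Adj p.1 p.2 ∧ (p.1 ∈ S ∨ p.2 ∈ S))) := by
      rw [Finset.mem_filter, Finset.mem_product]
      exact ⟨⟨hu, hv⟩, huv, Or.inr hvS⟩
    have := hsub this
    rw [Finset.mem_filter] at this
    exact this.2.1.2.1 ⟨rfl, rfl⟩

/-! ### the final step -/

theorem final_step {k : ℕ} (hk : 1 ≤ k)
    (IH : ∀ (G' : SimpleGraph V) (W' X' : Finset V), W'.card < W.card → Massed G' W' X' (8 * k) →
      X'.card ≤ 2 * k → Linked G' W' X')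
    (IH2 : ∀ (G' : SimpleGraph V), Massed G' W X (8 * k) →
      rho G' W (W \ X) < rho G W (W \ X) → Linked G' W X)
    (hM : Massed G W X (8 * k)) (hXc : X.card ≤ 2 * k) (hnl : ¬ Linked G W X)
    (hA : ∀ A B, Sep G W A B → X ⊆ A → (B \ A).Nonempty → (A ∩ B).card ≤ X.card →
      ¬ Linked G B (A ∩ B))
    (hB : ∀ u ∈ W, ∀ v ∈ W, v ∉ X → G.Adj u v → 8 * k ≤ (nb G W u ∩ nb G W v).card + 1) :
    False := by
  classical
  have hXW := hM.sub
  -- an edge with an end outside `X`
  obtain ⟨u0, v0, hu0, hv0, hv0X, huv0⟩ : ∃ u v, u ∈ W ∧ v ∈ W ∧ v ∉ X ∧ G.Adj u v := by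
    have h0 : 0 < rho G W (W \ X) := lt_of_le_of_lt (Nat.zero_le _) hM.m1
    unfold rho at h0
    obtain ⟨p, hp⟩ := Finset.card_pos.1 h0
    rw [Finset.mem_filter, Finset.mem_product] at hp
    obtain ⟨⟨h1, h2⟩, h3, h4 | h4⟩ := hp
    · exact ⟨p.2, p.1, h2, h1, (Finset.mem_sdiff.1 h4).2, h3.symm⟩
    · exact ⟨p.1, p.2, h1, h2, (Finset.mem_sdiff.1 h4).2, h3⟩
  -- CLAIM C
  have hC : rho G W (W \ X) ≤ 2 * (8 * k) * (W \ X).card + 2 := by
    by_contra hcon
    push Not at hcon
    apply hnl
    refine Linked.mono_graph (delE_le (u := u0) (v := v0)) ?_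
    apply IH2
    · refine ⟨hXW, ?_, ?_⟩
      · have := rho_delE (G := G) (W := W) (u := u0) (v := v0) (W \ X)
        omega
      · intro A B hsep hXA hlt
        have hcom := hB u0 hu0 v0 hv0 hv0X huv0
        have hsep' : Sep G W A B := by
          refine ⟨hsep.union, ?_⟩
          intro a ha haB b hb hbA hadj
          by_cases hab : (a = u0 ∧ b = v0) ∨ (a = v0 ∧ b = u0)
          · have hsub : nb G W u0 ∩ nb G W v0 ⊆ A ∩ B := by
              intro y hy
              rw [Finset.mem_inter, mem_nb, mem_nb] at hy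
              obtain ⟨⟨hyW, hy1⟩, -, hy2⟩ := hy
              have hya : (delE G u0 v0).Adj a y := by
                rcases hab with ⟨h1, h2⟩ | ⟨h1, h2⟩
                · subst h1 h2
                  refine ⟨hy1, fun h => ?_, fun h => hadj.ne h.1⟩
                  rw [h.2] at hy2
                  exact hy2.ne rfl
                · subst h1 h2
                  refine ⟨hy2, fun h => hadj.ne h.1, fun h => ?_⟩
                  rw [h.2] at hy1
                  exact hy1.ne rfl
              have hyb : (delE G u0 v0).Adj y b := by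
                rcases hab with ⟨h1, h2⟩ | ⟨h1, h2⟩
                · subst h1 h2
                  refine ⟨hy2.symm, fun h => ?_, fun h => hadj.ne h.2.symm⟩
                  rw [h.1] at hy1
                  exact hy1.ne rfl
                · subst h1 h2
                  refine ⟨hy1.symm, fun h => hadj.ne h.2.symm, fun h => ?_⟩
                  rw [h.1] at hy2
                  exact hy2.ne rfl
              have hyAB := hyW
              rw [← hsep.union, Finset.mem_union] at hyAB
              rw [Finset.mem_inter]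
              by_contra hcon'
              rw [not_and_or] at hcon'
              rcases hcon' with h | h
              · exact hsep.nadj a ha haB y (hyAB.resolve_left h) h hya
              · exact hsep.nadj y (hyAB.resolve_right h) h b hb hbA hyb
            have := Finset.card_le_card hsub
            omega
          · rw [not_or] at hab
            exact hsep.nadj a ha haB b hb hbA ⟨hadj, hab.1, hab.2⟩
        exact (rho_mono_graph delE_le _).trans (hM.m2 A B hsep' hXA hlt)
    · exact rho_delE_lt hu0 hv0 (Finset.mem_sdiff.2 ⟨hv0, hv0X⟩) huv0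
  -- no isolated vertex outside `X`
  have hiso : ∀ v ∈ W, v ∉ X → (nb G W v).Nonempty := by
    intro v hv hvX
    by_contra hne
    rw [Finset.not_nonempty_iff_eq_empty] at hne
    have hnadj : ∀ y ∈ W, ¬ G.Adj v y := by
      intro y hy hadj
      have : y ∈ nb G W v := mem_nb.2 ⟨hy, hadj⟩
      rw [hne] at this
      exact absurd this (Finset.notMem_empty _)
    apply hnl
    refine Linked.mono (W := W.erase v) ?_ (Finset.erase_subset _ _)
    refine IH G (W.erase v) X (Finset.card_erase_lt_of_mem hv) ⟨?_, ?_, ?_⟩ hXc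
    · intro x hx
      exact Finset.mem_erase.2 ⟨fun h => hvX (h ▸ hx), hXW hx⟩
    · have h1 : rho G W (W \ X) ≤ rho G (W.erase v) (W.erase v \ X) := by
        unfold rho
        apply Finset.card_le_card
        intro p hp
        rw [Finset.mem_filter, Finset.mem_product] at hp ⊢
        obtain ⟨⟨h1, h2⟩, h3, h4⟩ := hp
        have hp1 : p.1 ≠ v := by
          rintro h
          rw [h] at h3
          exact hnadj _ h2 h3
        have hp2 : p.2 ≠ v := by
          rintro h
          rw [h] at h3
          exact hnadj _ h1 h3.symm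
        refine ⟨⟨Finset.mem_erase.2 ⟨hp1, h1⟩, Finset.mem_erase.2 ⟨hp2, h2⟩⟩, h3, ?_⟩
        rcases h4 with h4 | h4
        · exact Or.inl (Finset.mem_sdiff.2 ⟨Finset.mem_erase.2 ⟨hp1, h1⟩,
            (Finset.mem_sdiff.1 h4).2⟩)
        · exact Or.inr (Finset.mem_sdiff.2 ⟨Finset.mem_erase.2 ⟨hp2, h2⟩,
            (Finset.mem_sdiff.1 h4).2⟩)
      have h2 : (W.erase v \ X).card ≤ (W \ X).card :=
        Finset.card_le_card (Finset.sdiff_subset_sdiff (Finset.erase_subset _ _) (le_refl _))
      have h3 := hM.m1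
      have h4 : 2 * (8 * k) * (W.erase v \ X).card ≤ 2 * (8 * k) * (W \ X).card :=
        Nat.mul_le_mul_left _ h2
      omega
    · intro A B hsep hXA hlt
      have hBv : v ∉ B := fun h => Finset.notMem_erase v W (hsep.right_sub h)
      have hBW : B ⊆ W := hsep.right_sub.trans (Finset.erase_subset _ _)
      have heq : insert v A ∩ B = A ∩ B := by
        rw [Finset.insert_inter_of_notMem hBv]
      have heq2 : B \ insert v A = B \ A := by
        ext x
        simp only [Finset.mem_sdiff, Finset.mem_insert, not_or]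
        constructor
        · rintro ⟨h, h', h''⟩; exact ⟨h, h''⟩
        · rintro ⟨h, h'⟩; exact ⟨h, fun h2 => hBv (h2 ▸ h), h'⟩
      have hsep' : Sep G W (insert v A) B := by
        refine ⟨?_, ?_⟩
        · rw [Finset.insert_union, hsep.union, Finset.insert_erase hv]
        · intro a ha haB b hb hbA hadj
          rw [Finset.mem_insert, not_or] at hbA
          rcases Finset.mem_insert.1 ha with h | h
          · rw [h] at hadj
            exact hnadj b (hBW hb) hadj
          · exact hsep.nadj a h haB b hb hbA.2 hadj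
      have h1 := hM.m2 (insert v A) B hsep' (hXA.trans (Finset.subset_insert _ _))
        (by rw [heq]; exact hlt)
      rw [heq2] at h1
      exact (rho_ground_mono (Finset.erase_subset _ _)).trans h1
  -- `|W \ X| ≥ 3`
  have h3 : 3 ≤ (W \ X).card := by
    have hcom := hB u0 hu0 v0 hv0 hv0X huv0
    have hsub : nb G W u0 ∩ nb G W v0 ⊆ (W \ X) ∪ X := by
      intro y hy
      rw [Finset.mem_inter, mem_nb] at hy
      rw [Finset.mem_union, Finset.mem_sdiff]
      by_cases hyX : y ∈ X
      · exact Or.inr hyX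
      · exact Or.inl ⟨hy.1.1, hyX⟩
    have h1 := Finset.card_le_card hsub
    have h2 := Finset.card_union_le (W \ X) X
    omega
  -- a vertex of small degree
  obtain ⟨v, hv, hdeg⟩ : ∃ v ∈ W \ X, (nb G W v).card < 16 * k + 1 := by
    by_contra hcon
    push Not at hcon
    have h1 := sum_nb_le_rho (G := G) (W := W) (S := W \ X) Finset.sdiff_subset
    have h2 : (W \ X).card * (16 * k + 1) ≤ ∑ v ∈ W \ X, (nb G W v).card := by
      rw [← smul_eq_mul]
      exact Finset.card_nsmul_le_sum _ _ _ hcon
    have h4 : (W \ X).card * (16 * k + 1) = 2 * (8 * k) * (W \ X).card + (W \ X).card := by ring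
    omega
  rw [Finset.mem_sdiff] at hv
  have hvv : v ∉ nb G W v := fun h => (mem_nb.1 h).2.ne rfl
  -- Lemma D
  obtain ⟨C, hCL, hCc, hClink⟩ := LemD473.lemD (G := G) hk (L := insert v (nb G W v))
    (Finset.insert_nonempty _ _) (by
      intro x hx
      rcases Finset.mem_insert.1 hx with rfl | hx
      · obtain ⟨u, hu⟩ := hiso _ hv.1 hv.2
        have hu' := mem_nb.1 hu
        have hc := hB u hu'.1 _ hv.1 hv.2 hu'.2.symm
        have hsub : insert u (nb G W u ∩ nb G W x) ⊆ nb G (insert x (nb G W x)) x := by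
          intro y hy
          rw [mem_nb]
          rcases Finset.mem_insert.1 hy with rfl | hy
          · exact ⟨Finset.mem_insert_of_mem hu, hu'.2⟩
          · have := (Finset.mem_inter.1 hy).2
            exact ⟨Finset.mem_insert_of_mem this, (mem_nb.1 this).2⟩
        have hnot : u ∉ nb G W u ∩ nb G W x := fun h =>
          (mem_nb.1 (Finset.mem_inter.1 h).1).2.ne rfl
        have := Finset.card_le_card hsub
        rw [Finset.card_insert_of_notMem hnot] at this
        omega
      · have hx' := mem_nb.1 hx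
        have hc := hB x hx'.1 v hv.1 hv.2 hx'.2.symm
        have hsub : insert v (nb G W x ∩ nb G W v) ⊆ nb G (insert v (nb G W v)) x := by
          intro y hy
          rw [mem_nb]
          rcases Finset.mem_insert.1 hy with rfl | hy
          · exact ⟨Finset.mem_insert_self _ _, hx'.2.symm⟩
          · have h1 := (Finset.mem_inter.1 hy).2
            have h2 := (Finset.mem_inter.1 hy).1
            exact ⟨Finset.mem_insert_of_mem h1, (mem_nb.1 h2).2⟩
        have hnot : v ∉ nb G W x ∩ nb G W v := fun h =>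
          (mem_nb.1 (Finset.mem_inter.1 h).2).2.ne rfl
        have := Finset.card_le_card hsub
        rw [Finset.card_insert_of_notMem hnot] at this
        omega) (by rw [Finset.card_insert_of_notMem hvv]; omega)
  have hCW : C ⊆ W := by
    refine hCL.trans ?_
    intro x hx
    rcases Finset.mem_insert.1 hx with rfl | hx
    · exact hv.1
    · exact (mem_nb.1 hx).1
  by_cases hlk : ∃ Q, Linkage G W X C Q ∧ Q.card = X.card
  · obtain ⟨Q, hQ, hQc⟩ := hlk
    apply hnl
    have hXv : X ⊆ verts Q := by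
      have h1 := hQ.verts_inter_card_left
      have h2 : verts Q ∩ X = X :=
        Finset.eq_of_subset_of_card_le Finset.inter_subset_right (by omega)
      intro x hx
      rw [← h2] at hx
      exact (Finset.mem_inter.1 hx).1
    have := comp (W2 := C) hQ hXv Finset.inter_subset_right
      (hClink _ Finset.inter_subset_right (by rw [hQ.verts_inter_card]; omega))
    rwa [Finset.union_eq_left.2 hCW] at this
  · obtain ⟨A, B, Q, k1, k2, k3, k4, k5, k6⟩ := exists_min_sep hXW hCW hlk
    refine hA A B k1 k2 ?_ (le_of_lt k4) ?_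
    · rw [Finset.sdiff_nonempty]
      intro hBA
      have : C ⊆ A ∩ B := fun x hx => Finset.mem_inter.2 ⟨hBA (k3 hx), k3 hx⟩
      have := Finset.card_le_card this
      omega
    · have hv1 : A ∩ B ⊆ verts Q := by
        have h1 := k5.verts_inter_card_left
        have h2 : verts Q ∩ (A ∩ B) = A ∩ B :=
          Finset.eq_of_subset_of_card_le Finset.inter_subset_right (by omega)
        intro x hx
        rw [← h2] at hx
        exact (Finset.mem_inter.1 hx).1
      have := comp (W2 := C) k5 hv1 Finset.inter_subset_right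
        (hClink _ Finset.inter_subset_right (by rw [k5.verts_inter_card]; omega))
      rwa [Finset.union_eq_left.2 k3] at this

/-! ### normalisation: all edges inside `X` except the pairs -/

/-- `G` plus all edges inside `X` except the pairs `s i, t i`. -/
def normG (G : SimpleGraph V) (X : Finset V) {n : ℕ} (s t : Fin n → V) : SimpleGraph V where
  Adj x y := x ≠ y ∧ (G.Adj x y ∨ (x ∈ X ∧ y ∈ X ∧
    (∀ i, ¬ (x = s i ∧ y = t i)) ∧ ∀ i, ¬ (x = t i ∧ y = s i)))
  symm := ⟨fun _ _ h => ⟨h.1.symm, h.2.imp (fun h => h.symm) (fun h => ⟨h.2.1, h.1,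
    fun i k => h.2.2.2 i ⟨k.2, k.1⟩, fun i k => h.2.2.1 i ⟨k.2, k.1⟩⟩)⟩⟩
  loopless := ⟨fun _ h => h.1 rfl⟩

variable {n : ℕ} {s t : Fin n → V}

lemma le_normG : ∀ x y, G.Adj x y → (normG G X s t).Adj x y := fun _ _ h => ⟨h.ne, Or.inl h⟩

lemma rho_normG {S : Finset V} (hS : Disjoint S X) : rho (normG G X s t) W S ≤ rho G W S := by
  classical
  unfold rho
  apply Finset.card_le_card
  intro p hp
  rw [Finset.mem_filter] at hp ⊢
  refine ⟨hp.1, ?_, hp.2.2⟩
  rcases hp.2.1.2 with h | h
  · exact h
  · exfalso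
    rcases hp.2.2 with h' | h'
    · exact Finset.disjoint_left.1 hS h' h.1
    · exact Finset.disjoint_left.1 hS h' h.2.1

lemma Sep.of_le {H : SimpleGraph V} (hGH : ∀ x y, G.Adj x y → H.Adj x y) {A B : Finset V}
    (h : Sep H W A B) : Sep G W A B :=
  ⟨h.union, fun a ha haB b hb hbA hadj => h.nadj a ha haB b hb hbA (hGH _ _ hadj)⟩

lemma massed_normG {lam : ℕ} (hM : Massed G W X lam) : Massed (normG G X s t) W X lam := by
  refine ⟨hM.sub, lt_of_lt_of_le hM.m1 (rho_mono_graph le_normG _), ?_⟩
  intro A B hsep hXA hlt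
  refine (rho_normG ?_).trans (hM.m2 A B (Sep.of_le le_normG hsep) hXA hlt)
  rw [Finset.disjoint_left]
  intro x hx hxX
  exact (Finset.mem_sdiff.1 hx).2 (hXA hxX)

lemma joined_normG {P : Fin n → Finset V} (_hs : ∀ i, s i ∈ X) (_ht : ∀ i, t i ∈ X)
    (h : Joined (normG G X s t) W X s t P) : Joined G W X s t P := by
  refine ⟨h.sub, ?_, h.left, h.right, h.meet, h.disj⟩
  intro i
  have hc := h.conn i
  have hadj : ∀ x ∈ P i, ∀ y ∈ P i, (normG G X s t).Adj x y → G.Adj x y := by
    intro x hx y hy hxy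
    rcases hxy.2 with h1 | ⟨hxX, hyX, h1, h2⟩
    · exact h1
    · exfalso
      rcases h.meet i x hx hxX with hx' | hx' <;> rcases h.meet i y hy hyX with hy' | hy'
      · exact hxy.1 (hx'.trans hy'.symm)
      · exact h1 i ⟨hx', hy'⟩
      · exact h2 i ⟨hx', hy'⟩
      · exact hxy.1 (hx'.trans hy'.symm)
  have key : ∀ x y, x ∈ P i → Reach (normG G X s t) (P i) x y → Reach G (P i) x y := by
    intro x y hx hr
    induction hr with
    | refl => exact Reach.refl _
    | tail h1 h2 ih => exact ih.step (hadj _ (ih.mem hx) _ h2.2 h2.1) h2.2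
  rw [conn_iff] at hc ⊢
  exact ⟨hc.1, fun x hx y hy => key x y hx (hc.2 x hx y hy)⟩

lemma clq_normG (hsi : Function.Injective s) (hti : Function.Injective t)
    (hst : ∀ i j, s i ≠ t j) :
    ∀ u ∈ X, ∃ z, ∀ y ∈ X, y ≠ u → y ≠ z → (normG G X s t).Adj u y := by
  intro u hu
  by_cases h1 : ∃ i, u = s i
  · obtain ⟨i, rfl⟩ := h1
    refine ⟨t i, fun y hy hyu hyz => ⟨hyu.symm, Or.inr ⟨hu, hy, ?_, ?_⟩⟩⟩
    · rintro j ⟨h1, h2⟩
      have := hsi h1
      subst this
      exact hyz h2
    · rintro j ⟨h1, h2⟩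
      exact hst i j h1
  · by_cases h2 : ∃ i, u = t i
    · obtain ⟨i, rfl⟩ := h2
      refine ⟨s i, fun y hy hyu hyz => ⟨hyu.symm, Or.inr ⟨hu, hy, ?_, ?_⟩⟩⟩
      · rintro j ⟨h1, h2⟩
        exact hst j i h1.symm
      · rintro j ⟨h1, h2⟩
        have := hti h1
        subst this
        exact hyz h2
    · push Not at h1 h2
      exact ⟨u, fun y hy hyu _ => ⟨hyu.symm, Or.inr ⟨hu, hy, fun j h => h1 j h.1,
        fun j h => h2 j h.1⟩⟩⟩

/-- the literal text of CLAIM B. -/
def ClaimB (V : Type*) [DecidableEq V] : Prop :=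
  ∀ (k lam : ℕ) (G : SimpleGraph V) (W X : Finset V),
    (∀ (G' : SimpleGraph V) (W' X' : Finset V), W'.card < W.card → Massed G' W' X' lam →
      X'.card ≤ 2 * k → Linked G' W' X') →
    X.card ≤ 2 * k → Massed G W X lam → ¬ Linked G W X →
    (∀ A B, Sep G W A B → X ⊆ A → (B \ A).Nonempty → (A ∩ B).card ≤ X.card →
      ¬ Linked G B (A ∩ B)) →
    (∀ u ∈ X, ∃ z, ∀ y ∈ X, y ≠ u → y ≠ z → G.Adj u y) →
    ∀ u ∈ W, ∀ v ∈ W, v ∉ X → G.Adj u v → lam ≤ (nb G W u ∩ nb G W v).card + 1

/-- THOMAS-WOLLAN, from claim B. -/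
theorem tw_of_claimB (hCB : ClaimB V) {k : ℕ} (hk : 1 ≤ k) :
    ∀ (N r : ℕ) (G : SimpleGraph V) (W X : Finset V), W.card = N → rho G W (W \ X) = r →
      Massed G W X (8 * k) → X.card ≤ 2 * k → Linked G W X := by
  intro N
  induction N using Nat.strong_induction_on with
  | _ N ihN =>
  intro r
  induction r using Nat.strong_induction_on with
  | _ r ihr =>
  intro G W X hN hr hM hXc n s t hs ht hsi hti hst
  by_contra hbad
  have IH : ∀ (G' : SimpleGraph V) (W' X' : Finset V), W'.card < W.card →
      Massed G' W' X' (8 * k) → X'.card ≤ 2 * k → Linked G' W' X' :=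
    fun G' W' X' hlt hM' hX' => ihN W'.card (by omega) _ G' W' X' rfl rfl hM' hX'
  have hrho : rho (normG G X s t) W (W \ X) = r := by
    rw [← hr]
    refine le_antisymm (rho_normG ?_) (rho_mono_graph le_normG _)
    exact Finset.sdiff_disjoint
  have IH2 : ∀ (G' : SimpleGraph V), Massed G' W X (8 * k) →
      rho G' W (W \ X) < rho (normG G X s t) W (W \ X) → Linked G' W X :=
    fun G' hM' hlt => ihr _ (by rw [← hrho]; exact hlt) G' W X hN rfl hM' hXc
  have hM1 : Massed (normG G X s t) W X (8 * k) := massed_normG hM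
  have hbad1 : ¬ ∃ P : Fin n → Finset V, Joined (normG G X s t) W X s t P := by
    rintro ⟨P, hP⟩
    exact hbad ⟨P, joined_normG hs ht hP⟩
  have hnl : ¬ Linked (normG G X s t) W X := fun h => hbad1 (h n s t hs ht hsi hti hst)
  have hA : ∀ A B, Sep (normG G X s t) W A B → X ⊆ A → (B \ A).Nonempty →
      (A ∩ B).card ≤ X.card → ¬ Linked (normG G X s t) B (A ∩ B) :=
    fun A B => claimA IH hM1 hXc hs ht hsi hti hst hbad1 A.card A B rfl
  have hB := hCB k (8 * k) (normG G X s t) W X IH hXc hM1 hnl hA (clq_normG hsi hti hst)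
  exact final_step hk IH IH2 hM1 hXc hnl hA hB

end Crest.Agent.R042.TW870
end

-- ▼ part R042/Contr_831
section

/-! Row 42, sec 05 of S0058: contraction of an edge inside a fixed vertex type.
`contr G u v` puts `v` into `u`; the new ground set is `W.erase v`. -/

set_option autoImplicit false
set_option linter.unusedSectionVars false
set_option linter.unusedVariables false

namespace Crest.Agent.R042.Contr831

open Finset Conn353 Menger353

variable {V : Type*} [DecidableEq V] {G : SimpleGraph V} {u v : V}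

/-- contraction of `v` into `u` on the same vertex type (`v` becomes isolated). -/
def contr (G : SimpleGraph V) (u v : V) : SimpleGraph V where
  Adj x y := x ≠ y ∧ x ≠ v ∧ y ≠ v ∧ (G.Adj x y ∨ (x = u ∧ G.Adj v y) ∨ (y = u ∧ G.Adj v x))
  symm := ⟨by
    intro x y h
    obtain ⟨h1, h2, h3, h4⟩ := h
    refine ⟨h1.symm, h3, h2, ?_⟩
    rcases h4 with h | h | h
    · exact Or.inl h.symm
    · exact Or.inr (Or.inr h)
    · exact Or.inr (Or.inl h)⟩
  loopless := ⟨fun x h => h.1 rfl⟩



lemma contr_adj_of_adj {x y : V} (h : G.Adj x y) (hx : x ≠ v) (hy : y ≠ v) :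
    (contr G u v).Adj x y := ⟨h.ne, hx, hy, Or.inl h⟩

/-- lift of a vertex set. -/
def lift (u v : V) (S : Finset V) : Finset V := if u ∈ S then insert v S else S

lemma mem_lift {S : Finset V} {x : V} : x ∈ lift u v S ↔ x ∈ S ∨ (x = v ∧ u ∈ S) := by
  unfold lift
  split_ifs with h
  · simp only [Finset.mem_insert]
    constructor
    · rintro (h1 | h1)
      · exact Or.inr ⟨h1, h⟩
      · exact Or.inl h1
    · rintro (h1 | h1)
      · exact Or.inr h1
      · exact Or.inl h1.1
  · constructor
    · intro h1; exact Or.inl h1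
    · rintro (h1 | h1)
      · exact h1
      · exact absurd h1.2 h

lemma subset_lift {S : Finset V} : S ⊆ lift u v S := by
  intro x hx; exact mem_lift.2 (Or.inl hx)

/-- reachability in the contraction lifts. -/
lemma reach_lift (huv : G.Adj u v) {S : Finset V} {x y : V}
    (h : Reach (contr G u v) S x y) (hx : x ∈ S) : Reach G (lift u v S) x y := by
  induction h with
  | refl => exact Reach.refl _
  | tail h1 h2 ih =>
    rename_i b c
    obtain ⟨⟨_, hb, hc, h3⟩, hcS⟩ := h2
    have hbS : b ∈ S := Reach.mem h1 hx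
    rcases h3 with h3 | h3 | h3
    · exact ih.step h3 (subset_lift hcS)
    · obtain ⟨rfl, h4⟩ := h3
      exact (ih.step huv (mem_lift.2 (Or.inr ⟨rfl, hbS⟩))).step h4 (subset_lift hcS)
    · obtain ⟨rfl, h4⟩ := h3
      exact (ih.step h4.symm (mem_lift.2 (Or.inr ⟨rfl, hcS⟩))).step huv.symm (subset_lift hcS)

/-- connected sets lift. -/
lemma conn_lift (huv : G.Adj u v) {S : Finset V} (h : Conn (contr G u v) S) :
    Conn G (lift u v S) := by
  obtain ⟨⟨x, hx⟩, h1⟩ := conn_iff.1 h
  refine conn_of_reach (subset_lift hx) ?_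
  intro y hy
  rcases mem_lift.1 hy with hy | ⟨rfl, hu⟩
  · exact reach_lift huv (h1 x hx y hy) hx
  · exact (reach_lift huv (h1 x hx u hu) hx).step huv hy







/-! ### separations -/

lemma sep_lift {W A B : Finset V} (hu : u ∈ W) (hv : v ∈ W) (huv : u ≠ v)
    (h : Sep (contr G u v) (W.erase v) A B) : Sep G W (lift u v A) (lift u v B) := by
  have hvA : v ∉ A := fun hx => by
    have := h.left_sub hx; simp at this
  have hvB : v ∉ B := fun hx => by
    have := h.right_sub hx; simp at this
  refine ⟨?_, ?_⟩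
  · ext x
    rw [Finset.mem_union, mem_lift, mem_lift]
    constructor
    · rintro ((hx | ⟨rfl, _⟩) | (hx | ⟨rfl, _⟩))
      · exact Finset.mem_of_mem_erase (h.left_sub hx)
      · exact hv
      · exact Finset.mem_of_mem_erase (h.right_sub hx)
      · exact hv
    · intro hx
      by_cases hxv : x = v
      · subst hxv
        have hu' : u ∈ A ∪ B := by rw [h.union]; exact Finset.mem_erase.2 ⟨huv, hu⟩
        rcases Finset.mem_union.1 hu' with hu' | hu'
        · exact Or.inl (Or.inr ⟨rfl, hu'⟩)
        · exact Or.inr (Or.inr ⟨rfl, hu'⟩)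
      · have hx' : x ∈ A ∪ B := by rw [h.union]; exact Finset.mem_erase.2 ⟨hxv, hx⟩
        rcases Finset.mem_union.1 hx' with hx' | hx'
        · exact Or.inl (Or.inl hx')
        · exact Or.inr (Or.inl hx')
  · intro a ha haB b hb hbA hab
    rw [mem_lift] at ha hb haB hbA
    push Not at haB hbA
    rcases ha with ha | ⟨rfl, ha⟩
    · rcases hb with hb | ⟨rfl, hb⟩
      · refine h.nadj a ha haB.1 b hb hbA.1 (contr_adj_of_adj hab ?_ ?_)
        · rintro rfl; exact hvA ha
        · rintro rfl; exact hvB hb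
      · -- `b = v`, `u ∈ B`, `u ∉ A`
        have huA : u ∉ A := hbA.2 rfl
        refine h.nadj a ha haB.1 u hb huA ?_
        refine ⟨?_, ?_, huv, Or.inr (Or.inr ⟨rfl, hab.symm⟩)⟩
        · rintro rfl; exact huA ha
        · rintro rfl; exact hvA ha
    · have huB : u ∉ B := haB.2 rfl
      rcases hb with hb | ⟨rfl, hb⟩
      · refine h.nadj u ha huB b hb hbA.1 ?_
        refine ⟨?_, huv, ?_, Or.inr (Or.inl ⟨rfl, hab⟩)⟩
        · rintro rfl; exact huB hb
        · rintro rfl; exact hvB hb
      · exact huB hb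

lemma lift_inter {A B : Finset V} (hvA : v ∉ A) (hvB : v ∉ B) :
    lift u v A ∩ lift u v B = lift u v (A ∩ B) := by
  ext x
  simp only [Finset.mem_inter, mem_lift]
  constructor
  · rintro ⟨h1 | h1, h2 | h2⟩
    · exact Or.inl ⟨h1, h2⟩
    · rw [h2.1] at h1; exact absurd h1 hvA
    · rw [h1.1] at h2; exact absurd h2 hvB
    · exact Or.inr ⟨h1.1, h1.2, h2.2⟩
  · rintro (h1 | h1)
    · exact ⟨Or.inl h1.1, Or.inl h1.2⟩
    · exact ⟨Or.inr ⟨h1.1, h1.2.1⟩, Or.inr ⟨h1.1, h1.2.2⟩⟩

lemma card_lift {S : Finset V} (hv : v ∉ S) :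
    (lift u v S).card = S.card + if u ∈ S then 1 else 0 := by
  unfold lift
  split_ifs with h
  · rw [Finset.card_insert_of_notMem hv]
  · rfl

lemma card_lift_le {S : Finset V} (hv : v ∉ S) : (lift u v S).card ≤ S.card + 1 := by
  rw [card_lift hv]
  split_ifs <;> omega

lemma lift_of_notMem {S : Finset V} (hu : u ∉ S) : lift u v S = S := by
  unfold lift; rw [if_neg hu]

lemma lift_of_mem {S : Finset V} (hu : u ∈ S) : lift u v S = insert v S := by
  unfold lift; rw [if_pos hu]

lemma lift_sdiff {A B : Finset V} (hvA : v ∉ A) (hvB : v ∉ B) :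
    lift u v B \ lift u v A = if u ∈ B ∧ u ∉ A then insert v (B \ A) else B \ A := by
  ext x
  split_ifs with h
  · rw [lift_of_mem h.1, lift_of_notMem h.2]
    simp only [Finset.mem_sdiff, Finset.mem_insert]
    constructor
    · rintro ⟨h1 | h1, h2⟩
      · exact Or.inl h1
      · exact Or.inr ⟨h1, h2⟩
    · rintro (h1 | h1)
      · exact ⟨Or.inl h1, h1 ▸ hvA⟩
      · exact ⟨Or.inr h1.1, h1.2⟩
  · simp only [Finset.mem_sdiff, mem_lift]
    constructor
    · rintro ⟨h1 | ⟨h1, h3⟩, h2⟩
      · exact ⟨h1, fun h4 => h2 (Or.inl h4)⟩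
      · exfalso
        apply h
        exact ⟨h3, fun h4 => h2 (Or.inr ⟨h1, h4⟩)⟩
    · rintro ⟨h1, h2⟩
      refine ⟨Or.inl h1, ?_⟩
      rintro (h3 | h3)
      · exact h2 h3
      · rw [h3.1] at h1; exact hvB h1

lemma lift_sdiff' {A B : Finset V} (hvA : v ∉ A) (hvB : v ∉ B) :
    lift u v B \ lift u v A = lift u v (B \ A) := by
  rw [lift_sdiff hvA hvB]
  unfold lift
  simp only [Finset.mem_sdiff]

/-! ### counting edges -/

open Classical in
/-- ordered pairs of adjacent vertices of `W` with at least one end in `S`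
(= twice the number of edges with an end in `S`). -/
noncomputable def rho (G : SimpleGraph V) (W S : Finset V) : ℕ :=
  ((W ×ˢ W).filter (fun p => G.Adj p.1 p.2 ∧ (p.1 ∈ S ∨ p.2 ∈ S))).card

/-- the contraction has at most as many edges at `S` as `G` at the lift of `S`. -/
theorem rho_contr_le {W S : Finset V} (hv : v ∈ W) (hvS : v ∉ S) :
    rho (contr G u v) (W.erase v) S ≤ rho G W (lift u v S) := by
  classical
  unfold rho
  refine Finset.card_le_card_of_injOn
    (fun p => if G.Adj p.1 p.2 then p else if p.1 = u then (v, p.2) else (p.1, v)) ?_ ?_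
  · rintro ⟨x, y⟩ hp
    simp only [Finset.coe_filter, Finset.mem_product, Set.mem_ofPred_eq, Finset.mem_erase] at hp
    obtain ⟨⟨⟨hxv, hx⟩, hyv, hy⟩, ⟨hxy, _, _, h1⟩, h2⟩ := hp
    simp only [Finset.coe_filter, Finset.mem_product, Set.mem_ofPred_eq]
    by_cases hG : G.Adj x y
    · rw [if_pos hG]
      exact ⟨⟨hx, hy⟩, hG, h2.imp (fun h => subset_lift h) (fun h => subset_lift h)⟩
    · rw [if_neg hG]
      by_cases hxu : x = u
      · rw [if_pos hxu]
        refine ⟨⟨hv, hy⟩, ?_, ?_⟩
        · rcases h1 with h1 | h1 | h1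
          · exact absurd h1 hG
          · exact h1.2
          · exact absurd (hxu.trans h1.1.symm) hxy
        · rcases h2 with h2 | h2
          · exact Or.inl (mem_lift.2 (Or.inr ⟨rfl, hxu ▸ h2⟩))
          · exact Or.inr (subset_lift h2)
      · rw [if_neg hxu]
        rcases h1 with h1 | h1 | h1
        · exact absurd h1 hG
        · exact absurd h1.1 hxu
        · refine ⟨⟨hx, hv⟩, h1.2.symm, ?_⟩
          rcases h2 with h2 | h2
          · exact Or.inl (subset_lift h2)
          · exact Or.inr (mem_lift.2 (Or.inr ⟨rfl, h1.1 ▸ h2⟩))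
  · rintro ⟨x, y⟩ hp ⟨x', y'⟩ hp' he
    simp only [Finset.coe_filter, Finset.mem_product, Set.mem_ofPred_eq, Finset.mem_erase] at hp hp'
    obtain ⟨⟨⟨hxv, hx⟩, hyv, hy⟩, ⟨hxy, _, _, h1⟩, h2⟩ := hp
    obtain ⟨⟨⟨hxv', hx'⟩, hyv', hy'⟩, ⟨hxy', _, _, h1'⟩, h2'⟩ := hp'
    simp only at he
    by_cases hG : G.Adj x y
    · rw [if_pos hG] at he
      by_cases hG' : G.Adj x' y'
      · rwa [if_pos hG'] at he
      · rw [if_neg hG'] at he
        split_ifs at he with h3
        · exact absurd (congrArg Prod.fst he) hxv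
        · exact absurd (congrArg Prod.snd he) hyv
    · rw [if_neg hG] at he
      by_cases hG' : G.Adj x' y'
      · rw [if_pos hG'] at he
        split_ifs at he with h3
        · exact absurd (congrArg Prod.fst he).symm hxv'
        · exact absurd (congrArg Prod.snd he).symm hyv'
      · rw [if_neg hG'] at he
        split_ifs at he with h3 h4 h4
        · have := congrArg Prod.snd he
          simp only at this
          rw [h3, h4, this]
        · exact absurd (congrArg Prod.fst he).symm hxv'
        · exact absurd (congrArg Prod.fst he) hxv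
        · have h5 : y = u := by
            rcases h1 with h1 | h1 | h1
            · exact absurd h1 hG
            · exact absurd h1.1 h3
            · exact h1.1
          have h6 : y' = u := by
            rcases h1' with h1 | h1 | h1
            · exact absurd h1 hG'
            · exact absurd h1.1 h4
            · exact h1.1
          have := congrArg Prod.fst he
          simp only at this
          rw [h5, h6, this]

open Classical in
/-- the loss of edges in a contraction. -/
theorem rho_loss {W X : Finset V} (huv : G.Adj u v) (hu : u ∈ W) (hv : v ∈ W) (hvX : v ∉ X) :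
    rho G W (W \ X) ≤ rho (contr G u v) (W.erase v) (W.erase v \ X) +
      2 * (1 + (W.filter (fun y => G.Adj u y ∧ G.Adj v y)).card +
        (W.filter (fun y => y ≠ u ∧ G.Adj v y ∧ ¬ G.Adj u y ∧ u ∈ X ∧ y ∈ X)).card) := by
  unfold rho
  set M := W.filter (fun y => y ≠ u ∧ G.Adj v y ∧ ¬ G.Adj u y ∧ ¬ (u ∈ X ∧ y ∈ X)) with hM
  set E := W.filter (fun y => y ≠ u ∧ G.Adj v y ∧ ¬ G.Adj u y ∧ u ∈ X ∧ y ∈ X) with hE
  set C := W.filter (fun y => G.Adj u y ∧ G.Adj v y) with hC
  set N := W.filter (fun y => G.Adj v y) with hN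
  set P := (W ×ˢ W).filter (fun p => G.Adj p.1 p.2 ∧ (p.1 ∈ W \ X ∨ p.2 ∈ W \ X)) with hP
  set P' := (W.erase v ×ˢ W.erase v).filter (fun p => (contr G u v).Adj p.1 p.2 ∧
    (p.1 ∈ W.erase v \ X ∨ p.2 ∈ W.erase v \ X)) with hP'
  set Q := (W.erase v ×ˢ W.erase v).filter (fun p => G.Adj p.1 p.2 ∧
    (p.1 ∈ W.erase v \ X ∨ p.2 ∈ W.erase v \ X)) with hQ
  have h1 : P ⊆ Q ∪ (({v} : Finset V) ×ˢ N ∪ N ×ˢ ({v} : Finset V)) := by
    rintro ⟨x, y⟩ hp
    rw [hP, Finset.mem_filter, Finset.mem_product] at hp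
    obtain ⟨⟨hx, hy⟩, h2, h3⟩ := hp
    simp only at hx hy h2 h3
    rw [Finset.mem_union, Finset.mem_union, Finset.mem_product, Finset.mem_product]
    by_cases hxv : x = v
    · right; left
      refine ⟨Finset.mem_singleton.2 hxv, ?_⟩
      rw [hN, Finset.mem_filter]
      exact ⟨hy, hxv ▸ h2⟩
    · by_cases hyv : y = v
      · right; right
        refine ⟨?_, Finset.mem_singleton.2 hyv⟩
        rw [hN, Finset.mem_filter]
        exact ⟨hx, hyv ▸ h2.symm⟩
      · left
        rw [hQ, Finset.mem_filter, Finset.mem_product]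
        refine ⟨⟨Finset.mem_erase.2 ⟨hxv, hx⟩, Finset.mem_erase.2 ⟨hyv, hy⟩⟩, h2, ?_⟩
        rcases h3 with h3 | h3
        · left
          rw [Finset.mem_sdiff] at h3 ⊢
          exact ⟨Finset.mem_erase.2 ⟨hxv, h3.1⟩, h3.2⟩
        · right
          rw [Finset.mem_sdiff] at h3 ⊢
          exact ⟨Finset.mem_erase.2 ⟨hyv, h3.1⟩, h3.2⟩
  have h2 : P.card ≤ Q.card + 2 * N.card := by
    refine (Finset.card_le_card h1).trans ?_
    refine (Finset.card_union_le _ _).trans ?_
    refine Nat.add_le_add_left ?_ _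
    refine (Finset.card_union_le _ _).trans ?_
    rw [Finset.card_product, Finset.card_product, Finset.card_singleton]
    omega
  have h3 : N.card ≤ 1 + C.card + E.card + M.card := by
    have : N ⊆ (({u} : Finset V) ∪ C ∪ E ∪ M) := by
      intro y hy
      rw [hN, Finset.mem_filter] at hy
      simp only [Finset.mem_union, Finset.mem_singleton, hC, hE, hM, Finset.mem_filter]
      tauto
    refine (Finset.card_le_card this).trans ?_
    refine (Finset.card_union_le _ _).trans ?_
    refine Nat.add_le_add_right ?_ _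
    refine (Finset.card_union_le _ _).trans ?_
    refine Nat.add_le_add_right ?_ _
    refine (Finset.card_union_le _ _).trans ?_
    rw [Finset.card_singleton]
  have huv' : u ≠ v := huv.ne
  have h4 : Q ∪ (({u} : Finset V) ×ˢ M ∪ M ×ˢ ({u} : Finset V)) ⊆ P' := by
    rintro ⟨x, y⟩ hp
    rw [hP', Finset.mem_filter, Finset.mem_product]
    rw [Finset.mem_union, Finset.mem_union, Finset.mem_product, Finset.mem_product] at hp
    rcases hp with hp | ⟨hp, hp'⟩ | ⟨hp, hp'⟩
    · rw [hQ, Finset.mem_filter, Finset.mem_product] at hp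
      obtain ⟨⟨hx, hy⟩, h5, h6⟩ := hp
      exact ⟨⟨hx, hy⟩, contr_adj_of_adj h5 (Finset.ne_of_mem_erase hx)
        (Finset.ne_of_mem_erase hy), h6⟩
    · simp only [Finset.mem_singleton] at hp
      simp only [hM, Finset.mem_filter] at hp'
      subst hp
      obtain ⟨h6, h7, h8, h9, h10⟩ := hp'
      have hyv : y ≠ v := h8.ne.symm
      refine ⟨⟨Finset.mem_erase.2 ⟨huv', hu⟩, Finset.mem_erase.2 ⟨hyv, h6⟩⟩,
        ⟨h7.symm, huv', hyv, Or.inr (Or.inl ⟨rfl, h8⟩)⟩, ?_⟩
      simp only [Finset.mem_sdiff, Finset.mem_erase]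
      tauto
    · simp only [Finset.mem_singleton] at hp'
      simp only [hM, Finset.mem_filter] at hp
      subst hp'
      obtain ⟨h6, h7, h8, h9, h10⟩ := hp
      have hyv : x ≠ v := h8.ne.symm
      refine ⟨⟨Finset.mem_erase.2 ⟨hyv, h6⟩, Finset.mem_erase.2 ⟨huv', hu⟩⟩,
        ⟨h7, hyv, huv', Or.inr (Or.inr ⟨rfl, h8⟩)⟩, ?_⟩
      simp only [Finset.mem_sdiff, Finset.mem_erase]
      tauto
  have h5 : Q.card + 2 * M.card ≤ P'.card := by
    refine le_trans ?_ (Finset.card_le_card h4)
    rw [Finset.card_union_of_disjoint, Finset.card_union_of_disjoint, Finset.card_product,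
      Finset.card_product, Finset.card_singleton]
    · omega
    · rw [Finset.disjoint_left]
      rintro ⟨x, y⟩ h6 h7
      rw [Finset.mem_product] at h6 h7
      simp only [Finset.mem_singleton, hM, Finset.mem_filter] at h6 h7
      exact h6.2.2.1 h7.2
    · rw [Finset.disjoint_left]
      rintro ⟨x, y⟩ h6 h7
      rw [hQ, Finset.mem_filter] at h6
      rw [Finset.mem_union, Finset.mem_product, Finset.mem_product] at h7
      simp only [Finset.mem_singleton, hM, Finset.mem_filter] at h7
      rcases h7 with ⟨rfl, h7⟩ | ⟨h7, rfl⟩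
      · exact h7.2.2.2.1 h6.2.1
      · exact h7.2.2.2.1 h6.2.1.symm
  omega

open Classical in
theorem rho_loss_out {W X : Finset V} (huv : G.Adj u v) (hu : u ∈ W) (hv : v ∈ W)
    (hvX : v ∉ X) (huX : u ∉ X) :
    rho G W (W \ X) ≤ rho (contr G u v) (W.erase v) (W.erase v \ X) +
      2 * (1 + (W.filter (fun y => G.Adj u y ∧ G.Adj v y)).card) := by
  have h := rho_loss (W := W) (X := X) huv hu hv hvX
  have h1 : (W.filter (fun y => y ≠ u ∧ G.Adj v y ∧ ¬ G.Adj u y ∧ u ∈ X ∧ y ∈ X)) = ∅ := by
    rw [Finset.filter_eq_empty_iff]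
    intro y _ h2
    exact huX h2.2.2.2.1
  rw [h1, Finset.card_empty, Nat.add_zero] at h
  exact h

open Classical in
theorem rho_loss_in {W X : Finset V} (huv : G.Adj u v) (hu : u ∈ W) (hv : v ∈ W)
    (hvX : v ∉ X) (z : V) (hz : ∀ y ∈ X, y ≠ u → y ≠ z → G.Adj u y) :
    rho G W (W \ X) ≤ rho (contr G u v) (W.erase v) (W.erase v \ X) +
      2 * (2 + (W.filter (fun y => G.Adj u y ∧ G.Adj v y)).card) := by
  have h := rho_loss (W := W) (X := X) huv hu hv hvX
  have h1 : (W.filter (fun y => y ≠ u ∧ G.Adj v y ∧ ¬ G.Adj u y ∧ u ∈ X ∧ y ∈ X)).card ≤ 1 := by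
    refine (Finset.card_le_card (t := {z}) ?_).trans (by rw [Finset.card_singleton])
    intro y hy
    rw [Finset.mem_filter] at hy
    rw [Finset.mem_singleton]
    by_contra hne
    exact hy.2.2.2.1 (hz y hy.2.2.2.2.2 hy.2.1 hne)
  omega

end Crest.Agent.R042.Contr831
end

-- ▼ part R042/ContrJ_831
section

/-! Row 42, sec 05: the contraction API (Contr_831) in the literal forms of `LinkDefs_870`. -/

set_option autoImplicit false
set_option linter.unusedSectionVars false
set_option linter.unusedVariables false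

namespace Crest.Agent.R042.ContrJ831

open Finset Crest.Agent.R042.Conn353 Crest.Agent.R042.Menger353 Crest.Agent.R042.Link870
open Crest.Agent.R042.Contr831 (contr lift)

variable {V : Type*} [DecidableEq V] {G : SimpleGraph V} {u v : V} {W X : Finset V}

/-- (c1) joined families lift through a contraction. -/
theorem joined_lift {ι : Type*} {s t : ι → V} {P : ι → Finset V} (huv : G.Adj u v) (hv : v ∈ W)
    (hvX : v ∉ X) (h : Joined (contr G u v) (W.erase v) X s t P) :
    Joined G W X s t (fun i => lift u v (P i)) := by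
  have hvP : ∀ i, v ∉ P i := fun i hi => by
    have := h.sub i hi
    simp at this
  refine ⟨?_, fun i => Contr831.conn_lift huv (h.conn i), fun i => Contr831.subset_lift (h.left i),
    fun i => Contr831.subset_lift (h.right i), ?_, ?_⟩
  · intro i x hx
    rcases Contr831.mem_lift.1 hx with hx | ⟨hx, _⟩
    · exact Finset.mem_of_mem_erase (h.sub i hx)
    · rw [hx]; exact hv
  · intro i x hx hX
    rcases Contr831.mem_lift.1 hx with hx | ⟨hx, _⟩
    · exact h.meet i x hx hX
    · rw [hx] at hX; exact absurd hX hvX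
  · intro i j hij
    rw [Finset.disjoint_left]
    intro x hx hx'
    have hd := Finset.disjoint_left.1 (h.disj i j hij)
    rcases Contr831.mem_lift.1 hx with k1 | ⟨k0, k1⟩
    · rcases Contr831.mem_lift.1 hx' with k2 | ⟨k3, k2⟩
      · exact hd k1 k2
      · exact hvP i (k3 ▸ k1)
    · rcases Contr831.mem_lift.1 hx' with k2 | ⟨_, k2⟩
      · exact hvP j (k0 ▸ k2)
      · exact hd k1 k2

/-- (c1') a linked set of the contraction is linked in the graph. -/
theorem linked_lift (huv : G.Adj u v) (hv : v ∈ W) (hvX : v ∉ X)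
    (h : Linked (contr G u v) (W.erase v) X) : Linked G W X := by
  intro n s t hs ht h1 h2 h3
  obtain ⟨P, hP⟩ := h n s t hs ht h1 h2 h3
  exact ⟨_, joined_lift huv hv hvX hP⟩

lemma conn_contr_of_notMem {S : Finset V} (hu : u ∉ S) (h : Conn (contr G u v) S) : Conn G S := by
  rw [conn_iff] at h ⊢
  refine ⟨h.1, fun a ha b hb => ?_⟩
  have key : ∀ {x y : V}, Reach (contr G u v) S x y → x ∈ S → Reach G S x y := by
    intro x y h hx
    induction h with
    | refl => exact Reach.refl _
    | tail h9 h10 ih =>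
      rename_i b c
      obtain ⟨⟨_, hb, hc, h11⟩, hcS⟩ := h10
      have hbS : b ∈ S := Reach.mem h9 hx
      rcases h11 with h11 | h11 | h11
      · exact ih.step h11 hcS
      · exact absurd hbS (h11.1 ▸ hu)
      · exact absurd hcS (h11.1 ▸ hu)
  exact key (h.2 a ha b hb) ha

/-- a joined family of the contraction inside a set missing `u`. -/
theorem joined_of_notMem {ι : Type*} {s t : ι → V} {P : ι → Finset V} (hu : u ∉ W)
    (h : Joined (contr G u v) W X s t P) : Joined G W X s t P :=
  ⟨h.sub, fun i => conn_contr_of_notMem (fun hi => hu (h.sub i hi)) (h.conn i), h.left, h.right,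
    h.meet, h.disj⟩

theorem linked_of_notMem (hu : u ∉ W) (h : Linked (contr G u v) W X) : Linked G W X := by
  intro n s t hs ht h1 h2 h3
  obtain ⟨P, hP⟩ := h n s t hs ht h1 h2 h3
  exact ⟨_, joined_of_notMem hu hP⟩

/-- linkedness of the lift of a side: if the new vertex is not in the separator. -/
theorem linked_side {A B : Finset V} (huv : G.Adj u v) (hvA : v ∉ A) (hvB : v ∉ B)
    (hu : ¬ (u ∈ A ∧ u ∈ B)) (h : Linked (contr G u v) B (A ∩ B)) :
    Linked G (lift u v B) (lift u v A ∩ lift u v B) := by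
  have hu' : u ∉ A ∩ B := fun h => hu ⟨(Finset.mem_inter.1 h).1, (Finset.mem_inter.1 h).2⟩
  rw [Contr831.lift_inter hvA hvB, Contr831.lift_of_notMem hu']
  by_cases hB : u ∈ B
  · rw [Contr831.lift_of_mem hB]
    refine linked_lift huv (Finset.mem_insert_self _ _)
      (fun hx => hvA (Finset.mem_inter.1 hx).1) ?_
    rwa [Finset.erase_insert hvB]
  · rw [Contr831.lift_of_notMem hB]
    exact linked_of_notMem hB h

/-- (c2) separations lift. -/
theorem sep_lift {A B : Finset V} (hu : u ∈ W) (hv : v ∈ W) (huv : u ≠ v)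
    (h : Sep (contr G u v) (W.erase v) A B) : Sep G W (lift u v A) (lift u v B) :=
  Contr831.sep_lift hu hv huv h


/-- (c3) -/
theorem rho_contr_le {S : Finset V} (hv : v ∈ W) (hvS : v ∉ S) :
    rho (contr G u v) (W.erase v) S ≤ rho G W (lift u v S) :=
  Contr831.rho_contr_le hv hvS




end Crest.Agent.R042.ContrJ831
end

-- ▼ part R042/TWBJ_831

/-! Row 42, sec 05: CLAIM B of the Thomas-Wollan theorem (in the forms of `LinkDefs_870`). -/

set_option autoImplicit false
set_option linter.unusedSectionVars false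
set_option linter.unusedVariables false

namespace Crest.Agent.R042.TWBJ831

open Finset Crest.Agent.R042.Menger353 Crest.Agent.R042.Link870
open Crest.Agent.R042.Conn353 (Conn Reach conn_iff)
open Crest.Agent.R042.Contr831 (contr lift)

variable {V : Type*} [DecidableEq V] {G : SimpleGraph V} {u v : V} {W X A B P Q : Finset V}

/-! ### edge counts and separations -/


lemma rho_mono_W {W' S : Finset V} (h : W ⊆ W') : rho G W S ≤ rho G W' S := by
  classical
  unfold rho
  apply Finset.card_le_card
  intro p hp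
  rw [Finset.mem_filter, Finset.mem_product] at hp ⊢
  exact ⟨⟨h hp.1.1, h hp.1.2⟩, hp.2⟩

lemma rho_empty : rho G W ∅ = 0 := by
  classical
  unfold rho
  rw [Finset.card_eq_zero, Finset.filter_eq_empty_iff]
  intro p _ h
  simp at h

/-- all the edges at `B \ A` are inside `B`. -/
lemma rho_side_le (h : Sep G W A B) : rho G W (B \ A) ≤ rho G B (B \ A) := by
  classical
  unfold rho
  apply Finset.card_le_card
  rintro ⟨x, y⟩ hp
  rw [Finset.mem_filter, Finset.mem_product] at hp ⊢
  obtain ⟨⟨hx, hy⟩, h1, h2⟩ := hp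
  simp only at hx hy h1 h2 ⊢
  have key : ∀ a b, G.Adj a b → a ∈ B \ A → b ∈ W → b ∈ B := by
    intro a b hab ha hb
    rw [Finset.mem_sdiff] at ha
    rw [← h.union, Finset.mem_union] at hb
    rcases hb with hb | hb
    · by_contra hbB
      exact h.nadj b hb hbB a ha.1 ha.2 hab.symm
    · exact hb
  rcases h2 with h2 | h2
  · exact ⟨⟨(Finset.mem_sdiff.1 h2).1, key x y h1 h2 hy⟩, h1, Or.inl h2⟩
  · exact ⟨⟨key y x h1.symm h2 hx, (Finset.mem_sdiff.1 h2).1⟩, h1, Or.inr h2⟩

lemma sdiff_inter_self' : B \ (A ∩ B) = B \ A := by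
  ext x
  simp only [Finset.mem_sdiff, Finset.mem_inter]
  tauto

/-- a separation of `G[B]` extends to a separation of `G[W]`. -/
lemma sep_combine (h : Sep G W A B) (h' : Sep G B P Q) (hP : A ∩ B ⊆ P) :
    Sep G W (A ∪ P) Q ∧ (A ∪ P) ∩ Q = P ∩ Q ∧ Q \ (A ∪ P) = Q \ P := by
  have hPB := h'.left_sub
  have hQB := h'.right_sub
  have hAQ : ∀ x, x ∈ A → x ∈ Q → x ∈ P := fun x h1 h2 =>
    hP (Finset.mem_inter.2 ⟨h1, hQB h2⟩)
  refine ⟨⟨?_, ?_⟩, ?_, ?_⟩
  · rw [Finset.union_assoc, h'.union, h.union]
  · intro a ha haQ b hbQ hb hab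
    rw [Finset.mem_union, not_or] at hb
    by_cases haP : a ∈ P
    · exact h'.nadj a haP haQ b hbQ hb.2 hab
    · have haA : a ∈ A := by
        rcases Finset.mem_union.1 ha with h1 | h1
        · exact h1
        · exact absurd h1 haP
      have haB : a ∉ B := fun h1 => haP (hP (Finset.mem_inter.2 ⟨haA, h1⟩))
      exact h.nadj a haA haB b (hQB hbQ) hb.1 hab
  · ext x
    simp only [Finset.mem_inter, Finset.mem_union]
    constructor
    · rintro ⟨h1 | h1, h2⟩
      · exact ⟨hAQ x h1 h2, h2⟩
      · exact ⟨h1, h2⟩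
    · rintro ⟨h1, h2⟩
      exact ⟨Or.inr h1, h2⟩
  · ext x
    simp only [Finset.mem_sdiff, Finset.mem_union, not_or]
    constructor
    · rintro ⟨h1, h2, h3⟩
      exact ⟨h1, h3⟩
    · rintro ⟨h1, h2⟩
      exact ⟨h1, fun h3 => h2 (hAQ x h3 h1), h2⟩

/-- if `(A, B)` has many edges at `B \ A` and every separation of order `< |A ∩ B|` behind it is
small, then `(G[B], A ∩ B)` is massed. -/
theorem massed_side {lam : ℕ} (hs : Sep G W A B)
    (hv : 2 * lam * (B \ A).card < rho G W (B \ A))
    (hm : ∀ P Q, Sep G B P Q → A ∩ B ⊆ P → (P ∩ Q).card < (A ∩ B).card →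
      rho G W (Q \ P) ≤ 2 * lam * (Q \ P).card) : Massed G B (A ∩ B) lam := by
  refine ⟨Finset.inter_subset_right, ?_, ?_⟩
  · rw [sdiff_inter_self']
    exact hv.trans_le (rho_side_le hs)
  · intro P Q h1 h2 h3
    exact (rho_mono_W hs.right_sub).trans (hm P Q h1 h2 h3)

theorem massed_of_min_violation {lam : ℕ} (hs : Sep G W A B) (hXA : X ⊆ A)
    (ho : (A ∩ B).card < X.card) (hv : 2 * lam * (B \ A).card < rho G W (B \ A))
    (hmin : ∀ A' B', Sep G W A' B' → X ⊆ A' → (A' ∩ B').card < X.card →
      2 * lam * (B' \ A').card < rho G W (B' \ A') → B.card ≤ B'.card) :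
    Massed G B (A ∩ B) lam := by
  refine massed_side hs hv ?_
  intro P Q h1 h2 h3
  by_contra h4
  push Not at h4
  obtain ⟨c1, c2, c3⟩ := sep_combine hs h1 h2
  have h5 := hmin (A ∪ P) Q c1 (hXA.trans Finset.subset_union_left) (by rw [c2]; omega)
    (by rw [c3]; exact h4)
  have h6 : Q = B := Finset.eq_of_subset_of_card_le h1.right_sub h5
  have h7 : P ∩ Q = P := by
    rw [h6]
    exact Finset.inter_eq_left.2 h1.left_sub
  rw [h7] at h3
  have := Finset.card_le_card h2
  omega

/-- a violation of `m2` with `|B|` minimal. -/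
theorem exists_min_violation {lam : ℕ} (h : ¬ ∀ A B, Sep G W A B → X ⊆ A →
      (A ∩ B).card < X.card → rho G W (B \ A) ≤ 2 * lam * (B \ A).card) :
    ∃ A B, Sep G W A B ∧ X ⊆ A ∧ (A ∩ B).card < X.card ∧
      2 * lam * (B \ A).card < rho G W (B \ A) ∧
      ∀ A' B', Sep G W A' B' → X ⊆ A' → (A' ∩ B').card < X.card →
        2 * lam * (B' \ A').card < rho G W (B' \ A') → B.card ≤ B'.card := by
  classical
  have hex : ∃ n, ∃ A B, Sep G W A B ∧ X ⊆ A ∧ (A ∩ B).card < X.card ∧
      2 * lam * (B \ A).card < rho G W (B \ A) ∧ B.card = n := by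
    push Not at h
    obtain ⟨A, B, h1, h2, h3, h4⟩ := h
    exact ⟨_, A, B, h1, h2, h3, h4, rfl⟩
  obtain ⟨A, B, h1, h2, h3, h4, h5⟩ := Nat.find_spec hex
  refine ⟨A, B, h1, h2, h3, h4, ?_⟩
  intro A' B' e1 e2 e3 e4
  rw [h5]
  exact Nat.find_min' hex ⟨A', B', e1, e2, e3, e4, rfl⟩

open Classical in
/-- CLAIM B of the Thomas-Wollan theorem. -/
theorem claimB {m lam : ℕ} {G : SimpleGraph V} {W X : Finset V}
    (IH : ∀ (G' : SimpleGraph V) (W' X' : Finset V), W'.card < W.card →
      Massed G' W' X' lam → X'.card ≤ m → Linked G' W' X')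
    (hXk : X.card ≤ m) (hM : Massed G W X lam) (hno : ¬ Linked G W X)
    (hA : ∀ A B, Sep G W A B → X ⊆ A → (B \ A).Nonempty → (A ∩ B).card ≤ X.card →
      ¬ Linked G B (A ∩ B))
    (hclq : ∀ u ∈ X, ∃ z, ∀ y ∈ X, y ≠ u → y ≠ z → G.Adj u y) :
    ∀ u ∈ W, ∀ v ∈ W, v ∉ X → G.Adj u v →
      lam ≤ (nb G W u ∩ nb G W v).card + (if u ∈ X then 1 else 0) := by
  have hX := hM.sub
  intro u hu v hv hvX huv
  have hnb : (nb G W u ∩ nb G W v).card =
      (W.filter (fun w => G.Adj u w ∧ G.Adj v w)).card := by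
    congr 1
    ext x
    rw [Finset.mem_inter, mem_nb, mem_nb, Finset.mem_filter]
    tauto
  rw [hnb]
  by_contra hlt
  push Not at hlt
  have hne : u ≠ v := huv.ne
  have hWc : (W.erase v).card < W.card := Finset.card_erase_lt_of_mem hv
  have hXW : X ⊆ W.erase v := fun x hx =>
    Finset.mem_erase.2 ⟨fun h => hvX (h ▸ hx), hX hx⟩
  -- the contraction satisfies (M1)
  have hcard : (W \ X).card = (W.erase v \ X).card + 1 := by
    have h1 : W \ X = insert v (W.erase v \ X) := by
      ext x
      simp only [Finset.mem_sdiff, Finset.mem_insert, Finset.mem_erase]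
      constructor
      · rintro ⟨h1, h2⟩
        by_cases hx : x = v
        · exact Or.inl hx
        · exact Or.inr ⟨⟨hx, h1⟩, h2⟩
      · rintro (h1 | h1)
        · rw [h1]; exact ⟨hv, hvX⟩
        · exact ⟨h1.1.2, h1.2⟩
    rw [h1, Finset.card_insert_of_notMem (by simp)]
  have hloss : rho G W (W \ X) ≤ rho (contr G u v) (W.erase v) (W.erase v \ X) +
      2 * (1 + (W.filter (fun w => G.Adj u w ∧ G.Adj v w)).card + (if u ∈ X then 1 else 0)) := by
    by_cases huX : u ∈ X
    · obtain ⟨z, hz⟩ := hclq u huX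
      have h := Contr831.rho_loss_in (W := W) (X := X) huv hu hv hvX z hz
      rw [if_pos huX]
      refine le_trans h ?_
      have e2 : rho (contr G u v) (W.erase v) (W.erase v \ X) =
        Contr831.rho (contr G u v) (W.erase v) (W.erase v \ X) := rfl
      rw [e2]
      apply Nat.add_le_add_left
      omega
    · have h := Contr831.rho_loss_out (W := W) (X := X) huv hu hv hvX huX
      rw [if_neg huX]
      refine le_trans h ?_
      have e2 : rho (contr G u v) (W.erase v) (W.erase v \ X) =
        Contr831.rho (contr G u v) (W.erase v) (W.erase v \ X) := rfl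
      rw [e2]
      apply Nat.add_le_add_left
      omega
  have hM1 : 2 * lam * (W.erase v \ X).card <
      rho (contr G u v) (W.erase v) (W.erase v \ X) := by
    have h1 := hM.m1
    rw [hcard, Nat.mul_add, Nat.mul_one] at h1
    omega
  have hnoC : ¬ Linked (contr G u v) (W.erase v) X := fun h => hno (ContrJ831.linked_lift huv hv hvX h)
  -- so (M2) fails for the contraction
  have hM2 : ¬ ∀ A B, Sep (contr G u v) (W.erase v) A B → X ⊆ A →
      (A ∩ B).card < X.card →
      rho (contr G u v) (W.erase v) (B \ A) ≤ 2 * lam * (B \ A).card := fun h =>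
    hnoC (IH _ _ _ hWc ⟨hXW, hM1, h⟩ hXk)
  obtain ⟨A, B, h1, h2, h3, h4, h5⟩ := exists_min_violation hM2
  have hvA : v ∉ A := fun hx => by
    have := h1.left_sub hx; simp at this
  have hvB : v ∉ B := fun hx => by
    have := h1.right_sub hx; simp at this
  have hBc : B.card ≤ (W.erase v).card := Finset.card_le_card h1.right_sub
  have hne' : (B \ A).Nonempty := by
    rw [Finset.nonempty_iff_ne_empty]
    intro h6
    rw [h6, rho_empty] at h4
    omega
  have hlinked : Linked (contr G u v) B (A ∩ B) :=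
    IH _ _ _ (by omega) (massed_of_min_violation h1 h2 h3 h4 h5) (by omega)
  have hsep := Contr831.sep_lift hu hv hne h1
  have hsd : lift u v B \ lift u v A = lift u v (B \ A) := Contr831.lift_sdiff' hvA hvB
  by_cases huAB : u ∈ A ∧ u ∈ B
  · -- the new vertex is in the separator
    have hint : lift u v A ∩ lift u v B = lift u v (A ∩ B) := Contr831.lift_inter hvA hvB
    have hsd' : lift u v B \ lift u v A = B \ A := by
      rw [hsd, Contr831.lift_of_notMem]
      exact fun h => (Finset.mem_sdiff.1 h).2 huAB.1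
    have hrho : rho (contr G u v) (W.erase v) (B \ A) ≤ rho G W (lift u v B \ lift u v A) := by
      rw [hsd]
      exact Contr831.rho_contr_le hv (fun h => hvB (Finset.mem_sdiff.1 h).1)
    have hbig : 2 * lam * (lift u v B \ lift u v A).card <
        rho G W (lift u v B \ lift u v A) := by
      refine lt_of_lt_of_le ?_ hrho
      rw [hsd']
      exact h4
    have hle : (lift u v A ∩ lift u v B).card ≤ X.card := by
      rw [hint]
      have := Contr831.card_lift_le (u := u) (v := v) (S := A ∩ B)
        (fun h => hvA (Finset.mem_inter.1 h).1)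
      omega
    have hXA : X ⊆ lift u v A := h2.trans Contr831.subset_lift
    have heq : (lift u v A ∩ lift u v B).card = X.card := by
      refine le_antisymm hle ?_
      by_contra hlt'
      push Not at hlt'
      exact absurd (hM.m2 _ _ hsep hXA hlt') (not_le.2 hbig)
    have hmass : Massed G (lift u v B) (lift u v A ∩ lift u v B) lam := by
      refine massed_side hsep hbig ?_
      intro P Q k1 k2 k3
      obtain ⟨c1, c2, c3⟩ := sep_combine hsep k1 k2
      have := hM.m2 _ _ c1 (hXA.trans Finset.subset_union_left) (by rw [c2, ← heq]; exact k3)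
      rwa [c3] at this
    have hBlt : (lift u v B).card < W.card := by
      refine Finset.card_lt_card ⟨hsep.right_sub, fun hWB => ?_⟩
      have h6 : lift u v A ∩ lift u v B = lift u v A :=
        Finset.inter_eq_left.2 (hsep.left_sub.trans hWB)
      rw [h6] at heq
      have h7 : X = lift u v A := Finset.eq_of_subset_of_card_le hXA (by omega)
      apply hvX
      rw [h7, Contr831.lift_of_mem huAB.1]
      exact Finset.mem_insert_self _ _
    refine hA _ _ hsep hXA ?_ hle (IH _ _ _ hBlt hmass (by omega))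
    rw [hsd']
    exact hne'
  · refine hA _ _ hsep (h2.trans Contr831.subset_lift) ?_ ?_
      (ContrJ831.linked_side huv hvA hvB huAB hlinked)
    · rw [hsd]
      exact hne'.mono Contr831.subset_lift
    · rw [Contr831.lift_inter hvA hvB, Contr831.lift_of_notMem (fun h =>
        huAB ⟨(Finset.mem_inter.1 h).1, (Finset.mem_inter.1 h).2⟩)]
      omega

end Crest.Agent.R042.TWBJ831
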