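import Mathlib
import Crest.Agent.R042.AsmDefs_220
import Crest.Agent.R042.Conn_353

-- ▼ part R042/AsmPorts_220
section

/-! Row 42 / S0058, sec 07 (4): the port paths, and the final assembly from (5)-(8). -/

set_option autoImplicit false
set_option linter.unusedSectionVars false

namespace Crest.Agent.R042.Asm220

open Finset Crest.Agent.R042.Conn353 Crest.Agent.R042.Menger353

variable {V : Type*} [DecidableEq V]

/-- (4) existence of the port paths. -/
theorem ports (G : SimpleGraph V) {ι : Type*} [Fintype ι] [DecidableEq ι]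
    (W Z H0 Y0 : Finset V) (H Y : ι → Finset V) (a θ : ℕ)
    (hYH : ∀ j, Y j ⊆ H j) (hHW : ∀ j, H j ⊆ W) (hY0 : Y0 ⊆ H0) (hH0 : H0 ⊆ W)
    (hd : ∀ i j, i ≠ j → Disjoint (H i) (H j)) (hd0 : ∀ j, Disjoint (H j) H0)
    (hYZ : ∀ j, Disjoint (Y j) Z) (hY0Z : Disjoint Y0 Z)
    (hYc : ∀ j, a ≤ (Y j).card) (hY0c : a * Fintype.card ι ≤ Y0.card)
    (hC2 : ∀ A B, Sep G W A B → (A ∩ B).card ≤ θ → A \ B ⊆ Z ∨ B \ A ⊆ Z)
    (hθ : a * Fintype.card ι + (∑ j, (H j \ Y j).card + (H0 \ Y0).card) ≤ θ) :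
    ∃ (S : ι → Finset V) (P : Finset (List V)), (∀ j, S j ⊆ Y j) ∧ (∀ j, (S j).card = a) ∧
      Linkage G (W \ (Finset.univ.biUnion (fun j => H j \ Y j) ∪ (H0 \ Y0)))
        (Finset.univ.biUnion S) Y0 P ∧ P.card = a * Fintype.card ι := by
  classical
  have hS : ∀ j, ∃ S : Finset V, S ⊆ Y j ∧ S.card = a := fun j =>
    Finset.exists_subset_card_eq (hYc j)
  choose S hSY hSc using hS
  set Zs : Finset V := Finset.univ.biUnion (fun j => H j \ Y j) ∪ (H0 \ Y0) with hZs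
  have hSdis : ∀ i ∈ (Finset.univ : Finset ι), ∀ j ∈ (Finset.univ : Finset ι), i ≠ j →
      Disjoint (S i) (S j) := fun i _ j _ hij =>
    Finset.disjoint_of_subset_left ((hSY i).trans (hYH i))
      (Finset.disjoint_of_subset_right ((hSY j).trans (hYH j)) (hd i j hij))
  have hScard : (Finset.univ.biUnion S).card = a * Fintype.card ι := by
    rw [Finset.card_biUnion hSdis]
    simp [hSc, mul_comm]
  -- membership facts
  have hYnot : ∀ j, ∀ x ∈ Y j, x ∉ Zs := by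
    intro j x hx hxZ
    rw [hZs, Finset.mem_union, Finset.mem_biUnion] at hxZ
    rcases hxZ with ⟨i, -, hi⟩ | h
    · rw [Finset.mem_sdiff] at hi
      by_cases hij : i = j
      · subst hij; exact hi.2 hx
      · exact Finset.disjoint_left.1 (hd i j hij) hi.1 (hYH j hx)
    · rw [Finset.mem_sdiff] at h
      exact Finset.disjoint_left.1 (hd0 j) (hYH j hx) h.1
  have hY0not : ∀ x ∈ Y0, x ∉ Zs := by
    intro x hx hxZ
    rw [hZs, Finset.mem_union, Finset.mem_biUnion] at hxZ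
    rcases hxZ with ⟨i, -, hi⟩ | h
    · rw [Finset.mem_sdiff] at hi
      exact Finset.disjoint_left.1 (hd0 i) hi.1 (hY0 hx)
    · rw [Finset.mem_sdiff] at h
      exact h.2 hx
  have hSW : Finset.univ.biUnion S ⊆ W \ Zs := by
    intro x hx
    rw [Finset.mem_biUnion] at hx
    obtain ⟨j, -, hj⟩ := hx
    rw [Finset.mem_sdiff]
    exact ⟨hHW j (hYH j (hSY j hj)), hYnot j x (hSY j hj)⟩
  have hY0W : Y0 ⊆ W \ Zs := fun x hx => Finset.mem_sdiff.2 ⟨hH0 (hY0 hx), hY0not x hx⟩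
  have hZsW : Zs ⊆ W := by
    rw [hZs]
    refine Finset.union_subset ?_ (Finset.sdiff_subset.trans hH0)
    intro x hx
    rw [Finset.mem_biUnion] at hx
    obtain ⟨j, -, hj⟩ := hx
    exact hHW j (Finset.mem_sdiff.1 hj).1
  have hZsc : Zs.card ≤ ∑ j, (H j \ Y j).card + (H0 \ Y0).card := by
    rw [hZs]
    refine (Finset.card_union_le _ _).trans ?_
    exact Nat.add_le_add_right Finset.card_biUnion_le _
  rcases menger_sep (G := G) hSW hY0W (a * Fintype.card ι) with ⟨P, hP, hPc⟩ |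
    ⟨A', B', hsep, hA', hB', hlt⟩
  · exact ⟨S, P, hSY, hSc, hP, hPc⟩
  · exfalso
    have hsep' : Sep G W (A' ∪ Zs) (B' ∪ Zs) := by
      refine ⟨?_, ?_⟩
      · have h1 := hsep.union
        have : A' ∪ Zs ∪ (B' ∪ Zs) = (A' ∪ B') ∪ Zs := by
          ext x; simp only [Finset.mem_union]; tauto
        rw [this, h1, Finset.sdiff_union_of_subset hZsW]
      · intro x hx hxB y hy hyA hadj
        simp only [Finset.mem_union, not_or] at hx hxB hy hyA
        have hxA' : x ∈ A' := by tauto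
        have hyB' : y ∈ B' := by tauto
        exact hsep.nadj x hxA' hxB.1 y hyB' hyA.1 hadj
    have hcard : ((A' ∪ Zs) ∩ (B' ∪ Zs)).card ≤ θ := by
      have h1 : (A' ∪ Zs) ∩ (B' ∪ Zs) = (A' ∩ B') ∪ Zs := by
        ext x; simp only [Finset.mem_union, Finset.mem_inter]; tauto
      rw [h1]
      refine (Finset.card_union_le _ _).trans ?_
      omega
    -- some port is on the left, some hub vertex on the right
    obtain ⟨x, hxS, hxB⟩ : ∃ x ∈ Finset.univ.biUnion S, x ∉ B' := by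
      by_contra hcon
      push Not at hcon
      have : Finset.univ.biUnion S ⊆ A' ∩ B' := fun x hx =>
        Finset.mem_inter.2 ⟨hA' hx, hcon x hx⟩
      have := Finset.card_le_card this
      omega
    obtain ⟨z, hzY, hzA⟩ : ∃ z ∈ Y0, z ∉ A' := by
      by_contra hcon
      push Not at hcon
      have : Y0 ⊆ A' ∩ B' := fun x hx => Finset.mem_inter.2 ⟨hcon x hx, hB' hx⟩
      have := Finset.card_le_card this
      omega
    have hxZs : x ∉ Zs := (Finset.mem_sdiff.1 (hSW hxS)).2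
    have hzZs : z ∉ Zs := hY0not z hzY
    rcases hC2 _ _ hsep' hcard with h | h
    · have : x ∈ Z := h (Finset.mem_sdiff.2 ⟨Finset.mem_union_left _ (hA' hxS),
        fun h' => (Finset.mem_union.1 h').elim hxB hxZs⟩)
      rw [Finset.mem_biUnion] at hxS
      obtain ⟨j, -, hj⟩ := hxS
      exact Finset.disjoint_left.1 (hYZ j) (hSY j hj) this
    · have : z ∈ Z := h (Finset.mem_sdiff.2 ⟨Finset.mem_union_left _ (hB' hzY),
        fun h' => (Finset.mem_union.1 h').elim hzA hzZs⟩)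
      exact Finset.disjoint_left.1 hY0Z hzY this

/-- the whole port assembly, from the statements of (5)+(6) and (7)+(8). -/
theorem assembly_of (hLegs : LegsStmt) (hTok : TokensStmt)
    {V : Type} [DecidableEq V] (G : SimpleGraph V) {s g : ℕ} (hs : 2 ≤ s)
    (W Z H0 Y0 : Finset V) (H Y : Pr s → Finset V) (θ : ℕ)
    (hYH : ∀ j, Y j ⊆ H j) (hHW : ∀ j, H j ⊆ W) (hY0 : Y0 ⊆ H0) (hH0 : H0 ⊆ W)
    (hd : ∀ i j, i ≠ j → Disjoint (H i) (H j)) (hd0 : ∀ j, Disjoint (H j) H0)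
    (hYZ : ∀ j, Disjoint (Y j) Z) (hY0Z : Disjoint Y0 Z)
    (hYc : ∀ j, 4 * g ≤ (Y j).card) (hY0c : 4 * g * Fintype.card (Pr s) ≤ Y0.card)
    (hC2 : ∀ A B, Sep G W A B → (A ∩ B).card ≤ θ → A \ B ⊆ Z ∨ B \ A ⊆ Z)
    (hθ : 4 * g * Fintype.card (Pr s) + (∑ j, (H j \ Y j).card + (H0 \ Y0).card) ≤ θ)
    (hW : ∀ j, Woven G (H j) (Y j) (4 * g) (4 * g * Fintype.card (Pr s)))
    (hHub : HubLinked G H0 Y0 (4 * g * Fintype.card (Pr s))) :
    ∃ B : Fin (s * g) → Finset V, (∀ i, B i ⊆ W) ∧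
      Crest.CombinatoricsR.GraphMinor.IsCliqueMinorModel G B := by
  obtain ⟨S, P, hSY, hSc, hP, hPc⟩ := ports G W Z H0 Y0 H Y (4 * g) θ hYH hHW hY0 hH0 hd hd0
    hYZ hY0Z hYc hY0c hC2 hθ
  obtain ⟨D, y, hDy⟩ := hLegs G W H0 Y0 H Y S (4 * g) (4 * g * Fintype.card (Pr s)) P hYH hHW
    hY0 hH0 hd hd0 hSY hSc hP hPc le_rfl hW
  obtain ⟨B, hB1, hB2, hB3, hB4⟩ := hTok G hs W H0 Y0 D y hH0 hY0 hDy hHub
  exact ⟨B, hB1, fun i => (hB2 i).nonempty, hB3, hB2, hB4⟩

end Crest.Agent.R042.Asm220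
end

-- ▼ part R042/Tokens_890
section

/-! Row 42, S0058, sec 07 (7)-(8): TOKENS.  `s` groups of `g` tokens; every piece `(p,q)`, `p < q`,
contains a model of `K_{4g}` whose branch sets (united with their legs) end in different vertices of
a linked hub `H0`.  Then there is a model of `K_{sg}`. -/

set_option autoImplicit false
set_option linter.unusedSectionVars false

namespace Crest.Agent.R042.Tok890

open Finset Conn353

variable {V : Type*} [DecidableEq V] {G : SimpleGraph V}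

/-- a chain of connected sets, consecutive ones joined by connected links, is connected. -/
lemma conn_chain {m : ℕ} (C : Fin (m+1) → Finset V) (L : Fin m → Finset V)
    (hC : ∀ i, Conn G (C i)) (hL : ∀ i, Conn G (L i))
    (h1 : ∀ i : Fin m, ∃ x ∈ C i.castSucc, x ∈ L i)
    (h2 : ∀ i : Fin m, ∃ x ∈ C i.succ, x ∈ L i) :
    Conn G ((univ.biUnion C) ∪ (univ.biUnion L)) := by
  have hCT : ∀ i, C i ⊆ (univ.biUnion C) ∪ (univ.biUnion L) := fun i =>
    (subset_biUnion_of_mem C (mem_univ i)).trans subset_union_left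
  have hLT : ∀ i, L i ⊆ (univ.biUnion C) ∪ (univ.biUnion L) := fun i =>
    (subset_biUnion_of_mem L (mem_univ i)).trans subset_union_right
  obtain ⟨x0, hx0⟩ := (hC 0).nonempty
  have key : ∀ (k : ℕ) (hk : k < m+1), ∀ x ∈ C ⟨k, hk⟩,
      Reach G ((univ.biUnion C) ∪ (univ.biUnion L)) x0 x := by
    intro k
    induction k with
    | zero => intro hk x hx; exact ((hC 0).reach hx0 hx).mono (hCT 0)
    | succ k ih =>
      intro hk x hx
      have hk' : k < m := by omega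
      obtain ⟨a, ha, haL⟩ := h1 ⟨k, hk'⟩
      obtain ⟨b, hb, hbL⟩ := h2 ⟨k, hk'⟩
      have r1 := ih (by omega) a ha
      have r2 := ((hL _).reach haL hbL).mono (hLT _)
      have r3 := ((hC ⟨k+1, hk⟩).reach hb hx).mono (hCT _)
      exact (r1.trans r2).trans r3
  refine conn_of_reach (hCT 0 hx0) ?_
  intro v hv
  rcases mem_union.1 hv with h | h
  · obtain ⟨i, -, hi⟩ := mem_biUnion.1 h
    exact key i.1 i.2 v hi
  · obtain ⟨i, -, hi⟩ := mem_biUnion.1 h
    obtain ⟨a, ha, haL⟩ := h1 i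
    exact (key _ i.castSucc.2 a ha).trans (((hL i).reach haL hi).mono (hLT i))

/-- index of the port `(side, token, in/out)` of a piece. -/
def idx {g : ℕ} (a : Bool) (t : Fin g) (b : Bool) : Fin (4*g) :=
  ⟨(if a then 2*g else 0) + 2*t.1 + (if b then 1 else 0), by
    have := t.2
    split_ifs <;> omega⟩

lemma idx_inj {g : ℕ} {a a' : Bool} {t t' : Fin g} {b b' : Bool}
    (h : idx a t b = idx a' t' b') : a = a' ∧ t = t' ∧ b = b' := by
  have h1 := congrArg Fin.val h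
  simp only [idx] at h1
  have h2 := t.2
  have h3 := t'.2
  cases a <;> cases a' <;> cases b <;> cases b' <;> simp at h1 ⊢ <;>
    first
      | (apply Fin.ext; omega)
      | omega

/-- the linking property of the hub that the tokens need. -/
def HubLink (G : SimpleGraph V) (H0 Y : Finset V) : Prop :=
  ∀ (n : ℕ) (u v : Fin n → V), Function.Injective u → Function.Injective v →
    (∀ i j, u i ≠ v j) → (∀ i, u i ∈ Y) → (∀ i, v i ∈ Y) →
    ∃ Q : Fin n → Finset V, (∀ k, Conn G (Q k) ∧ u k ∈ Q k ∧ v k ∈ Q k ∧ Q k ⊆ H0) ∧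
      (∀ k l, k ≠ l → Disjoint (Q k) (Q l)) ∧
      (∀ k, ∀ x ∈ Q k, x ∈ Y → x = u k ∨ x = v k)

/-- the linking property for an arbitrary finite index type. -/
lemma HubLink.family {H0 Y : Finset V} (h : HubLink G H0 Y) {J : Type*} [Fintype J]
    (u v : J → V) (hu : Function.Injective u) (hv : Function.Injective v)
    (huv : ∀ i j, u i ≠ v j) (hu' : ∀ i, u i ∈ Y) (hv' : ∀ i, v i ∈ Y) :
    ∃ Q : J → Finset V, (∀ k, Conn G (Q k) ∧ u k ∈ Q k ∧ v k ∈ Q k ∧ Q k ⊆ H0) ∧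
      (∀ k l, k ≠ l → Disjoint (Q k) (Q l)) ∧
      (∀ k, ∀ x ∈ Q k, x ∈ Y → x = u k ∨ x = v k) := by
  classical
  let e := Fintype.equivFin J
  obtain ⟨Q, h1, h2, h3⟩ := h (Fintype.card J) (u ∘ e.symm) (v ∘ e.symm)
    (hu.comp e.symm.injective) (hv.comp e.symm.injective) (fun i j => huv _ _)
    (fun i => hu' _) (fun i => hv' _)
  refine ⟨fun j => Q (e j), ?_, ?_, ?_⟩
  · intro k
    have := h1 (e k)
    simpa using this
  · intro k l hkl
    exact h2 _ _ (fun he => hkl (e.injective he))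
  · intro k x hx hxY
    have := h3 (e k) x hx hxY
    simpa using this

section main

variable {m g : ℕ} (D : Fin (m+2) → Fin (m+2) → Fin (4*g) → Finset V)
  (y : Fin (m+2) → Fin (m+2) → Fin (4*g) → V)

/-- the set of port `(t, b)` of group `P` in the piece of `P` and `Q`. -/
def E (P Q : Fin (m+2)) (t : Fin g) (b : Bool) : Finset V :=
  D (min P Q) (max P Q) (idx (decide (Q < P)) t b)

/-- its arrival in the hub. -/
def yE (P Q : Fin (m+2)) (t : Fin g) (b : Bool) : V :=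
  y (min P Q) (max P Q) (idx (decide (Q < P)) t b)

lemma key_inj {P Q P' Q' : Fin (m+2)} {t t' : Fin g} {b b' : Bool} (hPQ : P ≠ Q)
    (hPQ' : P' ≠ Q') (h1 : min P Q = min P' Q') (h2 : max P Q = max P' Q')
    (h3 : idx (decide (Q < P)) t b = idx (decide (Q' < P')) t' b') :
    P = P' ∧ Q = Q' ∧ t = t' ∧ b = b' := by
  obtain ⟨h4, h5, h6⟩ := idx_inj h3
  rcases lt_or_gt_of_ne hPQ with h | h <;> rcases lt_or_gt_of_ne hPQ' with h' | h'
  · rw [min_eq_left h.le, min_eq_left h'.le] at h1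
    rw [max_eq_right h.le, max_eq_right h'.le] at h2
    exact ⟨h1, h2, h5, h6⟩
  · simp [h', not_lt.2 h.le] at h4
  · simp [h, not_lt.2 h'.le] at h4
  · rw [min_eq_right h.le, min_eq_right h'.le] at h1
    rw [max_eq_left h.le, max_eq_left h'.le] at h2
    exact ⟨h2, h1, h5, h6⟩

theorem tokens_aux (H0 : Finset V) (Y : Finset V)
    (hconn : ∀ p q, p < q → ∀ i, Conn G (D p q i))
    (hdisj : ∀ p q p' q' i i', p < q → p' < q' → (p ≠ p' ∨ q ≠ q' ∨ i ≠ i') →
      Disjoint (D p q i) (D p' q' i'))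
    (hadj : ∀ p q, p < q → ∀ i j, i ≠ j → ∃ x ∈ D p q i, ∃ z ∈ D p q j, G.Adj x z)
    (hy : ∀ p q, p < q → ∀ i, y p q i ∈ D p q i ∧ y p q i ∈ Y)
    (hH0 : ∀ p q, p < q → ∀ i, ∀ x ∈ D p q i, x ∈ H0 → x = y p q i)
    (hlink : HubLink G H0 Y) :
    ∃ B : Fin (m+2) × Fin g → Finset V, (∀ i, Conn G (B i)) ∧
      (∀ i j, i ≠ j → Disjoint (B i) (B j)) ∧
      (∀ i j, i ≠ j → ∃ x ∈ B i, ∃ z ∈ B j, G.Adj x z) ∧
      (∀ k, ∀ x ∈ B k, x ∈ H0 ∨ ∃ p q i, p < q ∧ x ∈ D p q i) := by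
  classical
  have hlt : ∀ {P Q : Fin (m+2)}, P ≠ Q → min P Q < max P Q := fun h => min_lt_max.2 h
  -- facts on the ports
  have e1 : ∀ P Q t b, P ≠ Q → Conn G (E D P Q t b) := fun P Q t b h => hconn _ _ (hlt h) _
  have e2 : ∀ P Q t b P' Q' t' b', P ≠ Q → P' ≠ Q' → ∀ x, x ∈ E D P Q t b →
      x ∈ E D P' Q' t' b' → P = P' ∧ Q = Q' ∧ t = t' ∧ b = b' := by
    intro P Q t b P' Q' t' b' h h' x hx hx'
    by_cases h1 : min P Q = min P' Q'
    · by_cases h2 : max P Q = max P' Q'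
      · by_cases h3 : idx (decide (Q < P)) t b = idx (decide (Q' < P')) t' b'
        · exact key_inj h h' h1 h2 h3
        · exact absurd hx' (disjoint_left.1 (hdisj _ _ _ _ _ _ (hlt h) (hlt h')
            (Or.inr (Or.inr h3))) hx)
      · exact absurd hx' (disjoint_left.1 (hdisj _ _ _ _ _ _ (hlt h) (hlt h')
            (Or.inr (Or.inl h2))) hx)
    · exact absurd hx' (disjoint_left.1 (hdisj _ _ _ _ _ _ (hlt h) (hlt h')
            (Or.inl h1)) hx)
  have e3 : ∀ P Q t b, P ≠ Q → yE y P Q t b ∈ E D P Q t b ∧ yE y P Q t b ∈ Y :=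
    fun P Q t b h => hy _ _ (hlt h) _
  have e4 : ∀ P Q t b, P ≠ Q → ∀ x ∈ E D P Q t b, x ∈ H0 → x = yE y P Q t b :=
    fun P Q t b h => hH0 _ _ (hlt h) _
  have e5 : ∀ P Q t b P' Q' t' b', P ≠ Q → P' ≠ Q' → yE y P Q t b = yE y P' Q' t' b' →
      P = P' ∧ Q = Q' ∧ t = t' ∧ b = b' := by
    intro P Q t b P' Q' t' b' h h' he
    refine e2 P Q t b P' Q' t' b' h h' _ (e3 P Q t b h).1 ?_
    rw [he]
    exact (e3 P' Q' t' b' h').1
  have sne : ∀ (P : Fin (m+2)) (i : Fin (m+1)), P ≠ P.succAbove i :=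
    fun P i => (Fin.succAbove_ne P i).symm
  -- the links
  obtain ⟨L, hL1, hL2, hL3⟩ := hlink.family
    (J := Fin (m+2) × Fin g × Fin m)
    (fun j => yE y j.1 (j.1.succAbove j.2.2.castSucc) j.2.1 true)
    (fun j => yE y j.1 (j.1.succAbove j.2.2.succ) j.2.1 false)
    (by
      rintro ⟨P, t, i⟩ ⟨P', t', i'⟩ h
      obtain ⟨h1, h2, h3, -⟩ := e5 _ _ _ _ _ _ _ _ (sne _ _) (sne _ _) h
      simp only at h1 h2 h3
      subst h1 h3
      have := Fin.castSucc_injective _ (Fin.succAbove_right_injective h2)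
      rw [this])
    (by
      rintro ⟨P, t, i⟩ ⟨P', t', i'⟩ h
      obtain ⟨h1, h2, h3, -⟩ := e5 _ _ _ _ _ _ _ _ (sne _ _) (sne _ _) h
      simp only at h1 h2 h3
      subst h1 h3
      have := Fin.succ_injective _ (Fin.succAbove_right_injective h2)
      rw [this])
    (by
      rintro ⟨P, t, i⟩ ⟨P', t', i'⟩ h
      obtain ⟨-, -, -, h4⟩ := e5 _ _ _ _ _ _ _ _ (sne _ _) (sne _ _) h
      exact absurd h4 (by simp))
    (fun j => (e3 _ _ _ _ (sne _ _)).2)
    (fun j => (e3 _ _ _ _ (sne _ _)).2)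
  -- an arrival inside a link belongs to the same token
  have l1 : ∀ P t i P' Q' t' b', P' ≠ Q' → ∀ x, x ∈ L (P, t, i) → x ∈ E D P' Q' t' b' →
      P = P' ∧ t = t' := by
    intro P t i P' Q' t' b' h' x hx hx'
    have hx0 : x ∈ H0 := (hL1 (P, t, i)).2.2.2 hx
    have hxy := e4 _ _ _ _ h' x hx' hx0
    have hxY : x ∈ Y := by rw [hxy]; exact (e3 _ _ _ _ h').2
    rcases hL3 (P, t, i) x hx hxY with h | h
    · rw [hxy] at h
      obtain ⟨h1, -, h3, -⟩ := e5 _ _ _ _ _ _ _ _ h' (sne _ _) h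
      exact ⟨h1.symm, h3.symm⟩
    · rw [hxy] at h
      obtain ⟨h1, -, h3, -⟩ := e5 _ _ _ _ _ _ _ _ h' (sne _ _) h
      exact ⟨h1.symm, h3.symm⟩
  let C : Fin (m+2) × Fin g → Fin (m+1) → Finset V := fun x i =>
    E D x.1 (x.1.succAbove i) x.2 false ∪ E D x.1 (x.1.succAbove i) x.2 true
  let B : Fin (m+2) × Fin g → Finset V := fun x =>
    (univ.biUnion (C x)) ∪ (univ.biUnion fun i : Fin m => L (x.1, x.2, i))
  have memB : ∀ P t z, z ∈ B (P, t) ↔
      (∃ i b, z ∈ E D P (P.succAbove i) t b) ∨ ∃ i, z ∈ L (P, t, i) := by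
    intro P t z
    simp only [B, C, mem_union, mem_biUnion, mem_univ, true_and]
    constructor
    · rintro (⟨i, h | h⟩ | h)
      · exact Or.inl ⟨i, false, h⟩
      · exact Or.inl ⟨i, true, h⟩
      · exact Or.inr h
    · rintro (⟨i, b, h⟩ | h)
      · cases b
        · exact Or.inl ⟨i, Or.inl h⟩
        · exact Or.inl ⟨i, Or.inr h⟩
      · exact Or.inr h
  refine ⟨B, ?_, ?_, ?_, ?_⟩
  · -- connected
    rintro ⟨P, t⟩
    refine conn_chain (C (P, t)) (fun i : Fin m => L (P, t, i)) ?_ ?_ ?_ ?_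
    · intro i
      obtain ⟨a, ha, b, hb, hab⟩ := hadj _ _ (hlt (sne P i))
        (idx (decide (P.succAbove i < P)) t false) (idx (decide (P.succAbove i < P)) t true)
        (fun h => absurd (idx_inj h).2.2 (by simp))
      exact (e1 _ _ _ _ (sne P i)).union_adj (e1 _ _ _ _ (sne P i)) ha hb hab
    · intro i
      exact (hL1 _).1
    · intro i
      refine ⟨yE y P (P.succAbove i.castSucc) t true, ?_, (hL1 (P, t, i)).2.1⟩
      exact mem_union_right _ (e3 _ _ _ _ (sne _ _)).1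
    · intro i
      refine ⟨yE y P (P.succAbove i.succ) t false, ?_, (hL1 (P, t, i)).2.2.1⟩
      exact mem_union_left _ (e3 _ _ _ _ (sne _ _)).1
  · -- disjoint
    rintro ⟨P, t⟩ ⟨P', t'⟩ hne
    rw [disjoint_left]
    intro z hz hz'
    apply hne
    rcases (memB P t z).1 hz with ⟨i, b, h⟩ | ⟨i, h⟩ <;>
      rcases (memB P' t' z).1 hz' with ⟨i', b', h'⟩ | ⟨i', h'⟩
    · obtain ⟨h1, -, h3, -⟩ := e2 _ _ _ _ _ _ _ _ (sne _ _) (sne _ _) z h h'
      rw [h1, h3]
    · obtain ⟨h1, h2⟩ := l1 _ _ _ _ _ _ _ (sne _ _) z h' h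
      rw [h1, h2]
    · obtain ⟨h1, h2⟩ := l1 _ _ _ _ _ _ _ (sne _ _) z h h'
      rw [h1, h2]
    · by_contra hcon
      refine disjoint_left.1 (hL2 (P, t, i) (P', t', i') ?_) h h'
      intro he
      apply hcon
      simp only [Prod.mk.injEq] at he ⊢
      exact ⟨he.1, he.2.1⟩
  · -- adjacent
    rintro ⟨P, t⟩ ⟨P', t'⟩ hne
    by_cases hP : P = P'
    · subst hP
      have ht : t ≠ t' := fun h => hne (by rw [h])
      obtain ⟨a, ha, b, hb, hab⟩ := hadj _ _ (hlt (sne P 0))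
        (idx (decide (P.succAbove 0 < P)) t false) (idx (decide (P.succAbove 0 < P)) t' false)
        (fun h => ht (idx_inj h).2.1)
      exact ⟨a, (memB P t a).2 (Or.inl ⟨0, false, ha⟩), b,
        (memB P t' b).2 (Or.inl ⟨0, false, hb⟩), hab⟩
    · obtain ⟨i, hi⟩ := Fin.exists_succAbove_eq (x := P') (y := P) (Ne.symm hP)
      obtain ⟨i', hi'⟩ := Fin.exists_succAbove_eq (x := P) (y := P') hP
      have hside : decide (P' < P) ≠ decide (P < P') := by
        rcases lt_or_gt_of_ne hP with h | h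
        · simp [h, not_lt.2 h.le]
        · simp [h, not_lt.2 h.le]
      obtain ⟨a, ha, b, hb, hab⟩ := hadj _ _ (hlt hP)
        (idx (decide (P' < P)) t false) (idx (decide (P < P')) t' false)
        (fun h => hside (idx_inj h).1)
      refine ⟨a, (memB P t a).2 (Or.inl ⟨i, false, ?_⟩), b,
        (memB P' t' b).2 (Or.inl ⟨i', false, ?_⟩), hab⟩
      · rw [hi]; exact ha
      · rw [hi']
        unfold E
        rw [min_comm P' P, max_comm P' P]
        exact hb
  · rintro ⟨P, t⟩ z hz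
    rcases (memB P t z).1 hz with ⟨i, b, h⟩ | ⟨i, h⟩
    · exact Or.inr ⟨_, _, _, hlt (sne P i), h⟩
    · exact Or.inl ((hL1 _).2.2.2 h)

end main

/-- **TOKENS => CLIQUE MODEL** (sec 07 (7)-(8)). -/
theorem tokens {s g : ℕ} (hs : 2 ≤ s) (D : Fin s → Fin s → Fin (4*g) → Finset V)
    (y : Fin s → Fin s → Fin (4*g) → V) (H0 Y : Finset V)
    (hconn : ∀ p q, p < q → ∀ i, Conn G (D p q i))
    (hdisj : ∀ p q p' q' i i', p < q → p' < q' → (p ≠ p' ∨ q ≠ q' ∨ i ≠ i') →
      Disjoint (D p q i) (D p' q' i'))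
    (hadj : ∀ p q, p < q → ∀ i j, i ≠ j → ∃ x ∈ D p q i, ∃ z ∈ D p q j, G.Adj x z)
    (hy : ∀ p q, p < q → ∀ i, y p q i ∈ D p q i ∧ y p q i ∈ Y)
    (hH0 : ∀ p q, p < q → ∀ i, ∀ x ∈ D p q i, x ∈ H0 → x = y p q i)
    (hlink : HubLink G H0 Y) :
    ∃ B : Fin (s*g) → Finset V, (∀ i, Conn G (B i)) ∧
      (∀ i j, i ≠ j → Disjoint (B i) (B j)) ∧
      (∀ i j, i ≠ j → ∃ x ∈ B i, ∃ z ∈ B j, G.Adj x z) ∧
      (∀ k, ∀ x ∈ B k, x ∈ H0 ∨ ∃ p q i, p < q ∧ x ∈ D p q i) := by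
  obtain ⟨m, rfl⟩ : ∃ m, s = m + 2 := ⟨s - 2, by omega⟩
  obtain ⟨B, h1, h2, h3, h4⟩ := tokens_aux D y H0 Y hconn hdisj hadj hy hH0 hlink
  let e : Fin ((m+2)*g) ≃ Fin (m+2) × Fin g := finProdFinEquiv.symm
  refine ⟨fun i => B (e i), fun i => h1 _, fun i j hij => h2 _ _ (fun h => hij (e.injective h)),
    fun i j hij => h3 _ _ (fun h => hij (e.injective h)), fun k => h4 _⟩

end Crest.Agent.R042.Tok890
end

-- ▼ part R042/TokStmt_890

/-! Row 42, S0058, sec 07 (7)-(8): the tokens in the frozen form `Asm220.TokensStmt`. -/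

set_option autoImplicit false
set_option linter.unusedSectionVars false

namespace Crest.Agent.R042.Tok890

open Finset Conn353 Asm220

theorem hubLink_of_hubLinked {V : Type*} [DecidableEq V] {G : SimpleGraph V}
    {H0 Y0 Y : Finset V} {N : ℕ} (hY : Y ⊆ Y0) (hN : Y.card ≤ N) (h : HubLinked G H0 Y0 N) :
    HubLink G H0 Y := by
  classical
  intro n u v hu hv huv huY hvY
  have hsub : univ.image u ∪ univ.image v ⊆ Y := by
    intro x hx
    rcases mem_union.1 hx with hx | hx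
    · obtain ⟨i, -, rfl⟩ := mem_image.1 hx
      exact huY i
    · obtain ⟨i, -, rfl⟩ := mem_image.1 hx
      exact hvY i
  have hcard : (univ.image u ∪ univ.image v).card = 2 * n := by
    rw [card_union_of_disjoint]
    · rw [card_image_of_injective _ hu, card_image_of_injective _ hv]
      simp
      omega
    · rw [disjoint_left]
      intro x hx hx'
      obtain ⟨i, -, rfl⟩ := mem_image.1 hx
      obtain ⟨j, -, hj⟩ := mem_image.1 hx'
      exact huv i j hj.symm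
  have hBl : (Y \ (univ.image u ∪ univ.image v)).card + 2 * n = Y.card := by
    rw [← hcard]
    exact card_sdiff_add_card_eq_card hsub
  obtain ⟨Q, h1, h2, h3⟩ := h n u v (Y \ (univ.image u ∪ univ.image v)) hu hv huv
    (fun i => hY (huY i)) (fun i => hY (hvY i)) (sdiff_subset.trans hY)
    (fun i hi => (mem_sdiff.1 hi).2 (mem_union_left _ (mem_image_of_mem _ (mem_univ _))))
    (fun i hi => (mem_sdiff.1 hi).2 (mem_union_right _ (mem_image_of_mem _ (mem_univ _))))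
    (by omega)
  refine ⟨Q, fun k => ⟨(h1 k).2.1, (h1 k).2.2.1, (h1 k).2.2.2, (h1 k).1⟩, h2, ?_⟩
  intro k x hx hxY
  have hx2 : x ∈ univ.image u ∪ univ.image v := by
    by_contra hcon
    exact disjoint_left.1 (h3 k) hx (mem_sdiff.2 ⟨hxY, hcon⟩)
  rcases mem_union.1 hx2 with hx2 | hx2
  · obtain ⟨j, -, rfl⟩ := mem_image.1 hx2
    by_cases hjk : j = k
    · exact Or.inl (by rw [hjk])
    · exact absurd hx (disjoint_left.1 (h2 j k hjk) (h1 j).2.2.1)
  · obtain ⟨j, -, rfl⟩ := mem_image.1 hx2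
    by_cases hjk : j = k
    · exact Or.inr (by rw [hjk])
    · exact absurd hx (disjoint_left.1 (h2 j k hjk) (h1 j).2.2.2)

/-- **TokensStmt** of helper220. -/
theorem tokensStmt : TokensStmt := by
  intro V _ G s g hs W H0 Y0 D y hH0 hY0 hL hhub
  rcases Nat.eq_zero_or_pos g with rfl | hg
  · refine ⟨fun _ => ∅, fun i => ?_, fun i => ?_, fun i => ?_, fun i => ?_⟩ <;>
      exact absurd i.2 (by simp)
  classical
  have : Nonempty V := ⟨y ⟨(⟨0, by omega⟩, ⟨1, by omega⟩), by simp⟩ ⟨0, by omega⟩⟩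
  let D' : Fin s → Fin s → Fin (4*g) → Finset V := fun p q i =>
    if h : p < q then D ⟨(p, q), h⟩ i else ∅
  let y' : Fin s → Fin s → Fin (4*g) → V := fun p q i =>
    if h : p < q then y ⟨(p, q), h⟩ i else Classical.arbitrary V
  have hD' : ∀ p q (h : p < q) i, D' p q i = D ⟨(p, q), h⟩ i := fun p q h i => by
    simp only [D', dif_pos h]
  have hy' : ∀ p q (h : p < q) i, y' p q i = y ⟨(p, q), h⟩ i := fun p q h i => by
    simp only [y', dif_pos h]
  let Y : Finset V := univ.image (fun x : Pr s × Fin (4*g) => y x.1 x.2)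
  have hYY : Y ⊆ Y0 := by
    intro x hx
    obtain ⟨⟨j, i⟩, -, rfl⟩ := mem_image.1 hx
    exact hL.memY j i
  have hYc : Y.card ≤ 4 * g * Fintype.card (Pr s) := by
    refine card_image_le.trans ?_
    rw [card_univ, Fintype.card_prod, Fintype.card_fin, mul_comm]
  obtain ⟨B, h1, h2, h3, h4⟩ := tokens (G := G) hs D' y' H0 Y
    (fun p q h i => by rw [hD' p q h]; exact hL.conn _ _)
    (fun p q p' q' i i' h h' hne => by
      rw [hD' p q h, hD' p' q' h']
      refine hL.disj _ _ _ _ ?_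
      intro he
      simp only [Prod.mk.injEq, Subtype.mk.injEq] at he
      obtain ⟨⟨a, b⟩, c⟩ := he
      rcases hne with hne | hne | hne
      · exact hne a
      · exact hne b
      · exact hne c)
    (fun p q h i j hij => by rw [hD' p q h, hD' p q h]; exact hL.adj _ _ _ hij)
    (fun p q h i => by
      rw [hD' p q h, hy' p q h]
      exact ⟨hL.mem _ _, mem_image.2 ⟨(⟨(p, q), h⟩, i), mem_univ _, rfl⟩⟩)
    (fun p q h i x hx hx0 => by
      rw [hD' p q h] at hx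
      rw [hy' p q h]
      exact hL.hub _ _ x hx hx0)
    (hubLink_of_hubLinked hYY hYc hhub)
  refine ⟨B, ?_, h1, h2, h3⟩
  intro k x hx
  rcases h4 k x hx with h | ⟨p, q, i, hpq, h⟩
  · exact hH0 h
  · rw [hD' p q hpq] at h
    exact hL.sub _ _ h

end Crest.Agent.R042.Tok890
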