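import Mathlib
import Crest.Agent.R042.TWBJ_831_Mg
import Crest.Agent.R042.SmallW_132_Mg
import Crest.Agent.R042.TokStmt_890_Mg
import Crest.Agent.R042.Legs_153
import Crest.Agent.R042.Spine_883
import Crest.Agent.R042.Crit_374
import Crest.Agent.R042.LinkDefs_870
import Crest.Agent.R042.AsmDefs_220
import Crest.Agent.R042.SmallBase_333
import Crest.Agent.R042.Cost_365_Mg
import Crest.Agent.R042.LemU_132
import Crest.Agent.R042.WovenStmt_671
import Crest.Agent.R042.Conn_353
import Crest.Prelude.Def_CliqueMinor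
import Crest.Agent.R042.Mader_375
import Crest.Agent.R042.Chain1_374
import Crest.Agent.R042.B7_375

-- ▼ part R042/TW_870
section

/-! Row 42, sec 05: THOMAS-WOLLAN in massed form. -/

set_option autoImplicit false

namespace Crest.Agent.R042.TW870

open Finset Crest.Agent.R042.Conn353 Crest.Agent.R042.Menger353 Crest.Agent.R042.Link870

theorem claimB_all (V : Type*) [DecidableEq V] : ClaimB V := by
  intro k lam G W X IH hXk hM hno hA hclq u hu v hv hvX huv
  have h := TWBJ831.claimB (m := 2 * k) IH hXk hM hno hA hclq u hu v hv hvX huv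
  split_ifs at h
  · exact h
  · omega

variable {V : Type*} [DecidableEq V]

/-- THOMAS-WOLLAN: an `8k`-massed pair `(G[W], X)` with `|X| ≤ 2k` is linked. -/
theorem tw {k : ℕ} (hk : 1 ≤ k) {G : SimpleGraph V} {W X : Finset V}
    (hM : Massed G W X (8 * k)) (hX : X.card ≤ 2 * k) : Linked G W X :=
  tw_of_claimB (claimB_all V) hk W.card (rho G W (W \ X)) G W X rfl rfl hM hX

end Crest.Agent.R042.TW870
end

-- ▼ part R042/B0_333
section

/-! Row 42 / S0058, block B0 of the spine (= (10.0), Theorem B), from the hub (10.4) and the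
woven pieces of small order (8.5). -/

set_option autoImplicit false
set_option linter.unusedSectionVars false

namespace Crest.Agent.R042.Small333

open Finset Crest.Agent.R042.Conn353 Crest.Agent.R042.Menger353 Crest.Agent.R042.Crit374
open Crest.Agent.R042.Mader375 (Model)
open Crest.Agent.R042.Asm220 (Woven HubLinked Pr)

theorem asmStmt : AsmStmt := by
  intro V _ G s g θ W Z H Y H0 Y0 hs hg hZ hYH hHW hY0 hH0 hd hd0 hYZ hY0Z hYc hY0c hC2 hθ hW hHub
  obtain ⟨B, h1, h2⟩ := Asm220.assembly_of Legs153.legs Tok890.tokensStmt G hs W Z H0 Y0 H Y θ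
    hYH hHW hY0 hH0 hd hd0 hYZ hY0Z hYc hY0c hC2 (by omega) hW hHub
  exact Mader375.model_iff.2 ⟨B, h1, h2⟩

theorem krStmt : KRStmt := by
  intro V _ G W h k N hh hN hno hsize hbig hard
  refine KR492.kr_list G W (3 * h) k N (by omega)
    (RS803.frac_sub G W h (Spine883.noModel_iff.2 hno)) hsize ?_ hard
  have h1 : (8 : ℝ) * ((3 * h : ℕ) : ℝ) = 24 * h := by push_cast; ring
  rw [h1]
  exact hbig

theorem b0_of {D0 : ℕ} (hHub : HubStmt D0) (hSW : SmallWovenStmt D0) : Spine883.B0 := by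
  intro C s hs
  obtain ⟨F1, hF1⟩ := B0M krStmt hHub asmStmt hSW C s hs
  refine ⟨F1, ?_⟩
  intro F hF h hh hIH V _ G X hX hXc
  refine hF1 F hF h hh ?_ G X (Spine883.noModel_iff.1 hX) hXc
  intro h' hh' V' _ G' W' hW'
  exact hIH h' hh' V' G' W' (Spine883.noModel_iff.2 hW')

theorem hubStmt : HubStmt 32 := by
  classical
  intro V _ G W κ h hκ hne hno hdeg
  obtain ⟨J, h1, h2, -, h4⟩ := SmallHub136.hub_of_dense (G := G) (J0 := W) (q := κ)
    (fun {_ _ _ _} hk hM hX => TW870.tw hk hM hX) hκ hne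
    (SmallHub136.e2_ge_of_deg (fun v hv => by
      have := hdeg v hv
      unfold Link870.nb at this
      unfold Mader375.dg
      convert this using 2))
  exact ⟨J, h1, by omega, fun Y hY hYc => h4 Y hY hYc⟩

/-- **block B0 of the spine** (10.0). -/
theorem b0 : Spine883.B0 := b0_of hubStmt (SmallW132.smallWovenStmt 32)

end Crest.Agent.R042.Small333
end

-- ▼ part R042/Hub_872
section

/-! Row 42, sec 06 of S0058: HUB LEMMA. A critical pair is massed, hence (Theorem TW) linked. -/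

set_option autoImplicit false
set_option linter.unusedSectionVars false

namespace Crest.Agent.R042.Hub872

open Finset Crest.Agent.R042.Menger353 Crest.Agent.R042.Crit374 Crest.Agent.R042.Link870
open scoped Classical

variable {V : Type*} [DecidableEq V] {G : SimpleGraph V} {W X Z A B S : Finset V} {k th ka : ℕ}

/-- lower bound for `rho` by degrees. -/
lemma sum_deg_le_rho (hS : S ⊆ W) : ∑ v ∈ S, (W.filter (G.Adj v)).card ≤ rho G W S := by
  unfold rho
  have h1 : ∑ v ∈ S, (W.filter (G.Adj v)).card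
      = (S.sigma (fun v => W.filter (G.Adj v))).card := by
    rw [Finset.card_sigma]
  rw [h1]
  refine Finset.card_le_card_of_injOn (fun x => (x.1, x.2)) ?_ ?_
  · rintro ⟨a, b⟩ hx
    simp only [Finset.coe_sigma, Set.mem_sigma_iff, Finset.mem_coe, Finset.mem_filter] at hx
    simp only [Finset.coe_filter, Finset.mem_product, Set.mem_setOf_eq]
    exact ⟨⟨hS hx.1, hx.2.1⟩, hx.2.2, Or.inl hx.1⟩
  · rintro ⟨a, b⟩ _ ⟨a', b'⟩ _ he
    simp only [Prod.mk.injEq] at he
    obtain ⟨rfl, rfl⟩ := he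
    rfl

/-- upper bound for `rho` by degrees. -/
lemma rho_le_of_deg {d : ℕ} (hd : ∀ v ∈ S, (W.filter (G.Adj v)).card ≤ d) :
    rho G W S ≤ 2 * d * S.card := by
  unfold rho
  have hsub : ((W ×ˢ W).filter (fun p => G.Adj p.1 p.2 ∧ (p.1 ∈ S ∨ p.2 ∈ S)))
      ⊆ (S.biUnion fun v => (W.filter (G.Adj v)).image (fun w => (v, w)))
        ∪ (S.biUnion fun v => (W.filter (G.Adj v)).image (fun w => (w, v))) := by
    rintro ⟨a, b⟩ hx
    simp only [Finset.mem_filter, Finset.mem_product] at hx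
    obtain ⟨⟨ha, hb⟩, hab, h | h⟩ := hx
    · refine Finset.mem_union_left _ (Finset.mem_biUnion.2 ⟨a, h, ?_⟩)
      exact Finset.mem_image.2 ⟨b, Finset.mem_filter.2 ⟨hb, hab⟩, rfl⟩
    · refine Finset.mem_union_right _ (Finset.mem_biUnion.2 ⟨b, h, ?_⟩)
      exact Finset.mem_image.2 ⟨a, Finset.mem_filter.2 ⟨ha, hab.symm⟩, rfl⟩
  have h1 : ∀ g : V → V → V × V,
      (S.biUnion fun v => (W.filter (G.Adj v)).image (g v)).card ≤ S.card * d := by
    intro g
    refine Finset.card_biUnion_le_card_mul _ _ _ ?_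
    intro v hv
    exact Finset.card_image_le.trans (hd v hv)
  have h2 := (Finset.card_le_card hsub).trans (Finset.card_union_le _ _)
  have h3 := h1 (fun v w => (v, w))
  have h4 := h1 (fun v w => (w, v))
  calc _ ≤ _ := h2
    _ ≤ S.card * d + S.card * d := Nat.add_le_add h3 h4
    _ = 2 * d * S.card := by ring

/-- HUB LEMMA, massed form. -/
theorem hub_massed (hka : 1 ≤ ka) (hk : 64 * ka ≤ k) (h : Crit G W Z k (4 * ka))
    (hX : X ⊆ W \ Z) (hXc : X.card ≤ 2 * ka) : Massed G W X (16 * ka) := by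
  have hZ : Z ⊆ W := h.sub
  have hZc : Z.card ≤ 2 * (4 * ka) := h.card_le
  have hXW : X ⊆ W := hX.trans Finset.sdiff_subset
  refine ⟨hXW, ?_, ?_⟩
  · -- (M1)
    have hn : k < W.card := by
      obtain ⟨v, hv⟩ := h.nonempty
      refine lt_of_le_of_lt (h.deg hv) (Finset.card_lt_card ?_)
      refine Finset.ssubset_iff_subset_ne.2 ⟨Finset.filter_subset _ _, ?_⟩
      intro heq
      have : v ∈ W.filter (G.Adj v) := by rw [heq]; exact (Finset.mem_sdiff.1 hv).1
      exact (G.loopless.irrefl v) (Finset.mem_filter.1 this).2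
    have h1 : ∑ v ∈ W \ X, (W.filter (G.Adj v)).card ≤ rho G W (W \ X) :=
      sum_deg_le_rho Finset.sdiff_subset
    have h2 : ∑ v ∈ (W \ Z) \ X, (W.filter (G.Adj v)).card
        ≤ ∑ v ∈ W \ X, (W.filter (G.Adj v)).card := by
      refine Finset.sum_le_sum_of_subset ?_
      exact Finset.sdiff_subset_sdiff Finset.sdiff_subset (Finset.Subset.refl _)
    have h3 : ((W \ Z) \ X).card * k ≤ ∑ v ∈ (W \ Z) \ X, (W.filter (G.Adj v)).card := by
      rw [← smul_eq_mul]
      refine Finset.card_nsmul_le_sum _ _ _ ?_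
      intro v hv
      exact h.deg (Finset.mem_sdiff.1 hv).1
    have h4 : ((W \ Z) \ X).card = W.card - Z.card - X.card := by
      rw [Finset.card_sdiff_of_subset hX, Finset.card_sdiff_of_subset hZ]
    have h5 : (W \ X).card ≤ W.card := Finset.card_le_card Finset.sdiff_subset
    have h6 : W.card - 10 * ka ≤ ((W \ Z) \ X).card := by omega
    have h7 : (W.card - 10 * ka) * (64 * ka) ≤ ((W \ Z) \ X).card * k := Nat.mul_le_mul h6 hk
    have h8 : 64 * ka < W.card := lt_of_le_of_lt hk hn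
    obtain ⟨m, hm⟩ := Nat.exists_eq_add_of_lt h8
    have h9 : W.card - 10 * ka = 54 * ka + m + 1 := by omega
    have h10 : 2 * (16 * ka) * (W \ X).card ≤ 2 * (16 * ka) * (64 * ka + m + 1) := by
      refine Nat.mul_le_mul_left _ ?_
      omega
    have h11 : 2 * (16 * ka) * (64 * ka + m + 1) < (54 * ka + m + 1) * (64 * ka) := by
      nlinarith [Nat.zero_le m, Nat.mul_le_mul hka hka]
    rw [h9] at h7
    omega
  · -- (M2)
    intro A B hs hXA hc
    have hc' : (A ∩ B).card ≤ 4 * ka := by omega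
    obtain ⟨x, hxX, hxB⟩ : ∃ x ∈ X, x ∉ B := by
      by_contra hcon
      push Not at hcon
      have : X ⊆ A ∩ B := fun x hx => Finset.mem_inter.2 ⟨hXA hx, hcon x hx⟩
      have := Finset.card_le_card this
      omega
    have hBA : B \ A ⊆ Z := by
      rcases h.sep hs hc' with h1 | h1
      · exact absurd (h1 (Finset.mem_sdiff.2 ⟨hXA hxX, hxB⟩)) (Finset.mem_sdiff.1 (hX hxX)).2
      · exact h1
    have hBc : B.card ≤ 10 * ka := by
      have h1 : B = (A ∩ B) ∪ (B \ A) := by
        ext y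
        simp only [Finset.mem_union, Finset.mem_inter, Finset.mem_sdiff]
        tauto
      have h2 := Finset.card_union_le (A ∩ B) (B \ A)
      rw [← h1] at h2
      have h3 := Finset.card_le_card hBA
      omega
    have h1 : rho G W (B \ A) ≤ 2 * (10 * ka) * (B \ A).card := by
      refine rho_le_of_deg ?_
      intro v hv
      obtain ⟨hvB, hvA⟩ := Finset.mem_sdiff.1 hv
      refine (Finset.card_le_card ?_).trans hBc
      intro y hy
      obtain ⟨hyW, hvy⟩ := Finset.mem_filter.1 hy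
      by_contra hyB
      have hyA : y ∈ A := by
        rw [← hs.union] at hyW
        rcases Finset.mem_union.1 hyW with h | h
        · exact h
        · exact absurd h hyB
      exact hs.nadj y hyA hyB v hvB hvA hvy.symm
    refine h1.trans ?_
    refine Nat.mul_le_mul_right _ ?_
    omega


end Crest.Agent.R042.Hub872
end

-- ▼ part R042/ManyHard_220
section

/-! Row 42 / S0058, sec 07 (1)-(8) = 10.8, abstract form: in a critical pair, many disjoint hard
sets whose critical pairs are woven give a large clique minor. -/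

set_option autoImplicit false
set_option linter.unusedSectionVars false

namespace Crest.Agent.R042.Asm220

open Finset Crest.Agent.R042.Conn353 Crest.Agent.R042.Menger353 Crest.Agent.R042.Crit374

/-- Theorem TW (sec 05), as a statement. -/
def TWStmt : Prop :=
  ∀ {V : Type} [DecidableEq V] (G : SimpleGraph V) (W X : Finset V) (k : ℕ), 1 ≤ k →
    X.card ≤ 2 * k → Link870.Massed G W X (8 * k) → Link870.Linked G W X

/-- linked sets give the hub property of the assembly. -/
theorem hubLinked_of_linked {V : Type*} [DecidableEq V] {G : SimpleGraph V} {H0 Y0 : Finset V}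
    {n : ℕ} (h : ∀ X, X ⊆ Y0 → X.card ≤ n → Link870.Linked G H0 X) : HubLinked G H0 Y0 n := by
  classical
  intro m s t Bl hs ht hst hsY htY hBl hsB htB hn
  set X : Finset V := (Finset.univ.image s ∪ Finset.univ.image t) ∪ Bl with hX
  have hXY : X ⊆ Y0 := by
    intro x hx
    rw [hX, Finset.mem_union, Finset.mem_union, Finset.mem_image, Finset.mem_image] at hx
    rcases hx with (⟨i, -, rfl⟩ | ⟨i, -, rfl⟩) | hx
    · exact hsY i
    · exact htY i
    · exact hBl hx
  have hXc : X.card ≤ n := by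
    refine (Finset.card_union_le _ _).trans ?_
    have h1 := Finset.card_union_le (Finset.univ.image s) (Finset.univ.image t)
    have h2 : (Finset.univ.image s).card ≤ m := by
      simpa using (Finset.card_image_le (s := (Finset.univ : Finset (Fin m))) (f := s))
    have h3 : (Finset.univ.image t).card ≤ m := by
      simpa using (Finset.card_image_le (s := (Finset.univ : Finset (Fin m))) (f := t))
    omega
  have hsX : ∀ i, s i ∈ X := fun i =>
    Finset.mem_union_left _ (Finset.mem_union_left _ (Finset.mem_image_of_mem s (Finset.mem_univ i)))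
  have htX : ∀ i, t i ∈ X := fun i =>
    Finset.mem_union_left _ (Finset.mem_union_right _
      (Finset.mem_image_of_mem t (Finset.mem_univ i)))
  obtain ⟨P, hP⟩ := h X hXY hXc m s t hsX htX hs ht hst
  refine ⟨P, fun i => ⟨hP.sub i, hP.conn i, hP.left i, hP.right i⟩, hP.disj, ?_⟩
  intro i
  rw [Finset.disjoint_left]
  intro x hx hxB
  rcases hP.meet i x hx (Finset.mem_union_right _ hxB) with h1 | h1
  · exact hsB i (h1 ▸ hxB)
  · exact htB i (h1 ▸ hxB)

/-- sec 07 (1)-(8) = 10.8 in abstract form. -/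
theorem manyHard (hLegs : LegsStmt) (hTW : TWStmt) {V : Type} [DecidableEq V]
    (G : SimpleGraph V) {S g : ℕ} (hS : 2 ≤ S) (hg : 1 ≤ g) (W Z : Finset V) (θ kH : ℕ)
    (hC2 : ∀ A B, Sep G W A B → (A ∩ B).card ≤ θ → A \ B ⊆ Z ∨ B \ A ⊆ Z)
    (X : Option (Pr S) → Finset V) (hXW : ∀ j, X j ⊆ W \ Z)
    (hXd : ∀ i j, i ≠ j → Disjoint (X i) (X j)) (hX : ∀ j, ¬ Choos G (X j) kH)
    (hW : ∀ H ZH, H ⊆ W \ Z → Crit G H ZH kH (4 * (4 * g + 4 * g * Fintype.card (Pr S))) →
      Woven G H (H \ ZH) (4 * g) (4 * g * Fintype.card (Pr S)))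
    (hk : 64 * (4 * g * Fintype.card (Pr S)) ≤ kH)
    (hθ : (16 * Fintype.card (Pr S) + 9) * (4 * g * Fintype.card (Pr S)) ≤ θ) :
    ∃ B : Fin (S * g) → Finset V, (∀ i, B i ⊆ W) ∧
      Crest.CombinatoricsR.GraphMinor.IsCliqueMinorModel G B := by
  classical
  set M : ℕ := Fintype.card (Pr S) with hM
  have hM1 : 1 ≤ M := by
    rw [hM]
    exact Fintype.card_pos_iff.2
      ⟨⟨(⟨0, by omega⟩, ⟨1, by omega⟩), by rw [Fin.lt_def]; exact Nat.zero_lt_one⟩⟩
  set c : ℕ := 4 * g * M with hc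
  have hac : 4 * g ≤ c := by rw [hc]; exact Nat.le_mul_of_pos_right _ hM1
  have hc1 : 1 ≤ c := by omega
  -- the pieces
  have hpiece : ∀ j : Pr S, ∃ H ZH, H ⊆ X (some j) ∧ Crit G H ZH kH (4 * (4 * g + c)) :=
    fun j => exists_crit (hX (some j)) _
  choose H ZH hHX hHcrit using hpiece
  obtain ⟨H0, Z0, hH0X, hH0crit⟩ := exists_crit (hX none) (4 * c)
  have hHWZ : ∀ j, H j ⊆ W \ Z := fun j => (hHX j).trans (hXW _)
  have hH0WZ : H0 ⊆ W \ Z := hH0X.trans (hXW _)
  have hZc : ∀ j, (ZH j).card ≤ 16 * c := fun j => (hHcrit j).card_le.trans (by omega)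
  have hsd : ∀ j, H j \ (H j \ ZH j) = ZH j := fun j =>
    Finset.sdiff_sdiff_eq_self (hHcrit j).sub
  have hsd0 : H0 \ (H0 \ Z0) = Z0 := Finset.sdiff_sdiff_eq_self hH0crit.sub
  have hθ' : 4 * g * M + (∑ j, (H j \ (H j \ ZH j)).card + (H0 \ (H0 \ Z0)).card) ≤ θ := by
    have h1 : ∑ j, (H j \ (H j \ ZH j)).card ≤ M * (16 * c) := by
      rw [hM, ← Finset.card_univ, ← smul_eq_mul]
      refine Finset.sum_le_card_nsmul _ _ _ ?_
      intro j _
      rw [hsd j]; exact hZc j
    have h2 : (H0 \ (H0 \ Z0)).card ≤ 8 * c := by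
      rw [hsd0]; exact hH0crit.card_le.trans (by omega)
    have h3 : c + (M * (16 * c) + 8 * c) = (16 * M + 9) * c := by ring
    omega
  refine assembly_of hLegs Tok890.tokensStmt G hS W Z H0 (H0 \ Z0) H (fun j => H j \ ZH j) θ
    (fun j => Finset.sdiff_subset) (fun j => (hHWZ j).trans Finset.sdiff_subset)
    Finset.sdiff_subset (hH0WZ.trans Finset.sdiff_subset) ?_ ?_ ?_ ?_ ?_ ?_ hC2 hθ' ?_ ?_
  · intro i j hij
    exact Finset.disjoint_of_subset_left (hHX i)
      (Finset.disjoint_of_subset_right (hHX j) (hXd _ _ (fun h => hij (Option.some.inj h))))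
  · intro j
    exact Finset.disjoint_of_subset_left (hHX j)
      (Finset.disjoint_of_subset_right hH0X (hXd _ _ (by simp)))
  · intro j
    exact Finset.disjoint_of_subset_left (Finset.sdiff_subset.trans (hHWZ j))
      Finset.sdiff_disjoint
  · exact Finset.disjoint_of_subset_left (Finset.sdiff_subset.trans hH0WZ)
      Finset.sdiff_disjoint
  · intro j
    have := (hHcrit j).card_lt (by omega)
    omega
  · have := hH0crit.card_lt (by omega)
    show 4 * g * M ≤ _
    omega
  · intro j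
    exact hW (H j) (ZH j) (hHWZ j) (hHcrit j)
  · refine hubLinked_of_linked ?_
    intro X' hX' hX'c
    replace hX'c : X'.card ≤ c := hX'c
    refine hTW G H0 X' (2 * c) (by omega) (by omega) ?_
    have := Hub872.hub_massed (ka := c) hc1 hk hH0crit hX' (by omega)
    have h16 : 8 * (2 * c) = 16 * c := by ring
    rw [h16]
    exact this

end Crest.Agent.R042.Asm220
end

-- ▼ part R042/WPrime_220
section

/-! Row 42 / S0058: the statement of THEOREM W' (any order) in the form used by 10.8. -/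

set_option autoImplicit false
set_option linter.unusedSectionVars false

namespace Crest.Agent.R042.Asm220

open Crest.Agent.R042.Crit374 Crest.Agent.R042.Spine883

/-- THEOREM W' with existential constants: for `c ≤ K h`, critical pairs of level
`k ≥ F(2a-1) + F h / 16` are woven. -/
def WPrime (K : ℕ) : Prop :=
  ∃ C s F1 : ℕ, 1 ≤ s ∧ ∀ F, F1 ≤ F → ∀ h, 1 ≤ h → IHyp F h → SmallSets F h C s →
    ∀ a c : ℕ, 1 ≤ a → 2 * a ≤ h → c ≤ K * h →
    ∀ (V : Type) [DecidableEq V] (G : SimpleGraph V) (H Z : Finset V) (k : ℕ),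
      NoModel G H (h + 1) → F * (2 * a - 1) + F * h / 16 ≤ k → k ≤ F * h →
      Crit G H Z k (4 * (a + c)) → Woven G H (H \ Z) a c

end Crest.Agent.R042.Asm220
end

-- ▼ part R042/B8_220
section

/-! Row 42 / S0058: block B8 (= 10.8) from Theorem TW and Theorem W'. -/

set_option autoImplicit false
set_option linter.unusedSectionVars false

namespace Crest.Agent.R042.Asm220

open Finset Crest.Agent.R042.Conn353 Crest.Agent.R042.Menger353 Crest.Agent.R042.Crit374
open Crest.Agent.R042.Spine883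

/-- block B8 (10.8). -/
theorem b8_of (hTW : TWStmt) (hWP : ∀ K, WPrime K) : B8 := by
  classical
  obtain ⟨C, s, F1, hs, hW⟩ := hWP (4 * Fintype.card (Pr 64))
  set M : ℕ := Fintype.card (Pr 64) with hM
  refine ⟨Fintype.card (Option (Pr 64)), (16 * M + 9) * (4 * M), C, s,
    F1 + 512 * M + 2 * (2 ^ 65 + 2), hs, ?_⟩
  intro F hF h hh hIH hSm V _ G W Z hno hcrit
  rintro ⟨X, hXd, hXW, hXh⟩
  by_cases hsmall : h < 64
  · -- small `h`: Mader
    let i : Fin (Fintype.card (Option (Pr 64))) := Fintype.equivFin _ none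
    have h1 : ¬ Mader375.Model G (X i) (h + 1) := by
      rw [← noModel_iff]
      exact hno.mono ((hXW i).trans Finset.sdiff_subset)
    have h2 := Small333.choos_of_no_model h1
    refine hXh i (h2.mono_card ?_)
    have h3 : 2 ^ (h + 1) ≤ 2 ^ 65 := Nat.pow_le_pow_right (by norm_num) (by omega)
    have h4 : F * 1 ≤ F * h := Nat.mul_le_mul_left F hh
    generalize 2 ^ (h + 1) = q at h3 ⊢
    omega
  · push Not at hsmall
    set g : ℕ := h / 64 + 1 with hg
    have hg64 : h + 1 ≤ 64 * g := by omega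
    have hgh : g ≤ h := by omega
    have hno' : NoModel G W (64 * g) := hno.le hg64
    have hc1 : 4 * g * M ≤ 4 * M * h := by
      calc 4 * g * M = 4 * M * g := by ring
        _ ≤ 4 * M * h := Nat.mul_le_mul_left _ hgh
    have hFh : F * 1 ≤ F * h := Nat.mul_le_mul_left F hh
    have hWov : ∀ H ZH, H ⊆ W \ Z → Crit G H ZH (F * h / 2) (4 * (4 * g + 4 * g * M)) →
        Woven G H (H \ ZH) (4 * g) (4 * g * M) := by
      intro H ZH hH hc
      refine hW F (by omega) h hh hIH hSm (4 * g) (4 * g * M) (by omega) (by omega) hc1 V G H ZH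
        (F * h / 2) (hno.mono (hH.trans Finset.sdiff_subset)) ?_ (Nat.div_le_self _ _) hc
      -- F * (8 g - 1) + F h / 16 ≤ F h / 2
      have h1 : 32 * (2 * (4 * g) - 1) ≤ 12 * h := by omega
      have h2 : 32 * (F * (2 * (4 * g) - 1)) ≤ 12 * (F * h) := by
        calc 32 * (F * (2 * (4 * g) - 1)) = F * (32 * (2 * (4 * g) - 1)) := by ring
          _ ≤ F * (12 * h) := Nat.mul_le_mul_left F h1
          _ = 12 * (F * h) := by ring
      omega
    have hk64 : 64 * (4 * g * M) ≤ F * h / 2 := by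
      have h2 : (512 * M) * h ≤ F * h := Nat.mul_le_mul_right h (by omega)
      have h3 : 2 * (64 * (4 * g * M)) ≤ F * h := by
        calc 2 * (64 * (4 * g * M)) ≤ 2 * (64 * (4 * M * h)) :=
              Nat.mul_le_mul_left _ (Nat.mul_le_mul_left _ hc1)
          _ = (512 * M) * h := by ring
          _ ≤ F * h := h2
      omega
    have hθ : (16 * M + 9) * (4 * g * M) ≤ (16 * M + 9) * (4 * M) * h := by
      calc (16 * M + 9) * (4 * g * M) ≤ (16 * M + 9) * (4 * M * h) := Nat.mul_le_mul_left _ hc1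
        _ = (16 * M + 9) * (4 * M) * h := by ring
    obtain ⟨B, hB1, hB2⟩ := manyHard Legs153.legs hTW G (S := 64) (g := g) (by norm_num)
      (by omega) W Z ((16 * M + 9) * (4 * M) * h) (F * h / 2)
      (fun A B hAB hc => hcrit.sep hAB hc)
      (fun j => X (Fintype.equivFin _ j)) (fun j => hXW _)
      (fun i j hij => hXd _ _ (fun h => hij ((Fintype.equivFin _).injective h)))
      (fun j => hXh _) hWov hk64 hθ
    exact hno' B hB1 hB2

end Crest.Agent.R042.Asm220
end

-- ▼ part R042/Rest_365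
section

/-! Row 42 (S0058), sec 10.8 (c): the hypothesis `rest` of THEOREM W', any order. -/

set_option autoImplicit false
set_option linter.unusedSectionVars false

namespace Crest.Agent.R042.Rest365

open Finset Conn353 Menger353 Crit374 Mader375 Cost365

variable {V : Type*} [DecidableEq V] {G : SimpleGraph V}


/-- a vertex of the ambient set outside a minimal linkage has at most `3 |P|` neighbours on it. -/
lemma nbr_le_three_mul [DecidableRel G.Adj] {W A B : Finset V} {P : Finset (List V)}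
    (hP : Linkage G W A B P)
    (hmin : ∀ Q, Linkage G W A B Q → Q.card = P.card → (verts P).card ≤ (verts Q).card)
    {v : V} (hvW : v ∈ W) (hv : v ∉ verts P) (S : Finset V) (hS : S ⊆ verts P) :
    (S.filter (G.Adj v)).card ≤ 3 * P.card := by
  classical
  have h1 : S.filter (G.Adj v) ⊆ P.biUnion fun l => l.toFinset.filter (G.Adj v) := by
    intro x hx
    rw [mem_filter] at hx
    obtain ⟨l, hl, hxl⟩ := mem_verts.1 (hS hx.1)
    exact mem_biUnion.2 ⟨l, hl, mem_filter.2 ⟨List.mem_toFinset.2 hxl, hx.2⟩⟩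
  refine (card_le_card h1).trans (card_biUnion_le.trans ?_)
  rw [mul_comm, ← smul_eq_mul]
  refine sum_le_card_nsmul _ _ _ fun l hl => ?_
  exact LemU132.outside_three hP hmin hvW hv hl _
    (fun u hu => List.mem_toFinset.1 (mem_filter.1 hu).1) fun u hu => (mem_filter.1 hu).2

/-- removing a small set `J` and a minimal linkage is cheap, in a hard set of any order. -/
theorem hard_rest {W0 H Z A B J : Finset V} {k k'' M h q : ℕ}
    (hno : ¬ Model G W0 (h + 1)) (hHW : H ⊆ W0) (hhard : ¬ Choos G (H \ Z) k)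
    (hJ : J ⊆ H \ Z) (hJq : Choos G J q) (hM : 1 ≤ M) (hq : 2 * M * q ≤ k)
    (hsize : (((1 + 2 ^ h) * J.card : ℕ) : ℝ) < Real.exp (k / (8 * M)))
    {U : Finset (List V)} (hU : Linkage G H A B U)
    (hmin : ∀ Q, Linkage G H A B Q → Q.card = U.card → (verts U).card ≤ (verts Q).card)
    (hnum : h + 2 * U.card + 2 * k / M ≤ k) (hk : k'' + 2 * k / M + h + 3 * U.card ≤ k) :
    ¬ Choos G (((H \ Z) \ J) \ verts U) k'' := by
  classical
  set V0 := H \ Z with hV0
  have hVH : V0 ⊆ H := sdiff_subset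
  have hcost := cost (G := G) V0 J hJ (m := 1) (fun _ => verts U ∩ V0) (fun _ => inter_subset_right)
    (fun i j hij => absurd (Subsingleton.elim i j) hij) k k'' M h 0 (3 * U.card) (2 * U.card) q
    hM hhard hJq hq ?_ ?_ ?_ ?_ (by omega) hk
  · intro hc
    apply hcost
    refine hc.mono ?_
    intro x hx
    rw [mem_sdiff] at hx
    rw [mem_sdiff]
    refine ⟨hx.1, fun hx' => hx.2 ?_⟩
    exact mem_biUnion.2 ⟨0, mem_univ _, mem_inter.2 ⟨hx', (mem_sdiff.1 hx.1).1⟩⟩
  · refine lt_of_le_of_lt ?_ hsize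
    have h1 : ((V0 \ J).filter fun v => h + 1 ≤ (J.filter (G.Adj v)).card).card ≤
        2 ^ h * J.card := by
      refine P1375.outside_single G W0 h hno J (hJ.trans (hVH.trans hHW)) _ ?_ ?_ ?_
      · exact (filter_subset _ _).trans (sdiff_subset.trans (hVH.trans hHW))
      · exact disjoint_sdiff.symm.mono_left (filter_subset _ _)
      · intro t ht
        have := (mem_filter.1 ht).2
        convert this
    have h2 : J.card + ((V0 \ J).filter fun v => h + 1 ≤ (J.filter (G.Adj v)).card).card ≤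
        (1 + 2 ^ h) * J.card := by
      rw [add_mul, one_mul]; omega
    exact_mod_cast h2
  · intro i v hv hvJ
    rw [Nat.le_zero, card_eq_zero, filter_eq_empty_iff]
    intro x hx
    rw [mem_biUnion] at hx
    obtain ⟨j, hj, -⟩ := hx
    rw [mem_filter] at hj
    exact absurd (Subsingleton.elim j i) hj.2.ne
  · intro i
    refine Choos.mono (sdiff_subset.trans inter_subset_left) ?_
    intro L hL
    obtain ⟨c, hc1, hc2⟩ := LemU132.list_colour hU hmin L hL
    exact ⟨c, hc1, hc2⟩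
  · intro v hv hvJ hvQ
    have hvU : v ∉ verts U := fun h => hvQ 0 (mem_inter.2 ⟨h, hv⟩)
    refine nbr_le_three_mul hU hmin (hVH hv) hvU _ ?_
    intro x hx
    obtain ⟨i, -, hi⟩ := mem_biUnion.1 hx
    exact (mem_inter.1 hi).1

/-- a hard set contains a critical pair with a `K_{2a}` model outside its exceptional set. -/
theorem piece_of_hard {R : Finset V} {k'' a F κ : ℕ} (hR : ¬ Choos G R k'')
    (IH : ∀ W, W ⊆ R → ¬ Model G W (2 * a) → Choos G W (F * (2 * a - 1)))
    (hF : F * (2 * a - 1) + 2 * a ≤ k'') (hκ : κ + 2 * a ≤ k'') :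
    ∃ J' Z', J' ⊆ R ∧ Crit G J' Z' k'' a ∧ Z' ⊆ J' ∧ Z'.card ≤ 2 * a ∧
      (∀ A B, Sep G J' A B → (A ∩ B).card ≤ a → A \ B ⊆ Z' ∨ B \ A ⊆ Z') ∧
      κ ≤ (J' \ Z').card ∧ Model G (J' \ Z') (2 * a) := by
  classical
  obtain ⟨S, Z', hS, hc⟩ := exists_crit hR a
  refine ⟨S, Z', hS, hc, hc.sub, hc.card_le, fun A B hAB hcard => hc.sep hAB hcard, ?_, ?_⟩
  · have := hc.card_lt (by omega)
    omega
  · by_contra hm
    have h1 := IH (S \ Z') (sdiff_subset.trans hS) hm
    exact hc.hard (h1.mono_card (by omega))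

/-- **`rest` of WovenStmt, any order** (10.8 (c)). -/
theorem rest_any {W0 H Z X J : Finset V} {kH θ a κ h F M q : ℕ}
    (hno : ¬ Model G W0 (h + 1)) (hHW : H ⊆ W0) (hcrit : Crit G H Z kH θ)
    (hXc : X.card ≤ 2 * κ) (hJ : J ⊆ H \ Z) (hJq : Choos G J q) (hM : 1 ≤ M)
    (hq : 2 * M * q ≤ kH - 2 * θ)
    (hsize : (((1 + 2 ^ h) * J.card : ℕ) : ℝ) < Real.exp ((kH - 2 * θ : ℕ) / (8 * M)))
    (IH : ∀ W, W ⊆ H → ¬ Model G W (2 * a) → Choos G W (F * (2 * a - 1)))
    (hnum : F * (2 * a - 1) + 2 * a + 4 * κ + 2 * (kH - 2 * θ) / M + h + 6 * κ ≤ kH - 2 * θ) :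
    ∀ U : Finset (List V), Linkage G H X J U → U.card = X.card →
      (∀ Q, Linkage G H X J Q → Q.card = U.card → (verts U).card ≤ (verts Q).card) →
      ∃ J' Z', J' ⊆ ((H \ Z) \ J) \ verts U ∧ Z' ⊆ J' ∧ Z'.card ≤ 2 * a ∧
        (∀ A B, Sep G J' A B → (A ∩ B).card ≤ a → A \ B ⊆ Z' ∨ B \ A ⊆ Z') ∧
        4 * κ ≤ (J' \ Z').card ∧ Model G (J' \ Z') (2 * a) := by
  intro U hU hUc hmin
  have hle : U.card ≤ 2 * κ := hUc.le.trans hXc
  have hR := hard_rest (k'' := F * (2 * a - 1) + 2 * a + 4 * κ) hno hHW hcrit.hard hJ hJq hM hq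
    hsize hU hmin (by omega) (by omega)
  obtain ⟨J', Z', h1, -, h2, h3, h4, h5, h6⟩ := piece_of_hard (κ := 4 * κ) hR
    (fun W hW hm => IH W (hW.trans (sdiff_subset.trans (sdiff_subset.trans sdiff_subset))) hm)
    (by omega) (by omega)
  exact ⟨J', Z', h1, h2, h3, h4, h5, h6⟩

end Crest.Agent.R042.Rest365
end

-- ▼ part R042/WPrimeProof_220
section

/-! Row 42 / S0058: THEOREM W' with all constants, from the small hub (10.4). -/

set_option autoImplicit false
set_option linter.unusedSectionVars false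

namespace Crest.Agent.R042.Asm220

open Finset Crest.Agent.R042.Conn353 Crest.Agent.R042.Menger353 Crest.Agent.R042.Crit374
open Crest.Agent.R042.Spine883

/-- (10.4) small hub, with absolute constants `D0` (degree) and `C0` (size). -/
def SmallHubStmt (D0 C0 : ℕ) : Prop :=
  ∀ {V : Type} [DecidableEq V] (G : SimpleGraph V) (W : Finset V) (h κ : ℕ), 1 ≤ h → 1 ≤ κ →
    W.Nonempty → ¬ Mader375.Model G W (h + 1) →
    (∀ v ∈ W, D0 * κ ≤ (Link870.nb G W v).card) →
    ∃ J, J ⊆ W ∧ 2 * κ ≤ J.card ∧ J.card ≤ 2 ^ (C0 * h) ∧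
      ∀ Y, Y ⊆ J → Y.card ≤ 2 * κ → Link870.Linked G J Y

/-- the numbers of W'. -/
lemma wPrime_nums {A1 A2 A3 FH Fa k κ a h Dκ : ℕ}
    (hbig : 64 * (512 * A1) + 64 * (A3 + 40 * A2) + 64 * (4 * h) ≤ FH) (hh : 1 ≤ h)
    (hA2h : h ≤ A2) (hκ : κ ≤ A2) (hDκ : Dκ ≤ A3) (haκ : a ≤ κ) (hk1 : Fa + FH / 16 ≤ k)
    (hk2 : k ≤ FH) :
    2 * (4 * κ) ≤ k ∧ 512 * A1 ≤ k - 2 * (4 * κ) ∧ Dκ + 2 * κ ≤ k - 2 * (4 * κ) ∧
      2 * 64 * (FH / 4096) ≤ k - 2 * (4 * κ) ∧ 2 * κ < k - 2 * (4 * κ) ∧
      Fa + 2 * a + 4 * κ + 2 * (k - 2 * (4 * κ)) / 64 + h + 6 * κ ≤ k - 2 * (4 * κ) := by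
  refine ⟨?_, ?_, ?_, ?_, ?_, ?_⟩
  all_goals omega

/-- the exponential inequality of W'. -/
lemma wPrime_exp {A1 C0 h J n : ℕ} (hA1 : A1 = (C0 + 2) * h) (hh : 1 ≤ h)
    (hJ : J ≤ 2 ^ (C0 * h)) (hn : 512 * A1 ≤ n) :
    (((1 + 2 ^ h) * J : ℕ) : ℝ) < Real.exp ((n : ℝ) / (8 * (64 : ℕ))) := by
  have h1 : (1 + 2 ^ h) * J ≤ 2 ^ A1 := by
    have e1 : 1 + 2 ^ h ≤ 2 ^ (h + 1) := by
      have : 1 ≤ 2 ^ h := Nat.one_le_two_pow
      rw [pow_succ]; omega
    calc (1 + 2 ^ h) * J ≤ 2 ^ (h + 1) * 2 ^ (C0 * h) := Nat.mul_le_mul e1 hJ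
      _ = 2 ^ (h + 1 + C0 * h) := by rw [← pow_add]
      _ ≤ 2 ^ A1 := by
          apply Nat.pow_le_pow_right (by norm_num)
          have : A1 = C0 * h + 2 * h := by rw [hA1]; ring
          omega
  have hA1pos : 1 ≤ A1 := by
    rw [hA1]
    exact Nat.one_le_iff_ne_zero.2 (Nat.mul_ne_zero (by omega) (by omega))
  have h3 : (A1 : ℝ) ≤ (n : ℝ) / (8 * (64 : ℕ)) := by
    rw [le_div_iff₀ (by norm_num)]
    have : ((512 * A1 : ℕ) : ℝ) ≤ (n : ℝ) := by exact_mod_cast hn
    push_cast at this ⊢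
    linarith
  have h4 : ((2 ^ A1 : ℕ) : ℝ) < Real.exp (A1 : ℝ) := by
    have e2 : (2 : ℝ) < Real.exp 1 := by
      have := Real.exp_one_gt_d9
      linarith
    have e3 : Real.exp (A1 : ℝ) = (Real.exp 1) ^ A1 := by
      rw [← Real.exp_nat_mul]; ring_nf
    rw [e3]
    push_cast
    exact pow_lt_pow_left₀ e2 (by norm_num) (by omega)
  calc (((1 + 2 ^ h) * J : ℕ) : ℝ) ≤ ((2 ^ A1 : ℕ) : ℝ) := by exact_mod_cast h1
    _ < Real.exp (A1 : ℝ) := h4
    _ ≤ Real.exp ((n : ℝ) / (8 * (64 : ℕ))) := Real.exp_le_exp.2 h3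

/-- THEOREM W' with constants. -/
theorem wPrime_of_hub {D0 C0 : ℕ} (hHub : SmallHubStmt D0 C0) (K : ℕ) : WPrime K := by
  classical
  refine ⟨C0, 4096, 16 * (512 * (C0 + 2) + (D0 + 40) * (K + 1) + 4) * 4, by norm_num, ?_⟩
  intro F hF h hh hIH hSm a c ha h2a hcK V _ G H Z k hno hk1 hk2 hcrit
  -- basic numbers
  have hκ1 : 1 ≤ a + c := by omega
  have hκh : a + c ≤ (K + 1) * h := by
    have : (K + 1) * h = K * h + h := by ring
    omega
  have hFh : (16 * (512 * (C0 + 2) + (D0 + 40) * (K + 1) + 4) * 4) * h ≤ F * h :=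
    Nat.mul_le_mul_right h hF
  have hbig : 64 * (512 * ((C0 + 2) * h)) + 64 * (D0 * ((K + 1) * h) + 40 * ((K + 1) * h))
      + 64 * (4 * h) ≤ F * h := by
    refine le_of_eq_of_le ?_ hFh
    ring
  obtain ⟨n1, n2, n3, n4, n5, n6⟩ := wPrime_nums (κ := a + c) (a := a) hbig hh
    (Nat.le_mul_of_pos_left h (Nat.succ_pos K)) hκh (Nat.mul_le_mul_left D0 hκh)
    (Nat.le_add_right a c) hk1 hk2
  have hnoM : ¬ Mader375.Model G H (h + 1) := by rw [← noModel_iff]; exact hno
  have hZc : Z.card ≤ 2 * (4 * (a + c)) := hcrit.card_le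
  -- apply Theorem W
  refine WovenStmt671.wovenStmt G H Z a c (a + c) (4 * (a + c)) ha hcrit.sub
    (fun A B hAB hc => hcrit.sep hAB hc) le_rfl (by omega) ?_
  intro X hX hXc
  -- the hub
  have hW'ne : ((H \ Z) \ X).Nonempty := by
    have h1 := hcrit.card_lt n1
    have h2 : (H \ Z).card ≤ ((H \ Z) \ X).card + X.card :=
      Finset.card_le_card_sdiff_add_card
    apply Finset.card_pos.1
    omega
  have hnoW' : ¬ Mader375.Model G ((H \ Z) \ X) (h + 1) := by
    rw [← noModel_iff]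
    exact hno.mono (Finset.sdiff_subset.trans Finset.sdiff_subset)
  have hdeg : ∀ v ∈ (H \ Z) \ X, D0 * (a + c) ≤ (Link870.nb G ((H \ Z) \ X) v).card := by
    intro v hv
    have hvHZ : v ∈ H \ Z := (Finset.mem_sdiff.1 hv).1
    have h1 := hcrit.deg' hvHZ
    have h2 : (H \ Z).filter (G.Adj v) ⊆ Link870.nb G ((H \ Z) \ X) v ∪ X := by
      intro u hu
      rw [Finset.mem_filter] at hu
      rw [Finset.mem_union, Link870.mem_nb]
      by_cases huX : u ∈ X
      · exact Or.inr huX
      · exact Or.inl ⟨Finset.mem_sdiff.2 ⟨hu.1, huX⟩, hu.2⟩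
    have h3 := (Finset.card_le_card h2).trans (Finset.card_union_le _ _)
    omega
  obtain ⟨J, hJW, hJc, hJsmall, hJlink⟩ := hHub G _ h (a + c) hh hκ1 hW'ne hnoW' hdeg
  have hJHZ : J ⊆ H \ Z := hJW.trans Finset.sdiff_subset
  refine ⟨J, hJW, hJc, hJlink, ?_⟩
  -- choosability of the hub
  have hJq : Choos G J (F * h / 4096) :=
    hSm V G J (hno.mono (hJHZ.trans Finset.sdiff_subset)) hJsmall
  have hsize := wPrime_exp rfl hh hJsmall n2
  have hIH' : ∀ W, W ⊆ H → ¬ Mader375.Model G W (2 * a) → Choos G W (F * (2 * a - 1)) := by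
    intro W _ hW
    refine hIH (2 * a - 1) (by omega) V G W ?_
    rw [noModel_iff]
    have : 2 * a - 1 + 1 = 2 * a := by omega
    rw [this]; exact hW
  intro U hU hUc hmin
  obtain ⟨J', Z', h1, h2, h3, h4, h5, h6⟩ := Rest365.rest_any hnoM le_rfl
    hcrit hXc hJHZ hJq (by norm_num) n4 hsize hIH' n6 U hU hUc hmin
  exact ⟨J', Z', h1, h2, h3, h4, le_trans (Nat.mul_le_mul_right _ (by norm_num)) h5, h6⟩

end Crest.Agent.R042.Asm220
end

-- ▼ part R042/SDnum_667
section

/-! Row 42, sec (10.3): the numerical part of the small dense subgraph lemma. The potential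
`psi x = x (1 - 1 / (2 (1 + log₂ (x^3))))`. -/

set_option autoImplicit false

namespace Crest.Agent.R042.SDnum667

/-- discrete logarithm -/
def ell (x : ℕ) : ℕ := Nat.log 2 (x ^ 3)

/-- the potential -/
def psi (x : ℕ) : ℚ := x * (1 - 1 / (2 * (1 + (ell x : ℚ))))

/-- number of binary digits -/
def dg (n : ℕ) : ℕ := Nat.log 2 n + 1

lemma lt_pow_dg (n : ℕ) : n < 2 ^ dg n := Nat.lt_pow_succ_log_self (by norm_num) n

lemma pow_dg_le {n : ℕ} (hn : n ≠ 0) : 2 ^ (dg n - 1) ≤ n := by
  unfold dg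
  simpa using Nat.pow_log_le_self 2 hn

lemma psi_ge (x : ℕ) : (x : ℚ) / 2 ≤ psi x := by
  unfold psi
  have h1 : (0 : ℚ) ≤ (ell x : ℚ) := Nat.cast_nonneg _
  have h2 : (1 : ℚ) / (2 * (1 + (ell x : ℚ))) ≤ 1 / 2 := by
    apply one_div_le_one_div_of_le (by norm_num)
    linarith
  have h3 : (0 : ℚ) ≤ (x : ℚ) := Nat.cast_nonneg _
  nlinarith

lemma psi_le (x : ℕ) : psi x ≤ x := by
  unfold psi
  have h1 : (0 : ℚ) ≤ (ell x : ℚ) := Nat.cast_nonneg _
  have h2 : (0 : ℚ) ≤ 1 / (2 * (1 + (ell x : ℚ))) := by positivity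
  have h3 : (0 : ℚ) ≤ (x : ℚ) := Nat.cast_nonneg _
  nlinarith

lemma ell_succ_le {a n : ℕ} (ha : 1 ≤ a) (h : 4 * a ≤ 3 * n) : ell a + 1 ≤ ell n := by
  unfold ell
  have h0 : a ^ 3 ≠ 0 := by positivity
  rw [← Nat.log_mul_base (by norm_num) h0]
  apply Nat.log_mono_right
  have h1 : (4 * a) ^ 3 ≤ (3 * n) ^ 3 := Nat.pow_le_pow_left h 3
  have h2 : (4 * a) ^ 3 = 64 * a ^ 3 := by ring
  have h3 : (3 * n) ^ 3 = 27 * n ^ 3 := by ring
  omega

lemma ell_mono {b n : ℕ} (h : b ≤ n) : ell b ≤ ell n :=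
  Nat.log_mono_right (Nat.pow_le_pow_left h 3)

lemma ell_lt (n : ℕ) : ell n + 1 ≤ 3 * dg n := by
  unfold ell
  by_cases hn : n = 0
  · subst hn
    simp [dg]
  · have h1 : n ^ 3 < 2 ^ (3 * dg n) := by
      have := Nat.pow_lt_pow_left (lt_pow_dg n) (n := 3) (by norm_num)
      rwa [← pow_mul, mul_comm] at this
    exact Nat.log_lt_of_lt_pow (by positivity) h1

/-- the gain of the potential at a separation. -/
lemma gain {a b n s : ℕ} (ha : 1 ≤ a) (hab : a + b = n + s) (h4 : 4 * a ≤ 3 * n) (hb : b ≤ n)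
    (h : psi n < psi a + psi b) : a < 18 * dg n ^ 2 * s := by
  have hl1 := ell_succ_le ha h4
  have hl2 := ell_mono hb
  have hl3 := ell_lt n
  have e1 : (ell a : ℚ) + 1 ≤ ell n := by exact_mod_cast hl1
  have e2 : (ell b : ℚ) ≤ ell n := by exact_mod_cast hl2
  have e3 : (ell n : ℚ) + 1 ≤ 3 * dg n := by exact_mod_cast hl3
  have eab : (a : ℚ) + b = n + s := by exact_mod_cast hab
  have ha0 : (1 : ℚ) ≤ a := by exact_mod_cast ha
  have hs0 : (0 : ℚ) ≤ s := Nat.cast_nonneg _
  have hb0 : (0 : ℚ) ≤ b := Nat.cast_nonneg _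
  have ha1 : (0 : ℚ) ≤ ell a := Nat.cast_nonneg _
  have hb1 : (0 : ℚ) ≤ ell b := Nat.cast_nonneg _
  set L : ℚ := (ell n : ℚ) with hL
  have hLpos : (0 : ℚ) < L := by linarith
  have ga : 1 / (2 * L) ≤ 1 / (2 * (1 + (ell a : ℚ))) := by
    apply one_div_le_one_div_of_le (by positivity)
    linarith
  have gb : 1 / (2 * (1 + L)) ≤ 1 / (2 * (1 + (ell b : ℚ))) := by
    apply one_div_le_one_div_of_le (by positivity)
    linarith
  have hd : 1 / (2 * (1 + L) ^ 2) ≤ 1 / (2 * L) - 1 / (2 * (1 + L)) := by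
    have : 1 / (2 * L) - 1 / (2 * (1 + L)) = 1 / (2 * (L * (1 + L))) := by
      field_simp
      ring
    rw [this]
    apply one_div_le_one_div_of_le (by positivity)
    nlinarith
  unfold psi at h
  rw [← hL] at h
  have k1 : (a : ℚ) * (1 / (2 * L)) ≤ a * (1 / (2 * (1 + (ell a : ℚ)))) :=
    mul_le_mul_of_nonneg_left ga (by linarith)
  have k2 : (b : ℚ) * (1 / (2 * (1 + L))) ≤ b * (1 / (2 * (1 + (ell b : ℚ)))) :=
    mul_le_mul_of_nonneg_left gb hb0
  have k3 : (a : ℚ) * (1 / (2 * (1 + L) ^ 2)) ≤ a * (1 / (2 * L) - 1 / (2 * (1 + L))) :=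
    mul_le_mul_of_nonneg_left hd (by linarith)
  have k4 : (0 : ℚ) ≤ s * (1 / (2 * (1 + L))) := by positivity
  have k5 : (a : ℚ) * (1 / (2 * (1 + L) ^ 2)) < s := by
    have hn' : (n : ℚ) = a + b - s := by linarith
    rw [hn'] at h
    nlinarith
  have hpos : (0 : ℚ) < 2 * (1 + L) ^ 2 := by positivity
  have k6 : (a : ℚ) < s * (2 * (1 + L) ^ 2) := by
    rw [mul_one_div, div_lt_iff₀ hpos] at k5
    exact k5
  have k7 : (2 : ℚ) * (1 + L) ^ 2 ≤ 18 * (dg n : ℚ) ^ 2 := by
    nlinarith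
  have k8 : (a : ℚ) < 18 * (dg n : ℚ) ^ 2 * s := by
    calc (a : ℚ) < s * (2 * (1 + L) ^ 2) := k6
      _ ≤ s * (18 * (dg n : ℚ) ^ 2) := mul_le_mul_of_nonneg_left k7 hs0
      _ = 18 * (dg n : ℚ) ^ 2 * s := by ring
  exact_mod_cast k8

lemma seventh {m : ℕ} (hm : 64 ≤ m) : (m + 1) ^ 7 ≤ 2 * m ^ 7 := by
  obtain ⟨k, rfl⟩ := Nat.exists_eq_add_of_le hm
  ring_nf
  have h1 : 0 ≤ k := Nat.zero_le _
  nlinarith [Nat.zero_le (k ^ 2), Nat.zero_le (k ^ 3), Nat.zero_le (k ^ 4), Nat.zero_le (k ^ 5),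
    Nat.zero_le (k ^ 6), Nat.zero_le (k ^ 7)]

lemma pow_ge {m : ℕ} (hm : 64 ≤ m) : 60000 * m ^ 7 ≤ 2 ^ (m - 1) := by
  induction m, hm using Nat.le_induction with
  | base => norm_num
  | succ m hm ih =>
    have h1 := seventh hm
    have h2 : 2 ^ (m + 1 - 1) = 2 * 2 ^ (m - 1) := by
      rw [← pow_succ']
      congr 1
      omega
    rw [h2]
    omega

end Crest.Agent.R042.SDnum667
end

-- ▼ part R042/SDstep_667
section

/-! Row 42, sec (10.3): neighbourhoods, edge counts, balls, and the enlargement step of the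
Plotkin-Rao-Smith argument. -/

set_option autoImplicit false

namespace Crest.Agent.R042.SDstep667

open Finset SimpleGraph Conn353
open scoped Classical

variable {V : Type*} {G : SimpleGraph V}

/-- number of ordered adjacent pairs inside `S`. -/
noncomputable def ep (G : SimpleGraph V) (S : Finset V) : ℕ :=
  ∑ v ∈ S, (S.filter (fun w => G.Adj v w)).card

/-- neighbours of `X` in `J`, outside `X`. -/
noncomputable def nb (G : SimpleGraph V) (J X : Finset V) : Finset V :=
  (J \ X).filter (fun v => ∃ u ∈ X, G.Adj u v)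

lemma mem_nb {J X : Finset V} {v : V} :
    v ∈ nb G J X ↔ v ∈ J ∧ v ∉ X ∧ ∃ u ∈ X, G.Adj u v := by
  simp [nb, and_assoc]

lemma ep_eq (S : Finset V) : ep G S = ((S ×ˢ S).filter (fun p => G.Adj p.1 p.2)).card := by
  unfold ep
  rw [card_filter, sum_product]
  refine sum_congr rfl fun v _ => ?_
  rw [card_filter]

/-- every edge of `J` is inside `X ∪ nb X` or inside `J \ X`. -/
lemma ep_le (J X : Finset V) :
    ep G J ≤ ep G (X ∪ nb G J X) + ep G (J \ X) := by
  rw [ep_eq, ep_eq, ep_eq]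
  refine le_trans (card_le_card ?_) (card_union_le _ _)
  intro p hp
  rw [mem_filter, mem_product] at hp
  obtain ⟨⟨h1, h2⟩, h3⟩ := hp
  rw [mem_union, mem_filter, mem_filter, mem_product, mem_product]
  by_cases hx : p.1 ∈ X
  · left
    refine ⟨⟨mem_union_left _ hx, ?_⟩, h3⟩
    by_cases hy : p.2 ∈ X
    · exact mem_union_left _ hy
    · exact mem_union_right _ (mem_nb.2 ⟨h2, hy, p.1, hx, h3⟩)
  · by_cases hy : p.2 ∈ X
    · left
      exact ⟨⟨mem_union_right _ (mem_nb.2 ⟨h1, hx, p.2, hy, h3.symm⟩), mem_union_left _ hy⟩, h3⟩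
    · right
      exact ⟨⟨mem_sdiff.2 ⟨h1, hx⟩, mem_sdiff.2 ⟨h2, hy⟩⟩, h3⟩

lemma nb_subset {J X : Finset V} : nb G J X ⊆ J := fun _ h => (mem_nb.1 h).1

lemma disj_nb {J X : Finset V} : Disjoint X (nb G J X) := by
  rw [Finset.disjoint_right]
  intro v hv
  exact (mem_nb.1 hv).2.1

/-- iterated balls. -/
noncomputable def ball (G : SimpleGraph V) (W : Finset V) (y : V) : ℕ → Finset V
  | 0 => {y}
  | r + 1 => ball G W y r ∪ nb G W (ball G W y r)

lemma ball_subset {W : Finset V} {y : V} (hy : y ∈ W) : ∀ r, ball G W y r ⊆ W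
  | 0 => by simpa [ball] using hy
  | r + 1 => union_subset (ball_subset hy r) nb_subset

lemma ball_nonempty {W : Finset V} {y : V} : ∀ r, (ball G W y r).Nonempty
  | 0 => by simp [ball]
  | r + 1 => (ball_nonempty r).mono subset_union_left

/-- vertices of a ball are joined to the centre by a small connected set. -/
lemma ball_conn {W : Finset V} {y : V} (hy : y ∈ W) : ∀ r, ∀ z ∈ ball G W y r,
    ∃ P : Finset V, P ⊆ W ∧ Conn G P ∧ y ∈ P ∧ z ∈ P ∧ P.card ≤ r + 1
  | 0 => by
    intro z hz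
    simp only [ball, mem_singleton] at hz
    subst hz
    exact ⟨{z}, by simpa using hy, conn_singleton z, by simp, by simp, by simp⟩
  | r + 1 => by
    intro z hz
    rcases mem_union.1 hz with h | h
    · obtain ⟨P, h1, h2, h3, h4, h5⟩ := ball_conn hy r z h
      exact ⟨P, h1, h2, h3, h4, by omega⟩
    · obtain ⟨hzW, hz2, u, hu, huz⟩ := mem_nb.1 h
      obtain ⟨P, h1, h2, h3, h4, h5⟩ := ball_conn hy r u hu
      refine ⟨insert z P, ?_, h2.insert_adj h4 huz, by simp [h3], by simp, ?_⟩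
      · intro w hw
        rcases mem_insert.1 hw with rfl | hw
        · exact hzW
        · exact h1 hw
      · exact (card_insert_le _ _).trans (by omega)

/-- ball growth. -/
lemma ball_growth {W : Finset V} {y : V} (hy : y ∈ W) {n q : ℕ}
    (hexp : ∀ Y : Finset V, Y ⊆ W → Y.Nonempty → 2 * Y.card ≤ n →
      Y.card < 2 * q * (nb G W Y).card) :
    ∀ r, n < 2 * (ball G W y r).card ∨ (2 * q + 1) ^ r ≤ (2 * q) ^ r * (ball G W y r).card
  | 0 => by right; simp [ball]
  | r + 1 => by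
    have hcard : (ball G W y (r + 1)).card =
        (ball G W y r).card + (nb G W (ball G W y r)).card :=
      card_union_of_disjoint disj_nb
    rcases ball_growth hy hexp r with h | h
    · left
      rw [hcard]; omega
    · by_cases h2 : n < 2 * (ball G W y r).card
      · left
        rw [hcard]; omega
      · right
        have h3 := hexp (ball G W y r) (ball_subset hy r) (ball_nonempty r) (by omega)
        rw [hcard]
        set b := (ball G W y r).card
        set c := (nb G W (ball G W y r)).card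
        have h4 : (2 * q + 1) * b ≤ 2 * q * (b + c) := by nlinarith
        calc (2 * q + 1) ^ (r + 1) = (2 * q + 1) ^ r * (2 * q + 1) := pow_succ _ _
          _ ≤ ((2 * q) ^ r * b) * (2 * q + 1) := Nat.mul_le_mul_right _ h
          _ = (2 * q) ^ r * ((2 * q + 1) * b) := by ring
          _ ≤ (2 * q) ^ r * (2 * q * (b + c)) := Nat.mul_le_mul_left _ h4
          _ = (2 * q) ^ (r + 1) * (b + c) := by rw [pow_succ]; ring

/-- Bernoulli. -/
lemma bern (q m : ℕ) (hq : 1 ≤ q) :
    2 ^ m * (2 * q) ^ (2 * q * m) ≤ (2 * q + 1) ^ (2 * q * m) := by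
  have h1 : 2 * (2 * q) ^ (2 * q) ≤ (2 * q + 1) ^ (2 * q) := by
    have h := one_add_mul_le_pow (a := (1 : ℚ) / (2 * q)) (by
      have : (0 : ℚ) ≤ 1 / (2 * q) := by positivity
      linarith) (2 * q)
    have hq0 : (0 : ℚ) < 2 * q := by
      have : (1 : ℚ) ≤ q := by exact_mod_cast hq
      linarith
    have h2 : (1 : ℚ) + ((2 * q : ℕ) : ℚ) * (1 / (2 * q)) = 2 := by
      push_cast
      field_simp
      norm_num
    rw [h2] at h
    have h3 : (1 : ℚ) + 1 / (2 * q) = (2 * q + 1) / (2 * q) := by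
      field_simp
    rw [h3, div_pow, le_div_iff₀ (by positivity)] at h
    exact_mod_cast h
  calc 2 ^ m * (2 * q) ^ (2 * q * m) = (2 * (2 * q) ^ (2 * q)) ^ m := by
        rw [mul_pow 2 ((2 * q) ^ (2 * q)) m, ← pow_mul]
    _ ≤ ((2 * q + 1) ^ (2 * q)) ^ m := Nat.pow_le_pow_left h1 m
    _ = (2 * q + 1) ^ (2 * q * m) := by rw [← pow_mul]

/-- any two vertices are joined by a small connected set in an expander. -/
lemma small_conn {W : Finset V} {n q m : ℕ} (hq : 1 ≤ q) (hW : W.card ≤ n) (hm : n < 2 ^ m)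
    (hexp : ∀ Y : Finset V, Y ⊆ W → Y.Nonempty → 2 * Y.card ≤ n →
      Y.card < 2 * q * (nb G W Y).card) {y z : V} (hy : y ∈ W) (hz : z ∈ W) :
    ∃ P : Finset V, P ⊆ W ∧ Conn G P ∧ y ∈ P ∧ z ∈ P ∧ P.card ≤ 2 * (2 * q * m) + 2 := by
  have key : ∀ x ∈ W, n < 2 * (ball G W x (2 * q * m)).card := by
    intro x hx
    rcases ball_growth hx hexp (2 * q * m) with h | h
    · exact h
    · exfalso
      have h1 := bern q m hq
      have h2 : (ball G W x (2 * q * m)).card ≤ n := (card_le_card (ball_subset hx _)).trans hW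
      have h3 : 0 < (2 * q) ^ (2 * q * m) := by positivity
      have h4 : 2 ^ m * (2 * q) ^ (2 * q * m) ≤ n * (2 * q) ^ (2 * q * m) := by
        calc 2 ^ m * (2 * q) ^ (2 * q * m) ≤ (2 * q) ^ (2 * q * m) *
              (ball G W x (2 * q * m)).card := h1.trans h
          _ ≤ (2 * q) ^ (2 * q * m) * n := Nat.mul_le_mul_left _ h2
          _ = n * (2 * q) ^ (2 * q * m) := mul_comm _ _
      have h5 := Nat.le_of_mul_le_mul_right h4 h3
      omega
  have h1 := key y hy
  have h2 := key z hz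
  have h3 : ¬ Disjoint (ball G W y (2 * q * m)) (ball G W z (2 * q * m)) := by
    intro hd
    have h4 := card_union_of_disjoint hd
    have h5 : (ball G W y (2 * q * m) ∪ ball G W z (2 * q * m)).card ≤ n :=
      (card_le_card (union_subset (ball_subset hy _) (ball_subset hz _))).trans hW
    omega
  rw [Finset.not_disjoint_iff] at h3
  obtain ⟨x, hx1, hx2⟩ := h3
  obtain ⟨P, p1, p2, p3, p4, p5⟩ := ball_conn hy _ x hx1
  obtain ⟨Q, q1, q2, q3, q4, q5⟩ := ball_conn hz _ x hx2
  refine ⟨P ∪ Q, union_subset p1 q1, p2.union q2 p4 q4, mem_union_left _ p3,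
    mem_union_right _ q3, (card_union_le _ _).trans (by omega)⟩

end Crest.Agent.R042.SDstep667
private theorem rz_eb00fc29b3 : type_of% @_root_.Crest.Agent.R042.SDstep667.ball.eq_def := @_root_.Crest.Agent.R042.SDstep667.ball.eq_def -- L64
private theorem rz_6ae0258444 : type_of% @_root_.Crest.Agent.R042.SDstep667.ball.eq_1 := @_root_.Crest.Agent.R042.SDstep667.ball.eq_1 -- L64
end

-- ▼ part R042/SDprs_667
section

/-! Row 42, sec (10.3): a graph all of whose vertex sets of size at most `2n/3` expand contains a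
large clique minor (Plotkin-Rao-Smith argument). -/

set_option autoImplicit false

namespace Crest.Agent.R042.SDprs667

open Finset SimpleGraph Conn353 SDstep667
open scoped Classical

variable {V : Type*} {G : SimpleGraph V}

/-- a state of the procedure: a model `M` and a set `X` nearly cut off by `M`. -/
structure St (G : SimpleGraph V) (J : Finset V) (q s0 : ℕ) (M : Finset (Finset V))
    (X : Finset V) : Prop where
  subM : ∀ B ∈ M, B ⊆ J
  conn : ∀ B ∈ M, Conn G B
  small : ∀ B ∈ M, B.card ≤ s0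
  disj : ∀ B ∈ M, ∀ B' ∈ M, B ≠ B' → Disjoint B B'
  adj : ∀ B ∈ M, ∀ B' ∈ M, B ≠ B' → ∃ x ∈ B, ∃ y ∈ B', G.Adj x y
  subX : X ⊆ J
  dX : ∀ B ∈ M, Disjoint B X
  cut : 2 * q * (nb G J X \ M.biUnion id).card ≤ X.card
  half : 3 * X.card ≤ 2 * J.card

variable {J : Finset V} {q s0 h m : ℕ} {M : Finset (Finset V)} {X : Finset V}

lemma St.card_U (hS : St G J q s0 M X) (hM : M.card ≤ h) : (M.biUnion id).card ≤ h * s0 :=
  (card_biUnion_le_card_mul M id s0 hS.small).trans (Nat.mul_le_mul_right _ hM)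

lemma St.card_X (hS : St G J q s0 M X) (hM : M.card ≤ h)
    (hE : ∀ Y : Finset V, Y ⊆ J → Y.Nonempty → 3 * Y.card ≤ 2 * J.card →
      Y.card < q * (nb G J Y).card) : X.card ≤ 2 * q * (h * s0) := by
  rcases X.eq_empty_or_nonempty with rfl | hne
  · simp
  · have h1 := hE X hS.subX hne hS.half
    have h2 : (nb G J X).card ≤ (nb G J X \ M.biUnion id).card + (M.biUnion id).card := by
      have := card_le_card (show nb G J X ⊆ (nb G J X \ M.biUnion id) ∪ M.biUnion id by
        intro v hv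
        by_cases h : v ∈ M.biUnion id
        · exact mem_union_right _ h
        · exact mem_union_left _ (mem_sdiff.2 ⟨hv, h⟩))
      exact this.trans (card_union_le _ _)
    have h3 := hS.card_U hM
    have h4 := hS.cut
    have h5 : q * (nb G J X).card ≤ q * ((nb G J X \ M.biUnion id).card + h * s0) :=
      Nat.mul_le_mul_left _ (h2.trans (by omega))
    nlinarith

/-- the free part. -/
noncomputable def free (G : SimpleGraph V) (J : Finset V) (M : Finset (Finset V))
    (X : Finset V) : Finset V := J \ (X ∪ nb G J X ∪ M.biUnion id)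

lemma mem_free {v : V} : v ∈ free G J M X ↔ v ∈ J ∧ v ∉ X ∧ v ∉ nb G J X ∧ ∀ B ∈ M, v ∉ B := by
  simp only [free, mem_sdiff, mem_union, mem_biUnion, id, not_or, not_exists, not_and]
  constructor
  · rintro ⟨h1, ⟨h2, h3⟩, h4⟩
    exact ⟨h1, h2, h3, h4⟩
  · rintro ⟨h1, h2, h3, h4⟩
    exact ⟨h1, ⟨h2, h3⟩, h4⟩

/-- throw away a branch set with few neighbours in the free part. -/
lemma step_a (hS : St G J q s0 M X) {B : Finset V} (hB : B ∈ M)
    (hcut : 2 * q * ((free G J M X).filter (fun v => ∃ u ∈ B, G.Adj u v)).card ≤ B.card)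
    (hsz : 3 * (X.card + B.card) ≤ 2 * J.card) : St G J q s0 (M.erase B) (X ∪ B) := by
  have hcd : (X ∪ B).card = X.card + B.card := card_union_of_disjoint (hS.dX B hB).symm
  refine ⟨fun C hC => hS.subM C (mem_of_mem_erase hC), fun C hC => hS.conn C (mem_of_mem_erase hC),
    fun C hC => hS.small C (mem_of_mem_erase hC),
    fun C hC C' hC' => hS.disj C (mem_of_mem_erase hC) C' (mem_of_mem_erase hC'),
    fun C hC C' hC' => hS.adj C (mem_of_mem_erase hC) C' (mem_of_mem_erase hC'),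
    union_subset hS.subX (hS.subM B hB), ?_, ?_, by rw [hcd]; exact hsz⟩
  · intro C hC
    rw [Finset.disjoint_union_right]
    exact ⟨hS.dX C (mem_of_mem_erase hC),
      hS.disj C (mem_of_mem_erase hC) B hB (ne_of_mem_erase hC)⟩
  · rw [hcd]
    have h1 : nb G J (X ∪ B) \ (M.erase B).biUnion id ⊆ (nb G J X \ M.biUnion id) ∪
        (free G J M X).filter (fun v => ∃ u ∈ B, G.Adj u v) := by
      intro v hv
      rw [mem_sdiff, mem_nb] at hv
      obtain ⟨⟨hvJ, hvn, u, hu, huv⟩, hvM⟩ := hv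
      rw [mem_union, not_or] at hvn
      have hvM' : ∀ C ∈ M, v ∉ C := by
        intro C hC hvC
        by_cases hCB : C = B
        · subst hCB; exact hvn.2 hvC
        · exact hvM (mem_biUnion.2 ⟨C, mem_erase.2 ⟨hCB, hC⟩, hvC⟩)
      by_cases hvX : v ∈ nb G J X
      · refine mem_union_left _ (mem_sdiff.2 ⟨hvX, ?_⟩)
        intro hc
        obtain ⟨C, hC, hvC⟩ := mem_biUnion.1 hc
        exact hvM' C hC hvC
      · refine mem_union_right _ (mem_filter.2 ⟨mem_free.2 ⟨hvJ, hvn.1, hvX, hvM'⟩, u, ?_, huv⟩)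
        rcases mem_union.1 hu with h | h
        · exact absurd (mem_nb.2 ⟨hvJ, hvn.1, u, h, huv⟩) hvX
        · exact h
    have h2 := (card_le_card h1).trans (card_union_le _ _)
    have h3 := hS.cut
    calc 2 * q * (nb G J (X ∪ B) \ (M.erase B).biUnion id).card
        ≤ 2 * q * ((nb G J X \ M.biUnion id).card +
          ((free G J M X).filter (fun v => ∃ u ∈ B, G.Adj u v)).card) := Nat.mul_le_mul_left _ h2
      _ = 2 * q * (nb G J X \ M.biUnion id).card +
          2 * q * ((free G J M X).filter (fun v => ∃ u ∈ B, G.Adj u v)).card := by ring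
      _ ≤ X.card + B.card := Nat.add_le_add h3 hcut

/-- enlarge `X` by a set with few neighbours in the free part. -/
lemma step_b (hS : St G J q s0 M X) {Y : Finset V} (hY : Y ⊆ free G J M X)
    (hcut : 2 * q * (nb G (free G J M X) Y).card ≤ Y.card)
    (hsz : 3 * (X.card + Y.card) ≤ 2 * J.card) : St G J q s0 M (X ∪ Y) := by
  have hXY : Disjoint X Y := by
    rw [Finset.disjoint_right]
    intro v hv
    exact (mem_free.1 (hY hv)).2.1
  have hcd : (X ∪ Y).card = X.card + Y.card := card_union_of_disjoint hXY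
  refine ⟨hS.subM, hS.conn, hS.small, hS.disj, hS.adj,
    union_subset hS.subX (fun v hv => (mem_free.1 (hY hv)).1), ?_, ?_, by rw [hcd]; exact hsz⟩
  · intro C hC
    rw [Finset.disjoint_union_right]
    refine ⟨hS.dX C hC, ?_⟩
    rw [Finset.disjoint_right]
    intro v hv
    exact (mem_free.1 (hY hv)).2.2.2 C hC
  · rw [hcd]
    have h1 : nb G J (X ∪ Y) \ M.biUnion id ⊆ (nb G J X \ M.biUnion id) ∪
        nb G (free G J M X) Y := by
      intro v hv
      rw [mem_sdiff, mem_nb] at hv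
      obtain ⟨⟨hvJ, hvn, u, hu, huv⟩, hvM⟩ := hv
      rw [mem_union, not_or] at hvn
      by_cases hvX : v ∈ nb G J X
      · exact mem_union_left _ (mem_sdiff.2 ⟨hvX, hvM⟩)
      · have hvM' : ∀ C ∈ M, v ∉ C := fun C hC hvC => hvM (mem_biUnion.2 ⟨C, hC, hvC⟩)
        refine mem_union_right _ (mem_nb.2 ⟨mem_free.2 ⟨hvJ, hvn.1, hvX, hvM'⟩, hvn.2, u, ?_, huv⟩)
        rcases mem_union.1 hu with h | h
        · exact absurd (mem_nb.2 ⟨hvJ, hvn.1, u, h, huv⟩) hvX
        · exact h
    have h2 := (card_le_card h1).trans (card_union_le _ _)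
    have h3 := hS.cut
    calc 2 * q * (nb G J (X ∪ Y) \ M.biUnion id).card
        ≤ 2 * q * ((nb G J X \ M.biUnion id).card + (nb G (free G J M X) Y).card) :=
          Nat.mul_le_mul_left _ h2
      _ = 2 * q * (nb G J X \ M.biUnion id).card + 2 * q * (nb G (free G J M X) Y).card := by ring
      _ ≤ X.card + Y.card := Nat.add_le_add h3 hcut

/-- add a new branch set inside the free part. -/
lemma step_c (hS : St G J q s0 M X) {T : Finset V} (hT : T ⊆ free G J M X)
    (hc : Conn G T) (hcard : T.card ≤ s0) (hadj : ∀ B ∈ M, ∃ x ∈ B, ∃ y ∈ T, G.Adj x y) :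
    St G J q s0 (insert T M) X := by
  have hd : ∀ B ∈ M, Disjoint T B := by
    intro B hB
    rw [Finset.disjoint_left]
    intro v hv
    exact (mem_free.1 (hT hv)).2.2.2 B hB
  refine ⟨?_, ?_, ?_, ?_, ?_, hS.subX, ?_, ?_, hS.half⟩
  · intro B hB
    rcases mem_insert.1 hB with rfl | hB
    · exact fun v hv => (mem_free.1 (hT hv)).1
    · exact hS.subM B hB
  · intro B hB
    rcases mem_insert.1 hB with rfl | hB
    · exact hc
    · exact hS.conn B hB
  · intro B hB
    rcases mem_insert.1 hB with rfl | hB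
    · exact hcard
    · exact hS.small B hB
  · intro B hB B' hB' hne
    rcases mem_insert.1 hB with h1 | h1 <;> rcases mem_insert.1 hB' with h2 | h2
    · exact absurd (h1.trans h2.symm) hne
    · rw [h1]; exact hd B' h2
    · rw [h2]; exact (hd B h1).symm
    · exact hS.disj B h1 B' h2 hne
  · intro B hB B' hB' hne
    rcases mem_insert.1 hB with h1 | h1 <;> rcases mem_insert.1 hB' with h2 | h2
    · exact absurd (h1.trans h2.symm) hne
    · obtain ⟨x, hx, y, hy, hxy⟩ := hadj B' h2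
      rw [h1]
      exact ⟨y, hy, x, hx, hxy.symm⟩
    · rw [h2]; exact hadj B h1
    · exact hS.adj B h1 B' h2 hne
  · intro B hB
    rcases mem_insert.1 hB with rfl | hB
    · rw [Finset.disjoint_left]
      intro v hv
      exact (mem_free.1 (hT hv)).2.1
    · exact hS.dX B hB
  · refine le_trans (Nat.mul_le_mul_left _ (card_le_card ?_)) hS.cut
    intro v hv
    rw [mem_sdiff] at hv ⊢
    refine ⟨hv.1, fun h => hv.2 ?_⟩
    obtain ⟨B, hB, hvB⟩ := mem_biUnion.1 h
    exact mem_biUnion.2 ⟨B, mem_insert_of_mem hB, hvB⟩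

/-- one step of the procedure. -/
lemma step (hS : St G J q s0 M X) (hM : M.card ≤ h) (hq : 1 ≤ q) (hh : 1 ≤ h)
    (hm : J.card < 2 ^ m) (hs0 : 1 + h * (2 * (2 * q * m) + 2) ≤ s0)
    (hn : 24 * (q * (h * s0)) ≤ J.card)
    (hE : ∀ Y : Finset V, Y ⊆ J → Y.Nonempty → 3 * Y.card ≤ 2 * J.card →
      Y.card < q * (nb G J Y).card) :
    ∃ M' X', St G J q s0 M' X' ∧ X.card * (h + 2) + M.card < X'.card * (h + 2) + M'.card := by
  have hX := hS.card_X hM hE
  have hU := hS.card_U hM
  have hs1 : s0 ≤ h * s0 := Nat.le_mul_of_pos_left _ hh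
  have hs2 : h * s0 ≤ q * (h * s0) := Nat.le_mul_of_pos_left _ hq
  have hX' : X.card ≤ 2 * (q * (h * s0)) := by rw [← mul_assoc]; exact hX
  by_cases ha : ∃ B ∈ M, 2 * q *
      ((free G J M X).filter (fun v => ∃ u ∈ B, G.Adj u v)).card ≤ B.card
  · obtain ⟨B, hB, hcut⟩ := ha
    have hBs := hS.small B hB
    refine ⟨M.erase B, X ∪ B, step_a hS hB hcut (by omega), ?_⟩
    have hcd : (X ∪ B).card = X.card + B.card := card_union_of_disjoint (hS.dX B hB).symm
    have h1 : 1 ≤ B.card := (hS.conn B hB).nonempty.card_pos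
    have h2 : (M.erase B).card + 1 = M.card := card_erase_add_one hB
    rw [hcd]
    nlinarith
  · push Not at ha
    by_cases hb : ∃ Y : Finset V, Y ⊆ free G J M X ∧ Y.Nonempty ∧ 2 * Y.card ≤ J.card ∧
        2 * q * (nb G (free G J M X) Y).card ≤ Y.card
    · obtain ⟨Y, hY, hYne, hY2, hcut⟩ := hb
      refine ⟨M, X ∪ Y, step_b hS hY hcut (by omega), ?_⟩
      have hXY : Disjoint X Y := by
        rw [Finset.disjoint_right]
        intro v hv
        exact (mem_free.1 (hY hv)).2.1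
      have hcd : (X ∪ Y).card = X.card + Y.card := card_union_of_disjoint hXY
      have h1 : 1 ≤ Y.card := hYne.card_pos
      rw [hcd]
      nlinarith
    · push Not at hb
      have hW : (free G J M X).card ≤ J.card := card_le_card (fun v hv => (mem_free.1 hv).1)
      -- a vertex in the free part
      have hne : (free G J M X).Nonempty := by
        by_contra hcon
        rw [Finset.not_nonempty_iff_eq_empty] at hcon
        have hsub : J ⊆ X ∪ (nb G J X \ M.biUnion id) ∪ M.biUnion id := by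
          intro v hv
          by_contra hv'
          rw [mem_union, mem_union, mem_sdiff, not_or, not_or] at hv'
          have : v ∈ free G J M X := by
            rw [mem_free]
            refine ⟨hv, hv'.1.1, fun h => hv'.1.2 ⟨h, hv'.2⟩, fun B hB hvB => hv'.2 ?_⟩
            exact mem_biUnion.2 ⟨B, hB, hvB⟩
          rw [hcon] at this
          exact absurd this (notMem_empty v)
        have h1 := card_le_card hsub
        have h2 := card_union_le (X ∪ (nb G J X \ M.biUnion id)) (M.biUnion id)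
        have h3 := card_union_le X (nb G J X \ M.biUnion id)
        have h4 : (nb G J X \ M.biUnion id).card ≤ X.card := by
          refine le_trans ?_ hS.cut
          exact Nat.le_mul_of_pos_left _ (by omega)
        have h5 : 0 < s0 := by omega
        have h6 : 0 < h * s0 := Nat.mul_pos hh h5
        omega
      obtain ⟨y, hy⟩ := hne
      have hN : ∀ B ∈ M, ∃ z ∈ free G J M X, ∃ u ∈ B, G.Adj u z := by
        intro B hB
        have h1 := ha B hB
        have h2 : 0 < ((free G J M X).filter (fun v => ∃ u ∈ B, G.Adj u v)).card := by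
          rw [Nat.pos_iff_ne_zero]
          intro h0
          rw [h0] at h1
          omega
        obtain ⟨z, hz⟩ := card_pos.1 h2
        rw [mem_filter] at hz
        exact ⟨z, hz.1, hz.2⟩
      have hP : ∀ B : Finset V, ∃ P : Finset V, B ∈ M → (P ⊆ free G J M X ∧ Conn G P ∧ y ∈ P ∧
          (∃ z ∈ P, ∃ u ∈ B, G.Adj u z) ∧ P.card ≤ 2 * (2 * q * m) + 2) := by
        intro B
        by_cases hB : B ∈ M
        · obtain ⟨z, hz, u, hu, huz⟩ := hN B hB
          obtain ⟨P, p1, p2, p3, p4, p5⟩ := small_conn hq hW hm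
            (fun Y h1 h2 h3 => hb Y h1 h2 h3) hy hz
          exact ⟨P, fun _ => ⟨p1, p2, p3, ⟨z, p4, u, hu, huz⟩, p5⟩⟩
        · exact ⟨∅, fun h => absurd h hB⟩
      choose P hP using hP
      set T : Finset V := {y} ∪ M.biUnion P with hT
      have hTsub : T ⊆ free G J M X := by
        intro v hv
        rcases mem_union.1 hv with h | h
        · rw [mem_singleton] at h; rw [h]; exact hy
        · obtain ⟨B, hB, hvB⟩ := mem_biUnion.1 h
          exact (hP B hB).1 hvB
      have hTc : Conn G T := by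
        refine conn_biUnion M P {y} (conn_singleton y) (fun B hB => (hP B hB).2.1) ?_
        intro B hB
        exact ⟨y, mem_singleton_self y, y, (hP B hB).2.2.1, Or.inl rfl⟩
      have hTcard : T.card ≤ s0 := by
        refine (card_union_le _ _).trans ?_
        have h1 : (M.biUnion P).card ≤ M.card * (2 * (2 * q * m) + 2) :=
          card_biUnion_le_card_mul M P _ (fun B hB => (hP B hB).2.2.2.2)
        have h2 : M.card * (2 * (2 * q * m) + 2) ≤ h * (2 * (2 * q * m) + 2) :=
          Nat.mul_le_mul_right _ hM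
        rw [card_singleton]
        omega
      have hTadj : ∀ B ∈ M, ∃ x ∈ B, ∃ y ∈ T, G.Adj x y := by
        intro B hB
        obtain ⟨z, hz, u, hu, huz⟩ := (hP B hB).2.2.2.1
        exact ⟨u, hu, z, mem_union_right _ (mem_biUnion.2 ⟨B, hB, hz⟩), huz⟩
      refine ⟨insert T M, X, step_c hS hTsub hTc hTcard hTadj, ?_⟩
      have hTM : T ∉ M := by
        intro hTM
        obtain ⟨v, hv⟩ := hTc.nonempty
        exact (mem_free.1 (hTsub hv)).2.2.2 T hTM hv
      rw [card_insert_of_notMem hTM]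
      omega

end Crest.Agent.R042.SDprs667
end

-- ▼ part R042/SmallDense_667
section

/-! Row 42, sec (10.3): SMALL DENSE SUBGRAPH. A graph without `K_{h+1}` minor and with
`|E| ≥ D |V|` has a subgraph on at most `2 ^ (64 h)` vertices with `|E| ≥ (D/2) |V|`. -/

set_option autoImplicit false

namespace Crest.Agent.R042.SmallDense667

open Finset SimpleGraph Conn353 SDstep667 SDprs667 SDnum667
open Crest.CombinatoricsR.GraphMinor
open scoped Classical

variable {V : Type*} {G : SimpleGraph V}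

/-- a state with `h+1` branch sets is a `K_{h+1}` model. -/
lemma card_le_of_no {J W : Finset V} {q s0 h : ℕ} (hJW : J ⊆ W)
    (hno : ∀ B : Fin (h + 1) → Finset V, (∀ i, B i ⊆ W) → ¬ IsCliqueMinorModel G B)
    {M : Finset (Finset V)} {X : Finset V} (hS : St G J q s0 M X) : M.card ≤ h := by
  by_contra hc
  obtain ⟨M', hM', hcard⟩ := exists_subset_card_eq (show h + 1 ≤ M.card by omega)
  have e : Fin (h + 1) ≃ M' := (Finset.equivFinOfCardEq hcard).symm
  have hmem : ∀ i, (e i : Finset V) ∈ M := fun i => hM' (e i).2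
  have hne : ∀ i j, i ≠ j → (e i : Finset V) ≠ e j := by
    intro i j hij h
    exact hij (e.injective (Subtype.ext h))
  refine hno (fun i => (e i : Finset V)) (fun i => (hS.subM _ (hmem i)).trans hJW) ?_
  refine ⟨fun i => (hS.conn _ (hmem i)).nonempty, fun i j hij => ?_, fun i => hS.conn _ (hmem i),
    fun i j hij => ?_⟩
  · exact hS.disj _ (hmem i) _ (hmem j) (hne i j hij)
  · exact hS.adj _ (hmem i) _ (hmem j) (hne i j hij)

/-- there is no large set all of whose subsets expand. -/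
lemma no_expander {J W : Finset V} {q s0 h m : ℕ} (hJW : J ⊆ W)
    (hno : ∀ B : Fin (h + 1) → Finset V, (∀ i, B i ⊆ W) → ¬ IsCliqueMinorModel G B)
    (hq : 1 ≤ q) (hh : 1 ≤ h)
    (hm : J.card < 2 ^ m) (hs0 : 1 + h * (2 * (2 * q * m) + 2) ≤ s0)
    (hn : 24 * (q * (h * s0)) ≤ J.card)
    (hE : ∀ Y : Finset V, Y ⊆ J → Y.Nonempty → 3 * Y.card ≤ 2 * J.card →
      Y.card < q * (nb G J Y).card) : False := by
  have key : ∀ k, ∃ M X, St G J q s0 M X ∧ k ≤ X.card * (h + 2) + M.card := by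
    intro k
    induction k with
    | zero =>
      refine ⟨∅, ∅, ⟨by simp, by simp, by simp, by simp, by simp, by simp, by simp, ?_, by simp⟩,
        by simp⟩
      have : nb G J ∅ = ∅ := by
        ext v; simp [mem_nb]
      simp [this]
    | succ k ih =>
      obtain ⟨M, X, hS, hk⟩ := ih
      obtain ⟨M', X', hS', hlt⟩ := step hS (card_le_of_no hJW hno hS) hq hh hm hs0 hn hE
      exact ⟨M', X', hS', by omega⟩
  obtain ⟨M, X, hS, hk⟩ := key (J.card * (h + 2) + h + 1)
  have h1 := card_le_card hS.subX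
  have h2 := card_le_of_no hJW hno hS
  have h3 : X.card * (h + 2) ≤ J.card * (h + 2) := Nat.mul_le_mul_right _ h1
  omega

/-- **SMALL DENSE SUBGRAPH** (with `ep` = number of ordered adjacent pairs). -/
theorem small_dense_ep (G : SimpleGraph V) (W : Finset V) (h D : ℕ) (hh : 1 ≤ h)
    (hW : W.Nonempty)
    (hno : ∀ B : Fin (h + 1) → Finset V, (∀ i, B i ⊆ W) → ¬ IsCliqueMinorModel G B)
    (hD : 2 * D * W.card ≤ ep G W) :
    ∃ J ⊆ W, J.Nonempty ∧ J.card ≤ 2 ^ (64 * h) ∧ D * J.card ≤ ep G J := by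
  set P : Finset V → Prop := fun J => J.Nonempty ∧ 2 * (D : ℚ) * psi J.card ≤ (ep G J : ℚ) with hP
  have hWP : P W := by
    refine ⟨hW, ?_⟩
    have h1 := psi_le W.card
    have h2 : (2 * D * W.card : ℚ) ≤ (ep G W : ℚ) := by exact_mod_cast hD
    have h3 : (0 : ℚ) ≤ 2 * D := by positivity
    exact (mul_le_mul_of_nonneg_left h1 h3).trans h2
  obtain ⟨J, hJ, hmin⟩ := Finset.exists_min_image (W.powerset.filter P) Finset.card
    ⟨W, mem_filter.2 ⟨mem_powerset_self W, hWP⟩⟩
  rw [mem_filter, mem_powerset] at hJ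
  obtain ⟨hJW, hJne, hJP⟩ := hJ
  have hprop : ∀ A : Finset V, A ⊆ J → A.Nonempty → A.card < J.card →
      (ep G A : ℚ) < 2 * (D : ℚ) * psi A.card := by
    intro A hA hAne hlt
    by_contra hcon
    push Not at hcon
    have := hmin A (mem_filter.2 ⟨mem_powerset.2 (hA.trans hJW), hAne, hcon⟩)
    omega
  refine ⟨J, hJW, hJne, ?_, ?_⟩
  · by_contra hbig
    push Not at hbig
    set m := dg J.card with hm
    have hJpos : 0 < J.card := hJne.card_pos
    have hm1 : 64 * h + 1 ≤ m := by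
      have h1 : Nat.log 2 (2 ^ (64 * h)) ≤ Nat.log 2 J.card := Nat.log_mono_right hbig.le
      rw [Nat.log_pow (by norm_num)] at h1
      rw [hm]; unfold dg; omega
    have hm64 : 64 ≤ m := by omega
    have hhm : h ≤ m := by omega
    have hqpos : 1 ≤ 18 * m ^ 2 := by
      have : 0 < m ^ 2 := by positivity
      omega
    refine no_expander (q := 18 * m ^ 2) (s0 := 1 + h * (2 * (2 * (18 * m ^ 2) * m) + 2)) (m := m)
      hJW hno hqpos hh (lt_pow_dg _) le_rfl ?_ ?_
    · have h1 : 1 + h * (2 * (2 * (18 * m ^ 2) * m) + 2) ≤ 75 * m ^ 4 := by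
        have h2 : h * (2 * (2 * (18 * m ^ 2) * m) + 2) ≤ m * (2 * (2 * (18 * m ^ 2) * m) + 2) :=
          Nat.mul_le_mul_right _ hhm
        have h3 : m * (2 * (2 * (18 * m ^ 2) * m) + 2) = 72 * m ^ 4 + 2 * m := by ring
        have h4 : m ≤ m ^ 4 := Nat.le_self_pow (by norm_num) m
        have h5 : 1 ≤ m ^ 4 := Nat.one_le_pow _ _ (by omega)
        omega
      have h2 : h * (1 + h * (2 * (2 * (18 * m ^ 2) * m) + 2)) ≤ m * (75 * m ^ 4) :=
        Nat.mul_le_mul hhm h1
      have h3 : 18 * m ^ 2 * (h * (1 + h * (2 * (2 * (18 * m ^ 2) * m) + 2))) ≤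
          18 * m ^ 2 * (m * (75 * m ^ 4)) := Nat.mul_le_mul_left _ h2
      have h4 : 18 * m ^ 2 * (m * (75 * m ^ 4)) = 1350 * m ^ 7 := by ring
      have h5 := pow_ge hm64
      have h6 : 2 ^ (m - 1) ≤ J.card := pow_dg_le hJpos.ne'
      omega
    · intro Y hY hYne hY3
      have hYpos := hYne.card_pos
      by_cases h4 : 4 * (Y.card + (nb G J Y).card) ≤ 3 * J.card
      · have hA : (Y ∪ nb G J Y).card = Y.card + (nb G J Y).card := card_union_of_disjoint disj_nb
        have hB : (J \ Y).card + Y.card = J.card := card_sdiff_add_card_eq_card hY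
        have e1 := hprop (Y ∪ nb G J Y) (union_subset hY nb_subset) (hYne.mono subset_union_left)
          (by omega)
        have e2 := hprop (J \ Y) sdiff_subset (card_pos.1 (by omega)) (by omega)
        have e3 : (ep G J : ℚ) ≤ (ep G (Y ∪ nb G J Y) : ℚ) + (ep G (J \ Y) : ℚ) := by
          exact_mod_cast ep_le J Y
        have e4 : 2 * (D : ℚ) * psi J.card <
            2 * (D : ℚ) * (psi (Y ∪ nb G J Y).card + psi (J \ Y).card) := by
          rw [mul_add]; linarith
        have e5 := lt_of_mul_lt_mul_left e4 (by positivity)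
        have e6 := gain (a := (Y ∪ nb G J Y).card) (b := (J \ Y).card) (n := J.card)
          (s := (nb G J Y).card) (by omega) (by omega) (by omega) (by omega) e5
        exact lt_of_le_of_lt (by omega) e6
      · have h5 : Y.card < 18 * (nb G J Y).card := by omega
        have h6 : 18 * (nb G J Y).card ≤ 18 * m ^ 2 * (nb G J Y).card := by
          apply Nat.mul_le_mul_right
          have : 1 ≤ m ^ 2 := Nat.one_le_pow _ _ (by omega)
          omega
        omega
  · have h1 := psi_ge J.card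
    have h2 : (D : ℚ) * J.card ≤ ep G J := by
      have h3 : (0 : ℚ) ≤ 2 * D := by positivity
      have := (mul_le_mul_of_nonneg_left h1 h3).trans hJP
      linarith
    exact_mod_cast h2


end Crest.Agent.R042.SmallDense667
end

-- ▼ part R042/SmallDenseM_667
section

/-! Row 42, sec (10.3) in the frozen language: `Mader375.Model`, `Mader375.e2`, `Link870.nb`. -/

set_option autoImplicit false

namespace Crest.Agent.R042.SmallDense667

open Finset SimpleGraph Conn353 SDstep667
open Crest.CombinatoricsR.GraphMinor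
open scoped Classical

variable {V : Type*}


/-- **(10.3)** with `Model` and `e2`. -/
theorem small_dense_model (G : SimpleGraph V) (W : Finset V) (h D : ℕ) (hh : 1 ≤ h)
    (hW : W.Nonempty) (hno : ¬ Mader375.Model G W (h + 1))
    (hD : 2 * D * W.card ≤ Mader375.e2 G W) :
    ∃ J ⊆ W, J.Nonempty ∧ J.card ≤ 2 ^ (64 * h) ∧ D * J.card ≤ Mader375.e2 G J := by
  refine small_dense_ep G W h D hh hW ?_ hD
  intro B hB hM
  exact hno (Mader375.model_iff.2 ⟨B, hB, hM⟩)


end Crest.Agent.R042.SmallDense667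
end

-- ▼ part R042/SmallHub_667
section

/-! Row 42, sec (10.4), first half: Mader's highly connected subgraph and the massed property. -/

set_option autoImplicit false

namespace Crest.Agent.R042.SmallHub667

open Finset SimpleGraph Conn353 Menger353 Mader375
open scoped Classical

variable {V : Type*} {G : SimpleGraph V}

lemma dg_le_card {S : Finset V} (v : V) : dg G S v ≤ S.card := card_le_card (filter_subset _ _)

lemma e2_le_sq (S : Finset V) : e2 G S ≤ S.card * S.card := by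
  unfold e2
  refine (sum_le_sum fun v _ => dg_le_card (G := G) (S := S) v).trans ?_
  rw [sum_const, smul_eq_mul]

/-- the edges of `G[J]` are covered by the two sides of a separation. -/
lemma e2_sep [DecidableEq V] {J A B : Finset V} (h : Sep G J A B) : e2 G J ≤ e2 G A + e2 G B := by
  rw [e2_eq_card, e2_eq_card, e2_eq_card]
  refine le_trans (card_le_card ?_) (card_union_le _ _)
  intro p hp
  rw [mem_filter, mem_product] at hp
  obtain ⟨⟨h1, h2⟩, h3⟩ := hp
  rw [mem_union, mem_filter, mem_filter, mem_product, mem_product]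
  rw [← h.union, mem_union] at h1 h2
  by_cases ha : p.1 ∈ A ∧ p.2 ∈ A
  · exact Or.inl ⟨ha, h3⟩
  by_cases hb : p.1 ∈ B ∧ p.2 ∈ B
  · exact Or.inr ⟨hb, h3⟩
  exfalso
  rcases h1 with x | x <;> rcases h2 with y | y
  · exact ha ⟨x, y⟩
  · exact h.nadj _ x (fun h' => hb ⟨h', y⟩) _ y (fun h' => ha ⟨x, h'⟩) h3
  · exact h.nadj _ y (fun h' => hb ⟨x, h'⟩) _ x (fun h' => ha ⟨h', y⟩) h3.symm
  · exact hb ⟨x, y⟩

/-- **MADER**: a dense graph contains a subgraph with large minimum degree and without separations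
of order `< 2k`. -/
theorem mader_conn [DecidableEq V] {k : ℕ} (hk : 1 ≤ k) {J0 : Finset V} (hne : J0.Nonempty)
    (hD : 64 * k * J0.card ≤ e2 G J0) :
    ∃ J ⊆ J0, J.Nonempty ∧ (∀ v ∈ J, 32 * k < dg G J v) ∧
      ∀ A B, Sep G J A B → (A ∩ B).card < 2 * k → A \ B = ∅ ∨ B \ A = ∅ := by
  set Q : Finset V → Prop := fun J => 4 * k ≤ J.card ∧ 64 * k * J.card < e2 G J + 128 * (k * k)
    with hQ
  have hkk : 1 ≤ k * k := Nat.mul_pos hk hk
  have h0 : Q J0 := by
    have h1 := e2_le_sq (G := G) J0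
    have h2 : 0 < J0.card := hne.card_pos
    have h3 : 64 * k ≤ J0.card := Nat.le_of_mul_le_mul_right (hD.trans h1) h2
    exact ⟨by omega, by omega⟩
  obtain ⟨J, hJ, hmin⟩ := Finset.exists_min_image (J0.powerset.filter Q) Finset.card
    ⟨J0, mem_filter.2 ⟨mem_powerset_self J0, h0⟩⟩
  rw [mem_filter, mem_powerset] at hJ
  obtain ⟨hJ0, hJ4, hJe⟩ := hJ
  have hnot : ∀ A : Finset V, A ⊆ J → A.card < J.card → 4 * k ≤ A.card →
      e2 G A + 128 * (k * k) ≤ 64 * k * A.card := by
    intro A hA hlt h4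
    by_contra hcon
    push Not at hcon
    have := hmin A (mem_filter.2 ⟨mem_powerset.2 (hA.trans hJ0), h4, hcon⟩)
    omega
  have hJgt : 4 * k < J.card := by
    rcases Nat.lt_or_ge (4 * k) J.card with h | h
    · exact h
    · exfalso
      have h1 : J.card = 4 * k := le_antisymm h hJ4
      have h2 := e2_le_sq (G := G) J
      rw [h1] at hJe h2
      nlinarith
  have hdeg : ∀ v ∈ J, 32 * k < dg G J v := by
    intro v hv
    have h1 := hnot (J.erase v) (erase_subset _ _) (card_erase_lt_of_mem hv)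
      (by rw [card_erase_of_mem hv]; omega)
    have h2 : e2 G J = e2 G (J.erase v) + 2 * dg G J v := by
      convert e2_erase (G := G) hv
    have h3 : (J.erase v).card + 1 = J.card := card_erase_add_one hv
    rw [← h3] at hJe
    have h4 : 64 * k * ((J.erase v).card + 1) = 64 * k * (J.erase v).card + 64 * k := by ring
    omega
  refine ⟨J, hJ0, card_pos.1 (by omega), hdeg, ?_⟩
  intro A B hS hord
  by_contra hcon
  push Not at hcon
  obtain ⟨⟨a, ha⟩, ⟨b, hb⟩⟩ := hcon
  rw [mem_sdiff] at ha hb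
  have hAJ : A ⊆ J := hS.union ▸ subset_union_left
  have hBJ : B ⊆ J := hS.union ▸ subset_union_right
  have hA : 32 * k < A.card := by
    refine lt_of_lt_of_le (hdeg a (hAJ ha.1)) (card_le_card ?_)
    intro x hx
    rw [mem_filter] at hx
    by_contra hxA
    have hxB : x ∈ B := by
      have := hx.1
      rw [← hS.union, mem_union] at this
      exact this.resolve_left hxA
    exact hS.nadj a ha.1 ha.2 x hxB hxA hx.2
  have hB : 32 * k < B.card := by
    refine lt_of_lt_of_le (hdeg b (hBJ hb.1)) (card_le_card ?_)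
    intro x hx
    rw [mem_filter] at hx
    by_contra hxB
    have hxA : x ∈ A := by
      have := hx.1
      rw [← hS.union, mem_union] at this
      exact this.resolve_right hxB
    exact hS.nadj x hxA hxB b hb.1 hb.2 hx.2.symm
  have hAlt : A.card < J.card := card_lt_card ⟨hAJ, fun h => hb.2 (h (hBJ hb.1))⟩
  have hBlt : B.card < J.card := card_lt_card ⟨hBJ, fun h => ha.2 (h (hAJ ha.1))⟩
  have h1 := hnot A hAJ hAlt (by omega)
  have h2 := hnot B hBJ hBlt (by omega)
  have h3 := e2_sep hS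
  have h4 : A.card + B.card = J.card + (A ∩ B).card := by
    rw [← hS.union]; exact (card_union_add_card_inter A B).symm
  have h5 : 64 * k * A.card + 64 * k * B.card = 64 * k * J.card + 64 * k * (A ∩ B).card := by
    rw [← mul_add, ← mul_add, h4]
  have h6 : 64 * k * (A ∩ B).card ≤ 64 * k * (2 * k) := Nat.mul_le_mul_left _ (by omega)
  have h7 : 64 * k * (2 * k) = 128 * (k * k) := by ring
  omega

/-- such a subgraph is massed for every root set of size at most `2k`. -/
theorem massed_of_conn [DecidableEq V] {k : ℕ} (hk : 1 ≤ k) {J : Finset V}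
    (hdeg : ∀ v ∈ J, 32 * k < dg G J v)
    (hsep : ∀ A B, Sep G J A B → (A ∩ B).card < 2 * k → A \ B = ∅ ∨ B \ A = ∅)
    {X : Finset V} (hX : X ⊆ J) (hXk : X.card ≤ 2 * k) (hne : J.Nonempty) :
    Link870.Massed G J X (8 * k) := by
  refine ⟨hX, ?_, ?_⟩
  · have h1 := Link870.sum_nb_le_rho_add (G := G) hX
    have h2 : J.card * (32 * k + 1) ≤ ∑ v ∈ J, (Link870.nb G J v).card := by
      rw [← smul_eq_mul, ← sum_const]
      exact sum_le_sum fun v hv => hdeg v hv
    have h3 : X.card * X.card ≤ 2 * k * (2 * k) := Nat.mul_le_mul hXk hXk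
    have h4 : (J \ X).card ≤ J.card := card_le_card sdiff_subset
    have h5 : 2 * (8 * k) * (J \ X).card ≤ 2 * (8 * k) * J.card := Nat.mul_le_mul_left _ h4
    obtain ⟨v, hv⟩ := hne
    have h6 : 32 * k < J.card := lt_of_lt_of_le (hdeg v hv) (dg_le_card v)
    nlinarith
  · intro A B hS hXA hord
    rcases hsep A B hS (by omega) with h | h
    · exfalso
      have h1 : X ⊆ A ∩ B := by
        intro x hx
        refine mem_inter.2 ⟨hXA hx, ?_⟩
        by_contra hxB
        have : x ∈ A \ B := mem_sdiff.2 ⟨hXA hx, hxB⟩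
        rw [h] at this
        exact absurd this (notMem_empty x)
      have := card_le_card h1
      omega
    · rw [h]
      simp [Link870.rho]

/-- **(10.4) SMALL HUB**, relative to the linkage theorem `htw` (sec 05). -/
theorem small_hub [DecidableEq V] (G : SimpleGraph V) (W : Finset V) {k h D : ℕ} (hk : 1 ≤ k)
    (htw : ∀ J X : Finset V, Link870.Massed G J X (8 * k) → X.card ≤ 2 * k →
      Link870.Linked G J X)
    (hh : 1 ≤ h) (hW : W.Nonempty) (hno : ¬ Model G W (h + 1)) (hDk : 64 * k ≤ D)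
    (hD : 2 * D * W.card ≤ e2 G W) :
    ∃ J ⊆ W, J.Nonempty ∧ J.card ≤ 2 ^ (64 * h) ∧ (∀ v ∈ J, 32 * k < (Link870.nb G J v).card) ∧
      32 * k < J.card ∧ ∀ X ⊆ J, X.card ≤ 2 * k → Link870.Linked G J X := by
  obtain ⟨J0, hJ0W, hJ0ne, hJ0c, hJ0e⟩ :=
    SmallDense667.small_dense_model G W h D hh hW hno hD
  obtain ⟨J, hJ, hne, hdeg, hsep⟩ := mader_conn hk hJ0ne
    ((Nat.mul_le_mul_right _ hDk).trans hJ0e)
  refine ⟨J, hJ.trans hJ0W, hne, (card_le_card hJ).trans hJ0c, hdeg, ?_, ?_⟩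
  · obtain ⟨v, hv⟩ := hne
    exact lt_of_lt_of_le (hdeg v hv) (dg_le_card v)
  · intro X hX hXk
    exact htw J X (massed_of_conn hk hdeg hsep hX hXk hne) hXk

end Crest.Agent.R042.SmallHub667
end

-- ▼ part R042/B8Final_220
section

/-! Row 42 / S0058: block B8 (= 10.8), unconditional. -/

set_option autoImplicit false
set_option linter.unusedSectionVars false

namespace Crest.Agent.R042.Asm220

open Finset Crest.Agent.R042.Conn353 Crest.Agent.R042.Menger353 Crest.Agent.R042.Crit374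

theorem twStmt : TWStmt := fun _ _ _ _ hk hX hM => TW870.tw hk hM hX

theorem smallHub : SmallHubStmt 128 64 := by
  intro V _ G W h κ hh hκ hW hno hdeg
  have hD : 2 * (64 * κ) * W.card ≤ Mader375.e2 G W := by
    have h1 : ∑ v ∈ W, 128 * κ ≤ ∑ v ∈ W, Mader375.dg G W v := by
      refine Finset.sum_le_sum fun v hv => ?_
      refine (hdeg v hv).trans (le_of_eq ?_)
      unfold Link870.nb Mader375.dg
      congr
    rw [Finset.sum_const, smul_eq_mul] at h1
    unfold Mader375.e2
    calc 2 * (64 * κ) * W.card = W.card * (128 * κ) := by ring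
      _ ≤ _ := h1
  obtain ⟨J, h1, h2, h3, h4, h5, h6⟩ := SmallHub667.small_hub G W (k := κ) (D := 64 * κ) hκ
    (fun J X hM hX => TW870.tw hκ hM hX) hh hW hno le_rfl hD
  exact ⟨J, h1, by omega, h3, h6⟩

/-- THEOREM W'. -/
theorem wPrime (K : ℕ) : WPrime K := wPrime_of_hub smallHub K

/-- block B8. -/
theorem b8 : Spine883.B8 := b8_of twStmt wPrime

end Crest.Agent.R042.Asm220
end

-- ▼ part R042/Chain2_374
section

/-! Row 42 / S0058, sec 10.7 (chain of hubs), part 2: the state before a stage and steps (a)-(d). -/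

set_option autoImplicit false
set_option linter.unusedSectionVars false

namespace Crest.Agent.R042.Chain374

open Finset Conn353 Menger353 Crit374
open scoped Classical

variable {V : Type*} [DecidableEq V] {G : SimpleGraph V}

/-- all inputs of sec 10.7 (see the interface message): P1 = 10.1, BF1/BF2 = 10.2, COST = 10.5,
HUB = 10.4, NS = the non-splitting alternative of 10.6. -/
structure Inp (G : SimpleGraph V) (V0 : Finset V) (p kc M d UB : ℕ) : Prop where
  P1 : ∀ (F : Finset (Finset V)) (T : Finset V), (∀ A ∈ F, A ⊆ V0 ∧ Conn G A) →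
    (∀ A ∈ F, ∀ B ∈ F, A ≠ B → Disjoint A B) → T ⊆ V0 →
    (∀ t ∈ T, (∀ A ∈ F, t ∉ A) ∧ p ≤ sees G F t) → T.card ≤ d * F.card
  BF1 : ∀ (W A B : Finset V) (P : Finset (List V)), Batch G W A B P →
    Degen G (verts P) (2 * P.card - 1)
  BF2 : ∀ (W A B : Finset V) (P : Finset (List V)), Batch G W A B P → ∀ x ∈ W, x ∉ verts P →
    ∀ l ∈ P, nb G l.toFinset x ≤ 3
  COST : ∀ U P : Finset V, U ⊆ V0 → P ⊆ V0 → U.card ≤ UB → Degen G (P \ U) (8 * p) →
    (∀ v ∈ V0, v ∉ U → v ∉ P → nb G P v ≤ 3 * p) → ¬ Choos G ((V0 \ U) \ P) kc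
  HUB : ∀ T, T ⊆ V0 → T.Nonempty → (∀ v ∈ T, kc - 3 * p ≤ nb G T v) →
    ∃ J, J ⊆ T ∧ J.card ≤ M ∧ Hub G J p
  NS : ∀ X Y : Finset V, X ⊆ V0 → Y ⊆ V0 → Disjoint X Y →
    Choos G X (kc - 8 * p) ∨ Choos G Y (kc - 8 * p)

/-- the state before stage `b`; `D` is the set of pairs of tokens already made adjacent. -/
structure St (G : SimpleGraph V) (V0 : Finset V) (p kc M d b : ℕ) (D : Finset (Fin p × Fin p))
    (U : Finset V) (F : Finset (Finset V)) (H Z : Finset V) (y : Fin p → V)
    (T : Fin p → Finset V) : Prop where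
  U_sub : U ⊆ V0
  U_card : U.card ≤ 2 * p + b * (M + 3 * p + 2 * d * p * (b + 1))
  F_mem : ∀ A ∈ F, A ⊆ V0 ∧ Conn G A
  F_disj : ∀ A ∈ F, ∀ B ∈ F, A ≠ B → Disjoint A B
  F_card : F.card ≤ 2 * p * b
  crit : Crit G H Z kc p
  H_sub : H \ Z ⊆ (V0 \ U) \ F.biUnion id
  Z_sub : Z ⊆ U
  Z_disj : Disjoint Z (F.biUnion id)
  y_inj : Function.Injective y
  y_mem : ∀ i, y i ∈ H \ Z
  T_sub : ∀ i, T i ⊆ V0 ∧ Conn G (T i) ∧ y i ∈ T i
  T_disj : ∀ i j, i ≠ j → Disjoint (T i) (T j)
  T_y : ∀ i, ∀ x ∈ T i, (x ∈ (V0 \ U) \ F.biUnion id ∨ x ∈ Z) → x = y i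
  T_adj : ∀ q ∈ D, ∃ u ∈ T q.1, ∃ w ∈ T q.2, G.Adj u w
  degen : Degen G (F.biUnion id \ U) (8 * p)
  see : ∀ v ∈ (V0 \ U) \ F.biUnion id, (∀ i, v ≠ y i) →
    sees G F v ≤ 2 * p ∧ ∀ A ∈ F, nb G A v ≤ 3

variable {V0 : Finset V} {p kc M d UB b : ℕ} {D : Finset (Fin p × Fin p)}
  {U : Finset V} {F : Finset (Finset V)} {H Z : Finset V} {y : Fin p → V} {T : Fin p → Finset V}

/-- steps (a), (b): the hub `J` and the batch `S` from the tokens to `J`. -/
lemma St.step_ab (I : Inp G V0 p kc M d UB) (hk : 9 * p ≤ kc) (hp : 1 ≤ p)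
    (h : St G V0 p kc M d b D U F H Z y T) :
    ∃ (J : Finset V) (S : Finset (List V)), J ⊆ H \ Z ∧ (∀ i, y i ∉ J) ∧ J.card ≤ M ∧
      Hub G J p ∧ Batch G (((V0 \ U) \ F.biUnion id) ∪ Z) (Finset.univ.image y) J S ∧
      S.card = p := by
  have hYc : (Finset.univ.image y).card = p := by
    rw [Finset.card_image_of_injective _ h.y_inj]; simp
  have hYH : Finset.univ.image y ⊆ H \ Z := by
    intro x hx
    rw [Finset.mem_image] at hx
    obtain ⟨i, -, rfl⟩ := hx
    exact h.y_mem i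
  set Ys := Finset.univ.image y with hYs
  have hdeg : ∀ v ∈ (H \ Z) \ Ys, kc - 3 * p ≤ nb G ((H \ Z) \ Ys) v := by
    intro v hv
    have h1 : kc - 2 * p ≤ nb G (H \ Z) v := h.crit.deg' (Finset.mem_sdiff.1 hv).1
    have h2 : nb G (H \ Z) v ≤ nb G ((H \ Z) \ Ys) v + nb G Ys v :=
      nb_le_of_subset_union (by
        intro x hx
        rw [Finset.mem_union, Finset.mem_sdiff]
        by_cases hxY : x ∈ Ys
        · exact Or.inr hxY
        · exact Or.inl ⟨hx, hxY⟩) v
    have h3 := nb_le_card (G := G) Ys v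
    omega
  have hne : ((H \ Z) \ Ys).Nonempty := by
    rw [← Finset.card_pos]
    have h1 := h.crit.card_lt (by omega)
    have h2 := Finset.le_card_sdiff Ys (H \ Z)
    omega
  have hsub0 : (H \ Z) \ Ys ⊆ V0 := by
    intro x hx
    have := h.H_sub (Finset.mem_sdiff.1 hx).1
    exact (Finset.mem_sdiff.1 (Finset.mem_sdiff.1 this).1).1
  obtain ⟨J, hJ1, hJM, hJ⟩ := I.HUB _ hsub0 hne hdeg
  have hJH : J ⊆ H \ Z := hJ1.trans Finset.sdiff_subset
  have hJy : ∀ i, y i ∉ J := by
    intro i hi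
    exact (Finset.mem_sdiff.1 (hJ1 hi)).2 (Finset.mem_image_of_mem y (Finset.mem_univ i))
  have hmen : ∃ Q, Linkage G H Ys J Q ∧ Q.card = p := by
    rcases menger_sep (G := G) (W := H) (A := Ys) (B := J) (hYH.trans Finset.sdiff_subset)
      (hJH.trans Finset.sdiff_subset) p with h1 | ⟨A', B', h2, h3, h4, h5⟩
    · exact h1
    · exfalso
      rcases h.crit.sep h2 h5.le with h6 | h6
      · obtain ⟨x, hx, hx'⟩ := Finset.exists_mem_notMem_of_card_lt_card
          (s := A' ∩ B') (t := Ys) (by omega)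
        rw [Finset.mem_inter] at hx'
        have hxA := h3 hx
        have hxB : x ∉ B' := fun hh => hx' ⟨hxA, hh⟩
        exact (Finset.mem_sdiff.1 (hYH hx)).2 (h6 (Finset.mem_sdiff.2 ⟨hxA, hxB⟩))
      · have hJc := hJ.card
        obtain ⟨x, hx, hx'⟩ := Finset.exists_mem_notMem_of_card_lt_card
          (s := A' ∩ B') (t := J) (by omega)
        rw [Finset.mem_inter] at hx'
        have hxB := h4 hx
        have hxA : x ∉ A' := fun hh => hx' ⟨hh, hxB⟩
        exact (Finset.mem_sdiff.1 (hJH hx)).2 (h6 (Finset.mem_sdiff.2 ⟨hxB, hxA⟩))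
  obtain ⟨Q, hQ, hQp⟩ := hmen
  have hHW : H ⊆ ((V0 \ U) \ F.biUnion id) ∪ Z := by
    intro x hx
    rw [Finset.mem_union]
    by_cases hxZ : x ∈ Z
    · exact Or.inr hxZ
    · exact Or.inl (h.H_sub (Finset.mem_sdiff.2 ⟨hx, hxZ⟩))
  obtain ⟨S, hS, hSc⟩ := exists_batch (linkage_ground_mono hHW hQ)
  exact ⟨J, S, hJH, hJy, hJM, hJ, hS, hSc.trans hQp⟩

/-- the family of all paths after step (b). -/
noncomputable def FS (F : Finset (Finset V)) (S : Finset (List V)) : Finset (Finset V) :=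
  F ∪ S.image List.toFinset

/-- exceptional vertices of step (c). -/
noncomputable def Exc (G : SimpleGraph V) (V0 U : Finset V) (F : Finset (Finset V))
    (S : Finset (List V)) (J : Finset V) (p : ℕ) : Finset V :=
  ((((V0 \ U) \ F.biUnion id) \ verts S) \ J).filter (fun v => p ≤ sees G (FS F S) v)

/-- the new exceptional set of step (c) (without `Z'`). -/
noncomputable def U1 (G : SimpleGraph V) (V0 U : Finset V) (F : Finset (Finset V))
    (S : Finset (List V)) (J : Finset V) (p : ℕ) (y : Fin p → V) : Finset V :=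
  U ∪ J ∪ Finset.univ.image y ∪ Exc G V0 U F S J p

lemma FS_biUnion (F : Finset (Finset V)) (S : Finset (List V)) :
    (FS F S).biUnion id = F.biUnion id ∪ verts S := by
  unfold FS verts
  ext x
  simp only [Finset.mem_biUnion, Finset.mem_union, Finset.mem_image, id]
  constructor
  · rintro ⟨A, hA | ⟨l, hl, rfl⟩, hx⟩
    · exact Or.inl ⟨A, hA, hx⟩
    · exact Or.inr ⟨l, hl, hx⟩
  · rintro (⟨A, hA, hx⟩ | ⟨l, hl, hx⟩)
    · exact ⟨A, Or.inl hA, hx⟩
    · exact ⟨_, Or.inr ⟨l, hl, rfl⟩, hx⟩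

/-- data after steps (a), (b). -/
structure AB (G : SimpleGraph V) (V0 : Finset V) (p M : ℕ) (U : Finset V)
    (F : Finset (Finset V)) (H Z : Finset V) (y : Fin p → V) (J : Finset V)
    (S : Finset (List V)) : Prop where
  J_sub : J ⊆ H \ Z
  J_y : ∀ i, y i ∉ J
  J_card : J.card ≤ M
  hub : Hub G J p
  batch : Batch G (((V0 \ U) \ F.biUnion id) ∪ Z) (Finset.univ.image y) J S
  S_card : S.card = p

variable {J : Finset V} {S : Finset (List V)}

lemma AB.S_sub (a : AB G V0 p M U F H Z y J S) {x : V} (hx : x ∈ verts S) :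
    x ∈ (V0 \ U) \ F.biUnion id ∨ x ∈ Z := by
  obtain ⟨l, hl, hxl⟩ := mem_verts.1 hx
  exact Finset.mem_union.1 ((a.batch.1.path l hl).sub x hxl)

lemma St.Gam_sub (_h : St G V0 p kc M d b D U F H Z y T) {x : V}
    (hx : x ∈ (V0 \ U) \ F.biUnion id) : x ∈ V0 ∧ x ∉ U ∧ x ∉ F.biUnion id := by
  rw [Finset.mem_sdiff, Finset.mem_sdiff] at hx
  exact ⟨hx.1.1, hx.1.2, hx.2⟩

lemma St.FS_mem (h : St G V0 p kc M d b D U F H Z y T) (a : AB G V0 p M U F H Z y J S) :
    ∀ A ∈ FS F S, A ⊆ V0 ∧ Conn G A := by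
  intro A hA
  rcases Finset.mem_union.1 hA with hA | hA
  · exact h.F_mem A hA
  · rw [Finset.mem_image] at hA
    obtain ⟨l, hl, rfl⟩ := hA
    refine ⟨?_, (a.batch.1.path l hl).conn⟩
    intro x hx
    rw [List.mem_toFinset] at hx
    rcases a.S_sub (mem_verts.2 ⟨l, hl, hx⟩) with h1 | h1
    · exact (h.Gam_sub h1).1
    · exact h.U_sub (h.Z_sub h1)

lemma St.FS_cross (h : St G V0 p kc M d b D U F H Z y T) (a : AB G V0 p M U F H Z y J S) :
    ∀ A ∈ F, ∀ l ∈ S, Disjoint A l.toFinset := by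
  intro A hA l hl
  rw [Finset.disjoint_left]
  intro x hxA hxl
  rw [List.mem_toFinset] at hxl
  have hxF : x ∈ F.biUnion id := Finset.mem_biUnion.2 ⟨A, hA, hxA⟩
  rcases a.S_sub (mem_verts.2 ⟨l, hl, hxl⟩) with h1 | h1
  · exact (h.Gam_sub h1).2.2 hxF
  · exact Finset.disjoint_left.1 h.Z_disj h1 hxF

lemma St.FS_disj (h : St G V0 p kc M d b D U F H Z y T) (a : AB G V0 p M U F H Z y J S) :
    ∀ A ∈ FS F S, ∀ B ∈ FS F S, A ≠ B → Disjoint A B := by
  intro A hA B hB hne
  rcases Finset.mem_union.1 hA with hA | hA <;> rcases Finset.mem_union.1 hB with hB | hB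
  · exact h.F_disj A hA B hB hne
  · rw [Finset.mem_image] at hB
    obtain ⟨l, hl, rfl⟩ := hB
    exact h.FS_cross a A hA l hl
  · rw [Finset.mem_image] at hA
    obtain ⟨l, hl, rfl⟩ := hA
    exact (h.FS_cross a B hB l hl).symm
  · rw [Finset.mem_image] at hA hB
    obtain ⟨l, hl, rfl⟩ := hA
    obtain ⟨l', hl', rfl⟩ := hB
    rw [Finset.disjoint_left]
    intro x hx hx'
    rw [List.mem_toFinset] at hx hx'
    refine a.batch.1.disj l hl l' hl' ?_ x hx hx'
    rintro rfl
    exact hne rfl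

lemma St.FS_card (h : St G V0 p kc M d b D U F H Z y T) (a : AB G V0 p M U F H Z y J S) :
    (FS F S).card ≤ 2 * p * b + p := by
  refine (Finset.card_union_le _ _).trans ?_
  have h1 := h.F_card
  have h2 : (S.image List.toFinset).card ≤ S.card := Finset.card_image_le
  have h3 := a.S_card
  omega

lemma St.Exc_card (I : Inp G V0 p kc M d UB) (h : St G V0 p kc M d b D U F H Z y T)
    (a : AB G V0 p M U F H Z y J S) : (Exc G V0 U F S J p).card ≤ d * (2 * p * b + p) := by
  refine (I.P1 (FS F S) _ (h.FS_mem a) (h.FS_disj a) ?_ ?_).trans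
    (Nat.mul_le_mul_left d (h.FS_card a))
  · intro x hx
    have h1 := (Finset.mem_sdiff.1 (Finset.mem_sdiff.1 (Finset.mem_filter.1 hx).1).1).1
    exact (h.Gam_sub h1).1
  · intro t ht
    obtain ⟨h1, h2⟩ := Finset.mem_filter.1 ht
    refine ⟨?_, h2⟩
    intro A hA htA
    have h3 := Finset.mem_sdiff.1 (Finset.mem_sdiff.1 h1).1
    rcases Finset.mem_union.1 hA with hA | hA
    · exact (h.Gam_sub h3.1).2.2 (Finset.mem_biUnion.2 ⟨A, hA, htA⟩)
    · rw [Finset.mem_image] at hA
      obtain ⟨l, hl, rfl⟩ := hA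
      rw [List.mem_toFinset] at htA
      exact h3.2 (mem_verts.2 ⟨l, hl, htA⟩)

lemma mem_U1 {x : V} : x ∈ U1 G V0 U F S J p y ↔
    x ∈ U ∨ x ∈ J ∨ (∃ i, y i = x) ∨ x ∈ Exc G V0 U F S J p := by
  unfold U1
  simp only [Finset.mem_union, Finset.mem_image, Finset.mem_univ, true_and]
  tauto

lemma St.J_Gam (h : St G V0 p kc M d b D U F H Z y T) (a : AB G V0 p M U F H Z y J S) :
    J ⊆ (V0 \ U) \ F.biUnion id := a.J_sub.trans h.H_sub

lemma St.y_Gam (h : St G V0 p kc M d b D U F H Z y T) (i : Fin p) :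
    y i ∈ (V0 \ U) \ F.biUnion id := h.H_sub (h.y_mem i)

lemma St.U1_sub (h : St G V0 p kc M d b D U F H Z y T) (a : AB G V0 p M U F H Z y J S) :
    U1 G V0 U F S J p y ⊆ V0 := by
  intro x hx
  rcases mem_U1.1 hx with h1 | h1 | ⟨i, rfl⟩ | h1
  · exact h.U_sub h1
  · exact (h.Gam_sub (h.J_Gam a h1)).1
  · exact (h.Gam_sub (h.y_Gam i)).1
  · have h1 := (Finset.mem_sdiff.1 (Finset.mem_sdiff.1 (Finset.mem_filter.1 h1).1).1).1
    exact (h.Gam_sub h1).1

lemma St.U1_card (I : Inp G V0 p kc M d UB) (h : St G V0 p kc M d b D U F H Z y T)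
    (a : AB G V0 p M U F H Z y J S) :
    (U1 G V0 U F S J p y).card ≤ U.card + M + p + d * (2 * p * b + p) := by
  have h1 := h.Exc_card I a
  have h2 : (Finset.univ.image y).card ≤ p := by
    simpa using (Finset.card_image_le (s := (Finset.univ : Finset (Fin p))) (f := y))
  have h3 := a.J_card
  unfold U1
  have h4 := Finset.card_union_le (U ∪ J ∪ Finset.univ.image y) (Exc G V0 U F S J p)
  have h5 := Finset.card_union_le (U ∪ J) (Finset.univ.image y)
  have h6 := Finset.card_union_le U J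
  omega

/-- (c5): the remaining vertices see few paths, each in at most three vertices. -/
lemma St.see1 (I : Inp G V0 p kc M d UB) (h : St G V0 p kc M d b D U F H Z y T)
    (a : AB G V0 p M U F H Z y J S) {v : V} (hv : v ∈ V0) (hvU : v ∉ U1 G V0 U F S J p y)
    (hvP : v ∉ (FS F S).biUnion id) :
    sees G (FS F S) v < p ∧ ∀ A ∈ FS F S, nb G A v ≤ 3 := by
  rw [mem_U1] at hvU
  push Not at hvU
  obtain ⟨k1, k2, k3, k4⟩ := hvU
  rw [FS_biUnion, Finset.mem_union] at hvP
  push Not at hvP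
  have hG : v ∈ (V0 \ U) \ F.biUnion id := by
    rw [Finset.mem_sdiff, Finset.mem_sdiff]
    exact ⟨⟨hv, k1⟩, hvP.1⟩
  constructor
  · by_contra hcon
    push Not at hcon
    apply k4
    unfold Exc
    rw [Finset.mem_filter]
    refine ⟨?_, hcon⟩
    rw [Finset.mem_sdiff, Finset.mem_sdiff]
    exact ⟨⟨hG, hvP.2⟩, k2⟩
  · intro A hA
    rcases Finset.mem_union.1 hA with hA | hA
    · exact (h.see v hG (fun i hi => k3 i hi.symm)).2 A hA
    · rw [Finset.mem_image] at hA
      obtain ⟨l, hl, rfl⟩ := hA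
      exact I.BF2 _ _ _ _ a.batch v (Finset.mem_union_left _ hG) hvP.2 l hl

lemma St.nb1 (I : Inp G V0 p kc M d UB) (h : St G V0 p kc M d b D U F H Z y T)
    (a : AB G V0 p M U F H Z y J S) {v : V} (hv : v ∈ V0) (hvU : v ∉ U1 G V0 U F S J p y)
    (hvP : v ∉ (FS F S).biUnion id) : nb G ((FS F S).biUnion id) v ≤ 3 * p := by
  obtain ⟨h1, h2⟩ := h.see1 I a hv hvU hvP
  have := nb_biUnion_le (G := G) h2
  omega

lemma St.degen1 (I : Inp G V0 p kc M d UB) (hp : 1 ≤ p)
    (h : St G V0 p kc M d b D U F H Z y T) (a : AB G V0 p M U F H Z y J S) :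
    Degen G ((FS F S).biUnion id \ U1 G V0 U F S J p y) (8 * p) := by
  have hUU : U ⊆ U1 G V0 U F S J p y := fun x hx => mem_U1.2 (Or.inl hx)
  have hA : Degen G (F.biUnion id \ U1 G V0 U F S J p y) (8 * p) :=
    h.degen.mono (Finset.sdiff_subset_sdiff (le_refl _) hUU)
  have hB : Degen G (verts S \ U1 G V0 U F S J p y) (2 * p - 1) := by
    have h1 := I.BF1 _ _ _ _ a.batch
    rw [a.S_card] at h1
    exact h1.mono Finset.sdiff_subset
  refine (hA.union hB (c2 := 6 * p) ?_ (by omega)).mono ?_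
  · intro v hv
    rw [Finset.mem_sdiff, mem_U1] at hv
    obtain ⟨hvS, hvU⟩ := hv
    push Not at hvU
    obtain ⟨k1, k2, k3, k4⟩ := hvU
    have hG : v ∈ (V0 \ U) \ F.biUnion id := by
      rcases a.S_sub hvS with h1 | h1
      · exact h1
      · exact absurd (h.Z_sub h1) k1
    obtain ⟨h1, h2⟩ := h.see v hG (fun i hi => k3 i hi.symm)
    have h3 := nb_biUnion_le (G := G) h2
    have h4 := nb_mono (G := G) (Finset.sdiff_subset :
      F.biUnion id \ U1 G V0 U F S J p y ⊆ F.biUnion id) v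
    omega
  · rw [FS_biUnion, Finset.union_sdiff_distrib]

/-- step (c): the next critical pair. -/
lemma St.step_c (I : Inp G V0 p kc M d UB) (hp : 1 ≤ p)
    (h : St G V0 p kc M d b D U F H Z y T) (a : AB G V0 p M U F H Z y J S)
    (hUB : U.card + M + p + d * (2 * p * b + p) ≤ UB) :
    ∃ H' Z', H' ⊆ (V0 \ U1 G V0 U F S J p y) \ (FS F S).biUnion id ∧ Crit G H' Z' kc p := by
  have hP : (FS F S).biUnion id ⊆ V0 := by
    intro x hx
    obtain ⟨A, hA, hxA⟩ := Finset.mem_biUnion.1 hx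
    exact (h.FS_mem a A hA).1 hxA
  have := I.COST _ _ (h.U1_sub a) hP ((h.U1_card I a).trans hUB) (h.degen1 I hp a)
    (fun v hv hvU hvP => h.nb1 I a hv hvU hvP)
  exact exists_crit this p

/-- step (d): the exit batch. -/
lemma St.step_d (I : Inp G V0 p kc M d UB) (hk : 9 * p ≤ kc) (hp : 1 ≤ p)
    (h : St G V0 p kc M d b D U F H Z y T) (a : AB G V0 p M U F H Z y J S)
    {H' Z' : Finset V} (hH' : H' ⊆ (V0 \ U1 G V0 U F S J p y) \ (FS F S).biUnion id)
    (hc' : Crit G H' Z' kc p) :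
    ∃ E : Finset (List V), Batch G ((((V0 \ U) \ F.biUnion id) \ verts S) \ Z') (J \ verts S)
      (H' \ Z') E ∧ E.card = p := by
  set W2 := (((V0 \ U) \ F.biUnion id) \ verts S) \ Z' with hW2
  have hR : ∀ x ∈ H', x ∈ V0 ∧ x ∉ U1 G V0 U F S J p y ∧ x ∉ F.biUnion id ∧ x ∉ verts S := by
    intro x hx
    have := hH' hx
    rw [Finset.mem_sdiff, Finset.mem_sdiff, FS_biUnion, Finset.mem_union] at this
    push Not at this
    exact ⟨this.1.1, this.1.2, this.2.1, this.2.2⟩
  have hUU : ∀ x, x ∈ U → x ∈ U1 G V0 U F S J p y := fun x hx => mem_U1.2 (Or.inl hx)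
  have hJU : ∀ x, x ∈ J → x ∈ U1 G V0 U F S J p y := fun x hx => mem_U1.2 (Or.inr (Or.inl hx))
  have hH'G : ∀ x ∈ H', x ∈ (V0 \ U) \ F.biUnion id := by
    intro x hx
    obtain ⟨h1, h2, h3, h4⟩ := hR x hx
    rw [Finset.mem_sdiff, Finset.mem_sdiff]
    exact ⟨⟨h1, fun hh => h2 (hUU x hh)⟩, h3⟩
  have hA2 : J \ verts S ⊆ W2 := by
    intro x hx
    rw [Finset.mem_sdiff] at hx
    rw [hW2, Finset.mem_sdiff, Finset.mem_sdiff]
    refine ⟨⟨h.J_Gam a hx.1, hx.2⟩, ?_⟩
    intro hxZ
    exact (hR x (hc'.sub hxZ)).2.1 (hJU x hx.1)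
  have hB2 : H' \ Z' ⊆ W2 := by
    intro x hx
    rw [Finset.mem_sdiff] at hx
    rw [hW2, Finset.mem_sdiff, Finset.mem_sdiff]
    exact ⟨⟨hH'G x hx.1, (hR x hx.1).2.2.2⟩, hx.2⟩
  -- `J \ verts S` is large
  have hSJ : (verts S ∩ J).card = p := by
    rw [a.batch.1.verts_inter_card, a.S_card]
  have hJc : p + 6 ≤ (J \ verts S).card := by
    have h1 := a.hub.card
    have h2 : J = (J \ verts S) ∪ (verts S ∩ J) := by
      ext x
      simp only [Finset.mem_union, Finset.mem_sdiff, Finset.mem_inter]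
      tauto
    have h3 := Finset.card_union_le (J \ verts S) (verts S ∩ J)
    rw [← h2] at h3
    omega
  have hmen : ∃ Q, Linkage G W2 (J \ verts S) (H' \ Z') Q ∧ Q.card = p := by
    rcases menger_sep (G := G) hA2 hB2 p with h1 | ⟨A, B, h2, h3, h4, h5⟩
    · exact h1
    exfalso
    -- the two disjoint hard sets
    set Q1 := (H \ Z) ∩ (A \ B) with hQ1
    set Q2 := (H' \ Z') \ (A ∩ B) with hQ2
    have hQ1sub : Q1 ⊆ H \ Z := Finset.inter_subset_left
    have hQ1ne : Q1.Nonempty := by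
      obtain ⟨x, hx, hx'⟩ := Finset.exists_mem_notMem_of_card_lt_card
        (s := A ∩ B) (t := J \ verts S) (by omega)
      rw [Finset.mem_inter] at hx'
      have hxA := h3 hx
      refine ⟨x, ?_⟩
      rw [hQ1, Finset.mem_inter, Finset.mem_sdiff (s := A)]
      exact ⟨a.J_sub (Finset.mem_sdiff.1 hx).1, hxA, fun hh => hx' ⟨hxA, hh⟩⟩
    have hQ1t : ∀ v ∈ Q1, (((H \ Z) \ Q1).filter (G.Adj v)).card ≤ 6 * p := by
      intro v hv
      rw [hQ1, Finset.mem_inter, Finset.mem_sdiff (s := A)] at hv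
      obtain ⟨hvH, hvA, hvB⟩ := hv
      have hvW : v ∈ W2 := h2.left_sub hvA
      have hvG : v ∈ (V0 \ U) \ F.biUnion id := by
        rw [hW2, Finset.mem_sdiff, Finset.mem_sdiff] at hvW
        exact hvW.1.1
      have hvS : v ∉ verts S := by
        rw [hW2, Finset.mem_sdiff, Finset.mem_sdiff] at hvW
        exact hvW.1.2
      have hsub : ((H \ Z) \ Q1).filter (fun u => G.Adj v u) ⊆
          (verts S).filter (fun u => G.Adj v u) ∪ (Z' ∪ (A ∩ B)) := by
        intro u hu
        rw [Finset.mem_filter, Finset.mem_sdiff] at hu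
        obtain ⟨⟨huH, huQ⟩, hvu⟩ := hu
        rw [Finset.mem_union, Finset.mem_filter, Finset.mem_union, Finset.mem_inter]
        by_cases huS : u ∈ verts S
        · exact Or.inl ⟨huS, hvu⟩
        · right
          by_cases huZ : u ∈ Z'
          · exact Or.inl huZ
          · right
            have huW : u ∈ W2 := by
              rw [hW2, Finset.mem_sdiff, Finset.mem_sdiff]
              exact ⟨⟨h.H_sub huH, huS⟩, huZ⟩
            have huAB : u ∈ A ∪ B := by rw [h2.union]; exact huW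
            have huA : u ∈ A := by
              by_contra huA
              have huB : u ∈ B := (Finset.mem_union.1 huAB).resolve_left huA
              exact h2.nadj v hvA hvB u huB huA hvu
            refine ⟨huA, ?_⟩
            by_contra huB
            apply huQ
            rw [hQ1, Finset.mem_inter, Finset.mem_sdiff (s := A)]
            exact ⟨huH, huA, huB⟩
      have hnS : nb G (verts S) v ≤ 3 * p := by
        have h6 : nb G ((S.image List.toFinset).biUnion id) v ≤
            3 * sees G (S.image List.toFinset) v := by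
          refine nb_biUnion_le ?_
          intro A' hA'
          rw [Finset.mem_image] at hA'
          obtain ⟨l, hl, rfl⟩ := hA'
          exact I.BF2 _ _ _ _ a.batch v (Finset.mem_union_left _ hvG) hvS l hl
        have h7 : (S.image List.toFinset).biUnion id = verts S := by
          unfold verts
          ext x
          simp [Finset.mem_biUnion, Finset.mem_image]
        have h8 : sees G (S.image List.toFinset) v ≤ p := by
          refine (Finset.card_le_card (Finset.filter_subset _ _)).trans ?_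
          exact Finset.card_image_le.trans (by rw [a.S_card])
        rw [h7] at h6
        omega
      have h9 := Finset.card_le_card hsub
      have h10 := Finset.card_union_le ((verts S).filter (fun u => G.Adj v u)) (Z' ∪ (A ∩ B))
      have h11 := Finset.card_union_le Z' (A ∩ B)
      have h12 := hc'.card_le
      have h13 : ((verts S).filter (fun u => G.Adj v u)).card ≤ 3 * p := hnS
      have h14 : (((H \ Z) \ Q1).filter (G.Adj v)).card =
        (((H \ Z) \ Q1).filter (fun u => G.Adj v u)).card := rfl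
      omega
    have hhard1 : ¬ Choos G Q1 (kc - 8 * p) := by
      have := h.crit.fact hQ1sub hQ1ne hQ1t
      exact not_choos_mono (le_refl _) (by omega) this
    have hQ2ne : Q2.Nonempty := by
      rw [← Finset.card_pos, hQ2]
      have h6 := hc'.card_lt (by omega)
      have h7 := Finset.le_card_sdiff (A ∩ B) (H' \ Z')
      omega
    have hhard2 : ¬ Choos G Q2 (kc - 8 * p) := by
      have h6 := hc'.fact' (Q := Q2) Finset.sdiff_subset hQ2ne (t := 3 * p) (by
        intro v hv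
        have hsub : (H' \ Q2).filter (G.Adj v) ⊆ Z' ∪ (A ∩ B) := by
          intro u hu
          rw [Finset.mem_filter, Finset.mem_sdiff, hQ2, Finset.mem_sdiff, Finset.mem_sdiff] at hu
          rw [Finset.mem_union]
          tauto
        have h7 := Finset.card_le_card hsub
        have h8 := Finset.card_union_le Z' (A ∩ B)
        have h9 := hc'.card_le
        omega)
      exact not_choos_mono (le_refl _) (by omega) h6
    have hdis : Disjoint Q1 Q2 := by
      rw [Finset.disjoint_left]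
      intro x hx1 hx2
      rw [hQ1, Finset.mem_inter, Finset.mem_sdiff (s := A)] at hx1
      rw [hQ2, Finset.mem_sdiff] at hx2
      exact hx1.2.2 (h4 hx2.1)
    have hQ1V : Q1 ⊆ V0 := by
      intro x hx
      exact (h.Gam_sub (h.H_sub (hQ1sub hx))).1
    have hQ2V : Q2 ⊆ V0 := by
      intro x hx
      rw [hQ2, Finset.mem_sdiff, Finset.mem_sdiff] at hx
      exact (hR x hx.1.1).1
    rcases I.NS Q1 Q2 hQ1V hQ2V hdis with h6 | h6
    · exact hhard1 h6
    · exact hhard2 h6
  obtain ⟨Q, hQ, hQp⟩ := hmen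
  obtain ⟨E, hE, hEc⟩ := exists_batch hQ
  exact ⟨E, hE, hEc.trans hQp⟩

end Crest.Agent.R042.Chain374
end

-- ▼ part R042/Chain3_374
section

/-! Row 42 / S0058, sec 10.7 (chain of hubs), part 3: step (e), the next state, and the theorem. -/

set_option autoImplicit false
set_option linter.unusedSectionVars false

namespace Crest.Agent.R042.Chain374

open Finset Conn353 Menger353 Crit374
open scoped Classical

variable {V : Type*} [DecidableEq V] {G : SimpleGraph V}
variable {V0 : Finset V} {p kc M d UB b : ℕ} {D : Finset (Fin p × Fin p)}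
  {U : Finset V} {F : Finset (Finset V)} {H Z : Finset V} {y : Fin p → V} {T : Fin p → Finset V}
  {J : Finset V} {S : Finset (List V)}

/-- one stage of the chain of hubs. -/
theorem St.stage (I : Inp G V0 p kc M d UB) (hk : 9 * p ≤ kc) (hp : 1 ≤ p)
    (h : St G V0 p kc M d b D U F H Z y T)
    (hUB : U.card + M + p + d * (2 * p * b + p) ≤ UB) {x z : Fin p} (hxz : x ≠ z) :
    ∃ U' F' H' Z' y' T', St G V0 p kc M d (b + 1) (insert (x, z) D) U' F' H' Z' y' T' := by
  obtain ⟨J, S, a1, a2, a3, a4, a5, a6⟩ := h.step_ab I hk hp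
  have a : AB G V0 p M U F H Z y J S := ⟨a1, a2, a3, a4, a5, a6⟩
  obtain ⟨H', Z', hH', hc'⟩ := h.step_c I hp a hUB
  obtain ⟨E, hE, hEc⟩ := h.step_d I hk hp a hH' hc'
  -- the paths of `S`, indexed by the tokens
  obtain ⟨Q, e, hQ, hQd, hQv⟩ := exists_index' h.y_inj a.batch.1 a.S_card
  -- the paths of `E`
  obtain ⟨R, f, y', hR, hRd, hRv⟩ := exists_index hE.1 hEc
  set W2 := (((V0 \ U) \ F.biUnion id) \ verts S) \ Z' with hW2
  set X1 := U1 G V0 U F S J p y with hX1
  -- basic set facts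
  have hUU : ∀ v, v ∈ U → v ∈ X1 := fun v hv => mem_U1.2 (Or.inl hv)
  have hJU : ∀ v, v ∈ J → v ∈ X1 := fun v hv => mem_U1.2 (Or.inr (Or.inl hv))
  have hyU : ∀ i, y i ∈ X1 := fun i => mem_U1.2 (Or.inr (Or.inr (Or.inl ⟨i, rfl⟩)))
  have hR' : ∀ v ∈ H', v ∈ V0 ∧ v ∉ X1 ∧ v ∉ F.biUnion id ∧ v ∉ verts S := by
    intro v hv
    have := hH' hv
    rw [Finset.mem_sdiff, Finset.mem_sdiff, FS_biUnion, Finset.mem_union] at this
    push Not at this
    exact ⟨this.1.1, this.1.2, this.2.1, this.2.2⟩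
  have hW2m : ∀ v, v ∈ W2 → v ∈ (V0 \ U) \ F.biUnion id ∧ v ∉ verts S ∧ v ∉ Z' := by
    intro v hv
    rw [hW2, Finset.mem_sdiff, Finset.mem_sdiff] at hv
    exact ⟨hv.1.1, hv.1.2, hv.2⟩
  have hQW : ∀ i, ∀ v ∈ Q i, v ∈ (V0 \ U) \ F.biUnion id ∨ v ∈ Z := by
    intro i v hv
    exact Finset.mem_union.1 ((hQ i).1 hv)
  have hQS : ∀ i, ∀ v ∈ Q i, v ∈ verts S := fun i v hv => (hQv v).2 ⟨i, hv⟩
  have hRW : ∀ i, ∀ v ∈ R i, v ∈ W2 := fun i v hv => (hR i).1 hv
  have heJ : ∀ i, e i ∈ J := fun i => (hQ i).2.2.2.2.1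
  have hfJ : ∀ i, f i ∈ J ∧ f i ∉ verts S := fun i => Finset.mem_sdiff.1 (hR i).2.2.2.2.1
  have hyH' : ∀ i, y' i ∈ H' \ Z' := fun i => (hR i).2.2.2.2.2.1
  have hei : Function.Injective e := by
    intro i j hij
    by_contra hne
    refine Finset.disjoint_left.1 (hQd i j hne) (hQ i).2.2.2.1 ?_
    rw [hij]
    exact (hQ j).2.2.2.1
  have hfi : Function.Injective f := by
    intro i j hij
    by_contra hne
    refine Finset.disjoint_left.1 (hRd i j hne) (hR i).2.2.1 ?_
    rw [hij]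
    exact (hR j).2.2.1
  have hyi : Function.Injective y' := by
    intro i j hij
    by_contra hne
    refine Finset.disjoint_left.1 (hRd i j hne) (hR i).2.2.2.1 ?_
    rw [hij]
    exact (hR j).2.2.2.1
  have hef : ∀ i j, e i ≠ f j := by
    intro i j hij
    apply (hfJ j).2
    rw [← hij]
    exact hQS i _ (hQ i).2.2.2.1
  obtain ⟨C, hC1, hC2, hC3⟩ := a.hub.wire heJ (fun i => (hfJ i).1) hei hfi hef hxz
  have hfy : ∀ i, f i ≠ y' i := by
    intro i hi
    have h1 := (Finset.mem_sdiff.1 (hyH' i)).1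
    rw [← hi] at h1
    exact (hR' _ h1).2.1 (hJU _ (hfJ i).1)
  have hyR : ∀ i, ∀ v ∈ R i, v ∈ H' \ Z' → v = y' i := fun i => (hR i).2.2.2.2.2.2.2.1
  have hfR : ∀ i, ∀ v ∈ R i, v ∈ J \ verts S → v = f i := fun i => (hR i).2.2.2.2.2.2.1
  have hyQ : ∀ i, ∀ v ∈ Q i, (∃ j, v = y j) → v = y i := fun i => (hQ i).2.2.2.2.2.1
  have heQ : ∀ i, ∀ v ∈ Q i, v ∈ J → v = e i := fun i => (hQ i).2.2.2.2.2.2.1
  -- the new family of paths
  set F' : Finset (Finset V) := FS F S ∪ Finset.univ.image (fun i => (R i).erase (y' i)) with hF'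
  have hF'u : ∀ v, v ∈ F'.biUnion id ↔
      v ∈ F.biUnion id ∨ v ∈ verts S ∨ ∃ i, v ∈ R i ∧ v ≠ y' i := by
    intro v
    have h1 : F'.biUnion id = (FS F S).biUnion id ∪
        (Finset.univ.image (fun i => (R i).erase (y' i))).biUnion id := by
      rw [hF']
      ext w
      simp only [Finset.mem_biUnion, Finset.mem_union, id]
      constructor
      · rintro ⟨A, hA | hA, hw⟩
        · exact Or.inl ⟨A, hA, hw⟩
        · exact Or.inr ⟨A, hA, hw⟩
      · rintro (⟨A, hA, hw⟩ | ⟨A, hA, hw⟩)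
        · exact ⟨A, Or.inl hA, hw⟩
        · exact ⟨A, Or.inr hA, hw⟩
    rw [h1, Finset.mem_union, FS_biUnion, Finset.mem_union, or_assoc]
    refine or_congr Iff.rfl (or_congr Iff.rfl ?_)
    simp only [Finset.mem_biUnion, Finset.mem_image, Finset.mem_univ, true_and, id]
    constructor
    · rintro ⟨A, ⟨i, rfl⟩, hv⟩
      rw [Finset.mem_erase] at hv
      exact ⟨i, hv.2, hv.1⟩
    · rintro ⟨i, hv, hne⟩
      exact ⟨_, ⟨i, rfl⟩, Finset.mem_erase.2 ⟨hne, hv⟩⟩
  set X' : Finset V := X1 ∪ Z' with hX'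
  -- members of the new remaining graph
  have hGam' : ∀ v, v ∈ (V0 \ X') \ F'.biUnion id →
      v ∈ V0 ∧ v ∉ X1 ∧ v ∉ Z' ∧ v ∈ (V0 \ U) \ F.biUnion id ∧ v ∉ verts S ∧
        (∀ i, v ∈ R i → v = y' i) := by
    intro v hv
    rw [Finset.mem_sdiff, Finset.mem_sdiff, hX', Finset.mem_union, hF'u] at hv
    obtain ⟨⟨h1, h2⟩, h3⟩ := hv
    push Not at h2 h3
    refine ⟨h1, h2.1, h2.2, ?_, h3.2.1, ?_⟩
    · rw [Finset.mem_sdiff, Finset.mem_sdiff]
      exact ⟨⟨h1, fun hh => h2.1 (hUU v hh)⟩, h3.1⟩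
    · intro i hi
      exact h3.2.2 i hi
  have hFSbi : ∀ v, v ∈ (FS F S).biUnion id ↔ v ∈ F.biUnion id ∨ v ∈ verts S := by
    intro v
    rw [FS_biUnion, Finset.mem_union]
  -- tokens
  set T' : Fin p → Finset V := fun i => ((T i ∪ Q i) ∪ C i) ∪ R i with hT'
  have hmT' : ∀ i v, v ∈ T' i ↔ v ∈ T i ∨ v ∈ Q i ∨ v ∈ C i ∨ v ∈ R i := by
    intro i v
    rw [hT']
    simp only [Finset.mem_union, or_assoc]
  have hCJ : ∀ i, ∀ v ∈ C i, v ∈ J := fun i v hv => (hC1 i).1 hv
  have hTQ : ∀ i, ∀ v ∈ T i, ((v ∈ (V0 \ U) \ F.biUnion id) ∨ v ∈ Z) → v = y i := h.T_y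
  refine ⟨X', F', H', Z', y', T', ?_⟩
  refine ⟨?_, ?_, ?_, ?_, ?_, hc', ?_, ?_, ?_, hyi, hyH', ?_, ?_, ?_, ?_, ?_, ?_⟩
  · -- U_sub
    rw [hX']
    refine Finset.union_subset (h.U1_sub a) ?_
    intro v hv
    exact (hR' v (hc'.sub hv)).1
  · -- U_card
    rw [hX']
    have h1 := Finset.card_union_le X1 Z'
    have h2 : X1.card ≤ U.card + M + p + d * (2 * p * b + p) := h.U1_card I a
    have h3 := hc'.card_le
    have h4 := h.U_card
    have h5 : d * (2 * p * b + p) ≤ 2 * d * p * (b + 1) := by nlinarith [Nat.zero_le (d * p)]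
    have h6 : b * (M + 3 * p + 2 * d * p * (b + 1)) + (M + 3 * p + 2 * d * p * (b + 1)) ≤
        (b + 1) * (M + 3 * p + 2 * d * p * (b + 1 + 1)) := by
      have : (b + 1) * (M + 3 * p + 2 * d * p * (b + 1 + 1)) =
          b * (M + 3 * p + 2 * d * p * (b + 1)) + (M + 3 * p + 2 * d * p * (b + 1)) +
            2 * d * p * (b + 1) := by ring
      omega
    omega
  · -- F_mem
    intro A hA
    rw [hF', Finset.mem_union] at hA
    rcases hA with hA | hA
    · exact h.FS_mem a A hA
    · rw [Finset.mem_image] at hA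
      obtain ⟨i, -, rfl⟩ := hA
      refine ⟨?_, (hR i).2.2.2.2.2.2.2.2.1 (hfy i)⟩
      intro v hv
      have h1 := hW2m v (hRW i v (Finset.mem_of_mem_erase hv))
      exact (h.Gam_sub h1.1).1
  · -- F_disj
    intro A hA B hB hne
    have hcross : ∀ A ∈ FS F S, ∀ i, Disjoint A ((R i).erase (y' i)) := by
      intro A hA i
      rw [Finset.disjoint_left]
      intro v hv hv'
      have h1 := hW2m v (hRW i v (Finset.mem_of_mem_erase hv'))
      have h2 : v ∈ (FS F S).biUnion id := Finset.mem_biUnion.2 ⟨A, hA, hv⟩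
      rw [hFSbi] at h2
      rcases h2 with h2 | h2
      · exact (h.Gam_sub h1.1).2.2 h2
      · exact h1.2.1 h2
    rw [hF', Finset.mem_union] at hA hB
    rcases hA with hA | hA <;> rcases hB with hB | hB
    · exact h.FS_disj a A hA B hB hne
    · rw [Finset.mem_image] at hB
      obtain ⟨i, -, rfl⟩ := hB
      exact hcross A hA i
    · rw [Finset.mem_image] at hA
      obtain ⟨i, -, rfl⟩ := hA
      exact (hcross B hB i).symm
    · rw [Finset.mem_image] at hA hB
      obtain ⟨i, -, rfl⟩ := hA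
      obtain ⟨j, -, rfl⟩ := hB
      have hij : i ≠ j := by
        rintro rfl
        exact hne rfl
      exact (hRd i j hij).mono (Finset.erase_subset _ _) (Finset.erase_subset _ _)
  · -- F_card
    rw [hF']
    refine (Finset.card_union_le _ _).trans ?_
    have h1 := h.FS_card a
    have h2 : (Finset.univ.image (fun i => (R i).erase (y' i))).card ≤ p := by
      simpa using (Finset.card_image_le (s := (Finset.univ : Finset (Fin p)))
        (f := fun i => (R i).erase (y' i)))
    have h3 : 2 * p * (b + 1) = 2 * p * b + 2 * p := by ring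
    omega
  · -- H_sub
    intro v hv
    obtain ⟨k1, k2, k3, k4⟩ := hR' v (Finset.mem_sdiff.1 hv).1
    rw [Finset.mem_sdiff, Finset.mem_sdiff, hX', Finset.mem_union, hF'u]
    refine ⟨⟨k1, ?_⟩, ?_⟩
    · rintro (h1 | h1)
      · exact k2 h1
      · exact (Finset.mem_sdiff.1 hv).2 h1
    · rintro (h1 | h1 | ⟨i, h1, h2⟩)
      · exact k3 h1
      · exact k4 h1
      · exact h2 (hyR i v h1 hv)
  · -- Z_sub
    rw [hX']
    exact Finset.subset_union_right
  · -- Z_disj
    rw [Finset.disjoint_left]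
    intro v hv hv'
    obtain ⟨k1, k2, k3, k4⟩ := hR' v (hc'.sub hv)
    rw [hF'u] at hv'
    rcases hv' with h1 | h1 | ⟨i, h1, h2⟩
    · exact k3 h1
    · exact k4 h1
    · exact (hW2m v (hRW i v h1)).2.2 hv
  · -- T_sub
    intro i
    refine ⟨?_, ?_, ?_⟩
    · intro v hv
      rcases (hmT' i v).1 hv with h1 | h1 | h1 | h1
      · exact (h.T_sub i).1 h1
      · rcases hQW i v h1 with h2 | h2
        · exact (h.Gam_sub h2).1
        · exact h.U_sub (h.Z_sub h2)
      · exact (h.Gam_sub (h.J_Gam a (hCJ i v h1))).1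
      · exact (h.Gam_sub (hW2m v (hRW i v h1)).1).1
    · have c1 : Conn G (T i ∪ Q i) :=
        (h.T_sub i).2.1.union (hQ i).2.1 (h.T_sub i).2.2 (hQ i).2.2.1
      have c2 : Conn G ((T i ∪ Q i) ∪ C i) :=
        c1.union (hC1 i).2.1 (Finset.mem_union_right _ (hQ i).2.2.2.1) (hC1 i).2.2.1
      exact c2.union (hR i).2.1 (Finset.mem_union_right _ (hC1 i).2.2.2) (hR i).2.2.1
    · exact (hmT' i _).2 (Or.inr (Or.inr (Or.inr (hR i).2.2.2.1)))
  · -- T_disj
    have key : ∀ i j, i ≠ j → ∀ v, v ∈ T' i → v ∈ T' j →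
        (v ∈ T i → v ∉ Q j ∧ v ∉ C j ∧ v ∉ R j) := by
      intro i j hij v _ _ hvi
      refine ⟨?_, ?_, ?_⟩
      · intro hvj
        have h1 := hTQ i v hvi (hQW j v hvj)
        have h2 := hyQ j v hvj ⟨i, h1⟩
        exact hij (h.y_inj (h1.symm.trans h2))
      · intro hvj
        have h1 := hTQ i v hvi (Or.inl (h.J_Gam a (hCJ j v hvj)))
        apply a.J_y i
        rw [← h1]
        exact hCJ j v hvj
      · intro hvj
        have h2 := hW2m v (hRW j v hvj)
        have h1 := hTQ i v hvi (Or.inl h2.1)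
        apply h2.2.1
        rw [h1]
        exact hQS i _ (hQ i).2.2.1
    have hQC : ∀ i j, i ≠ j → ∀ v, v ∈ Q i → v ∉ C j := by
      intro i j hij v hv hv'
      have h1 := heQ i v hv (hCJ j v hv')
      refine Finset.disjoint_left.1 (hC2 i j hij) ?_ hv'
      rw [h1]
      exact (hC1 i).2.2.1
    have hQR : ∀ i j, ∀ v, v ∈ Q i → v ∉ R j := by
      intro i j v hv hv'
      exact (hW2m v (hRW j v hv')).2.1 (hQS i v hv)
    have hCR : ∀ i j, i ≠ j → ∀ v, v ∈ C i → v ∉ R j := by
      intro i j hij v hv hv'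
      have h1 := hfR j v hv' (Finset.mem_sdiff.2 ⟨hCJ i v hv, (hW2m v (hRW j v hv')).2.1⟩)
      refine Finset.disjoint_left.1 (hC2 i j hij) hv ?_
      rw [h1]
      exact (hC1 j).2.2.2
    intro i j hij
    rw [Finset.disjoint_left]
    intro v hvi hvj
    have hji : j ≠ i := fun hh => hij hh.symm
    rcases (hmT' i v).1 hvi with h1 | h1 | h1 | h1
    · obtain ⟨k1, k2, k3⟩ := key i j hij v hvi hvj h1
      rcases (hmT' j v).1 hvj with h2 | h2 | h2 | h2
      · exact Finset.disjoint_left.1 (h.T_disj i j hij) h1 h2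
      · exact k1 h2
      · exact k2 h2
      · exact k3 h2
    · rcases (hmT' j v).1 hvj with h2 | h2 | h2 | h2
      · exact (key j i hji v hvj hvi h2).1 h1
      · exact Finset.disjoint_left.1 (hQd i j hij) h1 h2
      · exact hQC i j hij v h1 h2
      · exact hQR i j v h1 h2
    · rcases (hmT' j v).1 hvj with h2 | h2 | h2 | h2
      · exact (key j i hji v hvj hvi h2).2.1 h1
      · exact hQC j i hji v h2 h1
      · exact Finset.disjoint_left.1 (hC2 i j hij) h1 h2
      · exact hCR i j hij v h1 h2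
    · rcases (hmT' j v).1 hvj with h2 | h2 | h2 | h2
      · exact (key j i hji v hvj hvi h2).2.2 h1
      · exact hQR j i v h2 h1
      · exact hCR j i hji v h2 h1
      · exact Finset.disjoint_left.1 (hRd i j hij) h1 h2
  · -- T_y
    intro i v hv hv'
    have hX1Z : v ∉ X1 ∧ (v ∈ (V0 \ U) \ F.biUnion id) ∧ v ∉ verts S ∧
        (v ∈ W2 → ∀ j, v ∈ R j → v = y' j) := by
      rcases hv' with h1 | h1
      · obtain ⟨k1, k2, k3, k4, k5, k6⟩ := hGam' v h1
        exact ⟨k2, k4, k5, fun _ => k6⟩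
      · obtain ⟨k1, k2, k3, k4⟩ := hR' v (hc'.sub h1)
        refine ⟨k2, ?_, k4, ?_⟩
        · rw [Finset.mem_sdiff, Finset.mem_sdiff]
          exact ⟨⟨k1, fun hh => k2 (hUU v hh)⟩, k3⟩
        · intro hw
          exact absurd h1 (hW2m v hw).2.2
    obtain ⟨k1, k2, k3, k4⟩ := hX1Z
    rcases (hmT' i v).1 hv with h1 | h1 | h1 | h1
    · exfalso
      have h2 := hTQ i v h1 (Or.inl k2)
      rw [h2] at k1
      exact k1 (hyU i)
    · exact absurd (hQS i v h1) k3
    · exact absurd (hJU v (hCJ i v h1)) k1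
    · exact k4 (hRW i v h1) i h1
  · -- T_adj
    intro q hq
    rw [Finset.mem_insert] at hq
    rcases hq with rfl | hq
    · obtain ⟨u, hu, w, hw, huw⟩ := hC3
      exact ⟨u, (hmT' _ _).2 (Or.inr (Or.inr (Or.inl hu))), w,
        (hmT' _ _).2 (Or.inr (Or.inr (Or.inl hw))), huw⟩
    · obtain ⟨u, hu, w, hw, huw⟩ := h.T_adj q hq
      exact ⟨u, (hmT' _ _).2 (Or.inl hu), w, (hmT' _ _).2 (Or.inl hw), huw⟩
  · -- degen
    have hA : Degen G ((FS F S).biUnion id \ X') (8 * p) :=
      (h.degen1 I hp a).mono (Finset.sdiff_subset_sdiff (le_refl _) (by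
        rw [hX']; exact Finset.subset_union_left))
    have hB0 : Degen G (verts E) (2 * p - 1) := by
      have h1 := I.BF1 _ _ _ _ hE
      rwa [hEc] at h1
    have hB : Degen G ((verts E \ Finset.univ.image y') \ X') (2 * p - 1) :=
      hB0.mono (Finset.sdiff_subset.trans Finset.sdiff_subset)
    refine (hA.union hB (c2 := 3 * p) ?_ (by omega)).mono ?_
    · intro v hv
      rw [Finset.mem_sdiff, Finset.mem_sdiff] at hv
      obtain ⟨⟨hvE, -⟩, hvX⟩ := hv
      have hvX1 : v ∉ X1 := fun hh => hvX (by rw [hX']; exact Finset.mem_union_left _ hh)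
      obtain ⟨i, hi⟩ := (hRv v).1 hvE
      have h1 := hW2m v (hRW i v hi)
      have hvP : v ∉ (FS F S).biUnion id := by
        rw [hFSbi]
        push Not
        exact ⟨(h.Gam_sub h1.1).2.2, h1.2.1⟩
      have h2 := h.nb1 I a (h.Gam_sub h1.1).1 hvX1 hvP
      exact (nb_mono Finset.sdiff_subset v).trans h2
    · intro v hv
      rw [Finset.mem_sdiff, hF'u] at hv
      rw [Finset.mem_union, Finset.mem_sdiff, Finset.mem_sdiff, Finset.mem_sdiff, hFSbi]
      rcases hv.1 with h1 | h1 | ⟨i, h1, h2⟩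
      · exact Or.inl ⟨Or.inl h1, hv.2⟩
      · exact Or.inl ⟨Or.inr h1, hv.2⟩
      · refine Or.inr ⟨⟨(hRv v).2 ⟨i, h1⟩, ?_⟩, hv.2⟩
        intro hh
        rw [Finset.mem_image] at hh
        obtain ⟨j, -, hj⟩ := hh
        apply h2
        by_cases hij : i = j
        · rw [hij]; exact hj.symm
        · exfalso
          refine Finset.disjoint_left.1 (hRd i j hij) h1 ?_
          rw [← hj]
          exact (hR j).2.2.2.1
  · -- see
    intro v hv hvy
    obtain ⟨k1, k2, k3, k4, k5, k6⟩ := hGam' v hv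
    have hvP : v ∉ (FS F S).biUnion id := by
      rw [hFSbi]
      push Not
      exact ⟨(h.Gam_sub k4).2.2, k5⟩
    obtain ⟨h1, h2⟩ := h.see1 I a k1 k2 hvP
    have hvE : v ∉ verts E := by
      intro hh
      obtain ⟨i, hi⟩ := (hRv v).1 hh
      exact hvy i (k6 i hi)
    have hvW : v ∈ W2 := by
      rw [hW2, Finset.mem_sdiff, Finset.mem_sdiff]
      exact ⟨⟨k4, k5⟩, k3⟩
    constructor
    · have h3 := sees_union_le (G := G) (FS F S)
        (Finset.univ.image (fun i => (R i).erase (y' i))) v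
      have h4 : (Finset.univ.image (fun i => (R i).erase (y' i))).card ≤ p := by
        simpa using (Finset.card_image_le (s := (Finset.univ : Finset (Fin p)))
          (f := fun i => (R i).erase (y' i)))
      rw [← hF'] at h3
      omega
    · intro A hA
      rw [hF', Finset.mem_union] at hA
      rcases hA with hA | hA
      · exact h2 A hA
      · rw [Finset.mem_image] at hA
        obtain ⟨i, -, rfl⟩ := hA
        obtain ⟨l, hl, hRl⟩ := (hR i).2.2.2.2.2.2.2.2.2
        have h3 := I.BF2 _ _ _ _ hE v hvW hvE l hl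
        rw [← hRl] at h3
        exact (nb_mono (Finset.erase_subset _ _) v).trans h3

/-- the initial state. -/
theorem St.init (I : Inp G V0 p kc M d UB) (hk : 9 * p ≤ kc) (hp : 1 ≤ p) :
    ∃ U F H Z y T, St G V0 p kc M d 0 ∅ U F H Z y T := by
  have h0 : ¬ Choos G ((V0 \ ∅) \ ∅) kc := by
    refine I.COST ∅ ∅ (by simp) (by simp) (by simp) ?_ ?_
    · intro X hX hne
      rw [Finset.sdiff_empty, Finset.subset_empty] at hX
      rw [hX] at hne
      simp at hne
    · intro v _ _ _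
      unfold nb
      simp
  rw [Finset.sdiff_empty, Finset.sdiff_empty] at h0
  obtain ⟨H, Z, hH, hc⟩ := exists_crit h0 p
  have hcard : p ≤ (H \ Z).card := by
    have := hc.card_lt (by omega)
    omega
  obtain ⟨Y, hYs, hYc⟩ := Finset.exists_subset_card_eq hcard
  let ey := (Finset.equivFinOfCardEq hYc).symm
  refine ⟨Z, ∅, H, Z, fun i => (ey i : V), fun i => {(ey i : V)}, ?_⟩
  refine ⟨hc.sub.trans hH, ?_, by simp, by simp, by simp, hc, ?_, le_refl _, by simp, ?_, ?_,
    ?_, ?_, ?_, by simp, ?_, ?_⟩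
  · have := hc.card_le
    omega
  · intro v hv
    rw [Finset.mem_sdiff] at hv
    simp only [Finset.biUnion_empty, Finset.sdiff_empty, Finset.mem_sdiff]
    exact ⟨hH hv.1, hv.2⟩
  · intro i j hij
    exact ey.injective (Subtype.ext hij)
  · intro i
    exact hYs (ey i).2
  · intro i
    refine ⟨?_, conn_singleton _, Finset.mem_singleton_self _⟩
    rw [Finset.singleton_subset_iff]
    exact hH (Finset.mem_sdiff.1 (hYs (ey i).2)).1
  · intro i j hij
    rw [Finset.disjoint_singleton]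
    intro hh
    exact hij (ey.injective (Subtype.ext hh))
  · intro i v hv _
    rwa [Finset.mem_singleton] at hv
  · intro X hX hne
    simp only [Finset.biUnion_empty, Finset.empty_sdiff, Finset.subset_empty] at hX
    rw [hX] at hne
    simp at hne
  · intro v _ _
    refine ⟨?_, by simp⟩
    unfold sees
    simp

/-- CHAIN OF HUBS (sec 10.7). -/
theorem chain (I : Inp G V0 p kc M d UB) (hk : 9 * p ≤ kc) (hp : 1 ≤ p)
    (hUB : 2 * p + p ^ 2 * (M + 3 * p + 2 * d * p * (p ^ 2 + 1)) ≤ UB) :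
    ∃ B : Fin p → Finset V, (∀ i, B i ⊆ V0) ∧
      Crest.CombinatoricsR.GraphMinor.IsCliqueMinorModel G B := by
  have main : ∀ D : Finset (Fin p × Fin p), (∀ q ∈ D, q.1 ≠ q.2) →
      ∃ U F H Z y T, St G V0 p kc M d D.card D U F H Z y T := by
    intro D
    induction D using Finset.induction_on with
    | empty =>
      intro _
      simpa using St.init I hk hp
    | insert q D hq ih =>
      intro hD
      obtain ⟨U, F, H, Z, y, T, h⟩ := ih (fun q' hq' => hD q' (Finset.mem_insert_of_mem hq'))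
      have hcard : D.card + 1 ≤ p ^ 2 := by
        have h1 : (insert q D).card ≤ (Finset.univ : Finset (Fin p × Fin p)).card :=
          Finset.card_le_card (Finset.subset_univ _)
        rw [Finset.card_insert_of_notMem hq] at h1
        simp only [Finset.card_univ, Fintype.card_prod, Fintype.card_fin] at h1
        rw [pow_two]
        exact h1
      have hb : U.card + M + p + d * (2 * p * D.card + p) ≤ UB := by
        refine le_trans ?_ hUB
        have h4 := h.U_card
        have h5 : d * (2 * p * D.card + p) ≤ 2 * d * p * (D.card + 1) := by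
          nlinarith [Nat.zero_le (d * p)]
        have h6 : (D.card + 1) * (M + 3 * p + 2 * d * p * (D.card + 1)) ≤
            p ^ 2 * (M + 3 * p + 2 * d * p * (p ^ 2 + 1)) := by
          refine Nat.mul_le_mul hcard ?_
          refine Nat.add_le_add_left ?_ _
          refine Nat.mul_le_mul_left _ ?_
          omega
        have h7 : (D.card + 1) * (M + 3 * p + 2 * d * p * (D.card + 1)) =
          D.card * (M + 3 * p + 2 * d * p * (D.card + 1)) +
            (M + 3 * p + 2 * d * p * (D.card + 1)) := by ring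
        omega
      obtain ⟨U', F', H', Z', y', T', h'⟩ := h.stage I hk hp hb (x := q.1) (z := q.2)
        (hD q (Finset.mem_insert_self q D))
      refine ⟨U', F', H', Z', y', T', ?_⟩
      rw [Finset.card_insert_of_notMem hq]
      exact h'
  obtain ⟨U, F, H, Z, y, T, h⟩ := main (Finset.univ.filter (fun q => q.1 ≠ q.2)) (by simp)
  refine ⟨T, fun i => (h.T_sub i).1, ?_, h.T_disj, fun i => (h.T_sub i).2.1, ?_⟩
  · intro i
    exact ⟨_, (h.T_sub i).2.2⟩
  · intro i j hij
    exact h.T_adj (i, j) (by simp [hij])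

end Crest.Agent.R042.Chain374
end

-- ▼ part R042/SmallHubU_667
section

/-! Row 42, sec (10.4): SMALL HUB, unconditional, and in the language of the chain (10.7). -/

set_option autoImplicit false

namespace Crest.Agent.R042.SmallHub667

open Finset SimpleGraph Conn353 Menger353 Mader375

variable {V : Type*} [DecidableEq V]

/-- **(10.4) SMALL HUB** from the edge density. -/
theorem hub (G : SimpleGraph V) (W : Finset V) {k h D : ℕ} (hk : 1 ≤ k)
    (hh : 1 ≤ h) (hW : W.Nonempty) (hno : ¬ Model G W (h + 1)) (hDk : 64 * k ≤ D)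
    (hD : 2 * D * W.card ≤ e2 G W) :
    ∃ J ⊆ W, J.Nonempty ∧ J.card ≤ 2 ^ (64 * h) ∧ (∀ v ∈ J, 32 * k < (Link870.nb G J v).card) ∧
      32 * k < J.card ∧ ∀ X ⊆ J, X.card ≤ 2 * k → Link870.Linked G J X :=
  small_hub G W hk (fun _ _ hM hX => TW870.tw hk hM hX) hh hW hno hDk hD

/-- **(10.4) SMALL HUB** from the minimum degree. -/
theorem hub_deg (G : SimpleGraph V) (W : Finset V) {k h : ℕ} (hk : 1 ≤ k)
    (hh : 1 ≤ h) (hW : W.Nonempty) (hno : ¬ Model G W (h + 1))
    (hD : ∀ v ∈ W, 128 * k ≤ (Link870.nb G W v).card) :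
    ∃ J ⊆ W, J.Nonempty ∧ J.card ≤ 2 ^ (64 * h) ∧ (∀ v ∈ J, 32 * k < (Link870.nb G J v).card) ∧
      32 * k < J.card ∧ ∀ X ⊆ J, X.card ≤ 2 * k → Link870.Linked G J X := by
  refine hub G W hk hh hW hno le_rfl ?_
  have h1 : ∑ v ∈ W, 128 * k ≤ e2 G W := sum_le_sum fun v hv => hD v hv
  rw [sum_const, smul_eq_mul] at h1
  calc 2 * (64 * k) * W.card = W.card * (128 * k) := by ring
    _ ≤ _ := h1



end Crest.Agent.R042.SmallHub667
end

-- ▼ part R042/Final58_883

/-! Row 42 / S0058: the three blocks B0, B7, B8 of the spine, closed. -/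

set_option autoImplicit false
set_option linter.unusedSectionVars false

namespace Crest.Agent.R042.Final883

open Finset Crest.Agent.R042.Conn353 Crest.Agent.R042.Menger353 Crest.Agent.R042.Crit374
open Crest.Agent.R042.Mader375 (Model)

theorem hubStmt7 : B7375.HubStmt := by
  refine ⟨64, 512, ?_⟩
  intro h hh V _ G T hno hT hdeg
  obtain ⟨J, h1, _, h3, _, h5, h6⟩ := SmallHub667.hub_deg G T (k := h + 3) (by omega) hh hT hno
    (by
      intro v hv
      refine le_trans ?_ (hdeg v hv)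
      omega)
  exact ⟨J, h1, by omega, h3, fun X hX hXc => h6 X hX (by omega)⟩

theorem chainStmt7 : B7375.ChainStmt := by
  intro V _ G V0 p d M UB kc hp hP1 hCOST hHUB hNS hk hUB
  exact Chain374.chain ⟨hP1, fun W A B P h => B7375.bf1 h, 
    fun W A B P h x hx hxP l hl => B7375.bf2 h hx hxP hl,
    hCOST, hHUB, hNS⟩ hk (by omega) hUB

/-- **block B7 (10.6 + 10.7).** -/
theorem b7 : Spine883.B7 := B7375.b7_of hubStmt7 chainStmt7

end Crest.Agent.R042.Final883
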