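import Crest.Agent.R042.TLevE_333
import Mathlib

-- ▼ part R042/Quasi_664
section

/-! # Quasi-randomness of the perp graph of the sample, from Theorem T (helper664)

The trivial system of pieces: one index, nothing dead. -/

set_option autoImplicit false

namespace Crest.Agent.R042.Quasi664

open Finset Function Crest.Agent.R042.TLev333
open scoped Classical

set_option linter.unusedSectionVars false
set_option linter.unusedVariables false

variable {I Ω : Type*} [Fintype Ω]

/-- the trivial system: pieces = indices, nothing dead. -/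
noncomputable def triv [DecidableEq I] (perp : Ω → Ω → Prop) (ρ η : ℝ) (hρ0 : 0 < ρ) (hρ1 : ρ ≤ 1)
    (hη0 : 0 < η) (hη1 : η ≤ 1) : Sys I Ω I where
  perp := perp
  idx i := {i}
  dead _ _ _ := False
  dead2 _ _ _ _ := False
  a := 1
  ρ := ρ
  η := η
  θ := 0
  θ0 := le_rfl
  a1 := le_rfl
  a2 := by norm_num
  ρ0 := hρ0
  ρ1 := hρ1
  η0 := hη0
  η1 := hη1
  card_idx := fun i => card_singleton i
  loc := fun _ _ _ _ => rfl
  loc2 := fun _ _ _ _ => rfl
  dead_le := by
    intro s x _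
    simp only [and_false, filter_false, card_empty, Nat.cast_zero]
    positivity
  dead2_le := by
    intro s x _ Q
    simp

variable [Fintype I] [DecidableEq I]

/-- the conclusion of Theorem T (total mass of the perpendicular pairs) for one-index systems -/
theorem quasi_of (perp : Ω → Ω → Prop) (ρ : ℝ) (x : I → Ω) (m : ℝ)
    (hT : ∀ τ τ' : I → ℝ, (∀ s, 0 ≤ τ s) → ∑ s, τ s = 1 → (∀ i, τ i ≤ m) →
      (∀ s, 0 ≤ τ' s) → ∑ s, τ' s = 1 → (∀ i, τ' i ≤ m) →
      ρ / 32 ≤ ∑ s, ∑ s', (if perp (x s) (x s') then τ s * τ' s' else 0))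
    (A B : Finset I) (hA : 1 ≤ m * A.card) (hB : 1 ≤ m * B.card) :
    1 / 32 * ρ * A.card * B.card ≤
      (((A ×ˢ B).filter fun p => perp (x p.1) (x p.2)).card : ℝ) := by
  have hA0 : (0 : ℝ) < A.card := by
    rcases Nat.eq_zero_or_pos A.card with h | h
    · rw [h] at hA; norm_num at hA
    · exact_mod_cast h
  have hB0 : (0 : ℝ) < B.card := by
    rcases Nat.eq_zero_or_pos B.card with h | h
    · rw [h] at hB; norm_num at hB
    · exact_mod_cast h
  have hu : ∀ C : Finset I, (0 : ℝ) < C.card → 1 ≤ m * C.card →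
      (∀ s, 0 ≤ (if s ∈ C then (C.card : ℝ)⁻¹ else 0)) ∧
      ∑ s, (if s ∈ C then (C.card : ℝ)⁻¹ else 0) = 1 ∧
      ∀ s, (if s ∈ C then (C.card : ℝ)⁻¹ else 0) ≤ m := by
    intro C hC h1
    have hm : (C.card : ℝ)⁻¹ ≤ m := by
      rw [inv_le_iff_one_le_mul₀ hC]
      exact h1
    refine ⟨fun s => by split_ifs <;> positivity, ?_, fun s => ?_⟩
    · rw [sum_ite_mem, univ_inter, sum_const, nsmul_eq_mul, mul_inv_cancel₀ hC.ne']
    · split_ifs
      · exact hm
      · exact (inv_pos.mpr hC).le.trans hm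
  obtain ⟨a1, a2, a3⟩ := hu A hA0 hA
  obtain ⟨b1, b2, b3⟩ := hu B hB0 hB
  have h := hT _ _ a1 a2 a3 b1 b2 b3
  have e : ∑ s : I, ∑ s' : I, (if perp (x s) (x s') then
      (if s ∈ A then (A.card : ℝ)⁻¹ else 0) * (if s' ∈ B then (B.card : ℝ)⁻¹ else 0) else 0) =
      (((A ×ˢ B).filter fun p => perp (x p.1) (x p.2)).card : ℝ) *
        ((A.card : ℝ)⁻¹ * (B.card : ℝ)⁻¹) := by
    rw [← nsmul_eq_mul, ← sum_const, ← sum_product', sum_filter, ← sum_filter_add_sum_filter_not
      (univ ×ˢ univ) (fun p : I × I => p ∈ A ×ˢ B)]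
    have z : ∑ p ∈ (univ ×ˢ univ : Finset (I × I)).filter (fun p => ¬ p ∈ A ×ˢ B),
        (if perp (x p.1) (x p.2) then (if p.1 ∈ A then (A.card : ℝ)⁻¹ else 0) *
          (if p.2 ∈ B then (B.card : ℝ)⁻¹ else 0) else 0) = 0 := by
      refine sum_eq_zero fun p hp => ?_
      have hp := (mem_filter.mp hp).2
      rw [mem_product, not_and_or] at hp
      rcases hp with hp | hp <;> simp [hp]
    rw [z, add_zero]
    have y : (univ ×ˢ univ : Finset (I × I)).filter (fun p => p ∈ A ×ˢ B) = A ×ˢ B := by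
      ext p; simp
    rw [y]
    refine sum_congr rfl fun p hp => ?_
    rw [mem_product] at hp
    simp [hp.1, hp.2]
  rw [e] at h
  have h2 : ρ / 32 * (A.card * B.card) ≤
      (((A ×ˢ B).filter fun p => perp (x p.1) (x p.2)).card : ℝ) *
        ((A.card : ℝ)⁻¹ * (B.card : ℝ)⁻¹) * (A.card * B.card) :=
    mul_le_mul_of_nonneg_right h (by positivity)
  have h3 : (((A ×ˢ B).filter fun p => perp (x p.1) (x p.2)).card : ℝ) *
        ((A.card : ℝ)⁻¹ * (B.card : ℝ)⁻¹) * (A.card * B.card) =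
      (((A ×ˢ B).filter fun p => perp (x p.1) (x p.2)).card : ℝ) := by
    field_simp
  rw [h3] at h2
  calc _ = ρ / 32 * (A.card * B.card) := by ring
    _ ≤ _ := h2

end Crest.Agent.R042.Quasi664
end

-- ▼ part R042/GamG_831
section

/-!
# R042: greedy existence of the same-type gadget graph

`greedy`: abstract greedy covering.
`gamma`: in a quasirandom graph `H` of small density `ρ` there is a subgraph `G` of bounded degree,
whose neighbourhoods are `H`-independent, with an edge between any two linear-sized sets.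
-/

namespace Crest.Agent.R042.GamG831

open Finset

/-- Abstract greedy covering lemma. -/
theorem greedy {α π : Type*} [DecidableEq α] (hit : π → α → Prop)
    (valid : Finset α → Prop) (h0 : valid ∅) (P : Finset π) (E : Finset α) (hE : 0 < E.card)
    (s : ℕ) (δ : ℝ) (hδ0 : 0 < δ) (hδ1 : δ ≤ 1)
    (step : ∀ Γ, valid Γ → Γ.card < s → ∀ p ∈ P, ∃ A ⊆ E,
      (∀ e ∈ A, hit p e ∧ valid (insert e Γ)) ∧ δ * E.card ≤ (A.card : ℝ))
    (hs : (P.card : ℝ) * (1 - δ) ^ s < 1) :
    ∃ Γ, valid Γ ∧ Γ.card ≤ s ∧ ∀ p ∈ P, ∃ e ∈ Γ, hit p e := by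
  classical
  have key : ∀ n, n ≤ s → ∃ Γ, valid Γ ∧ Γ.card ≤ n ∧
      ((P.filter fun p => ¬ ∃ e ∈ Γ, hit p e).card : ℝ) ≤ (P.card : ℝ) * (1 - δ) ^ n := by
    intro n
    induction n with
    | zero =>
      intro _
      refine ⟨∅, h0, by simp, ?_⟩
      simp
    | succ n ih =>
      intro hn
      obtain ⟨Γ, hv, hc, hu⟩ := ih (by omega)
      set U := P.filter fun p => ¬ ∃ e ∈ Γ, hit p e with hU
      have hstep := step Γ hv (by omega)
      have hnn : (0 : ℝ) ≤ (P.card : ℝ) * (1 - δ) ^ (n + 1) :=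
        mul_nonneg (Nat.cast_nonneg _) (pow_nonneg (by linarith) _)
      by_cases hU0 : U.card = 0
      · refine ⟨Γ, hv, by omega, ?_⟩
        rw [← hU, hU0]
        simpa using hnn
      · have hUpos : (0 : ℝ) < U.card := by
          have : 0 < U.card := Nat.pos_of_ne_zero hU0
          exact_mod_cast this
        have hEpos : (0 : ℝ) < E.card := by exact_mod_cast hE
        set F := E.filter (fun e => valid (insert e Γ)) with hF
        have h2 : δ * E.card * U.card ≤ ∑ p ∈ U, ((F.filter fun e => hit p e).card : ℝ) := by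
          have : ∀ p ∈ U, δ * E.card ≤ ((F.filter fun e => hit p e).card : ℝ) := by
            intro p hp
            obtain ⟨A, hAE, hA, hAc⟩ := hstep p (mem_filter.mp hp).1
            refine hAc.trans ?_
            exact_mod_cast Finset.card_le_card (by
              intro e he
              rw [mem_filter, mem_filter]
              exact ⟨⟨hAE he, (hA e he).2⟩, (hA e he).1⟩)
          calc δ * E.card * U.card = ∑ p ∈ U, δ * (E.card : ℝ) := by
                rw [sum_const, nsmul_eq_mul]; ring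
            _ ≤ _ := sum_le_sum this
        have h3 : ∑ p ∈ U, ((F.filter fun e => hit p e).card : ℝ)
            = ∑ e ∈ F, ((U.filter fun p => hit p e).card : ℝ) := by
          have := Finset.sum_card_bipartiteAbove_eq_sum_card_bipartiteBelow (s := U)
            (t := F) (r := fun p e => hit p e)
          simp only [Finset.bipartiteAbove, Finset.bipartiteBelow] at this
          exact_mod_cast this
        have h4 : ∃ e ∈ F, δ * (U.card : ℝ) ≤ ((U.filter fun p => hit p e).card : ℝ) := by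
          by_contra hcon
          push Not at hcon
          have hFE : (F.card : ℝ) ≤ E.card := by
            exact_mod_cast Finset.card_le_card (filter_subset _ _)
          rcases F.eq_empty_or_nonempty with hem | hne
          · rw [h3, hem, sum_empty] at h2
            have : 0 < δ * E.card * U.card := by positivity
            linarith
          · have h5 : ∑ e ∈ F, ((U.filter fun p => hit p e).card : ℝ)
                < ∑ e ∈ F, δ * (U.card : ℝ) := sum_lt_sum_of_nonempty hne hcon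
            rw [sum_const, nsmul_eq_mul] at h5
            have h6 : (F.card : ℝ) * (δ * U.card) ≤ E.card * (δ * U.card) :=
              mul_le_mul_of_nonneg_right hFE (by positivity)
            rw [h3] at h2
            nlinarith
        obtain ⟨e, heF, he⟩ := h4
        refine ⟨insert e Γ, (mem_filter.mp heF).2, ?_, ?_⟩
        · exact (card_insert_le _ _).trans (by omega)
        · have hsub : (P.filter fun p => ¬ ∃ e' ∈ insert e Γ, hit p e') ⊆
              U \ (U.filter fun p => hit p e) := by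
            intro p hp
            rw [mem_filter] at hp
            rw [mem_sdiff, hU, mem_filter, mem_filter]
            refine ⟨⟨hp.1, fun ⟨e', he', h'⟩ => hp.2 ⟨e', mem_insert_of_mem he', h'⟩⟩, ?_⟩
            rintro ⟨_, h'⟩
            exact hp.2 ⟨e, mem_insert_self _ _, h'⟩
          have h7 : ((P.filter fun p => ¬ ∃ e' ∈ insert e Γ, hit p e').card : ℝ) ≤
              (U.card : ℝ) - ((U.filter fun p => hit p e).card : ℝ) := by
            have h8 := Finset.card_le_card hsub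
            rw [card_sdiff_of_subset (filter_subset _ _)] at h8
            have h9 : (U.filter fun p => hit p e).card ≤ U.card := card_filter_le _ _
            have h10 : (P.filter fun p => ¬ ∃ e' ∈ insert e Γ, hit p e').card +
              (U.filter fun p => hit p e).card ≤ U.card := by omega
            have h11 : ((P.filter fun p => ¬ ∃ e' ∈ insert e Γ, hit p e').card : ℝ) +
              ((U.filter fun p => hit p e).card : ℝ) ≤ U.card := by exact_mod_cast h10
            linarith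
          calc ((P.filter fun p => ¬ ∃ e' ∈ insert e Γ, hit p e').card : ℝ)
              ≤ (U.card : ℝ) - ((U.filter fun p => hit p e).card : ℝ) := h7
            _ ≤ (1 - δ) * U.card := by linarith
            _ ≤ (1 - δ) * ((P.card : ℝ) * (1 - δ) ^ n) :=
                mul_le_mul_of_nonneg_left hu (by linarith)
            _ = (P.card : ℝ) * (1 - δ) ^ (n + 1) := by ring
  obtain ⟨Γ, hv, hc, hu⟩ := key s le_rfl
  refine ⟨Γ, hv, hc, ?_⟩
  have h1 : ((P.filter fun p => ¬ ∃ e ∈ Γ, hit p e).card : ℝ) < 1 := lt_of_le_of_lt hu hs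
  have h2 : (P.filter fun p => ¬ ∃ e ∈ Γ, hit p e).card = 0 := by
    have : (P.filter fun p => ¬ ∃ e ∈ Γ, hit p e).card < 1 := by exact_mod_cast h1
    omega
  intro p hp
  by_contra hcon
  have : p ∈ P.filter fun p => ¬ ∃ e ∈ Γ, hit p e := mem_filter.mpr ⟨hp, hcon⟩
  rw [card_eq_zero.mp h2] at this
  simp at this

section graph

set_option linter.unusedSectionVars false

variable {ι : Type*} [Fintype ι] [DecidableEq ι]

/-- adjacency of an ordered edge set -/
def adj (Γ : Finset (ι × ι)) (a b : ι) : Prop := (a, b) ∈ Γ ∨ (b, a) ∈ Γ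

instance (Γ : Finset (ι × ι)) (a : ι) : DecidablePred (adj Γ a) := fun b =>
  inferInstanceAs (Decidable ((a, b) ∈ Γ ∨ (b, a) ∈ Γ))

/-- neighbourhood -/
def nb (Γ : Finset (ι × ι)) (a : ι) : Finset ι := univ.filter (adj Γ a)

theorem mem_nb {Γ : Finset (ι × ι)} {a b : ι} : b ∈ nb Γ a ↔ adj Γ a b := by
  simp [nb]

theorem adj_symm {Γ : Finset (ι × ι)} {a b : ι} (h : adj Γ a b) : adj Γ b a := Or.symm h

theorem sum_nb (Γ : Finset (ι × ι)) : ∑ a, (nb Γ a).card ≤ 2 * Γ.card := by
  have h1 : ∀ a, (nb Γ a).card ≤ (Γ.filter fun e => e.1 = a).card + (Γ.filter fun e => e.2 = a).card := by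
    intro a
    have hsub : nb Γ a ⊆ (Γ.filter fun e => e.1 = a).image Prod.snd ∪
        (Γ.filter fun e => e.2 = a).image Prod.fst := by
      intro b hb
      rw [mem_nb] at hb
      rw [mem_union, mem_image, mem_image]
      rcases hb with hb | hb
      · exact Or.inl ⟨(a, b), by simp [hb], rfl⟩
      · exact Or.inr ⟨(b, a), by simp [hb], rfl⟩
    calc (nb Γ a).card ≤ _ := card_le_card hsub
      _ ≤ _ := card_union_le _ _
      _ ≤ _ := Nat.add_le_add card_image_le card_image_le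
  have h2 : ∑ a, (Γ.filter fun e => e.1 = a).card = Γ.card :=
    (card_eq_sum_card_fiberwise (f := Prod.fst) (t := univ) (fun _ _ => mem_coe.mpr (mem_univ _))).symm
  have h3 : ∑ a, (Γ.filter fun e => e.2 = a).card = Γ.card :=
    (card_eq_sum_card_fiberwise (f := Prod.snd) (t := univ) (fun _ _ => mem_coe.mpr (mem_univ _))).symm
  calc ∑ a, (nb Γ a).card ≤ ∑ a, ((Γ.filter fun e => e.1 = a).card + (Γ.filter fun e => e.2 = a).card) :=
        sum_le_sum fun a _ => h1 a
    _ = 2 * Γ.card := by rw [sum_add_distrib, h2, h3]; ring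

variable (H : SimpleGraph ι) [DecidableRel H.Adj] (D : ℕ)

/-- valid ordered edge sets -/
def valid (Γ : Finset (ι × ι)) : Prop :=
  (∀ e ∈ Γ, H.Adj e.1 e.2) ∧ (∀ a, (nb Γ a).card ≤ D) ∧
    ∀ a b c, adj Γ a b → adj Γ a c → b ≠ c → ¬ H.Adj b c

variable {H D}

theorem valid_adj {Γ : Finset (ι × ι)} (h : valid H D Γ) {a b : ι} (hab : adj Γ a b) : H.Adj a b := by
  rcases hab with h' | h'
  · exact h.1 _ h'
  · exact (h.1 _ h').symm

theorem adj_insert {Γ : Finset (ι × ι)} {a b x y : ι} :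
    adj (insert (a, b) Γ) x y ↔ adj Γ x y ∨ (x = a ∧ y = b) ∨ (x = b ∧ y = a) := by
  simp only [adj, mem_insert, Prod.mk.injEq]
  tauto

theorem valid_insert {Γ : Finset (ι × ι)} (h : valid H D Γ) {a b : ι} (hab : H.Adj a b)
    (ha : (nb Γ a).card < D) (hb : (nb Γ b).card < D)
    (hac : ∀ c ∈ nb Γ a, ¬ H.Adj b c) (hbc : ∀ c ∈ nb Γ b, ¬ H.Adj a c) :
    valid H D (insert (a, b) Γ) := by
  have hne : a ≠ b := hab.ne
  refine ⟨?_, ?_, ?_⟩
  · intro e he
    rw [mem_insert] at he
    rcases he with rfl | he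
    · exact hab
    · exact h.1 e he
  · intro x
    by_cases hxa : x = a
    · subst hxa
      have : nb (insert (x, b) Γ) x ⊆ insert b (nb Γ x) := by
        intro y hy
        rw [mem_nb, adj_insert] at hy
        rw [mem_insert, mem_nb]
        rcases hy with hy | ⟨_, hy⟩ | ⟨hx, _⟩
        · exact Or.inr hy
        · exact Or.inl hy
        · exact absurd hx hne
      exact (card_le_card this).trans ((card_insert_le _ _).trans ha)
    · by_cases hxb : x = b
      · subst hxb
        have : nb (insert (a, x) Γ) x ⊆ insert a (nb Γ x) := by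
          intro y hy
          rw [mem_nb, adj_insert] at hy
          rw [mem_insert, mem_nb]
          rcases hy with hy | ⟨hx, _⟩ | ⟨_, hy⟩
          · exact Or.inr hy
          · exact absurd hx hxa
          · exact Or.inl hy
        exact (card_le_card this).trans ((card_insert_le _ _).trans hb)
      · have : nb (insert (a, b) Γ) x ⊆ nb Γ x := by
          intro y hy
          rw [mem_nb, adj_insert] at hy
          rw [mem_nb]
          rcases hy with hy | ⟨hx, _⟩ | ⟨hx, _⟩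
          · exact hy
          · exact absurd hx hxa
          · exact absurd hx hxb
        exact (card_le_card this).trans (h.2.1 x)
  · intro x y z hy hz hyz
    rw [adj_insert] at hy hz
    rcases hy with hy | ⟨hx, hy⟩ | ⟨hx, hy⟩ <;> rcases hz with hz | ⟨hx', hz⟩ | ⟨hx', hz⟩
    · exact h.2.2 x y z hy hz hyz
    · subst hx' hz
      exact fun hh => hac y (mem_nb.mpr hy) hh.symm
    · subst hx' hz
      exact fun hh => hbc y (mem_nb.mpr hy) hh.symm
    · subst hx hy
      exact hac z (mem_nb.mpr hz)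
    · exact absurd (hy.trans hz.symm) hyz
    · exact absurd (hx.symm.trans hx') hne
    · subst hx hy
      exact hbc z (mem_nb.mpr hz)
    · exact absurd (hx'.symm.trans hx) hne
    · exact absurd (hy.trans hz.symm) hyz

theorem bad1 {Γ : Finset (ι × ι)} {Δ : ℝ}
    (hΔ : ∀ a, ((univ.filter fun b => H.Adj a b).card : ℝ) ≤ Δ) :
    ((univ.filter fun e : ι × ι => H.Adj e.1 e.2 ∧ D ≤ (nb Γ e.1).card).card : ℝ) * D ≤
      2 * Γ.card * Δ := by
  have hΔ0 : 0 ≤ Δ ∨ IsEmpty ι := by
    by_cases hne : Nonempty ι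
    · obtain ⟨a⟩ := hne
      exact Or.inl ((Nat.cast_nonneg _).trans (hΔ a))
    · exact Or.inr (not_nonempty_iff.mp hne)
  rcases hΔ0 with hΔ0 | hem
  swap
  · have h1 : (univ.filter fun e : ι × ι => H.Adj e.1 e.2 ∧ D ≤ (nb Γ e.1).card) = ∅ := by
      ext e; exact hem.elim e.1
    have h2 : Γ = ∅ := by ext e; exact hem.elim e.1
    rw [h1, h2]; simp
  set V := univ.filter fun a : ι => D ≤ (nb Γ a).card with hV
  have h1 : D * V.card ≤ 2 * Γ.card := by
    calc D * V.card = ∑ a ∈ V, D := by rw [sum_const, smul_eq_mul]; ring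
      _ ≤ ∑ a ∈ V, (nb Γ a).card := sum_le_sum fun a ha => (mem_filter.mp ha).2
      _ ≤ ∑ a, (nb Γ a).card := sum_le_sum_of_subset (subset_univ _)
      _ ≤ 2 * Γ.card := sum_nb Γ
  have h2 : ((univ.filter fun e : ι × ι => H.Adj e.1 e.2 ∧ D ≤ (nb Γ e.1).card).card : ℝ) ≤
      V.card * Δ := by
    have hsub : (univ.filter fun e : ι × ι => H.Adj e.1 e.2 ∧ D ≤ (nb Γ e.1).card) ⊆
        V.biUnion fun a => (univ.filter fun b => H.Adj a b).image fun b => (a, b) := by
      rintro ⟨a, b⟩ he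
      rw [mem_filter] at he
      rw [mem_biUnion]
      exact ⟨a, mem_filter.mpr ⟨mem_univ _, he.2.2⟩, mem_image.mpr
        ⟨b, mem_filter.mpr ⟨mem_univ _, he.2.1⟩, rfl⟩⟩
    calc ((univ.filter fun e : ι × ι => H.Adj e.1 e.2 ∧ D ≤ (nb Γ e.1).card).card : ℝ)
        ≤ ((V.biUnion fun a => (univ.filter fun b => H.Adj a b).image fun b => (a, b)).card : ℝ) := by
          exact_mod_cast card_le_card hsub
      _ ≤ ∑ a ∈ V, (((univ.filter fun b => H.Adj a b).image fun b => (a, b)).card : ℝ) := by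
          exact_mod_cast card_biUnion_le
      _ ≤ ∑ a ∈ V, Δ := sum_le_sum fun a _ =>
          (by exact_mod_cast card_image_le : (((univ.filter fun b => H.Adj a b).image
            fun b => (a, b)).card : ℝ) ≤ ((univ.filter fun b => H.Adj a b).card : ℝ)).trans (hΔ a)
      _ = V.card * Δ := by rw [sum_const, nsmul_eq_mul]
  have h1' : (D : ℝ) * V.card ≤ 2 * Γ.card := by exact_mod_cast h1
  calc ((univ.filter fun e : ι × ι => H.Adj e.1 e.2 ∧ D ≤ (nb Γ e.1).card).card : ℝ) * D
      ≤ V.card * Δ * D := mul_le_mul_of_nonneg_right h2 (Nat.cast_nonneg _)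
    _ = (D * V.card) * Δ := by ring
    _ ≤ 2 * Γ.card * Δ := mul_le_mul_of_nonneg_right h1' hΔ0

theorem bad3 {Γ : Finset (ι × ι)} (hv : valid H D Γ) {κ : ℝ}
    (hκ : ∀ a c, H.Adj a c → ((univ.filter fun b => H.Adj a b ∧ H.Adj b c).card : ℝ) ≤ κ)
    (hκ0 : 0 ≤ κ) :
    ((univ.filter fun e : ι × ι => H.Adj e.1 e.2 ∧ ∃ c ∈ nb Γ e.1, H.Adj e.2 c).card : ℝ) ≤
      2 * Γ.card * κ := by
  have hsub : (univ.filter fun e : ι × ι => H.Adj e.1 e.2 ∧ ∃ c ∈ nb Γ e.1, H.Adj e.2 c) ⊆
      univ.biUnion fun a => (nb Γ a).biUnion fun c =>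
        (univ.filter fun b => H.Adj a b ∧ H.Adj b c).image fun b => (a, b) := by
    rintro ⟨a, b⟩ he
    rw [mem_filter] at he
    obtain ⟨_, hab, c, hc, hbc⟩ := he
    rw [mem_biUnion]
    refine ⟨a, mem_univ _, ?_⟩
    rw [mem_biUnion]
    exact ⟨c, hc, mem_image.mpr ⟨b, mem_filter.mpr ⟨mem_univ _, hab, hbc⟩, rfl⟩⟩
  have hs : ((∑ a, (nb Γ a).card : ℕ) : ℝ) ≤ 2 * Γ.card := by exact_mod_cast sum_nb Γ
  have h0 : (univ.filter fun e : ι × ι => H.Adj e.1 e.2 ∧ ∃ c ∈ nb Γ e.1, H.Adj e.2 c).card ≤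
      ∑ a, ((nb Γ a).biUnion fun c =>
        (univ.filter fun b => H.Adj a b ∧ H.Adj b c).image fun b => (a, b)).card :=
    (card_le_card hsub).trans card_biUnion_le
  have h0' : ((univ.filter fun e : ι × ι => H.Adj e.1 e.2 ∧ ∃ c ∈ nb Γ e.1, H.Adj e.2 c).card : ℝ) ≤
      ∑ a, (((nb Γ a).biUnion fun c =>
        (univ.filter fun b => H.Adj a b ∧ H.Adj b c).image fun b => (a, b)).card : ℝ) := by
    exact_mod_cast h0
  calc ((univ.filter fun e : ι × ι => H.Adj e.1 e.2 ∧ ∃ c ∈ nb Γ e.1, H.Adj e.2 c).card : ℝ)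
      ≤ ∑ a, (((nb Γ a).biUnion fun c =>
        (univ.filter fun b => H.Adj a b ∧ H.Adj b c).image fun b => (a, b)).card : ℝ) := h0'
    _ ≤ ∑ a, ∑ c ∈ nb Γ a, ((((univ.filter fun b => H.Adj a b ∧ H.Adj b c).image
          fun b => (a, b)).card : ℕ) : ℝ) := sum_le_sum fun a _ => by exact_mod_cast card_biUnion_le
    _ ≤ ∑ a, ∑ c ∈ nb Γ a, κ := by
        refine sum_le_sum fun a _ => sum_le_sum fun c hc => ?_
        have h1 := hκ a c (valid_adj hv (mem_nb.mp hc))
        refine le_trans ?_ h1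
        exact_mod_cast card_image_le
    _ = ((∑ a, (nb Γ a).card : ℕ) : ℝ) * κ := by
        rw [Nat.cast_sum, sum_mul]
        exact sum_congr rfl fun a _ => by rw [sum_const, nsmul_eq_mul]
    _ ≤ 2 * Γ.card * κ := mul_le_mul_of_nonneg_right hs hκ0

theorem card_swap (Q : ι → ι → Prop) [DecidableRel Q] :
    (univ.filter fun e : ι × ι => H.Adj e.1 e.2 ∧ Q e.2 e.1).card =
      (univ.filter fun e : ι × ι => H.Adj e.1 e.2 ∧ Q e.1 e.2).card := by
  refine card_equiv (Equiv.prodComm ι ι) ?_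
  rintro ⟨a, b⟩
  simp [H.adj_comm a b]

/-- **The gadget graph** (ordered edge set form). -/
theorem gamma_edges (ε k0 C : ℝ) (hε : 0 < ε) (hε1 : ε ≤ 1) (hk : 0 < k0) (hC : 0 < C) :
    ∃ (D : ℕ) (ρ0 : ℝ), 0 < ρ0 ∧ ∀ (ι : Type) [Fintype ι] [DecidableEq ι] [Nonempty ι]
      (H : SimpleGraph ι) [DecidableRel H.Adj] (ρ : ℝ), 0 < ρ → ρ ≤ ρ0 →
      (∀ a, ((univ.filter fun b => H.Adj a b).card : ℝ) ≤ C * ρ * Fintype.card ι) →
      (∀ a c, H.Adj a c → ((univ.filter fun b => H.Adj a b ∧ H.Adj b c).card : ℝ) ≤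
        C * ρ ^ 2 * Fintype.card ι) →
      (∀ A B : Finset ι, ε * Fintype.card ι ≤ A.card → ε * Fintype.card ι ≤ B.card →
        k0 * ρ * A.card * B.card ≤ (((A ×ˢ B).filter fun e => H.Adj e.1 e.2).card : ℝ)) →
      ∃ Γ : Finset (ι × ι), valid H D Γ ∧
        ∀ A B : Finset ι, ε * Fintype.card ι ≤ A.card → ε * Fintype.card ι ≤ B.card →
          ∃ a ∈ A, ∃ b ∈ B, adj Γ a b := by
  set δ : ℝ := k0 * ε ^ 2 / (2 * C) with hδ
  have hδ0 : 0 < δ := by positivity
  refine ⟨⌈48 * C / (δ * k0 * ε ^ 2)⌉₊, δ * k0 * ε ^ 2 / (48 * C), by positivity, ?_⟩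
  set D := ⌈48 * C / (δ * k0 * ε ^ 2)⌉₊ with hD
  intro ι _ _ _ H _ ρ hρ hρ0 hdeg hcod hq
  have hDr : 48 * C / (δ * k0 * ε ^ 2) ≤ D := Nat.le_ceil _
  have hDpos : (0 : ℝ) < D := lt_of_lt_of_le (by positivity) hDr
  set N : ℝ := (Fintype.card ι : ℝ) with hN
  have hN1 : (1 : ℝ) ≤ N := by
    have : 1 ≤ Fintype.card ι := Fintype.card_pos
    rw [hN]; exact_mod_cast this
  have hN0 : 0 < N := by linarith
  set E := univ.filter fun e : ι × ι => H.Adj e.1 e.2 with hE
  -- upper bound for E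
  have hEle : (E.card : ℝ) ≤ C * ρ * N ^ 2 := by
    have hsub : E ⊆ univ.biUnion fun a => (univ.filter fun b => H.Adj a b).image fun b => (a, b) := by
      rintro ⟨a, b⟩ he
      rw [hE, mem_filter] at he
      rw [mem_biUnion]
      exact ⟨a, mem_univ _, mem_image.mpr ⟨b, mem_filter.mpr ⟨mem_univ _, he.2⟩, rfl⟩⟩
    have h1 : E.card ≤ ∑ a : ι, ((univ.filter fun b => H.Adj a b).image fun b => (a, b)).card :=
      (card_le_card hsub).trans card_biUnion_le
    have h1' : (E.card : ℝ) ≤ ∑ a : ι, (((univ.filter fun b => H.Adj a b).image fun b => (a, b)).card : ℝ) := by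
      exact_mod_cast h1
    calc (E.card : ℝ) ≤ ∑ a : ι, (((univ.filter fun b => H.Adj a b).image fun b => (a, b)).card : ℝ) := h1'
      _ ≤ ∑ a : ι, C * ρ * N := by
          refine sum_le_sum fun a _ => le_trans ?_ (hdeg a)
          exact_mod_cast card_image_le
      _ = C * ρ * N ^ 2 := by
          rw [sum_const, nsmul_eq_mul, card_univ, ← hN]; ring
  have hEge : k0 * ρ * N ^ 2 ≤ (E.card : ℝ) := by
    have h1 := hq univ univ (by rw [card_univ, ← hN]; nlinarith) (by rw [card_univ, ← hN]; nlinarith)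
    rw [univ_product_univ, card_univ, ← hN, ← hE] at h1
    linarith
  have hEpos : 0 < E.card := by
    have : (0 : ℝ) < E.card := lt_of_lt_of_le (by positivity) hEge
    exact_mod_cast this
  have hk0C : k0 ≤ C := by
    have h1 : k0 * (ρ * N ^ 2) ≤ C * (ρ * N ^ 2) := by linarith
    exact le_of_mul_le_mul_right h1 (by positivity)
  have hε2 : ε ^ 2 ≤ 1 := pow_le_one₀ hε.le hε1
  have hδ1 : δ ≤ 1 := by
    rw [hδ, div_le_one (by positivity)]
    nlinarith
  set s := ⌈2 * N / δ⌉₊ with hs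
  have hs1 : 2 * N / δ ≤ s := Nat.le_ceil _
  have hs2 : (s : ℝ) ≤ 3 * N / δ := by
    have h1 : (s : ℝ) < 2 * N / δ + 1 := Nat.ceil_lt_add_one (by positivity)
    have h2 : 1 ≤ N / δ := by rw [le_div_iff₀ hδ0]; linarith
    have h3 : 3 * N / δ = 2 * N / δ + N / δ := by ring
    linarith
  set P := univ.filter fun p : Finset ι × Finset ι => ε * N ≤ p.1.card ∧ ε * N ≤ p.2.card with hP
  have hPc : (P.card : ℝ) ≤ 4 ^ (Fintype.card ι) := by
    have h1 : P.card ≤ (univ : Finset (Finset ι × Finset ι)).card := card_le_card (filter_subset _ _)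
    rw [card_univ, Fintype.card_prod, Fintype.card_finset] at h1
    have h2 : (2 : ℕ) ^ Fintype.card ι * 2 ^ Fintype.card ι = 4 ^ Fintype.card ι := by
      rw [← mul_pow]
      norm_num
    rw [h2] at h1
    exact_mod_cast h1
  have hfin : (P.card : ℝ) * (1 - δ) ^ s < 1 := by
    have h1 : (1 - δ) ^ s ≤ Real.exp (-(δ * s)) := by
      have h2 : 1 - δ ≤ Real.exp (-δ) := by
        have := Real.add_one_le_exp (-δ); linarith
      calc (1 - δ) ^ s ≤ Real.exp (-δ) ^ s := pow_le_pow_left₀ (by linarith) h2 s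
        _ = Real.exp (-(δ * s)) := by rw [← Real.exp_nat_mul]; ring_nf
    have h3 : Real.exp (-(δ * s)) ≤ Real.exp (-2) ^ (Fintype.card ι) := by
      rw [← Real.exp_nat_mul]
      apply Real.exp_le_exp.mpr
      have h4 : 2 * N ≤ δ * s := by
        rw [div_le_iff₀ hδ0] at hs1; linarith
      rw [← hN]; linarith
    have h5 : (4 : ℝ) * Real.exp (-2) < 1 := by
      have h6 : (4 : ℝ) < Real.exp 2 := by
        have h7 := Real.exp_one_gt_d9
        have h8 : Real.exp 2 = Real.exp 1 * Real.exp 1 := by rw [← Real.exp_add]; norm_num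
        rw [h8]; nlinarith
      rw [Real.exp_neg, ← div_eq_mul_inv, div_lt_one (Real.exp_pos _)]
      exact h6
    calc (P.card : ℝ) * (1 - δ) ^ s ≤ 4 ^ (Fintype.card ι) * Real.exp (-2) ^ (Fintype.card ι) :=
          mul_le_mul hPc (h1.trans h3) (pow_nonneg (by linarith) _) (by positivity)
      _ = (4 * Real.exp (-2)) ^ (Fintype.card ι) := by rw [mul_pow]
      _ < 1 := pow_lt_one₀ (by positivity) h5 Fintype.card_ne_zero
  -- greedy step
  obtain ⟨Γ, hv, _, hΓ⟩ := greedy (fun (p : Finset ι × Finset ι) (e : ι × ι) => e.1 ∈ p.1 ∧ e.2 ∈ p.2)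
    (valid H D) ⟨by simp, fun a => by
      have : nb (∅ : Finset (ι × ι)) a = ∅ := by
        ext b; simp [mem_nb, adj]
      rw [this]; simp, by simp [adj]⟩ P E hEpos s δ hδ0 hδ1 (by
      intro Γ hv hΓs p hp
      classical
      have hp2 := (mem_filter.mp hp).2
      set Eh := (p.1 ×ˢ p.2).filter fun e : ι × ι => H.Adj e.1 e.2 with hEh
      set b1 := univ.filter fun e : ι × ι => H.Adj e.1 e.2 ∧ D ≤ (nb Γ e.1).card with hb1
      set b2 := univ.filter fun e : ι × ι => H.Adj e.1 e.2 ∧ D ≤ (nb Γ e.2).card with hb2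
      set b3 := univ.filter fun e : ι × ι => H.Adj e.1 e.2 ∧ ∃ c ∈ nb Γ e.1, H.Adj e.2 c with hb3
      set b4 := univ.filter fun e : ι × ι => H.Adj e.1 e.2 ∧ ∃ c ∈ nb Γ e.2, H.Adj e.1 c with hb4
      refine ⟨(((Eh \ b1) \ b2) \ b3) \ b4, ?_, ?_, ?_⟩
      · intro e he
        simp only [mem_sdiff, hEh, mem_filter, mem_product] at he
        rw [hE, mem_filter]
        exact ⟨mem_univ _, he.1.1.1.1.2⟩
      · rintro ⟨a, b⟩ he
        simp only [mem_sdiff, hEh, hb1, hb2, hb3, hb4, mem_filter, mem_product, mem_univ, true_and,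
          not_and, not_exists] at he
        obtain ⟨⟨⟨⟨⟨hin, hadj⟩, h1⟩, h2⟩, h3⟩, h4⟩ := he
        refine ⟨hin, valid_insert hv hadj ?_ ?_ ?_ ?_⟩
        · exact not_le.mp (h1 hadj)
        · exact not_le.mp (h2 hadj)
        · intro c hc; exact h3 hadj c hc
        · intro c hc; exact h4 hadj c hc
      · have hΓr : (Γ.card : ℝ) ≤ 3 * N / δ :=
          le_trans (by exact_mod_cast hΓs.le) hs2
        have hb1c : (b1.card : ℝ) ≤ k0 * ρ * ε ^ 2 * N ^ 2 / 8 := by
          have h1 := bad1 (D := D) (Γ := Γ) hdeg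
          have h2 : (b1.card : ℝ) * D ≤ 2 * (3 * N / δ) * (C * ρ * N) :=
            h1.trans (mul_le_mul_of_nonneg_right (by linarith) (by positivity))
          have h3 : 2 * (3 * N / δ) * (C * ρ * N) ≤ k0 * ρ * ε ^ 2 * N ^ 2 / 8 * D := by
            have h4 : 48 * C ≤ D * (δ * k0 * ε ^ 2) := (div_le_iff₀ (by positivity)).mp hDr
            have h5 : 2 * (3 * N / δ) * (C * ρ * N) = (ρ * N ^ 2 / (8 * δ)) * (48 * C) := by
              field_simp; ring
            have h6 : k0 * ρ * ε ^ 2 * N ^ 2 / 8 * D = (ρ * N ^ 2 / (8 * δ)) * (D * (δ * k0 * ε ^ 2)) := by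
              field_simp
            rw [h5, h6]
            exact mul_le_mul_of_nonneg_left h4 (by positivity)
          exact le_of_mul_le_mul_right (h2.trans h3) hDpos
        have hb2c : (b2.card : ℝ) ≤ k0 * ρ * ε ^ 2 * N ^ 2 / 8 := by
          have : b2.card = b1.card := card_swap (H := H) (fun a _ => D ≤ (nb Γ a).card)
          rw [this]; exact hb1c
        have hb3c : (b3.card : ℝ) ≤ k0 * ρ * ε ^ 2 * N ^ 2 / 8 := by
          have h1 := bad3 hv hcod (by positivity)
          have h2 : (b3.card : ℝ) ≤ 2 * (3 * N / δ) * (C * ρ ^ 2 * N) :=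
            h1.trans (mul_le_mul_of_nonneg_right (by linarith) (by positivity))
          refine h2.trans ?_
          have h4 : ρ * (48 * C) ≤ δ * k0 * ε ^ 2 := (le_div_iff₀ (by positivity)).mp hρ0
          have h5 : 2 * (3 * N / δ) * (C * ρ ^ 2 * N) = (ρ * N ^ 2 / (8 * δ)) * (ρ * (48 * C)) := by
            field_simp; ring
          have h6 : k0 * ρ * ε ^ 2 * N ^ 2 / 8 = (ρ * N ^ 2 / (8 * δ)) * (δ * k0 * ε ^ 2) := by
            field_simp
          rw [h5, h6]
          exact mul_le_mul_of_nonneg_left h4 (by positivity)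
        have hb4c : (b4.card : ℝ) ≤ k0 * ρ * ε ^ 2 * N ^ 2 / 8 := by
          have : b4.card = b3.card := card_swap (H := H) (fun a b => ∃ c ∈ nb Γ a, H.Adj b c)
          rw [this]; exact hb3c
        have hEhc : k0 * ρ * ε ^ 2 * N ^ 2 ≤ (Eh.card : ℝ) := by
          refine le_trans ?_ (hq p.1 p.2 hp2.1 hp2.2)
          have h1 : (ε * N) * (ε * N) ≤ (p.1.card : ℝ) * p.2.card :=
            mul_le_mul hp2.1 hp2.2 (by positivity) (Nat.cast_nonneg _)
          calc k0 * ρ * ε ^ 2 * N ^ 2 = k0 * ρ * ((ε * N) * (ε * N)) := by ring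
            _ ≤ k0 * ρ * ((p.1.card : ℝ) * p.2.card) := mul_le_mul_of_nonneg_left h1 (by positivity)
            _ = k0 * ρ * p.1.card * p.2.card := by ring
        have hsd : ∀ X Y : Finset (ι × ι), (X.card : ℝ) - Y.card ≤ ((X \ Y).card : ℝ) := by
          intro X Y
          have h1 : X.card ≤ (X \ Y).card + Y.card := by
            have := le_card_sdiff Y X
            omega
          have h2 : (X.card : ℝ) ≤ ((X \ Y).card : ℝ) + Y.card := by exact_mod_cast h1
          linarith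
        have e1 := hsd Eh b1
        have e2 := hsd (Eh \ b1) b2
        have e3 := hsd ((Eh \ b1) \ b2) b3
        have e4 := hsd (((Eh \ b1) \ b2) \ b3) b4
        have hδE : δ * E.card ≤ k0 * ρ * ε ^ 2 * N ^ 2 / 2 := by
          calc δ * E.card ≤ δ * (C * ρ * N ^ 2) := mul_le_mul_of_nonneg_left hEle hδ0.le
            _ = k0 * ρ * ε ^ 2 * N ^ 2 / 2 := by rw [hδ]; field_simp
        linarith) hfin
  refine ⟨Γ, hv, fun A B hA hB => ?_⟩
  obtain ⟨e, he, hea, heb⟩ := hΓ (A, B) (mem_filter.mpr ⟨mem_univ _, hA, hB⟩)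
  exact ⟨e.1, hea, e.2, heb, Or.inl he⟩

open Classical in
/-- **The gadget graph**, simple graph form: bounded degree, `H`-independent neighbourhoods (hence
triangle-free), an edge between any two sets of size `≥ ε N`. -/
theorem gamma (ε k0 C : ℝ) (hε : 0 < ε) (hε1 : ε ≤ 1) (hk : 0 < k0) (hC : 0 < C) :
    ∃ (D : ℕ) (ρ0 : ℝ), 0 < ρ0 ∧ ∀ (ι : Type) [Fintype ι] [Nonempty ι]
      (H : SimpleGraph ι) (ρ : ℝ), 0 < ρ → ρ ≤ ρ0 →
      (∀ a, ((univ.filter fun b => H.Adj a b).card : ℝ) ≤ C * ρ * Fintype.card ι) →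
      (∀ a c, H.Adj a c → ((univ.filter fun b => H.Adj a b ∧ H.Adj b c).card : ℝ) ≤
        C * ρ ^ 2 * Fintype.card ι) →
      (∀ A B : Finset ι, ε * Fintype.card ι ≤ A.card → ε * Fintype.card ι ≤ B.card →
        k0 * ρ * A.card * B.card ≤ (((A ×ˢ B).filter fun e => H.Adj e.1 e.2).card : ℝ)) →
      ∃ G : SimpleGraph ι, G ≤ H ∧ (∀ a, (univ.filter fun b => G.Adj a b).card ≤ D) ∧
        (∀ a b c, G.Adj a b → G.Adj a c → b ≠ c → ¬ H.Adj b c) ∧
        ∀ A B : Finset ι, ε * Fintype.card ι ≤ A.card → ε * Fintype.card ι ≤ B.card →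
          ∃ a ∈ A, ∃ b ∈ B, G.Adj a b := by
  obtain ⟨D, ρ0, h0, h⟩ := gamma_edges ε k0 C hε hε1 hk hC
  refine ⟨D, ρ0, h0, ?_⟩
  intro ι _ _ H ρ hρ hρ0 hdeg hcod hq
  obtain ⟨Γ, hv, hΓ⟩ := h ι H ρ hρ hρ0 (by convert hdeg) (by convert hcod) (by convert hq)
  refine ⟨{ Adj := adj Γ, symm := ⟨fun _ _ hab => adj_symm hab⟩,
            loopless := ⟨fun a ha => (H.loopless.irrefl a (valid_adj hv ha)).elim⟩ }, ?_, ?_, ?_, ?_⟩
  · intro a b hab
    exact valid_adj hv hab
  · intro a
    refine le_of_eq_of_le ?_ (hv.2.1 a)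
    congr 1
    ext b
    simp [mem_nb]
  · intro a b c hab hac hbc
    exact hv.2.2 a b c hab hac hbc
  · exact hΓ

end graph

end Crest.Agent.R042.GamG831
end

-- ▼ part R042/GamS_831

/-!
# R042: sample facts (degrees and codegrees of a random sample), exponential moments

For `x : ι → Om` (counting measure), `perp : Om → Om → Prop`, `J ⊆ ι`:
`cntJ perp J x` = number of `b ∉ J` with `perp (x j) (x b)` for all `j ∈ J`.
-/

set_option linter.unusedSectionVars false

namespace Crest.Agent.R042.GamS831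

open Finset
open scoped Classical

section expo

variable {ι Om : Type*} [Fintype ι] [Fintype Om]

/-- exponential moment. -/
theorem expo_sum (J : Finset ι) (S : (↥J → Om) → Finset Om) (p : ℝ) (hp : 0 ≤ p)
    (hS : ∀ u, ((S u).card : ℝ) ≤ p * Fintype.card Om) :
    ∑ x : ι → Om, (2 : ℝ) ^ (univ.filter fun b => b ∉ J ∧ x b ∈ S (fun j => x j)).card ≤
      (Fintype.card Om : ℝ) ^ Fintype.card ι * (1 + p) ^ Fintype.card ι := by
  set e := Equiv.piEquivPiSubtypeProd (fun i : ι => i ∈ J) (fun _ => Om) with he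
  set m := Fintype.card {b : ι // b ∉ J} with hm
  have hcard : (Fintype.card (↥J → Om) : ℝ) * (Fintype.card Om : ℝ) ^ m =
      (Fintype.card Om : ℝ) ^ Fintype.card ι := by
    have h1 : Fintype.card (ι → Om) = Fintype.card (↥J → Om) * Fintype.card ({b : ι // b ∉ J} → Om) := by
      rw [Fintype.card_congr e, Fintype.card_prod]
    rw [Fintype.card_fun, Fintype.card_fun (α := {b : ι // b ∉ J}), ← hm] at h1
    have h2 : ((Fintype.card Om ^ Fintype.card ι : ℕ) : ℝ) =
        ((Fintype.card (↥J → Om) * Fintype.card Om ^ m : ℕ) : ℝ) := by rw [h1]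
    push_cast at h2
    exact h2.symm
  have hmle : m ≤ Fintype.card ι := Fintype.card_subtype_le _
  have h1 : ∀ x : ι → Om, (2 : ℝ) ^ (univ.filter fun b => b ∉ J ∧ x b ∈ S (fun j => x j)).card =
      ∏ b : {b : ι // b ∉ J}, if (e x).2 b ∈ S (e x).1 then (2 : ℝ) else 1 := by
    intro x
    rw [Finset.prod_ite, prod_const_one, mul_one, prod_const]
    congr 1
    refine Finset.card_bij' (fun b hb => ⟨b, (mem_filter.mp hb).2.1⟩) (fun b _ => b.1) ?_ ?_ ?_ ?_
    · intro b hb
      rw [mem_filter]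
      exact ⟨mem_univ _, (mem_filter.mp hb).2.2⟩
    · intro b hb
      rw [mem_filter]
      exact ⟨mem_univ _, b.2, (mem_filter.mp hb).2⟩
    · intro b hb; rfl
    · intro b hb; rfl
  calc ∑ x : ι → Om, (2 : ℝ) ^ (univ.filter fun b => b ∉ J ∧ x b ∈ S (fun j => x j)).card
      = ∑ x : ι → Om, ∏ b : {b : ι // b ∉ J}, (if (e x).2 b ∈ S (e x).1 then (2 : ℝ) else 1) :=
        sum_congr rfl fun x _ => h1 x
    _ = ∑ uv : (↥J → Om) × ({b : ι // b ∉ J} → Om),
          ∏ b : {b : ι // b ∉ J}, (if uv.2 b ∈ S uv.1 then (2 : ℝ) else 1) :=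
        Equiv.sum_comp e (fun uv : (↥J → Om) × ({b : ι // b ∉ J} → Om) =>
          ∏ b : {b : ι // b ∉ J}, (if uv.2 b ∈ S uv.1 then (2 : ℝ) else 1))
    _ = ∑ u : (↥J → Om), ∑ v : ({b : ι // b ∉ J} → Om),
          ∏ b : {b : ι // b ∉ J}, (if v b ∈ S u then (2 : ℝ) else 1) := by
        rw [Fintype.sum_prod_type]
    _ = ∑ u : (↥J → Om), ∏ _b : {b : ι // b ∉ J}, ∑ q : Om, (if q ∈ S u then (2 : ℝ) else 1) := by
        refine sum_congr rfl fun u _ => ?_
        rw [Finset.prod_univ_sum, Fintype.piFinset_univ]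
    _ ≤ ∑ u : (↥J → Om), ((Fintype.card Om : ℝ) * (1 + p)) ^ m := by
        refine sum_le_sum fun u _ => ?_
        rw [prod_const, card_univ, ← hm]
        refine pow_le_pow_left₀ (sum_nonneg fun q _ => by split_ifs <;> norm_num) ?_ m
        have h2 : ∑ q : Om, (if q ∈ S u then (2 : ℝ) else 1) = Fintype.card Om + (S u).card := by
          have h3 : ∀ q : Om, (if q ∈ S u then (2 : ℝ) else 1) = 1 + if q ∈ S u then (1 : ℝ) else 0 := by
            intro q; split_ifs <;> norm_num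
          rw [sum_congr rfl fun q _ => h3 q, sum_add_distrib, sum_const, card_univ, nsmul_eq_mul,
            mul_one, sum_ite_mem, univ_inter, sum_const, nsmul_eq_mul, mul_one]
        rw [h2]
        have := hS u
        linarith
    _ = (Fintype.card Om : ℝ) ^ Fintype.card ι * (1 + p) ^ m := by
        rw [sum_const, card_univ, nsmul_eq_mul, mul_pow, ← mul_assoc, hcard]
    _ ≤ (Fintype.card Om : ℝ) ^ Fintype.card ι * (1 + p) ^ Fintype.card ι :=
        mul_le_mul_of_nonneg_left (pow_le_pow_right₀ (by linarith) hmle) (by positivity)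

/-- tail bound. -/
theorem tail (J : Finset ι) (S : (↥J → Om) → Finset Om) (p : ℝ) (hp : 0 ≤ p)
    (hS : ∀ u, ((S u).card : ℝ) ≤ p * Fintype.card Om) :
    (((univ.filter fun x : ι → Om => 2 * p * Fintype.card ι <
      ((univ.filter fun b => b ∉ J ∧ x b ∈ S (fun j => x j)).card : ℝ)).card : ℕ) : ℝ) ≤
      (Fintype.card Om : ℝ) ^ Fintype.card ι * Real.exp (-(p * Fintype.card ι / 3)) := by
  set N : ℝ := (Fintype.card ι : ℝ) with hN
  set cnt : (ι → Om) → ℕ := fun x => (univ.filter fun b => b ∉ J ∧ x b ∈ S (fun j => x j)).card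
    with hcnt
  set B := univ.filter fun x : ι → Om => 2 * p * N < (cnt x : ℝ) with hB
  have hN0 : 0 ≤ N := Nat.cast_nonneg _
  have h1 : (B.card : ℝ) * Real.exp (Real.log 2 * (2 * p * N)) ≤ ∑ x : ι → Om, (2 : ℝ) ^ cnt x := by
    calc (B.card : ℝ) * Real.exp (Real.log 2 * (2 * p * N))
        = ∑ x ∈ B, Real.exp (Real.log 2 * (2 * p * N)) := by rw [sum_const, nsmul_eq_mul]
      _ ≤ ∑ x ∈ B, (2 : ℝ) ^ cnt x := by
          refine sum_le_sum fun x hx => ?_
          have h2 : 2 * p * N < (cnt x : ℝ) := (mem_filter.mp hx).2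
          have h3 : (2 : ℝ) ^ cnt x = Real.exp (Real.log 2 * cnt x) := by
            rw [← Real.rpow_natCast, Real.rpow_def_of_pos (by norm_num)]
          rw [h3]
          exact Real.exp_le_exp.mpr (mul_le_mul_of_nonneg_left h2.le (Real.log_nonneg (by norm_num)))
      _ ≤ ∑ x : ι → Om, (2 : ℝ) ^ cnt x :=
          sum_le_sum_of_subset_of_nonneg (subset_univ _) fun _ _ _ => by positivity
  have h2 := h1.trans (expo_sum J S p hp hS)
  have h3 : (1 + p) ^ Fintype.card ι ≤ Real.exp (p * N) := by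
    calc (1 + p) ^ Fintype.card ι ≤ Real.exp p ^ Fintype.card ι :=
          pow_le_pow_left₀ (by linarith) (by have := Real.add_one_le_exp p; linarith) _
      _ = Real.exp (p * N) := by rw [← Real.exp_nat_mul, hN]; ring_nf
  have h4 : (B.card : ℝ) * Real.exp (Real.log 2 * (2 * p * N)) ≤
      (Fintype.card Om : ℝ) ^ Fintype.card ι * Real.exp (p * N) :=
    h2.trans (mul_le_mul_of_nonneg_left h3 (by positivity))
  have h5 : Real.exp (p * N) ≤ Real.exp (-(p * N / 3)) * Real.exp (Real.log 2 * (2 * p * N)) := by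
    rw [← Real.exp_add]
    apply Real.exp_le_exp.mpr
    have h6 := Real.log_two_gt_d9
    have h7 : 0 ≤ p * N := mul_nonneg hp hN0
    nlinarith
  have h8 : (B.card : ℝ) * Real.exp (Real.log 2 * (2 * p * N)) ≤
      ((Fintype.card Om : ℝ) ^ Fintype.card ι * Real.exp (-(p * N / 3))) *
        Real.exp (Real.log 2 * (2 * p * N)) := by
    calc _ ≤ _ := h4
      _ ≤ (Fintype.card Om : ℝ) ^ Fintype.card ι *
          (Real.exp (-(p * N / 3)) * Real.exp (Real.log 2 * (2 * p * N))) :=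
          mul_le_mul_of_nonneg_left h5 (by positivity)
      _ = _ := by ring
  exact le_of_mul_le_mul_right h8 (Real.exp_pos _)

end expo

section perp

variable {ι Om : Type*} [Fintype ι] [Fintype Om] (perp : Om → Om → Prop)

/-- number of `b ∉ J` perpendicular to all points of `J` -/
noncomputable def cntJ (J : Finset ι) (x : ι → Om) : ℕ :=
  (univ.filter fun b => b ∉ J ∧ ∀ j ∈ J, perp (x j) (x b)).card

theorem tailJ (J : Finset ι) (p : ℝ) (hp : 0 ≤ p) :
    (((univ.filter fun x : ι → Om =>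
      ((univ.filter fun Q => ∀ j ∈ J, perp (x j) Q).card : ℝ) ≤ p * Fintype.card Om ∧
      2 * p * Fintype.card ι < (cntJ perp J x : ℝ)).card : ℕ) : ℝ) ≤
      (Fintype.card Om : ℝ) ^ Fintype.card ι * Real.exp (-(p * Fintype.card ι / 3)) := by
  set S : (↥J → Om) → Finset Om := fun u =>
    if ((univ.filter fun Q => ∀ j : ↥J, perp (u j) Q).card : ℝ) ≤ p * Fintype.card Om then
      univ.filter fun Q => ∀ j : ↥J, perp (u j) Q else ∅ with hSdef
  have hS : ∀ u, ((S u).card : ℝ) ≤ p * Fintype.card Om := by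
    intro u
    simp only [hSdef]
    split_ifs with h
    · exact h
    · simp only [card_empty, Nat.cast_zero]; positivity
  refine le_trans ?_ (tail J S p hp hS)
  have hsub : (univ.filter fun x : ι → Om =>
      ((univ.filter fun Q => ∀ j ∈ J, perp (x j) Q).card : ℝ) ≤ p * Fintype.card Om ∧
      2 * p * Fintype.card ι < (cntJ perp J x : ℝ)) ⊆
      (univ.filter fun x : ι → Om => 2 * p * Fintype.card ι <
      ((univ.filter fun b => b ∉ J ∧ x b ∈ S (fun j => x j)).card : ℝ)) := by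
    intro x hx
    rw [mem_filter] at hx ⊢
    refine ⟨mem_univ _, lt_of_lt_of_eq hx.2.2 ?_⟩
    have h1 : (univ.filter fun Q => ∀ j : ↥J, perp (x j) Q) = univ.filter fun Q => ∀ j ∈ J, perp (x j) Q := by
      ext Q
      simp only [mem_filter, mem_univ, true_and, Subtype.forall]
    have h2 : S (fun j => x j) = univ.filter fun Q => ∀ j ∈ J, perp (x j) Q := by
      simp only [hSdef]
      rw [h1, if_pos hx.2.1]
    rw [h2, cntJ]
    congr 2
    ext b
    simp only [mem_filter, mem_univ, true_and]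
  exact_mod_cast card_le_card hsub

/-- union over all `J` with `k` elements. -/
theorem tail_k (k : ℕ) (p : ℝ) (hp : 0 ≤ p) :
    (((univ.filter fun x : ι → Om => ∃ J : Finset ι, J.card = k ∧
      ((univ.filter fun Q => ∀ j ∈ J, perp (x j) Q).card : ℝ) ≤ p * Fintype.card Om ∧
      2 * p * Fintype.card ι < (cntJ perp J x : ℝ)).card : ℕ) : ℝ) ≤
      (Fintype.card ι : ℝ) ^ k * ((Fintype.card Om : ℝ) ^ Fintype.card ι *
        Real.exp (-(p * Fintype.card ι / 3))) := by
  have hsub : (univ.filter fun x : ι → Om => ∃ J : Finset ι, J.card = k ∧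
      ((univ.filter fun Q => ∀ j ∈ J, perp (x j) Q).card : ℝ) ≤ p * Fintype.card Om ∧
      2 * p * Fintype.card ι < (cntJ perp J x : ℝ)) ⊆
      (powersetCard k (univ : Finset ι)).biUnion fun J => univ.filter fun x : ι → Om =>
        ((univ.filter fun Q => ∀ j ∈ J, perp (x j) Q).card : ℝ) ≤ p * Fintype.card Om ∧
      2 * p * Fintype.card ι < (cntJ perp J x : ℝ) := by
    intro x hx
    rw [mem_filter] at hx
    obtain ⟨_, J, hJ, h1, h2⟩ := hx
    rw [mem_biUnion]
    exact ⟨J, mem_powersetCard.mpr ⟨subset_univ _, hJ⟩, mem_filter.mpr ⟨mem_univ _, h1, h2⟩⟩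
  have h1 := (card_le_card hsub).trans card_biUnion_le
  have h2 : (((univ.filter fun x : ι → Om => ∃ J : Finset ι, J.card = k ∧
      ((univ.filter fun Q => ∀ j ∈ J, perp (x j) Q).card : ℝ) ≤ p * Fintype.card Om ∧
      2 * p * Fintype.card ι < (cntJ perp J x : ℝ)).card : ℕ) : ℝ) ≤
      ∑ J ∈ powersetCard k (univ : Finset ι), (((univ.filter fun x : ι → Om =>
        ((univ.filter fun Q => ∀ j ∈ J, perp (x j) Q).card : ℝ) ≤ p * Fintype.card Om ∧
      2 * p * Fintype.card ι < (cntJ perp J x : ℝ)).card : ℕ) : ℝ) := by exact_mod_cast h1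
  refine h2.trans ((sum_le_sum fun J _ => tailJ perp J p hp).trans ?_)
  rw [sum_const, card_powersetCard, nsmul_eq_mul, card_univ]
  refine mul_le_mul_of_nonneg_right ?_ (by positivity)
  exact_mod_cast Nat.choose_le_pow _ _

/-- **sample facts**: for all but `1/16` of the samples, all generic degrees are `≤ 2 ρ N` and all
generic codegrees are `≤ 2 ρ² N`. -/
theorem sample (ρ : ℝ) (hρ : 0 < ρ) (hρ1 : ρ ≤ 1) (hN : 250 ≤ ρ ^ 4 * Fintype.card ι) :
    (((univ.filter fun x : ι → Om => ¬ ∀ J : Finset ι, 1 ≤ J.card → J.card ≤ 2 →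
      ((univ.filter fun Q => ∀ j ∈ J, perp (x j) Q).card : ℝ) ≤ ρ ^ J.card * Fintype.card Om →
      (cntJ perp J x : ℝ) ≤ 2 * ρ ^ J.card * Fintype.card ι).card : ℕ) : ℝ) ≤
      1 / 16 * (Fintype.card Om : ℝ) ^ Fintype.card ι := by
  set N : ℝ := (Fintype.card ι : ℝ) with hNdef
  set W : ℝ := (Fintype.card Om : ℝ) ^ Fintype.card ι with hW
  have hW0 : 0 ≤ W := by positivity
  have hN0 : 0 < N := by
    by_contra h
    have h1 : N = 0 := le_antisymm (not_lt.mp h) (Nat.cast_nonneg _)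
    rw [h1] at hN; norm_num at hN
  have hN1 : 1 ≤ N := by
    have : 0 < Fintype.card ι := by rw [hNdef] at hN0; exact_mod_cast hN0
    rw [hNdef]; exact_mod_cast this
  set y : ℝ := ρ ^ 2 * N / 3 with hy
  have hy0 : 0 < y := by positivity
  have hexp : Real.exp (-y) ≤ 24 / y ^ 4 := by
    have h1 := Real.pow_div_factorial_le_exp y hy0.le 4
    rw [Real.exp_neg, inv_eq_one_div, div_le_div_iff₀ (Real.exp_pos _) (by positivity)]
    have h2 : (Nat.factorial 4 : ℝ) = 24 := by norm_num [Nat.factorial]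
    rw [h2, div_le_iff₀ (by norm_num)] at h1
    linarith
  have hA : N ^ 2 * Real.exp (-y) ≤ 1 / 32 := by
    have h1 : N ^ 2 * (24 / y ^ 4) ≤ 1 / 32 := by
      have h2 : N ^ 2 * (24 / y ^ 4) = 1944 / (ρ ^ 4 * N) ^ 2 := by
        rw [hy]; field_simp; norm_num
      rw [h2, div_le_div_iff₀ (by positivity) (by norm_num)]
      nlinarith
    exact (mul_le_mul_of_nonneg_left hexp (by positivity)).trans h1
  have hB : N ^ 1 * Real.exp (-(ρ ^ 1 * N / 3)) ≤ 1 / 32 := by
    refine le_trans ?_ hA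
    refine mul_le_mul ?_ (Real.exp_le_exp.mpr ?_) (Real.exp_pos _).le (by positivity)
    · nlinarith
    · rw [hy]
      have : ρ ^ 2 ≤ ρ ^ 1 := pow_le_pow_of_le_one hρ.le hρ1 (by norm_num)
      have h3 : ρ ^ 2 * N ≤ ρ ^ 1 * N := mul_le_mul_of_nonneg_right this hN0.le
      linarith
  have hsub : (univ.filter fun x : ι → Om => ¬ ∀ J : Finset ι, 1 ≤ J.card → J.card ≤ 2 →
      ((univ.filter fun Q => ∀ j ∈ J, perp (x j) Q).card : ℝ) ≤ ρ ^ J.card * Fintype.card Om →
      (cntJ perp J x : ℝ) ≤ 2 * ρ ^ J.card * N) ⊆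
      (univ.filter fun x : ι → Om => ∃ J : Finset ι, J.card = 1 ∧
        ((univ.filter fun Q => ∀ j ∈ J, perp (x j) Q).card : ℝ) ≤ ρ ^ 1 * Fintype.card Om ∧
        2 * ρ ^ 1 * N < (cntJ perp J x : ℝ)) ∪
      (univ.filter fun x : ι → Om => ∃ J : Finset ι, J.card = 2 ∧
        ((univ.filter fun Q => ∀ j ∈ J, perp (x j) Q).card : ℝ) ≤ ρ ^ 2 * Fintype.card Om ∧
        2 * ρ ^ 2 * N < (cntJ perp J x : ℝ)) := by
    intro x hx
    rw [mem_filter] at hx
    have hx2 := hx.2
    push Not at hx2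
    obtain ⟨J, h1, h2, h3, h4⟩ := hx2
    rw [mem_union]
    rcases Nat.lt_or_ge J.card 2 with h | h
    · have h5 : J.card = 1 := by omega
      rw [h5] at h3 h4
      exact Or.inl (mem_filter.mpr ⟨mem_univ _, J, h5, h3, h4⟩)
    · have h5 : J.card = 2 := by omega
      rw [h5] at h3 h4
      exact Or.inr (mem_filter.mpr ⟨mem_univ _, J, h5, h3, h4⟩)
  have h1 := (card_le_card hsub).trans (card_union_le _ _)
  have h2 := tail_k (ι := ι) perp 1 (ρ ^ 1) (by positivity)
  have h3 := tail_k (ι := ι) perp 2 (ρ ^ 2) (by positivity)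
  rw [← hNdef, ← hW] at h2 h3
  have h4 : (((univ.filter fun x : ι → Om => ¬ ∀ J : Finset ι, 1 ≤ J.card → J.card ≤ 2 →
      ((univ.filter fun Q => ∀ j ∈ J, perp (x j) Q).card : ℝ) ≤ ρ ^ J.card * Fintype.card Om →
      (cntJ perp J x : ℝ) ≤ 2 * ρ ^ J.card * N).card : ℕ) : ℝ) ≤
      (((univ.filter fun x : ι → Om => ∃ J : Finset ι, J.card = 1 ∧
        ((univ.filter fun Q => ∀ j ∈ J, perp (x j) Q).card : ℝ) ≤ ρ ^ 1 * Fintype.card Om ∧
        2 * ρ ^ 1 * N < (cntJ perp J x : ℝ)).card : ℕ) : ℝ) +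
      (((univ.filter fun x : ι → Om => ∃ J : Finset ι, J.card = 2 ∧
        ((univ.filter fun Q => ∀ j ∈ J, perp (x j) Q).card : ℝ) ≤ ρ ^ 2 * Fintype.card Om ∧
        2 * ρ ^ 2 * N < (cntJ perp J x : ℝ)).card : ℕ) : ℝ) := by exact_mod_cast h1
  have h5 : N ^ 1 * (W * Real.exp (-(ρ ^ 1 * N / 3))) ≤ 1 / 32 * W := by
    calc N ^ 1 * (W * Real.exp (-(ρ ^ 1 * N / 3))) = (N ^ 1 * Real.exp (-(ρ ^ 1 * N / 3))) * W := by ring
      _ ≤ 1 / 32 * W := mul_le_mul_of_nonneg_right hB hW0
  have h6 : N ^ 2 * (W * Real.exp (-(ρ ^ 2 * N / 3))) ≤ 1 / 32 * W := by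
    calc N ^ 2 * (W * Real.exp (-(ρ ^ 2 * N / 3))) = (N ^ 2 * Real.exp (-y)) * W := by rw [hy]; ring
      _ ≤ 1 / 32 * W := mul_le_mul_of_nonneg_right hA hW0
  linarith

/-- the compatibility graph of a sample. -/
def PG (hsym : ∀ P Q, perp P Q → perp Q P) (x : ι → Om) : SimpleGraph ι where
  Adj a b := a ≠ b ∧ perp (x a) (x b)
  symm := ⟨fun _ _ h => ⟨h.1.symm, hsym _ _ h.2⟩⟩
  loopless := ⟨fun _ h => h.1 rfl⟩

/-- degrees of the compatibility graph of a good generic sample. -/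
theorem deg_le (hsym : ∀ P Q, perp P Q → perp Q P) (ρ : ℝ) (x : ι → Om)
    (hgen : ∀ J : Finset ι, J.card ≤ 2 →
      ((univ.filter fun Q => ∀ j ∈ J, perp (x j) Q).card : ℝ) ≤ ρ ^ J.card * Fintype.card Om)
    (hx : ∀ J : Finset ι, 1 ≤ J.card → J.card ≤ 2 →
      ((univ.filter fun Q => ∀ j ∈ J, perp (x j) Q).card : ℝ) ≤ ρ ^ J.card * Fintype.card Om →
      (cntJ perp J x : ℝ) ≤ 2 * ρ ^ J.card * Fintype.card ι) (a : ι) :
    ((univ.filter fun b => (PG perp hsym x).Adj a b).card : ℝ) ≤ 2 * ρ * Fintype.card ι := by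
  have h1 := hx {a} (by simp) (by simp) (hgen {a} (by simp))
  rw [card_singleton, pow_one] at h1
  refine le_trans ?_ h1
  rw [cntJ]
  have : (univ.filter fun b => (PG perp hsym x).Adj a b) ⊆
      (univ.filter fun b => b ∉ ({a} : Finset ι) ∧ ∀ j ∈ ({a} : Finset ι), perp (x j) (x b)) := by
    intro b hb
    rw [mem_filter] at hb ⊢
    refine ⟨mem_univ _, ?_, ?_⟩
    · rw [mem_singleton]; exact fun h => hb.2.1 h.symm
    · intro j hj
      rw [mem_singleton] at hj
      subst hj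
      exact hb.2.2
  exact_mod_cast card_le_card this

/-- codegrees of the compatibility graph of a good generic sample. -/
theorem codeg_le (hsym : ∀ P Q, perp P Q → perp Q P) (ρ : ℝ) (x : ι → Om)
    (hgen : ∀ J : Finset ι, J.card ≤ 2 →
      ((univ.filter fun Q => ∀ j ∈ J, perp (x j) Q).card : ℝ) ≤ ρ ^ J.card * Fintype.card Om)
    (hx : ∀ J : Finset ι, 1 ≤ J.card → J.card ≤ 2 →
      ((univ.filter fun Q => ∀ j ∈ J, perp (x j) Q).card : ℝ) ≤ ρ ^ J.card * Fintype.card Om →
      (cntJ perp J x : ℝ) ≤ 2 * ρ ^ J.card * Fintype.card ι) (a c : ι) (hac : a ≠ c) :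
    ((univ.filter fun b => (PG perp hsym x).Adj a b ∧ (PG perp hsym x).Adj b c).card : ℝ) ≤
      2 * ρ ^ 2 * Fintype.card ι := by
  have hc : ({a, c} : Finset ι).card = 2 := card_pair hac
  have h1 := hx {a, c} (by omega) (by omega) (hgen {a, c} (by omega))
  rw [hc] at h1
  refine le_trans ?_ h1
  rw [cntJ]
  have : (univ.filter fun b => (PG perp hsym x).Adj a b ∧ (PG perp hsym x).Adj b c) ⊆
      (univ.filter fun b => b ∉ ({a, c} : Finset ι) ∧ ∀ j ∈ ({a, c} : Finset ι), perp (x j) (x b)) := by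
    intro b hb
    rw [mem_filter] at hb ⊢
    refine ⟨mem_univ _, ?_, ?_⟩
    · rw [mem_insert, mem_singleton]
      rintro (h | h)
      · exact hb.2.1.1 h.symm
      · exact hb.2.2.1 h
    · intro j hj
      rw [mem_insert, mem_singleton] at hj
      rcases hj with rfl | rfl
      · exact hb.2.1.2
      · exact hsym _ _ hb.2.2.2
  exact_mod_cast card_le_card this

end perp

end Crest.Agent.R042.GamS831
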