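import Crest.Agent.R042.Fam_543
import Crest.Agent.R042.Conf_921
import Crest.Agent.R042.Rich_380

/-!
# Row 42 / S0059: the four windows of a conflict in the family of `Fam_543`

`P, R : Bool → Ty` are the types of the two matched pairs, `v, v' : Label × Label` their labels.
`EE` is the dual of the product of the four window spaces, `winX v + winY v'` the 4-tuple of
window differences.  `conf_iff`: all four relations hold iff this 4-tuple is a word quadruple.
-/

set_option autoImplicit false
set_option linter.unusedSectionVars false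

namespace Crest.Agent.R042.LocFam958

open Finset Crest.Agent.R042.RowWin543 Crest.Agent.R042.Fam543 Crest.Agent.R042.Conf921

variable {k0 KK : Type} [Field k0] [Field KK] [Algebra k0 KK] {d kp L : ℕ}

/-- pairs of labels -/
abbrev VV (k0 KK : Type) [Field k0] [Field KK] [Algebra k0 KK] (d kp L : ℕ) :=
  Label k0 KK d kp L × Label k0 KK d kp L

/-- the label of the first (`false`) or second (`true`) vertex -/
def lab (v : VV k0 KK d kp L) (a : Bool) : Label k0 KK d kp L := bif a then v.2 else v.1

@[simp] theorem lab_false (v : VV k0 KK d kp L) : lab v false = v.1 := rfl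
@[simp] theorem lab_true (v : VV k0 KK d kp L) : lab v true = v.2 := rfl

theorem lab_add (v w : VV k0 KK d kp L) (a : Bool) : lab (v + w) a = lab v a + lab w a := by
  cases a <;> rfl

theorem lab_smul (c : k0) (v : VV k0 KK d kp L) (a : Bool) : lab (c • v) a = c • lab v a := by
  cases a <;> rfl

/-- the four window spaces -/
abbrev WW (Q kp : ℕ) (P R : Bool → Ty k0 KK d L) (ab : Bool × Bool) : Type :=
  ↥(UPQ Q kp (P ab.1) (R ab.2))

/-- the product of the four window spaces -/
abbrev TT (Q kp : ℕ) (P R : Bool → Ty k0 KK d L) : Type := ∀ ab, WW Q kp P R ab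

/-- functionals on the product of the four window spaces -/
abbrev EE (Q kp : ℕ) (P R : Bool → Ty k0 KK d L) : Type := Module.Dual k0 (TT Q kp P R)

/-- the general window map: at `ab` the label `lab v (sel ab)` is evaluated at the row `row ab` -/
def win (Q kp : ℕ) (P R : Bool → Ty k0 KK d L) (sel : Bool × Bool → Bool)
    (row : Bool × Bool → U KK d kp L) : VV k0 KK d kp L →ₗ[k0] EE Q kp P R :=
  LinearMap.mk₂ k0 (fun v t => ∑ ab, (lab v (sel ab)).1 (row ab) (t ab : U KK d kp L))
    (by
      intro v w t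
      rw [← sum_add_distrib]
      exact sum_congr rfl fun ab _ => by
        rw [lab_add]; simp)
    (by
      intro c v t
      rw [smul_sum]
      exact sum_congr rfl fun ab _ => by
        rw [lab_smul]; simp)
    (by
      intro v s t
      rw [← sum_add_distrib]
      exact sum_congr rfl fun ab _ => by simp)
    (by
      intro c v t
      rw [smul_sum]
      exact sum_congr rfl fun ab _ => by simp)


/-- windows of the pair with types `P` -/
def winX (Q kp : ℕ) (P R : Bool → Ty k0 KK d L) : VV k0 KK d kp L →ₗ[k0] EE Q kp P R :=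
  win Q kp P R Prod.fst (fun ab => uvec Q kp (R ab.2))

/-- (minus the) windows of the pair with types `R` -/
def winY (Q kp : ℕ) (P R : Bool → Ty k0 KK d L) : VV k0 KK d kp L →ₗ[k0] EE Q kp P R :=
  - win Q kp P R Prod.snd (fun ab => uvec Q kp (P ab.1))

theorem winX_apply (Q kp : ℕ) (P R : Bool → Ty k0 KK d L) (v : VV k0 KK d kp L)
    (t : TT Q kp P R) :
    winX Q kp P R v t = ∑ ab : Bool × Bool,
      (lab v ab.1).1 (uvec Q kp (R ab.2)) (t ab : U KK d kp L) := rfl

theorem winY_apply (Q kp : ℕ) (P R : Bool → Ty k0 KK d L) (v : VV k0 KK d kp L)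
    (t : TT Q kp P R) :
    winY Q kp P R v t = - ∑ ab : Bool × Bool,
      (lab v ab.2).1 (uvec Q kp (P ab.1)) (t ab : U KK d kp L) := rfl

/-- the word quadruple with data `(c, l)` -/
noncomputable def word (Q kp : ℕ) (P R : Bool → Ty k0 KK d L)
    (c : Bool × Bool → k0) (l : Bool × Bool → Fin L) : EE Q kp P R :=
  ∑ ab, c ab • ((tau k0 (KK := KK) (d := d) (kp := kp)).comp
    ((LinearMap.proj (R := k0) (φ := fun _ : Fin L => U0 KK d kp) (l ab)).comp
      ((UPQ Q kp (P ab.1) (R ab.2)).subtype.comp
        (LinearMap.proj (R := k0) (φ := fun ab => WW Q kp P R ab) ab))))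

theorem word_apply (Q kp : ℕ) (P R : Bool → Ty k0 KK d L)
    (c : Bool × Bool → k0) (l : Bool × Bool → Fin L) (t : TT Q kp P R) :
    word Q kp P R c l t = ∑ ab, c ab * tau k0 ((t ab : U KK d kp L) (l ab)) := by
  unfold word
  rw [LinearMap.sum_apply]
  rfl

/-- the set of word quadruples -/
def W4 (K : Set k0) (Q kp : ℕ) (P R : Bool → Ty k0 KK d L) : Set (EE Q kp P R) :=
  {w | ∃ c : Bool × Bool → k0, ∃ l : Bool × Bool → Fin L, (∀ ab, c ab ∈ K) ∧
    w = word Q kp P R c l}

/-- element of the product supported in one window -/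
def one (Q kp : ℕ) (P R : Bool → Ty k0 KK d L) (ab : Bool × Bool) (z : WW Q kp P R ab) :
    TT Q kp P R := Pi.single ab z

/-- all four relations hold iff the 4-tuple of window differences is a word quadruple -/
theorem conf_iff (K : Set k0) (Q kp : ℕ) (P R : Bool → Ty k0 KK d L)
    (hPR : ∀ a b, Perp (P a) (R b)) (v v' : VV k0 KK d kp L) :
    (∀ a b, Rel K Q kp (P a) (R b) (lab v a) (lab v' b)) ↔
      winX Q kp P R v + winY Q kp P R v' ∈ W4 K Q kp P R := by
  constructor
  · intro h
    have h1 : ∀ ab : Bool × Bool, ∃ c ∈ K, ∃ l : Fin L, ∀ z ∈ UPQ Q kp (P ab.1) (R ab.2),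
        (lab v ab.1).1 (uvec Q kp (R ab.2)) z - (lab v' ab.2).1 (uvec Q kp (P ab.1)) z =
          c * tau k0 (z l) := fun ab => (h ab.1 ab.2).2
    choose c hc l hl using h1
    refine ⟨c, l, hc, ?_⟩
    refine LinearMap.ext fun t => ?_
    rw [LinearMap.add_apply, winX_apply, winY_apply, word_apply, ← sub_eq_add_neg,
      ← sum_sub_distrib]
    exact sum_congr rfl fun ab _ => hl ab _ (t ab).2
  · rintro ⟨c, l, hc, h⟩ a b
    refine ⟨hPR a b, c (a, b), hc _, l (a, b), fun z hz => ?_⟩
    have h1 := LinearMap.congr_fun h (one Q kp P R (a, b) ⟨z, hz⟩)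
    rw [LinearMap.add_apply, winX_apply, winY_apply, word_apply, ← sub_eq_add_neg,
      ← sum_sub_distrib, sum_eq_single (a, b), sum_eq_single (a, b)] at h1
    · simpa [one] using h1
    · intro ab _ hab
      simp [one, Pi.single_eq_of_ne hab]
    · intro h; exact absurd (mem_univ _) h
    · intro ab _ hab
      simp [one, Pi.single_eq_of_ne hab]
    · intro h; exact absurd (mem_univ _) h

/-! ### digits -/

section digits

variable [CharP KK 2]

/-- the difference word of a pair of labels over the pair of types `T` -/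
def dlt (Q kp : ℕ) (T : Bool → Ty k0 KK d L) (v : VV k0 KK d kp L) : U KK d kp L → k0 :=
  fun z => (lab v false).1 (uvec Q kp (T true)) z - (lab v true).1 (uvec Q kp (T false)) z

/-- digits of the pair with types `P` -/
def digP (e kp : ℕ) (P R : Bool → Ty k0 KK d L) (hPR : ∀ a b, Perp (P a) (R b))
    (h : Perp (P false) (P true)) (b : Bool) : TT (2 ^ e) kp P R :=
  one (2 ^ e) kp P R (false, b) ⟨uvec (2 ^ e) kp (P true), uvec_mem_UPQ e h (hPR true b).symm⟩ -
    one (2 ^ e) kp P R (true, b) ⟨uvec (2 ^ e) kp (P false),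
      uvec_mem_UPQ e h.symm (hPR false b).symm⟩

/-- digits of the pair with types `R` -/
def digR (e kp : ℕ) (P R : Bool → Ty k0 KK d L) (hPR : ∀ a b, Perp (P a) (R b))
    (h : Perp (R false) (R true)) (a : Bool) : TT (2 ^ e) kp P R :=
  one (2 ^ e) kp P R (a, false) ⟨uvec (2 ^ e) kp (R true), uvec_mem_UPQ e (hPR a true) h⟩ -
    one (2 ^ e) kp P R (a, true) ⟨uvec (2 ^ e) kp (R false),
      uvec_mem_UPQ e (hPR a false) h.symm⟩

theorem sum_one (Q kp : ℕ) (P R : Bool → Ty k0 KK d L) (ab : Bool × Bool)
    (z : WW Q kp P R ab) (F : ∀ ab, WW Q kp P R ab →ₗ[k0] k0) :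
    ∑ ab', F ab' (one Q kp P R ab z ab') = F ab z := by
  rw [sum_eq_single ab]
  · simp [one]
  · intro ab' _ h
    simp [one, Pi.single_eq_of_ne h]
  · intro h; exact absurd (mem_univ _) h

theorem winX_one (Q kp : ℕ) (P R : Bool → Ty k0 KK d L) (v : VV k0 KK d kp L) (ab : Bool × Bool)
    (z : WW Q kp P R ab) :
    winX Q kp P R v (one Q kp P R ab z) = (lab v ab.1).1 (uvec Q kp (R ab.2)) z := by
  rw [winX_apply]
  exact sum_one Q kp P R ab z (fun ab =>
    ((lab v ab.1).1 (uvec Q kp (R ab.2))).comp (UPQ Q kp (P ab.1) (R ab.2)).subtype)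

theorem winY_one (Q kp : ℕ) (P R : Bool → Ty k0 KK d L) (v : VV k0 KK d kp L) (ab : Bool × Bool)
    (z : WW Q kp P R ab) :
    winY Q kp P R v (one Q kp P R ab z) = - (lab v ab.2).1 (uvec Q kp (P ab.1)) z := by
  rw [winY_apply]
  exact congrArg Neg.neg (sum_one Q kp P R ab z (fun ab =>
    ((lab v ab.2).1 (uvec Q kp (P ab.1))).comp (UPQ Q kp (P ab.1) (R ab.2)).subtype))

theorem word_one (Q kp : ℕ) (P R : Bool → Ty k0 KK d L)
    (c : Bool × Bool → k0) (l : Bool × Bool → Fin L) (ab : Bool × Bool)
    (z : WW Q kp P R ab) :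
    word Q kp P R c l (one Q kp P R ab z) = c ab * tau k0 ((z : U KK d kp L) (l ab)) := by
  rw [word_apply]
  exact sum_one Q kp P R ab z (fun ab => c ab • ((tau k0 (KK := KK) (d := d) (kp := kp)).comp
    ((LinearMap.proj (R := k0) (φ := fun _ : Fin L => U0 KK d kp) (l ab)).comp
      ((UPQ Q kp (P ab.1) (R ab.2)).subtype))))

variable {e : ℕ} {P R : Bool → Ty k0 KK d L} (hPR : ∀ a b, Perp (P a) (R b))

theorem winX_digP (h : Perp (P false) (P true)) (b : Bool) (v : VV k0 KK d kp L) :
    winX (2 ^ e) kp P R v (digP e kp P R hPR h b) =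
      dlt (2 ^ e) kp P v (uvec (2 ^ e) kp (R b)) := by
  unfold digP dlt
  rw [map_sub, winX_one, winX_one, (lab v false).2 _ _, (lab v true).2 _ _]

theorem winY_digP (h : Perp (P false) (P true)) (b : Bool) (v : VV k0 KK d kp L) :
    winY (2 ^ e) kp P R v (digP e kp P R hPR h b) = 0 := by
  unfold digP
  rw [map_sub, winY_one, winY_one]
  simp only
  rw [(lab v b).2 (uvec (2 ^ e) kp (P false)) (uvec (2 ^ e) kp (P true))]
  ring

theorem winX_digR (h : Perp (R false) (R true)) (a : Bool) (v : VV k0 KK d kp L) :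
    winX (2 ^ e) kp P R v (digR e kp P R hPR h a) = 0 := by
  unfold digR
  rw [map_sub, winX_one, winX_one]
  simp only
  rw [(lab v a).2 (uvec (2 ^ e) kp (R false)) (uvec (2 ^ e) kp (R true))]
  ring

theorem winY_digR (h : Perp (R false) (R true)) (a : Bool) (v : VV k0 KK d kp L) :
    winY (2 ^ e) kp P R v (digR e kp P R hPR h a) =
      - dlt (2 ^ e) kp R v (uvec (2 ^ e) kp (P a)) := by
  unfold digR dlt
  rw [map_sub, winY_one, winY_one]
  simp only
  rw [(lab v false).2 (uvec (2 ^ e) kp (R true)) _, (lab v true).2 (uvec (2 ^ e) kp (R false)) _]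
  ring

theorem word_digP {K : Set k0} (hP : ∀ a, Valid K (P a)) (h : Perp (P false) (P true)) (b : Bool)
    (c : Bool × Bool → k0) (l : Bool × Bool → Fin L) :
    word (2 ^ e) kp P R c l (digP e kp P R hPR h b) =
      c (false, b) * (P true).E (l (false, b)) - c (true, b) * (P false).E (l (true, b)) := by
  unfold digP
  rw [map_sub, word_one, word_one, tau_uvec (hP true), tau_uvec (hP false)]

theorem word_digR {K : Set k0} (hR : ∀ a, Valid K (R a)) (h : Perp (R false) (R true)) (a : Bool)
    (c : Bool × Bool → k0) (l : Bool × Bool → Fin L) :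
    word (2 ^ e) kp P R c l (digR e kp P R hPR h a) =
      c (a, false) * (R true).E (l (a, false)) - c (a, true) * (R false).E (l (a, true)) := by
  unfold digR
  rw [map_sub, word_one, word_one, tau_uvec (hR true), tau_uvec (hR false)]

/-- the span of the existing digits -/
def Dg (e kp : ℕ) (P R : Bool → Ty k0 KK d L) (hPR : ∀ a b, Perp (P a) (R b)) :
    Submodule k0 (TT (2 ^ e) kp P R) :=
  Submodule.span k0 ({t | ∃ h : Perp (P false) (P true), ∃ b, t = digP e kp P R hPR h b} ∪
    {t | ∃ h : Perp (R false) (R true), ∃ a, t = digR e kp P R hPR h a})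


end digits

/-! ### duality -/

section duality

variable {k V W : Type*} [Field k] [AddCommGroup V] [Module k V] [AddCommGroup W] [Module k W]
  [FiniteDimensional k V] [FiniteDimensional k W]

/-- the vectors of `W` whose functional `v ↦ π v t` lies in `C` -/
def NN (π : V →ₗ[k] Module.Dual k W) (C : Submodule k (Module.Dual k V)) : Submodule k W :=
  C.comap π.flip

theorem mem_NN {π : V →ₗ[k] Module.Dual k W} {C : Submodule k (Module.Dual k V)} {t : W} :
    t ∈ NN π C ↔ π.flip t ∈ C := Iff.rfl



end duality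

end Crest.Agent.R042.LocFam958
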