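import Crest.Agent.R042.CondFree_313
import Crest.Agent.R042.PBDefs_341
import Crest.Agent.R042.SymInst_695
import Mathlib
import Crest.Agent.R042.ConfB_461
import Crest.Agent.R042.PBFam_341
import Crest.Agent.R042.SpecFam_730
import Crest.Agent.R042.Inst_592

-- ▼ part R042/PBMom_253
section

/-!
Row 42, S0059, PLAN B of helper477 (#27828), step (4) MOMENTS (helper253).
`V` = finite space of label pairs, blocks `k : κ` with functional spaces `W k` (the four windows) and
`C k ≤ W k` (the special functionals).  If a law `μ` of bounded density sees the non-special part of the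
blocks of a law `τ`, then relations between `b` random blocks are not rare.
-/

set_option autoImplicit false

namespace Crest.Agent.R042.PBMom253

open Finset Crest.Agent.R042.Conf921 Crest.Agent.R042.KLsup313

section M1

variable {𝓕 κ : Type*} [Fintype 𝓕] [Fintype κ]

open Classical in
/-- **(M1)** the moment inequality -/
theorem moment (τ : κ → ℝ) (hτ : ∀ k, 0 ≤ τ k) (sτ : ∑ k, τ k = 1) (g : κ → 𝓕 → ℝ)
    (hg : ∀ k f, |g k f| ≤ 1) (ν : 𝓕 → ℝ) (hν : ∀ f, 0 ≤ ν f) (sν : ∑ f, ν f = 1) (Ma : ℝ)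
    (hM : ∀ f, ν f * (Fintype.card 𝓕 : ℝ) ≤ Ma) (ε : ℝ) (hε : 0 ≤ ε)
    (hav : ε ≤ ∑ k, τ k * ∑ f, ν f * g k f) (b : ℕ) (hb : Even b) :
    (ε / 2) ^ (b + 1) ≤ Ma * ∑ κs ∈ univ.filter (fun κs : Fin b → κ => ∑ f, ∏ i, g (κs i) f ≠ 0),
      ∏ i, τ (κs i) := by
  set G : 𝓕 → ℝ := fun f => ∑ k, τ k * g k f with hG
  have hG1 : ∀ f, G f ≤ 1 := by
    intro f
    calc G f ≤ ∑ k, τ k * 1 := Finset.sum_le_sum fun k _ =>
          mul_le_mul_of_nonneg_left (abs_le.1 (hg k f)).2 (hτ k)
      _ = 1 := by simp [sτ]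
  have hE : ε ≤ ∑ f, ν f * G f := by
    refine hav.trans (le_of_eq ?_)
    simp only [hG, Finset.mul_sum]
    rw [Finset.sum_comm]
    refine Finset.sum_congr rfl fun f _ => Finset.sum_congr rfl fun k _ => by ring
  have hne : Nonempty 𝓕 := by
    by_contra h
    rw [not_nonempty_iff] at h
    rw [Finset.univ_eq_empty, Finset.sum_empty] at sν
    exact zero_ne_one sν
  have hc : (0 : ℝ) < (Fintype.card 𝓕 : ℝ) := by exact_mod_cast Fintype.card_pos
  have hMa : 0 ≤ Ma := by
    obtain ⟨f⟩ := hne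
    exact (mul_nonneg (hν f) hc.le).trans (hM f)
  -- mass of the large set
  have h2 : ε / 2 ≤ ∑ f, if ε / 2 ≤ G f then ν f else 0 := by
    have h1 : ∑ f, ν f * G f ≤ ∑ f, ((if ε / 2 ≤ G f then ν f else 0) + ν f * (ε / 2)) := by
      refine Finset.sum_le_sum fun f _ => ?_
      split_ifs with h
      · have := mul_le_mul_of_nonneg_left (hG1 f) (hν f)
        have := mul_nonneg (hν f) (by linarith : (0 : ℝ) ≤ ε / 2)
        linarith
      · rw [zero_add]
        exact mul_le_mul_of_nonneg_left (not_le.1 h).le (hν f)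
    rw [Finset.sum_add_distrib, ← Finset.sum_mul, sν] at h1
    linarith
  have h3 : (ε / 2) ^ (b + 1) ≤ ∑ f, ν f * G f ^ b := by
    calc (ε / 2) ^ (b + 1) = (ε / 2) ^ b * (ε / 2) := pow_succ _ _
      _ ≤ (ε / 2) ^ b * ∑ f, if ε / 2 ≤ G f then ν f else 0 :=
          mul_le_mul_of_nonneg_left h2 (pow_nonneg (by linarith) _)
      _ = ∑ f, (ε / 2) ^ b * (if ε / 2 ≤ G f then ν f else 0) := Finset.mul_sum _ _ _
      _ ≤ ∑ f, ν f * G f ^ b := by
          refine Finset.sum_le_sum fun f _ => ?_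
          split_ifs with h
          · rw [mul_comm]
            exact mul_le_mul_of_nonneg_left (pow_le_pow_left₀ (by linarith) h b) (hν f)
          · rw [mul_zero]
            exact mul_nonneg (hν f) (hb.pow_nonneg _)
  have h4 : ∑ f, ν f * G f ^ b ≤ Ma / (Fintype.card 𝓕 : ℝ) * ∑ f, G f ^ b := by
    rw [Finset.mul_sum]
    refine Finset.sum_le_sum fun f _ => mul_le_mul_of_nonneg_right ?_ (hb.pow_nonneg _)
    rw [le_div_iff₀ hc]
    exact hM f
  have h5 : ∑ f, G f ^ b = ∑ κs : Fin b → κ, (∏ i, τ (κs i)) * ∑ f, ∏ i, g (κs i) f := by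
    have : ∀ f, G f ^ b = ∑ κs : Fin b → κ, (∏ i, τ (κs i)) * ∏ i, g (κs i) f := by
      intro f
      have e := Finset.prod_univ_sum (fun _ : Fin b => (univ : Finset κ))
        (fun (_ : Fin b) k => τ k * g k f)
      rw [Finset.prod_const, Finset.card_univ, Fintype.card_fin, Fintype.piFinset_univ] at e
      rw [hG, e]
      exact Finset.sum_congr rfl fun κs _ => Finset.prod_mul_distrib
    simp_rw [this]
    rw [Finset.sum_comm]
    exact Finset.sum_congr rfl fun κs _ => (Finset.mul_sum _ _ _).symm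
  have h6 : ∑ f, G f ^ b ≤ (Fintype.card 𝓕 : ℝ) *
      ∑ κs ∈ univ.filter (fun κs : Fin b → κ => ∑ f, ∏ i, g (κs i) f ≠ 0), ∏ i, τ (κs i) := by
    rw [h5, Finset.sum_filter, Finset.mul_sum]
    refine Finset.sum_le_sum fun κs _ => ?_
    have hp : 0 ≤ ∏ i, τ (κs i) := Finset.prod_nonneg fun i _ => hτ _
    split_ifs with h
    · rw [mul_comm]
      refine mul_le_mul_of_nonneg_right ?_ hp
      calc ∑ f, ∏ i, g (κs i) f ≤ ∑ _f : 𝓕, (1 : ℝ) := by
            refine Finset.sum_le_sum fun f _ => ?_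
            calc ∏ i, g (κs i) f ≤ |∏ i, g (κs i) f| := le_abs_self _
              _ = ∏ i, |g (κs i) f| := Finset.abs_prod _ _
              _ ≤ 1 := Finset.prod_le_one (fun i _ => abs_nonneg _) fun i _ => hg _ _
        _ = (Fintype.card 𝓕 : ℝ) := by simp
    · rw [not_not] at h
      rw [h, mul_zero, mul_zero]
  calc (ε / 2) ^ (b + 1) ≤ ∑ f, ν f * G f ^ b := h3
    _ ≤ Ma / (Fintype.card 𝓕 : ℝ) * ∑ f, G f ^ b := h4
    _ ≤ Ma / (Fintype.card 𝓕 : ℝ) * ((Fintype.card 𝓕 : ℝ) *
      ∑ κs ∈ univ.filter (fun κs : Fin b → κ => ∑ f, ∏ i, g (κs i) f ≠ 0), ∏ i, τ (κs i)) :=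
        mul_le_mul_of_nonneg_left h6 (div_nonneg hMa hc.le)
    _ = _ := by field_simp

end M1

section M2

variable {k V : Type*} [Field k] [AddCommGroup V] [Module k V] [Fintype V]

/-- the common kernel of a space of functionals -/
abbrev ker (W : Submodule k (Module.Dual k V)) : AddSubgroup V := W.dualCoannihilator.toAddSubgroup

omit [Fintype V] in
lemma mem_ker {W : Submodule k (Module.Dual k V)} {v : V} :
    v ∈ ker W ↔ ∀ w ∈ W, w v = 0 := by
  simp only [ker, Submodule.mem_toAddSubgroup, Submodule.mem_dualCoannihilator]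

omit [Fintype V] in
lemma ker_anti {W W' : Submodule k (Module.Dual k V)} (h : W ≤ W') : ker W' ≤ ker W :=
  fun _ hv => mem_ker.2 fun w hw => mem_ker.1 hv w (h hw)

lemma ker_le_sup [Module.Finite k V] {A B C : Submodule k (Module.Dual k V)} (h : A ⊓ B ≤ C) :
    ker C ≤ ker A ⊔ ker B := by
  have h1 : C.dualCoannihilator ≤ A.dualCoannihilator ⊔ B.dualCoannihilator := by
    have e : (A.dualCoannihilator ⊔ B.dualCoannihilator).dualAnnihilator = A ⊓ B := by
      rw [Submodule.dualAnnihilator_sup_eq, Subspace.dualCoannihilator_dualAnnihilator_eq,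
        Subspace.dualCoannihilator_dualAnnihilator_eq]
    have e2 : A.dualCoannihilator ⊔ B.dualCoannihilator = (A ⊓ B).dualCoannihilator := by
      rw [← e, Subspace.dualAnnihilator_dualCoannihilator_eq]
    rw [e2]
    exact Submodule.dualCoannihilator_anti h
  intro v hv
  have hv' : v ∈ A.dualCoannihilator ⊔ B.dualCoannihilator := h1 hv
  obtain ⟨x, hx, y, hy, rfl⟩ := Submodule.mem_sup.1 hv'
  exact AddSubgroup.add_mem _ (AddSubgroup.mem_sup_left hx) (AddSubgroup.mem_sup_right hy)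

/-- **(M2)** zero expectation -/
theorem zero_exp [Module.Finite k V] {ι : Type*} [Fintype ι] [DecidableEq ι]
    (W C : ι → Submodule k (Module.Dual k V)) (g : ι → V → ℝ)
    (hdep : ∀ i f, ∀ h ∈ ker (W i), g i (f + h) = g i f)
    (hcond : ∀ i f, avg (ker (C i)) (g i) f = 0) (i0 : ι)
    (hrel : ∀ w : ι → Module.Dual k V, (∀ i, w i ∈ W i) → ∑ i, w i = 0 → w i0 ∈ C i0) :
    ∑ f, ∏ i, g i f = 0 := by
  classical
  set W' : Submodule k (Module.Dual k V) := ⨆ i ∈ univ.erase i0, W i with hW'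
  have hle : W' ⊓ W i0 ≤ C i0 := by
    rintro w ⟨hw1, hw2⟩
    rw [hW', SetLike.mem_coe, Submodule.mem_iSup_finset_iff_exists_sum] at hw1
    obtain ⟨u, hu⟩ := hw1
    have h := hrel (fun i => if i = i0 then -w else (u i : Module.Dual k V)) ?_ ?_
    · simp only [if_true] at h
      exact (Submodule.neg_mem_iff _).1 h
    · intro i
      by_cases hi : i = i0
      · subst hi
        simp only [if_true]
        exact Submodule.neg_mem _ hw2
      · simp only [if_neg hi]
        exact (u i).2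
    · rw [← Finset.add_sum_erase _ _ (mem_univ i0)]
      simp only [if_true]
      have : ∑ x ∈ univ.erase i0, (if x = i0 then -w else (u x : Module.Dual k V)) = w := by
        rw [← hu]
        refine Finset.sum_congr rfl fun i hi => ?_
        rw [if_neg (Finset.ne_of_mem_erase hi)]
      rw [this, neg_add_cancel]
  have hK : ker (C i0) ≤ ker W' ⊔ ker (W i0) := ker_le_sup hle
  -- the other factors
  set P : V → ℝ := fun f => ∏ i ∈ univ.erase i0, g i f with hP
  have hPinv : ∀ f, ∀ h ∈ ker W', P (f + h) = P f := by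
    intro f h hh
    refine Finset.prod_congr rfl fun i hi => ?_
    refine hdep i f h (ker_anti ?_ hh)
    exact le_iSup₂_of_le i hi le_rfl
  have h1 : ∑ f, ∏ i, g i f = ∑ f, g i0 f * P f := by
    refine Finset.sum_congr rfl fun f _ => ?_
    rw [← Finset.mul_prod_erase _ _ (mem_univ i0)]
  set a := avg (ker W') (g i0) with ha
  have ha0 : ∀ f, a f = 0 := by
    -- a is invariant under ker W' and ker (W i0), hence under ker (C i0)
    have i1 : ∀ x, ∀ h ∈ ker W', a (x + h) = a x := fun x h hh => avg_add _ _ x hh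
    have i2 : ∀ x, ∀ h ∈ ker (W i0), a (x + h) = a x :=
      avg_inv_of_inv _ _ _ (fun x h hh => hdep i0 x h hh)
    have i3 : ∀ x, ∀ h ∈ ker (C i0), a (x + h) = a x := by
      intro x h hh
      obtain ⟨u, hu, v, hv, rfl⟩ := AddSubgroup.mem_sup.1 (hK hh)
      rw [← add_assoc, i2 _ v hv, i1 _ u hu]
    have e1 : ∀ f, avg (ker (C i0)) a f = a f := by
      intro f
      unfold avg
      rw [Finset.sum_congr rfl fun (h : ker (C i0)) _ => i3 f (h : V) h.2, Finset.sum_const,
        Finset.card_univ, nsmul_eq_mul, mul_div_cancel_left₀]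
      exact (card_pos' (ker (C i0))).ne'
    have e2 : avg (ker (C i0)) a = avg (ker W') (avg (ker (C i0)) (g i0)) := by
      rw [ha, avg_avg, avg_avg, sup_comm]
    intro f
    rw [← e1 f, e2]
    have : avg (ker (C i0)) (g i0) = fun _ => 0 := funext (hcond i0)
    rw [this]
    unfold avg
    simp
  have h2 : ∑ f, g i0 f * P f = ∑ f, a f * P f := (sum_avg_mul (ker W') (g i0) P hPinv).symm
  rw [h1, h2]
  simp [ha0]

end M2

section M3

variable {k : Type*} [Field k] [Finite k]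

/-- a proper subspace has at most half of the points -/
lemma two_mul_card_le {A : Type*} [AddCommGroup A] [Fintype A] (S : AddSubgroup A)
    [DecidablePred (· ∈ S)] {v : A} (hv : v ∉ S) :
    Fintype.card A ≤ 2 * (univ.filter (fun x : A => x ∉ S)).card := by
  have h1 : (univ.filter (fun x : A => x ∈ S)).card ≤ (univ.filter (fun x : A => x ∉ S)).card := by
    refine Finset.card_le_card_of_injOn (fun x => x + v) ?_ (fun x _ y _ h => add_right_cancel h)
    intro x hx
    simp only [Finset.coe_filter, mem_univ, true_and, Set.mem_setOf_eq] at hx ⊢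
    refine fun h => hv ?_
    have := S.sub_mem h hx
    simpa using this
  have h2 := Finset.card_filter_add_card_filter_not (s := (univ : Finset A)) (fun x => x ∈ S)
  rw [Finset.card_univ] at h2
  omega

/-- **(M3)** one relation with many non-special components -/
theorem many {ι D : Type*} [Fintype ι] [AddCommGroup D] [Module k D]
    (W C : ι → Submodule k D)
    (hrel : ∀ i0 : ι, ∃ w : ι → D, (∀ i, w i ∈ W i) ∧ ∑ i, w i = 0 ∧ w i0 ∉ C i0) :
    ∃ w : ι → D, (∀ i, w i ∈ W i) ∧ ∑ i, w i = 0 ∧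
      Fintype.card ι ≤ 2 * {i | w i ∉ C i}.ncard := by
  classical
  have := Fintype.ofFinite k
  choose r hr1 hr2 hr3 using hrel
  -- combination with coefficients α
  let L : ι → (ι → k) →ₗ[k] D := fun j => Fintype.linearCombination k (fun i => r i j)
  have hL : ∀ j α, L j α = ∑ i, α i • r i j := fun j α => Fintype.linearCombination_apply _ _ _
  let S : ι → AddSubgroup (ι → k) := fun j => ((C j).comap (L j)).toAddSubgroup
  have hS : ∀ j α, α ∈ S j ↔ L j α ∈ C j := fun j α => Iff.rfl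
  have hcard : ∀ j, Fintype.card (ι → k) ≤ 2 * (univ.filter (fun α : ι → k => α ∉ S j)).card := by
    intro j
    refine two_mul_card_le (S j) (v := Pi.single j 1) ?_
    rw [hS, hL]
    rw [Finset.sum_eq_single j]
    · simpa using hr3 j
    · intro i _ hij
      rw [Pi.single_eq_of_ne hij, zero_smul]
    · intro h; exact absurd (mem_univ _) h
  have hsum : ∑ α : ι → k, (univ.filter (fun j => α ∉ S j)).card
      = ∑ j, (univ.filter (fun α : ι → k => α ∉ S j)).card := by
    simp_rw [Finset.card_filter]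
    exact Finset.sum_comm
  have hex : ∃ α : ι → k, Fintype.card ι ≤ 2 * (univ.filter (fun j => α ∉ S j)).card := by
    by_contra hcon
    push Not at hcon
    have hlt : ∑ α : ι → k, 2 * (univ.filter (fun j => α ∉ S j)).card
        < ∑ _α : ι → k, Fintype.card ι :=
      Finset.sum_lt_sum_of_nonempty univ_nonempty fun α _ => hcon α
    rw [← Finset.mul_sum, hsum, Finset.sum_const, Finset.card_univ, smul_eq_mul,
      Finset.mul_sum] at hlt
    have : ∑ _j : ι, Fintype.card (ι → k)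
        ≤ ∑ j, 2 * (univ.filter (fun α : ι → k => α ∉ S j)).card :=
      Finset.sum_le_sum fun j _ => hcard j
    rw [Finset.sum_const, Finset.card_univ, smul_eq_mul] at this
    rw [mul_comm] at hlt
    omega
  obtain ⟨α, hα⟩ := hex
  refine ⟨fun j => L j α, fun j => ?_, ?_, ?_⟩
  · simp only [hL]
    exact Submodule.sum_mem _ fun i _ => Submodule.smul_mem _ _ (hr1 i j)
  · simp_rw [hL]
    rw [Finset.sum_comm]
    refine Finset.sum_eq_zero fun i _ => ?_
    rw [← Finset.smul_sum, hr2 i, smul_zero]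
  · refine hα.trans (le_of_eq ?_)
    rw [Set.ncard_eq_toFinset_card']
    congr 2
    ext j
    simp [hS]

end M3

section M4

variable {k V : Type*} [Field k] [AddCommGroup V] [Module k V] [Fintype V]





end M4

end Crest.Agent.R042.PBMom253
end

-- ▼ part R042/PBMomBlk_253
section

/-!
Row 42, S0059, PLAN B, step (4) MOMENTS in the letters of PBDefs_341 (helper253).
-/

set_option autoImplicit false

namespace Crest.Agent.R042.PBMom253

open Finset Crest.Agent.R042.Conf921 Crest.Agent.R042.KLsup313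
open Crest.Agent.R042.PB Crest.Agent.R042.RowWin543

section G

variable {k V : Type*} [Field k] [AddCommGroup V] [Module k V] [Fintype V]

open Classical in
/-- (M4) with test functions as hypotheses -/
theorem mom_g [Finite k] [Module.Finite k V] {κ : Type*} [Fintype κ]
    (W C : κ → Submodule k (Module.Dual k V))
    (τ : κ → ℝ) (hτ : ∀ i, 0 ≤ τ i) (sτ : ∑ i, τ i = 1)
    (μ : V → ℝ) (hμ : ∀ f, 0 ≤ μ f) (sμ : ∑ f, μ f = 1) (Ma : ℝ)
    (hM : ∀ f, μ f * (Fintype.card V : ℝ) ≤ Ma) (ε : ℝ) (hε : 0 ≤ ε)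
    (g : κ → V → ℝ) (hg1 : ∀ i f, |g i f| ≤ 1)
    (hgdep : ∀ i f, ∀ h ∈ ker (W i), g i (f + h) = g i f)
    (hgcond : ∀ i f, ∑ u : ker (C i), g i (f + (u : V)) = 0)
    (hav : ε ≤ ∑ i, τ i * ∑ f, μ f * g i f) (b : ℕ) (hb : Even b) :
    (ε / 2) ^ (b + 1) ≤ Ma * ∑ κs ∈ univ.filter (fun κs : Fin b → κ =>
        ∃ w : Fin b → Module.Dual k V, (∀ i, w i ∈ W (κs i)) ∧ ∑ i, w i = 0 ∧
          b ≤ 2 * {i | w i ∉ C (κs i)}.ncard),
      ∏ i, τ (κs i) := by
  have hgc : ∀ i f, avg (ker (C i)) (g i) f = 0 := by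
    intro i f
    unfold avg
    rw [hgcond i f, zero_div]
  have hm := moment τ hτ sτ g hg1 μ hμ sμ Ma hM ε hε hav b hb
  have hMa : 0 ≤ Ma := (mul_nonneg (hμ 0) (Nat.cast_nonneg _)).trans (hM 0)
  refine hm.trans (mul_le_mul_of_nonneg_left ?_ hMa)
  refine Finset.sum_le_sum_of_subset_of_nonneg ?_ (fun κs _ _ => Finset.prod_nonneg fun i _ => hτ _)
  intro κs hκs
  rw [Finset.mem_filter] at hκs ⊢
  refine ⟨mem_univ _, ?_⟩
  have h := many (k := k) (fun i => W (κs i)) (fun i => C (κs i)) ?_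
  · obtain ⟨w, h1, h2, h3⟩ := h
    rw [Fintype.card_fin] at h3
    exact ⟨w, h1, h2, h3⟩
  · intro i0
    by_contra hcon
    push Not at hcon
    exact hκs.2 (zero_exp (fun i => W (κs i)) (fun i => C (κs i)) (fun i => g (κs i))
      (fun i => hgdep (κs i)) (fun i => hgc (κs i)) i0 (fun w h1 h2 => hcon w h1 h2))

end G

section Blocks

variable {k U κ : Type} [Field k] [AddCommGroup U] [Module k U]

/-- the functional `(f, f') ↦ f(u,z₁) + f(u',z₂) + f'(v,z₃) + f'(v',z₄)` -/
noncomputable def Lam (u u' v v' : U) :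
    (U × U × U × U) →ₗ[k] Module.Dual k (SymForm k U × SymForm k U) :=
  LinearMap.mk₂ k (fun z p => (p.1 : U →ₗ[k] U →ₗ[k] k) u z.1 + (p.1 : U →ₗ[k] U →ₗ[k] k) u' z.2.1
      + (p.2 : U →ₗ[k] U →ₗ[k] k) v z.2.2.1 + (p.2 : U →ₗ[k] U →ₗ[k] k) v' z.2.2.2)
    (fun z z' p => by simp only [Prod.fst_add, Prod.snd_add, map_add]; ring)
    (fun c z p => by simp only [Prod.smul_fst, Prod.smul_snd, map_smul, smul_eq_mul]; ring)
    (fun z p p' => by
      simp only [Prod.fst_add, Prod.snd_add, Submodule.coe_add, LinearMap.add_apply]; ring)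
    (fun c z p => by
      simp only [Prod.smul_fst, Prod.smul_snd, Submodule.coe_smul, LinearMap.smul_apply,
        smul_eq_mul]; ring)

lemma Lam_apply (u u' v v' : U) (z : U × U × U × U) (p : SymForm k U × SymForm k U) :
    Lam (k := k) u u' v v' z p = (p.1 : U →ₗ[k] U →ₗ[k] k) u z.1
      + (p.1 : U →ₗ[k] U →ₗ[k] k) u' z.2.1
      + (p.2 : U →ₗ[k] U →ₗ[k] k) v z.2.2.1 + (p.2 : U →ₗ[k] U →ₗ[k] k) v' z.2.2.2 := rfl

/-- functionals of the four windows at the block `e` -/
noncomputable def WW (B B' : Blk k U κ) (e : κ) :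
    Submodule k (Module.Dual k (SymForm k U × SymForm k U)) :=
  ((B.D e).prod ((B.D' e).prod ((B'.D e).prod (B'.D' e)))).map
    (Lam (B.u e) (B.u' e) (B'.u e) (B'.u' e))

/-- special functionals at the block `e` -/
noncomputable def CC (B B' : Blk k U κ) (e : κ) :
    Submodule k (Module.Dual k (SymForm k U × SymForm k U)) :=
  (B.Sp.prod (B.Sp.prod (B'.Sp.prod B'.Sp))).map
    (Lam (B.u e) (B.u' e) (B'.u e) (B'.u' e))

lemma mem_ker_WW (B B' : Blk k U κ) (e : κ) (p : SymForm k U × SymForm k U) :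
    p ∈ ker (WW B B' e) ↔
      (∀ z ∈ B.D e, (p.1 : U →ₗ[k] U →ₗ[k] k) (B.u e) z = 0) ∧
      (∀ z ∈ B.D' e, (p.1 : U →ₗ[k] U →ₗ[k] k) (B.u' e) z = 0) ∧
      (∀ z ∈ B'.D e, (p.2 : U →ₗ[k] U →ₗ[k] k) (B'.u e) z = 0) ∧
      (∀ z ∈ B'.D' e, (p.2 : U →ₗ[k] U →ₗ[k] k) (B'.u' e) z = 0) := by
  rw [mem_ker]
  constructor
  · intro h
    refine ⟨fun z hz => ?_, fun z hz => ?_, fun z hz => ?_, fun z hz => ?_⟩
    · have := h (Lam (B.u e) (B.u' e) (B'.u e) (B'.u' e) (z, 0, 0, 0))
        (Submodule.mem_map_of_mem (by simp [hz]))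
      simpa [Lam_apply] using this
    · have := h (Lam (B.u e) (B.u' e) (B'.u e) (B'.u' e) (0, z, 0, 0))
        (Submodule.mem_map_of_mem (by simp [hz]))
      simpa [Lam_apply] using this
    · have := h (Lam (B.u e) (B.u' e) (B'.u e) (B'.u' e) (0, 0, z, 0))
        (Submodule.mem_map_of_mem (by simp [hz]))
      simpa [Lam_apply] using this
    · have := h (Lam (B.u e) (B.u' e) (B'.u e) (B'.u' e) (0, 0, 0, z))
        (Submodule.mem_map_of_mem (by simp [hz]))
      simpa [Lam_apply] using this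
  · rintro ⟨h1, h2, h3, h4⟩ w ⟨z, hz, rfl⟩
    simp only [SetLike.mem_coe, Submodule.mem_prod] at hz
    rw [Lam_apply, h1 _ hz.1, h2 _ hz.2.1, h3 _ hz.2.2.1, h4 _ hz.2.2.2]
    simp

lemma mem_ker_CC (B B' : Blk k U κ) (e : κ) (p : SymForm k U × SymForm k U) :
    p ∈ ker (CC B B' e) ↔
      (∀ z ∈ B.Sp, (p.1 : U →ₗ[k] U →ₗ[k] k) (B.u e) z = 0) ∧
      (∀ z ∈ B.Sp, (p.1 : U →ₗ[k] U →ₗ[k] k) (B.u' e) z = 0) ∧
      (∀ z ∈ B'.Sp, (p.2 : U →ₗ[k] U →ₗ[k] k) (B'.u e) z = 0) ∧
      (∀ z ∈ B'.Sp, (p.2 : U →ₗ[k] U →ₗ[k] k) (B'.u' e) z = 0) := by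
  rw [mem_ker]
  constructor
  · intro h
    refine ⟨fun z hz => ?_, fun z hz => ?_, fun z hz => ?_, fun z hz => ?_⟩
    · have := h (Lam (B.u e) (B.u' e) (B'.u e) (B'.u' e) (z, 0, 0, 0))
        (Submodule.mem_map_of_mem (by simp [hz]))
      simpa [Lam_apply] using this
    · have := h (Lam (B.u e) (B.u' e) (B'.u e) (B'.u' e) (0, z, 0, 0))
        (Submodule.mem_map_of_mem (by simp [hz]))
      simpa [Lam_apply] using this
    · have := h (Lam (B.u e) (B.u' e) (B'.u e) (B'.u' e) (0, 0, z, 0))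
        (Submodule.mem_map_of_mem (by simp [hz]))
      simpa [Lam_apply] using this
    · have := h (Lam (B.u e) (B.u' e) (B'.u e) (B'.u' e) (0, 0, 0, z))
        (Submodule.mem_map_of_mem (by simp [hz]))
      simpa [Lam_apply] using this
  · rintro ⟨h1, h2, h3, h4⟩ w ⟨z, hz, rfl⟩
    simp only [SetLike.mem_coe, Submodule.mem_prod] at hz
    rw [Lam_apply, h1 _ hz.1, h2 _ hz.2.1, h3 _ hz.2.2.1, h4 _ hz.2.2.2]
    simp

/-- both parts trivial ⇒ special functional -/
lemma mem_CC_of_triv (B B' : Blk k U κ) (e : κ)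
    (z : U × U × U × U) (h1 : Triv B e z.1 z.2.1) (h2 : Triv B' e z.2.2.1 z.2.2.2) :
    Lam (B.u e) (B.u' e) (B'.u e) (B'.u' e) z ∈ CC B B' e := by
  obtain ⟨α, ha1, ha2⟩ := h1
  obtain ⟨β, hb1, hb2⟩ := h2
  refine ⟨(z.1 - α • B.u' e, z.2.1 + α • B.u e, z.2.2.1 - β • B'.u' e, z.2.2.2 + β • B'.u e),
    ?_, ?_⟩
  · simp only [SetLike.mem_coe, Submodule.mem_prod]
    exact ⟨ha1, ha2, hb1, hb2⟩
  · refine LinearMap.ext fun p => ?_
    rw [Lam_apply, Lam_apply]
    have s1 := (mem_symForm (p.1 : U →ₗ[k] U →ₗ[k] k)).1 p.1.2 (B.u e) (B.u' e)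
    have s2 := (mem_symForm (p.2 : U →ₗ[k] U →ₗ[k] k)).1 p.2.2 (B'.u e) (B'.u' e)
    simp only [map_sub, map_add, map_smul, smul_eq_mul]
    rw [s1, s2]
    ring

open scoped Classical in
/-- the PROB sum -/
noncomputable def probSum [Fintype κ] (B : Blk k U κ) (τ : κ → ℝ) (b : ℕ) : ℝ :=
  ∑ e : Fin b → κ with (∃ z z' : Fin b → U, IsRel B e z z' ∧
        b ≤ 4 * (univ.filter fun i => ¬ Triv B (e i) (z i) (z' i)).card), ∏ i, τ (e i)

open scoped Classical in
/-- **MOM for blocks** -/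
theorem mom_blk [Finite k] [Finite U] [Fintype κ]
    (B B' : Blk k U κ)
    (τ : κ → ℝ) (hτ : ∀ e, 0 ≤ τ e) (sτ : ∑ e, τ e = 1)
    (ν : SymForm k U × SymForm k U → ℝ) (hν : ∀ f, 0 ≤ ν f) (sν : ∑ f, ν f = 1) (Ma : ℝ)
    (hM : ∀ f, ν f * (Fintype.card (SymForm k U × SymForm k U) : ℝ) ≤ Ma) (ε : ℝ) (hε : 0 ≤ ε)
    (g : κ → SymForm k U × SymForm k U → ℝ) (hg1 : ∀ e f, |g e f| ≤ 1)
    (hgdep : ∀ e f, ∀ h ∈ ker (WW B B' e), g e (f + h) = g e f)
    (hgcond : ∀ e f, ∑ u : ker (CC B B' e), g e (f + (u : SymForm k U × SymForm k U)) = 0)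
    (hav : ε ≤ ∑ e, τ e * ∑ f, ν f * g e f) (b : ℕ) (hb : Even b) :
    (ε / 2) ^ (b + 1) ≤ Ma * (probSum B τ b + probSum B' τ b) := by
  have hfin : Module.Finite k (SymForm k U × SymForm k U) := Module.Finite.of_finite
  have hm := mom_g (k := k) (WW B B') (CC B B') τ hτ sτ ν hν sν Ma hM ε hε g hg1 hgdep hgcond hav
    b hb
  have hMa : 0 ≤ Ma := (mul_nonneg (hν 0) (Nat.cast_nonneg _)).trans (hM 0)
  refine hm.trans (mul_le_mul_of_nonneg_left ?_ hMa)
  unfold probSum
  have hp : ∀ e : Fin b → κ, 0 ≤ ∏ i, τ (e i) := fun e => Finset.prod_nonneg fun i _ => hτ _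
  refine le_trans ?_ (Finset.sum_union_inter (f := fun e : Fin b → κ => ∏ i, τ (e i))).le
  refine le_trans ?_ (le_add_of_nonneg_right (Finset.sum_nonneg fun e _ => hp e))
  refine Finset.sum_le_sum_of_subset_of_nonneg ?_ (fun e _ _ => hp e)
  intro e he
  rw [Finset.mem_filter] at he
  obtain ⟨-, w, hw1, hw2, hw3⟩ := he
  choose z hz1 hz2 using hw1
  simp only [SetLike.mem_coe, Submodule.mem_prod] at hz1
  have hrel1 : IsRel B e (fun i => (z i).1) (fun i => (z i).2.1) := by
    refine ⟨fun i => (hz1 i).1, fun i => (hz1 i).2.1, fun f hf => ?_⟩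
    have h := congrArg (fun φ : Module.Dual k (SymForm k U × SymForm k U) =>
      φ ((⟨f, hf⟩ : SymForm k U), (0 : SymForm k U))) hw2
    simp only [LinearMap.sum_apply, LinearMap.zero_apply] at h
    rw [← h]
    refine Finset.sum_congr rfl fun i _ => ?_
    rw [← hz2 i, Lam_apply]
    simp
  have hrel2 : IsRel B' e (fun i => (z i).2.2.1) (fun i => (z i).2.2.2) := by
    refine ⟨fun i => (hz1 i).2.2.1, fun i => (hz1 i).2.2.2, fun f hf => ?_⟩
    have h := congrArg (fun φ : Module.Dual k (SymForm k U × SymForm k U) =>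
      φ ((0 : SymForm k U), (⟨f, hf⟩ : SymForm k U))) hw2
    simp only [LinearMap.sum_apply, LinearMap.zero_apply] at h
    rw [← h]
    refine Finset.sum_congr rfl fun i _ => ?_
    rw [← hz2 i, Lam_apply]
    simp
  set S1 := univ.filter fun i => ¬ Triv B (e i) (z i).1 (z i).2.1 with hS1
  set S2 := univ.filter fun i => ¬ Triv B' (e i) (z i).2.2.1 (z i).2.2.2 with hS2
  have hsub : {i | w i ∉ CC B B' (e i)} ⊆ ((S1 ∪ S2 : Finset (Fin b)) : Set (Fin b)) := by
    intro i hi
    rw [Finset.mem_coe, Finset.mem_union, hS1, hS2, Finset.mem_filter, Finset.mem_filter]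
    by_contra hcon
    push Not at hcon
    apply hi
    have t1 := hcon.1 (mem_univ _)
    have t2 := hcon.2 (mem_univ _)
    rw [← hz2 i]
    exact mem_CC_of_triv B B' (e i) (z i) t1 t2
  have hcard : {i | w i ∉ CC B B' (e i)}.ncard ≤ S1.card + S2.card := by
    calc {i | w i ∉ CC B B' (e i)}.ncard ≤ ((S1 ∪ S2 : Finset (Fin b)) : Set (Fin b)).ncard :=
          Set.ncard_le_ncard hsub (Finset.finite_toSet _)
      _ = (S1 ∪ S2).card := Set.ncard_coe_finset _
      _ ≤ _ := Finset.card_union_le _ _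
  rw [Finset.mem_union, Finset.mem_filter, Finset.mem_filter]
  have hor : b ≤ 4 * S1.card ∨ b ≤ 4 * S2.card := by omega
  rcases hor with h | h
  · exact Or.inl ⟨mem_univ _, _, _, hrel1, h⟩
  · exact Or.inr ⟨mem_univ _, _, _, hrel2, h⟩

open scoped Classical in
/-- **MOM + PROB** -/
theorem mom_prob {q h m : ℕ} (hP : ProbStmt q h m) : ∃ b C : ℕ, Even b ∧ 0 < b ∧
    ∀ (k U κ : Type) [Field k] [Fintype k] [AddCommGroup U] [Module k U] [Fintype U] [Fintype κ]
      (B B' : Blk k U κ) (τ : κ → ℝ) (δ : ℝ), Fintype.card k = q → 0 ≤ δ → δ ≤ 1 →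
      Hyp B τ δ → Hyp B' τ δ →
      ∀ (ν : SymForm k U × SymForm k U → ℝ), (∀ f, 0 ≤ ν f) → ∑ f, ν f = 1 → ∀ (Ma : ℝ),
      (∀ f, ν f * (Fintype.card (SymForm k U × SymForm k U) : ℝ) ≤ Ma) → ∀ (ε : ℝ), 0 ≤ ε →
      ∀ (g : κ → SymForm k U × SymForm k U → ℝ), (∀ e f, |g e f| ≤ 1) →
      (∀ e f, ∀ h ∈ ker (WW B B' e), g e (f + h) = g e f) →
      (∀ e f, ∑ u : ker (CC B B' e), g e (f + (u : SymForm k U × SymForm k U)) = 0) →
      ε ≤ ∑ e, τ e * ∑ f, ν f * g e f →
      (ε / 2) ^ (b + 1) ≤ Ma * (2 * ((C : ℝ) * (δ ^ h + (Fintype.card U : ℝ) ^ (2 * h + 2) * δ ^ m)))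
      := by
  obtain ⟨b, C, hb, hb0, hmain⟩ := hP
  refine ⟨b, C, hb, hb0, ?_⟩
  intro k U κ _ _ _ _ _ _ B B' τ δ hq hδ0 hδ1 hB hB' ν hν sν Ma hM ε hε g hg1 hgd hgc hav
  have h1 := mom_blk B B' τ hB.nonneg hB.sum ν hν sν Ma hM ε hε g hg1 hgd hgc hav b hb
  have hMa : 0 ≤ Ma := (mul_nonneg (hν 0) (Nat.cast_nonneg _)).trans (hM 0)
  refine h1.trans (mul_le_mul_of_nonneg_left ?_ hMa)
  have e1 : probSum B τ b ≤
      (C : ℝ) * (δ ^ h + (Fintype.card U : ℝ) ^ (2 * h + 2) * δ ^ m) := by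
    unfold probSum
    convert hmain k U κ B τ δ hq hδ0 hδ1 hB
  have e2 : probSum B' τ b ≤
      (C : ℝ) * (δ ^ h + (Fintype.card U : ℝ) ^ (2 * h + 2) * δ ^ m) := by
    unfold probSum
    convert hmain k U κ B' τ δ hq hδ0 hδ1 hB'
  linarith

end Blocks

end Crest.Agent.R042.PBMom253
end

-- ▼ part R042/PBSD_895
section

/-!
# PLAN B of S0059: special density (helper341 #28160 (e), #28307 SD)

`V` finite label group, `S e : V →+ W e` the special windows.  `Bad e`: the law of `S e` under `ν`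
has density `> K₀` on a set of `ν`-mass `≥ η`.  If `N` blocks are bad and the joint window map is
onto, then `η / 2 ≤ M * 2 ^ N / K₀ ^ m` for every `m ≤ η N / 2`.
-/

namespace Crest.Agent.R042.PBSD895

open Finset





/-- equal fibres of a surjective homomorphism: number of points mapped to a product set -/
theorem card_preimage {V : Type*} [AddCommGroup V] [Fintype V] [DecidableEq V] {N : ℕ}
    {W : Fin N → Type*} [∀ i, AddCommGroup (W i)] [∀ i, Fintype (W i)] [∀ i, DecidableEq (W i)]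
    (S : ∀ i, V →+ W i) (hS : Function.Surjective fun v i => S i v) (B : ∀ i, Finset (W i)) :
    ((univ.filter fun v => ∀ i, S i v ∈ B i).card : ℝ) * ∏ i, (Fintype.card (W i) : ℝ)
      = Fintype.card V * ∏ i, ((B i).card : ℝ) := by
  classical
  set T : V →+ (∀ i, W i) := AddMonoidHom.pi S with hT
  have hT' : Function.Surjective T := hS
  -- all fibres have the same size
  have hfib : ∀ w : ∀ i, W i, (univ.filter fun v => T v = w).card
      = (univ.filter fun v => T v = 0).card := by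
    intro w
    obtain ⟨v0, hv0⟩ := hT' w
    refine Finset.card_bij (fun v _ => v - v0) ?_ ?_ ?_
    · intro v hv
      simp only [mem_filter, mem_univ, true_and] at hv ⊢
      rw [map_sub, hv, hv0, sub_self]
    · intro v _ v' _ h
      exact sub_left_injective h
    · intro v hv
      refine ⟨v + v0, ?_, by simp⟩
      simp only [mem_filter, mem_univ, true_and] at hv ⊢
      rw [map_add, hv, hv0, zero_add]
  have hcount : ∀ A : Finset (∀ i, W i), (univ.filter fun v => T v ∈ A).card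
      = A.card * (univ.filter fun v => T v = 0).card := by
    intro A
    rw [Finset.card_eq_sum_card_fiberwise (f := T) (t := A)
      (fun v hv => by simpa using hv)]
    rw [Finset.sum_congr rfl (g := fun _ => (univ.filter fun v => T v = 0).card)]
    · simp
    · intro w hw
      rw [← hfib w]
      congr 1
      ext v
      simp only [mem_filter, mem_univ, true_and]
      constructor
      · rintro ⟨_, h⟩; exact h
      · rintro rfl; exact ⟨hw, rfl⟩
  have h1 : (univ.filter fun v => ∀ i, S i v ∈ B i).card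
      = (∏ i, (B i).card) * (univ.filter fun v => T v = 0).card := by
    rw [← Fintype.card_piFinset, ← hcount]
    congr 1
    ext v
    simp [hT, Fintype.mem_piFinset]
  have h2 : Fintype.card V = (∏ i, Fintype.card (W i)) * (univ.filter fun v => T v = 0).card := by
    have := hcount univ
    simpa using this
  rw [h1, h2]
  push_cast
  ring


/-- the points with `S i v ∈ B i` for all `i ∈ A` -/
theorem card_preimage_le {V : Type*} [AddCommGroup V] [Fintype V] [DecidableEq V] {N : ℕ}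
    {W : Fin N → Type*} [∀ i, AddCommGroup (W i)] [∀ i, Fintype (W i)] [∀ i, DecidableEq (W i)]
    (S : ∀ i, V →+ W i) (hS : Function.Surjective fun v i => S i v) (B : ∀ i, Finset (W i))
    (K₀ : ℝ) (hK : 0 < K₀) (hB : ∀ i, K₀ * (B i).card ≤ Fintype.card (W i)) (A : Finset (Fin N)) :
    ((univ.filter fun v => ∀ i ∈ A, S i v ∈ B i).card : ℝ) * K₀ ^ A.card ≤ Fintype.card V := by
  classical
  set B' : ∀ i, Finset (W i) := fun i => if i ∈ A then B i else univ with hB'
  have h1 := card_preimage S hS B'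
  have h2 : (univ.filter fun v => ∀ i, S i v ∈ B' i) = univ.filter fun v => ∀ i ∈ A, S i v ∈ B i := by
    ext v
    simp only [mem_filter, mem_univ, true_and, hB']
    refine forall_congr' fun i => ?_
    by_cases hi : i ∈ A <;> simp [hi]
  rw [h2] at h1
  have hWpos : ∀ i, (0 : ℝ) < Fintype.card (W i) := fun i => by
    exact_mod_cast Fintype.card_pos
  have hP : 0 < ∏ i, (Fintype.card (W i) : ℝ) := Finset.prod_pos fun i _ => hWpos i
  have h3 : (∏ i, ((B' i).card : ℝ)) * K₀ ^ A.card ≤ ∏ i, (Fintype.card (W i) : ℝ) := by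
    have e1 : K₀ ^ A.card = ∏ i, (if i ∈ A then K₀ else 1) := by
      rw [Finset.prod_ite_mem, Finset.univ_inter, Finset.prod_const]
    rw [e1, ← Finset.prod_mul_distrib]
    refine Finset.prod_le_prod (fun i _ => ?_) (fun i _ => ?_)
    · by_cases hi : i ∈ A
      · simp only [hi, if_true]; positivity
      · simp only [hi, if_false]; positivity
    · by_cases hi : i ∈ A
      · simp only [hB', hi, if_true]
        rw [mul_comm]; exact hB i
      · simp [hB', hi]
  have hcV : (0 : ℝ) ≤ Fintype.card V := by positivity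
  have h4 : (((univ.filter fun v => ∀ i ∈ A, S i v ∈ B i).card : ℝ) * K₀ ^ A.card)
      * ∏ i, (Fintype.card (W i) : ℝ) ≤ Fintype.card V * ∏ i, (Fintype.card (W i) : ℝ) := by
    calc (((univ.filter fun v => ∀ i ∈ A, S i v ∈ B i).card : ℝ) * K₀ ^ A.card)
          * ∏ i, (Fintype.card (W i) : ℝ)
        = (((univ.filter fun v => ∀ i ∈ A, S i v ∈ B i).card : ℝ)
          * ∏ i, (Fintype.card (W i) : ℝ)) * K₀ ^ A.card := by ring
      _ = Fintype.card V * ((∏ i, ((B' i).card : ℝ)) * K₀ ^ A.card) := by rw [h1]; ring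
      _ ≤ Fintype.card V * ∏ i, (Fintype.card (W i) : ℝ) := mul_le_mul_of_nonneg_left h3 hcV
  exact le_of_mul_le_mul_right h4 hP


end Crest.Agent.R042.PBSD895
end

-- ▼ part R042/PBSDSub_895
section

/-!
# PLAN B of S0059: SD in the set / submodule form of helper341 (#28470)
-/

namespace Crest.Agent.R042.PBSD895

open Finset

open Classical in
/-- sets which are unions of fibres of jointly surjective homomorphisms are independent -/
theorem card_inter_le {V : Type*} [AddCommGroup V] [Fintype V] {N : ℕ}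
    {W : Fin N → Type*} [∀ i, AddCommGroup (W i)] [∀ i, Fintype (W i)]
    (S : ∀ i, V →+ W i) (hS : Function.Surjective fun v i => S i v)
    (D : Fin N → Finset V) (hD : ∀ i v v', S i v = S i v' → v ∈ D i → v' ∈ D i)
    (K₀ : ℝ) (hK : 0 < K₀) (hDc : ∀ i, K₀ * (D i).card ≤ Fintype.card V) (A : Finset (Fin N)) :
    ((univ.filter fun v => ∀ i ∈ A, v ∈ D i).card : ℝ) * K₀ ^ A.card ≤ Fintype.card V := by
  set B : ∀ i, Finset (W i) := fun i => (D i).image (S i) with hB
  have hmem : ∀ i v, S i v ∈ B i ↔ v ∈ D i := by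
    intro i v
    simp only [hB, mem_image]
    constructor
    · rintro ⟨v', hv', h⟩; exact hD i v' v h hv'
    · intro h; exact ⟨v, h, rfl⟩
  have hV : (0 : ℝ) < Fintype.card V := by
    have : Nonempty V := ⟨0⟩
    exact_mod_cast Fintype.card_pos
  have hBc : ∀ i, K₀ * (B i).card ≤ Fintype.card (W i) := by
    intro i
    -- use the product formula with the single index i
    have h1 := card_preimage S hS (fun j => if j = i then B j else univ)
    have h2 : (univ.filter fun v => ∀ j, S j v ∈ (if j = i then B j else univ : Finset (W j)))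
        = D i := by
      ext v
      simp only [mem_filter, mem_univ, true_and]
      constructor
      · intro h
        have := h i
        rw [if_pos rfl] at this
        exact (hmem i v).1 this
      · intro h j
        by_cases hj : j = i
        · subst hj; rw [if_pos rfl]; exact (hmem j v).2 h
        · rw [if_neg hj]; exact mem_univ _
    rw [h2] at h1
    have hWpos : ∀ i, (0 : ℝ) < Fintype.card (W i) := fun i => by
      exact_mod_cast Fintype.card_pos
    have e1 : ∏ j, (Fintype.card (W j) : ℝ)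
        = Fintype.card (W i) * ∏ j ∈ univ.erase i, (Fintype.card (W j) : ℝ) :=
      (Finset.mul_prod_erase univ _ (mem_univ i)).symm
    have e2 : ∏ j, (((if j = i then B j else univ : Finset (W j)).card : ℕ) : ℝ)
        = (B i).card * ∏ j ∈ univ.erase i, (Fintype.card (W j) : ℝ) := by
      rw [← Finset.mul_prod_erase univ _ (mem_univ i)]
      congr 1
      · rw [if_pos rfl]
      · refine Finset.prod_congr rfl fun j hj => ?_
        rw [if_neg (Finset.ne_of_mem_erase hj), Finset.card_univ]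
    have hP : 0 < ∏ j ∈ univ.erase i, (Fintype.card (W j) : ℝ) :=
      Finset.prod_pos fun j _ => hWpos j
    have h3 : ((D i).card : ℝ) * Fintype.card (W i) = Fintype.card V * (B i).card := by
      have : ((D i).card : ℝ) * Fintype.card (W i) * ∏ j ∈ univ.erase i, (Fintype.card (W j) : ℝ)
          = Fintype.card V * (B i).card * ∏ j ∈ univ.erase i, (Fintype.card (W j) : ℝ) := by
        have := h1
        rw [e1, e2] at this
        linarith
      exact mul_right_cancel₀ hP.ne' this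
    have h4 : Fintype.card V * (K₀ * (B i).card) ≤ Fintype.card V * (Fintype.card (W i) : ℝ) := by
      calc Fintype.card V * (K₀ * (B i).card) = K₀ * (Fintype.card V * (B i).card) := by ring
        _ = K₀ * ((D i).card * Fintype.card (W i)) := by rw [h3]
        _ = (K₀ * (D i).card) * Fintype.card (W i) := by ring
        _ ≤ Fintype.card V * Fintype.card (W i) :=
            mul_le_mul_of_nonneg_right (hDc i) (hWpos i).le
    exact le_of_mul_le_mul_left h4 hV
  have h := card_preimage_le S hS B K₀ hK hBc A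
  have e : (univ.filter fun v => ∀ i ∈ A, S i v ∈ B i) = univ.filter fun v => ∀ i ∈ A, v ∈ D i := by
    ext v
    simp only [mem_filter, mem_univ, true_and, hmem]
  rwa [e] at h

open Classical in
/-- the Markov / union bound step for sets satisfying the product bound -/
theorem sd_core {V : Type*} [Fintype V] {N : ℕ} (hN : 0 < N) (D : Fin N → Finset V)
    (K₀ : ℝ) (hK : 0 < K₀)
    (hprod : ∀ A : Finset (Fin N),
      ((univ.filter fun v => ∀ i ∈ A, v ∈ D i).card : ℝ) * K₀ ^ A.card ≤ Fintype.card V)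
    (ν : V → ℝ) (h0 : ∀ v, 0 ≤ ν v) (h1 : ∑ v, ν v = 1)
    (M : ℝ) (hν : ∀ v, ν v * Fintype.card V ≤ M) (η : ℝ) (hη : 0 ≤ η)
    (hbad : ∀ i, η ≤ ∑ v ∈ D i, ν v) (m : ℕ) (hm : (m : ℝ) ≤ η * N / 2 + 1) :
    η / 2 ≤ M * 2 ^ N / K₀ ^ m := by
  have hne : Nonempty V := by
    by_contra h
    rw [not_nonempty_iff] at h
    simp at h1
  have hV : (0 : ℝ) < Fintype.card V := by exact_mod_cast Fintype.card_pos
  have hM0 : 0 ≤ M := by
    obtain ⟨v⟩ := hne
    exact le_trans (mul_nonneg (h0 v) hV.le) (hν v)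
  have hNr : (0 : ℝ) < N := by exact_mod_cast hN
  set cnt : V → ℕ := fun v => (univ.filter fun i => v ∈ D i).card with hcnt
  set G : Finset V := univ.filter fun v => m ≤ cnt v with hG
  have hdc : ∑ v, ν v * cnt v = ∑ i, ∑ v ∈ D i, ν v := by
    have e1 : ∀ v, ν v * cnt v = ∑ i, (if v ∈ D i then ν v else 0) := by
      intro v
      rw [← Finset.sum_filter, Finset.sum_const, nsmul_eq_mul, mul_comm]
    simp only [e1]
    rw [Finset.sum_comm]
    refine Finset.sum_congr rfl fun i _ => ?_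
    rw [Finset.sum_ite_mem, Finset.univ_inter]
  have hlow : η * N ≤ ∑ v, ν v * cnt v := by
    rw [hdc]
    calc η * N = ∑ _i : Fin N, η := by simp [mul_comm]
      _ ≤ _ := Finset.sum_le_sum fun i _ => hbad i
  have hcntN : ∀ v, (cnt v : ℝ) ≤ N := by
    intro v
    have : cnt v ≤ N := (Finset.card_le_univ _).trans_eq (Fintype.card_fin N)
    exact_mod_cast this
  have hηN : 0 ≤ η * N / 2 := by positivity
  have hup : ∑ v, ν v * cnt v ≤ N * ∑ v ∈ G, ν v + η * N / 2 := by
    rw [← Finset.sum_filter_add_sum_filter_not univ (fun v => m ≤ cnt v)]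
    refine add_le_add ?_ ?_
    · rw [Finset.mul_sum]
      refine Finset.sum_le_sum fun v _ => ?_
      rw [mul_comm (N : ℝ)]
      exact mul_le_mul_of_nonneg_left (hcntN v) (h0 v)
    · calc ∑ v ∈ univ.filter (fun v => ¬ m ≤ cnt v), ν v * cnt v
          ≤ ∑ v ∈ univ.filter (fun v => ¬ m ≤ cnt v), ν v * (η * N / 2) := by
            refine Finset.sum_le_sum fun v hv => mul_le_mul_of_nonneg_left ?_ (h0 v)
            have h2 : cnt v + 1 ≤ m := by
              have := (mem_filter.mp hv).2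
              omega
            have h3 : (cnt v : ℝ) + 1 ≤ m := by exact_mod_cast h2
            linarith
        _ = (∑ v ∈ univ.filter (fun v => ¬ m ≤ cnt v), ν v) * (η * N / 2) := by
            rw [Finset.sum_mul]
        _ ≤ 1 * (η * N / 2) := by
            refine mul_le_mul_of_nonneg_right ?_ hηN
            rw [← h1]
            exact Finset.sum_le_sum_of_subset_of_nonneg (Finset.subset_univ _)
              (fun v _ _ => h0 v)
        _ = η * N / 2 := one_mul _
  have hνG : η / 2 ≤ ∑ v ∈ G, ν v := by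
    have : η / 2 * N ≤ (∑ v ∈ G, ν v) * N := by nlinarith
    exact le_of_mul_le_mul_right this hNr
  have hνG2 : ∑ v ∈ G, ν v ≤ M * (G.card : ℝ) / Fintype.card V := by
    rw [le_div_iff₀ hV, Finset.sum_mul]
    calc ∑ v ∈ G, ν v * Fintype.card V ≤ ∑ _v ∈ G, M := Finset.sum_le_sum fun v _ => hν v
      _ = M * G.card := by rw [Finset.sum_const, nsmul_eq_mul, mul_comm]
  have hGsub : G ⊆ (powersetCard m (univ : Finset (Fin N))).biUnion
      fun A => univ.filter fun v => ∀ i ∈ A, v ∈ D i := by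
    intro v hv
    have hv' : m ≤ cnt v := (mem_filter.mp hv).2
    obtain ⟨A, hA, hAc⟩ := Finset.exists_subset_card_eq hv'
    rw [mem_biUnion]
    refine ⟨A, mem_powersetCard.mpr ⟨subset_univ _, hAc⟩, ?_⟩
    rw [mem_filter]
    exact ⟨mem_univ _, fun i hi => (mem_filter.mp (hA hi)).2⟩
  have hKm : 0 < K₀ ^ m := pow_pos hK m
  have hGcard : (G.card : ℝ) ≤ 2 ^ N * (Fintype.card V / K₀ ^ m) := by
    calc (G.card : ℝ) ≤ ∑ A ∈ powersetCard m (univ : Finset (Fin N)),
          ((univ.filter fun v => ∀ i ∈ A, v ∈ D i).card : ℝ) := by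
          have := (Finset.card_le_card hGsub).trans Finset.card_biUnion_le
          exact_mod_cast this
      _ ≤ ∑ A ∈ powersetCard m (univ : Finset (Fin N)), (Fintype.card V / K₀ ^ m : ℝ) := by
          refine Finset.sum_le_sum fun A hA => ?_
          rw [le_div_iff₀ hKm]
          have h := hprod A
          rw [(mem_powersetCard.mp hA).2] at h
          exact h
      _ = ((powersetCard m (univ : Finset (Fin N))).card : ℝ) * (Fintype.card V / K₀ ^ m) := by
          rw [Finset.sum_const, nsmul_eq_mul]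
      _ ≤ 2 ^ N * (Fintype.card V / K₀ ^ m) := by
          refine mul_le_mul_of_nonneg_right ?_ (by positivity)
          have : (powersetCard m (univ : Finset (Fin N))).card ≤ 2 ^ N := by
            calc (powersetCard m (univ : Finset (Fin N))).card
                ≤ (univ : Finset (Fin N)).powerset.card :=
                  Finset.card_le_card (fun A _ => Finset.mem_powerset.mpr (Finset.subset_univ A))
              _ = 2 ^ N := by rw [Finset.card_powerset, Finset.card_univ, Fintype.card_fin]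
          exact_mod_cast this
  calc η / 2 ≤ M * (G.card : ℝ) / Fintype.card V := hνG.trans hνG2
    _ ≤ M * (2 ^ N * (Fintype.card V / K₀ ^ m)) / Fintype.card V := by
        refine div_le_div_of_nonneg_right ?_ hV.le
        exact mul_le_mul_of_nonneg_left hGcard hM0
    _ = M * 2 ^ N / K₀ ^ m := by field_simp

/-- jointly surjective evaluation maps from independent spaces of functionals -/
theorem eval_surjective {k V : Type*} [Field k] [AddCommGroup V] [Module k V]
    [FiniteDimensional k V] {N : ℕ} (C : Fin N → Submodule k (Module.Dual k V))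
    (hC : ∀ c : ∀ i, C i, ∑ i, (c i : Module.Dual k V) = 0 → ∀ i, c i = 0) :
    Function.Surjective fun (v : V) (i : Fin N) =>
      ((C i).subtype.dualMap (Module.Dual.eval k V v) : Module.Dual k (C i)) := by
  classical
  set T : V →ₗ[k] (∀ i, Module.Dual k (C i)) :=
    LinearMap.pi fun i => (C i).subtype.dualMap ∘ₗ Module.Dual.eval k V with hT
  have hTs : Function.Surjective T := by
    rw [← LinearMap.range_eq_top]
    by_contra hne
    obtain ⟨φ, hφ0, hφ⟩ := Submodule.exists_le_ker_of_lt_top _ (lt_top_iff_ne_top.mpr hne)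
    have hfin : ∀ i, Module.Finite k (C i) := fun i => inferInstance
    have hfree : ∀ i, Module.Free k (C i) := fun i => Module.Free.of_divisionRing k (C i)
    -- φ on the i-th factor is evaluation at some element of C i
    have hi : ∀ i, ∃ c : C i, ∀ x : Module.Dual k (C i), φ (Pi.single i x) = x c := by
      intro i
      obtain ⟨c, hc⟩ := (Module.evalEquiv k (C i)).surjective (φ ∘ₗ LinearMap.single k (fun i => Module.Dual k (C i)) i)
      refine ⟨c, fun x => ?_⟩
      have := congrArg (fun ψ => ψ x) hc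
      simpa using this.symm
    choose c hc using hi
    have hφx : ∀ x : (∀ i, Module.Dual k (C i)), φ x = ∑ i, x i (c i) := by
      intro x
      conv_lhs => rw [← Finset.univ_sum_single x]
      rw [map_sum]
      exact Finset.sum_congr rfl fun i _ => hc i (x i)
    have hsum : ∑ i, (c i : Module.Dual k V) = 0 := by
      ext v
      have h1 : φ (T v) = 0 := hφ ⟨v, rfl⟩
      rw [hφx] at h1
      simpa [hT] using h1
    have hc0 := hC c hsum
    apply hφ0
    ext x
    simp only [LinearMap.coe_comp, Function.comp_apply, LinearMap.zero_apply]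
    rw [hφx]
    simp [hc0]
  exact hTs


open Classical in
/-- **SD** in the form of helper341 #28470. -/
theorem sd_sub {k V : Type*} [Field k] [Finite k] [AddCommGroup V] [Module k V] [Fintype V]
    [FiniteDimensional k V] {N : ℕ} (hN : 0 < N)
    (C : Fin N → Submodule k (Module.Dual k V))
    (hC : ∀ c : ∀ i, C i, ∑ i, (c i : Module.Dual k V) = 0 → ∀ i, c i = 0)
    (D : Fin N → Finset V)
    (hD : ∀ i v v', (∀ c ∈ C i, c v = c v') → v ∈ D i → v' ∈ D i)
    (K₀ : ℝ) (hK : 0 < K₀) (hDc : ∀ i, K₀ * (D i).card ≤ Fintype.card V)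
    (ν : V → ℝ) (h0 : ∀ v, 0 ≤ ν v) (h1 : ∑ v, ν v = 1)
    (M : ℝ) (hν : ∀ v, ν v * Fintype.card V ≤ M) (η : ℝ) (hη : 0 ≤ η)
    (hbad : ∀ i, η ≤ ∑ v ∈ D i, ν v) (m : ℕ) (hm : (m : ℝ) ≤ η * N / 2 + 1) :
    η / 2 ≤ M * 2 ^ N / K₀ ^ m := by
  have hfin : ∀ i, Finite (Module.Dual k (C i)) := fun i => Module.finite_of_finite k
  let _ : ∀ i, Fintype (Module.Dual k (C i)) := fun i => Fintype.ofFinite _
  refine sd_core hN D K₀ hK (fun A => ?_) ν h0 h1 M hν η hη hbad m hm
  refine card_inter_le (W := fun i => Module.Dual k (C i))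
    (fun i => ((C i).subtype.dualMap ∘ₗ Module.Dual.eval k V).toAddMonoidHom)
    (eval_surjective C hC) D (fun i v v' h hv => hD i v v' (fun c hc => ?_) hv) K₀ hK hDc A
  have := congrArg (fun ψ : Module.Dual k (C i) => ψ ⟨c, hc⟩) h
  simpa using this

open Classical in
/-- real exponent version: `η / 2 ≤ M * 2 ^ N * K₀ ^ (-(η N / 2))` -/
theorem sd_sub_rpow {k V : Type*} [Field k] [Finite k] [AddCommGroup V] [Module k V] [Fintype V]
    [FiniteDimensional k V] {N : ℕ} (hN : 0 < N)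
    (C : Fin N → Submodule k (Module.Dual k V))
    (hC : ∀ c : ∀ i, C i, ∑ i, (c i : Module.Dual k V) = 0 → ∀ i, c i = 0)
    (D : Fin N → Finset V)
    (hD : ∀ i v v', (∀ c ∈ C i, c v = c v') → v ∈ D i → v' ∈ D i)
    (K₀ : ℝ) (hK : 1 ≤ K₀) (hDc : ∀ i, K₀ * (D i).card ≤ Fintype.card V)
    (ν : V → ℝ) (h0 : ∀ v, 0 ≤ ν v) (h1 : ∑ v, ν v = 1)
    (M : ℝ) (hν : ∀ v, ν v * Fintype.card V ≤ M) (η : ℝ) (hη : 0 ≤ η)
    (hbad : ∀ i, η ≤ ∑ v ∈ D i, ν v) :
    η / 2 ≤ M * 2 ^ N * K₀ ^ (-(η * N / 2)) := by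
  have hK0 : 0 < K₀ := lt_of_lt_of_le one_pos hK
  have hx : 0 ≤ η * N / 2 := by positivity
  have hm : ((⌈η * N / 2⌉₊ : ℕ) : ℝ) ≤ η * N / 2 + 1 := (Nat.ceil_lt_add_one hx).le
  have h := sd_sub hN C hC D hD K₀ hK0 hDc ν h0 h1 M hν η hη hbad _ hm
  have hM0 : 0 ≤ M := by
    by_contra hneg
    push Not at hneg
    have hV : (0 : ℝ) < Fintype.card V := by
      have : Nonempty V := ⟨0⟩
      exact_mod_cast Fintype.card_pos
    have := le_trans (mul_nonneg (h0 0) hV.le) (hν 0)
    linarith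
  refine h.trans ?_
  rw [div_eq_mul_inv]
  refine mul_le_mul_of_nonneg_left ?_ (by positivity)
  rw [Real.rpow_neg hK0.le]
  refine inv_anti₀ (Real.rpow_pos_of_pos hK0 _) ?_
  rw [← Real.rpow_natCast K₀ ⌈η * N / 2⌉₊]
  exact Real.rpow_le_rpow_of_exponent_le hK (Nat.le_ceil _)


end Crest.Agent.R042.PBSD895
end

-- ▼ part R042/PBSDBlk_895
section

/-!
# PLAN B of S0059: block instance of SD

`V = SymForm × SymForm` (labels of the two ends), blocks `e` with rows `u e, u' e`.  If the rows of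
the blocks `r 0, .., r (n-1)` are independent modulo `Sp` and modulo `Sp'` then the special
functionals of these blocks are independent; hence blocks which are bad for the special density
have small `τ`-mass.
-/

set_option autoImplicit false

namespace Crest.Agent.R042.PBSD895

open Finset Crest.Agent.R042.RowWin543 Crest.Agent.R042.PB

variable {k U κ : Type} [Field k] [AddCommGroup U] [Module k U]

/-- rows of the blocks `r i` independent modulo `Sp` -/
def IndL (Sp : Submodule k U) (u u' : κ → U) {n : ℕ} (r : Fin n → κ) : Prop :=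
  ∀ α β : Fin n → k, ∑ i, (α i • u (r i) + β i • u' (r i)) ∈ Sp → α = 0 ∧ β = 0

/-- the functional `(f, f') ↦ f x y` -/
def evF (x y : U) : Module.Dual k (SymForm k U × SymForm k U) where
  toFun v := v.1.1 x y
  map_add' _ _ := rfl
  map_smul' _ _ := rfl

/-- the functional `(f, f') ↦ f' x y` -/
def evS (x y : U) : Module.Dual k (SymForm k U × SymForm k U) where
  toFun v := v.2.1 x y
  map_add' _ _ := rfl
  map_smul' _ _ := rfl

/-- the rows, indexed by `Fin n × Bool`, are linearly independent and their span is disjoint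
from `Sp` -/
theorem IndL.rows {Sp : Submodule k U} {u u' : κ → U} {n : ℕ} {r : Fin n → κ}
    (h : IndL Sp u u' r) :
    LinearIndependent k (fun j : Fin n × Bool => if j.2 then u' (r j.1) else u (r j.1)) ∧
    Disjoint (Submodule.span k (Set.range
      (fun j : Fin n × Bool => if j.2 then u' (r j.1) else u (r j.1)))) Sp := by
  classical
  have key : ∀ g : Fin n × Bool → k,
      ∑ j, g j • (if j.2 then u' (r j.1) else u (r j.1))
        = ∑ i, (g (i, false) • u (r i) + g (i, true) • u' (r i)) := by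
    intro g
    rw [Fintype.sum_prod_type]
    refine Finset.sum_congr rfl fun i _ => ?_
    rw [Fintype.sum_bool]
    simp [add_comm]
  constructor
  · rw [Fintype.linearIndependent_iff]
    intro g hg j
    rw [key] at hg
    have h1 := h (fun i => g (i, false)) (fun i => g (i, true)) (by
      have h0 := Sp.zero_mem
      rw [← hg] at h0
      exact h0)
    obtain ⟨i, b⟩ := j
    cases b
    · exact congrFun h1.1 i
    · exact congrFun h1.2 i
  · rw [Submodule.disjoint_def]
    intro x hx hxS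
    rw [Submodule.mem_span_range_iff_exists_fun] at hx
    obtain ⟨g, hg⟩ := hx
    rw [key] at hg
    have h1 := h (fun i => g (i, false)) (fun i => g (i, true)) (by
      have h0 := hxS
      rw [← hg] at h0
      exact h0)
    rw [← hg]
    have e1 : ∀ i, g (i, false) = 0 := fun i => congrFun h1.1 i
    have e2 : ∀ i, g (i, true) = 0 := fun i => congrFun h1.2 i
    simp [e1, e2]

/-- if `∑ f(u,z) + f(u',z') = 0` for all symmetric `f`, `z, z' ∈ Sp`, rows independent mod `Sp`,
then all `z`, `z'` vanish -/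
theorem IndL.zero {Sp : Submodule k U} {u u' : κ → U} {n : ℕ} {r : Fin n → κ}
    (h : IndL Sp u u' r) (z z' : Fin n → U) (hz : ∀ i, z i ∈ Sp) (hz' : ∀ i, z' i ∈ Sp)
    (hf : ∀ f ∈ SymForm k U, ∑ i, (f (u (r i)) (z i) + f (u' (r i)) (z' i)) = 0) (i : Fin n) :
    z i = 0 ∧ z' i = 0 := by
  classical
  obtain ⟨hli, hdis⟩ := h.rows
  set row : Fin n × Bool → U := fun j => if j.2 then u' (r j.1) else u (r j.1) with hrow
  have main : ∀ (b : Bool) (ζ : U →ₗ[k] k), ζ (if b then z' i else z i) = 0 := by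
    intro b ζ
    obtain ⟨f, hfS, hf1, -, -⟩ := rows_surj (Submodule.span k (Set.range row)) Sp hdis row
      (fun j => Submodule.subset_span ⟨j, rfl⟩) hli
      (fun j => if j = (i, b) then ζ.comp Sp.subtype else 0)
    have h1 := hf f hfS
    have e : ∀ j, (f (u (r j)) (z j) + f (u' (r j)) (z' j))
        = (if (j, false) = (i, b) then ζ (z j) else 0) + (if (j, true) = (i, b) then ζ (z' j) else 0) := by
      intro j
      have a1 := hf1 (j, false) ⟨z j, hz j⟩
      have a2 := hf1 (j, true) ⟨z' j, hz' j⟩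
      simp only [hrow] at a1 a2
      have a1' : f (u (r j)) (z j) = if (j, false) = (i, b) then ζ (z j) else 0 := by
        have := a1
        simp only [Bool.false_eq_true, if_false] at this
        rw [this]
        split_ifs <;> simp
      have a2' : f (u' (r j)) (z' j) = if (j, true) = (i, b) then ζ (z' j) else 0 := by
        have := a2
        simp only [if_true] at this
        rw [this]
        split_ifs <;> simp
      rw [a1', a2']
    simp only [e] at h1
    rw [Finset.sum_add_distrib] at h1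
    cases b
    · simpa [Prod.ext_iff] using h1
    · simpa [Prod.ext_iff] using h1
  constructor
  · by_contra hne
    obtain ⟨ζ, hζ⟩ := Submodule.exists_le_ker_of_notMem (p := (⊥ : Submodule k U)) (v := z i)
      (by simpa using hne)
    exact hζ.1 (by simpa using main false ζ)
  · by_contra hne
    obtain ⟨ζ, hζ⟩ := Submodule.exists_le_ker_of_notMem (p := (⊥ : Submodule k U)) (v := z' i)
      (by simpa using hne)
    exact hζ.1 (by simpa using main true ζ)


/-- special functionals of the block `e` -/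
def IsSpec (B B' : Blk k U κ) (e : κ) (φ : Module.Dual k (SymForm k U × SymForm k U)) : Prop :=
  ∃ z1 ∈ B.Sp, ∃ z2 ∈ B.Sp, ∃ z3 ∈ B'.Sp, ∃ z4 ∈ B'.Sp,
    φ = evF (B.u e) z1 + evF (B.u' e) z2 + evS (B'.u e) z3 + evS (B'.u' e) z4

/-- row-independent blocks have independent special functionals -/
theorem spec_indep (B B' : Blk k U κ) {n : ℕ} {r : Fin n → κ}
    (h : IndL B.Sp B.u B.u' r) (h' : IndL B'.Sp B'.u B'.u' r)
    (φ : Fin n → Module.Dual k (SymForm k U × SymForm k U))
    (hφ : ∀ i, IsSpec B B' (r i) (φ i)) (h0 : ∑ i, φ i = 0) (i : Fin n) : φ i = 0 := by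
  choose z1 hz1 z2 hz2 z3 hz3 z4 hz4 hφ using hφ
  have hF : ∀ f ∈ SymForm k U, ∑ i, (f (B.u (r i)) (z1 i) + f (B.u' (r i)) (z2 i)) = 0 := by
    intro f hf
    have h1 := LinearMap.congr_fun h0 ((⟨f, hf⟩, 0) : SymForm k U × SymForm k U)
    rw [LinearMap.sum_apply] at h1
    rw [← h1.trans (LinearMap.zero_apply _)]
    refine Finset.sum_congr rfl fun i _ => ?_
    rw [hφ i]
    simp [evF, evS]
  have hS : ∀ f ∈ SymForm k U, ∑ i, (f (B'.u (r i)) (z3 i) + f (B'.u' (r i)) (z4 i)) = 0 := by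
    intro f hf
    have h1 := LinearMap.congr_fun h0 ((0, ⟨f, hf⟩) : SymForm k U × SymForm k U)
    rw [LinearMap.sum_apply] at h1
    rw [← h1.trans (LinearMap.zero_apply _)]
    refine Finset.sum_congr rfl fun i _ => ?_
    rw [hφ i]
    simp [evF, evS]
  have a := h.zero z1 z2 hz1 hz2 hF i
  have b := h'.zero z3 z4 hz3 hz4 hS i
  rw [hφ i, a.1, a.2, b.1, b.2]
  ext v <;> simp [evF, evS]

theorem indL_zero (Sp : Submodule k U) (u u' : κ → U) (r : Fin 0 → κ) : IndL Sp u u' r := by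
  intro α β _
  exact ⟨funext fun i => i.elim0, funext fun i => i.elim0⟩

/-- if the list cannot be extended by `e` then the rows of `e` are dependent on the list -/
theorem dep_of_not_indL {Sp : Submodule k U} {u u' : κ → U} {n : ℕ} {r : Fin n → κ}
    (h : IndL Sp u u' r) (e : κ)
    (he : ¬ IndL Sp u u' (Fin.snoc r e : Fin (n + 1) → κ)) :
    ∃ α β : Fin n → k, ∃ a c : k, (a ≠ 0 ∨ c ≠ 0) ∧
      a • u e + c • u' e - ∑ i, (α i • u (r i) + β i • u' (r i)) ∈ Sp := by
  unfold IndL at he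
  push Not at he
  obtain ⟨α, β, hs, hne⟩ := he
  rw [Fin.sum_univ_castSucc] at hs
  simp only [Fin.snoc_castSucc, Fin.snoc_last] at hs
  refine ⟨fun i => - α i.castSucc, fun i => - β i.castSucc, α (Fin.last n), β (Fin.last n), ?_, ?_⟩
  · by_contra hcon
    push Not at hcon
    obtain ⟨ha, hc⟩ := hcon
    rw [ha, hc] at hs
    simp only [zero_smul, add_zero] at hs
    have h1 := h (fun i => α i.castSucc) (fun i => β i.castSucc) hs
    have hα : α = 0 := by
      funext i
      refine Fin.lastCases ?_ (fun j => ?_) i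
      · exact ha
      · exact congrFun h1.1 j
    have hβ : β = 0 := by
      funext i
      refine Fin.lastCases ?_ (fun j => ?_) i
      · exact hc
      · exact congrFun h1.2 j
    exact hne hα hβ
  · convert hs using 1
    rw [sub_eq_add_neg, add_comm, ← Finset.sum_neg_distrib]
    congr 1
    refine Finset.sum_congr rfl fun i _ => ?_
    simp only [neg_smul, neg_add, neg_neg]

open Classical in
theorem sum_biUnion_le' {ι : Type*} {κ : Type*} (s : Finset ι) (E : ι → Finset κ) (τ : κ → ℝ)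
    (h : ∀ e, 0 ≤ τ e) : ∑ e ∈ s.biUnion E, τ e ≤ ∑ i ∈ s, ∑ e ∈ E i, τ e := by
  induction s using Finset.induction_on with
  | empty => simp
  | insert a s ha ih =>
    rw [Finset.biUnion_insert, Finset.sum_insert ha]
    have h1 : ∑ e ∈ E a ∪ s.biUnion E, τ e ≤ ∑ e ∈ E a, τ e + ∑ e ∈ s.biUnion E, τ e := by
      rw [← Finset.sum_union_inter]
      have : 0 ≤ ∑ e ∈ E a ∩ s.biUnion E, τ e := Finset.sum_nonneg fun e _ => h e
      linarith
    linarith

open Classical in
/-- **SD for blocks**: the blocks whose special windows have a saturated set of uniform density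
`≤ 1/K₀` and `ν`-mass `≥ η` have `τ`-mass `≤ 2 q^(2N) δ`. -/
theorem sd_blk [Fintype k] [Fintype κ] [Finite U] (B B' : Blk k U κ) (τ : κ → ℝ)
    (hτ0 : ∀ e, 0 ≤ τ e) (δ : ℝ)
    (h1 : ∀ y : U, ∑ e with (∃ a c : k, (a ≠ 0 ∨ c ≠ 0) ∧
      a • B.u e + c • B.u' e - y ∈ B.Sp), τ e ≤ δ)
    (h1' : ∀ y : U, ∑ e with (∃ a c : k, (a ≠ 0 ∨ c ≠ 0) ∧
      a • B'.u e + c • B'.u' e - y ∈ B'.Sp), τ e ≤ δ)
    (C : κ → Submodule k (Module.Dual k (SymForm k U × SymForm k U)))
    (hC : ∀ e, ∀ φ ∈ C e, IsSpec B B' e φ)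
    (ν : SymForm k U × SymForm k U → ℝ) (h0 : ∀ v, 0 ≤ ν v) (hν1 : ∑ v, ν v = 1)
    (M : ℝ) (hν : ∀ v, ν v * Fintype.card (SymForm k U × SymForm k U) ≤ M)
    (N : ℕ) (hN : 0 < N) (K₀ : ℝ) (hK : 1 ≤ K₀) (η : ℝ) (hη : 0 ≤ η)
    (hnum : M * 2 ^ N * K₀ ^ (-(η * N / 2)) < η / 2)
    (A : Finset κ) (D : κ → Finset (SymForm k U × SymForm k U))
    (hD : ∀ e ∈ A, ∀ v v', (∀ c ∈ C e, c v = c v') → v ∈ D e → v' ∈ D e)
    (hDc : ∀ e ∈ A, K₀ * (D e).card ≤ Fintype.card (SymForm k U × SymForm k U))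
    (hbad : ∀ e ∈ A, η ≤ ∑ v ∈ D e, ν v) :
    ∑ e ∈ A, τ e ≤ 2 * (Fintype.card k : ℝ) ^ (2 * N) * δ := by
  set P : ℕ → Prop := fun n => ∃ r : Fin n → κ, (∀ i, r i ∈ A) ∧
    IndL B.Sp B.u B.u' r ∧ IndL B'.Sp B'.u B'.u' r with hP
  have hP0 : P 0 := ⟨fun i => i.elim0, fun i => i.elim0, indL_zero _ _ _ _, indL_zero _ _ _ _⟩
  have hPN : ¬ P N := by
    rintro ⟨r, hrA, hr, hr'⟩
    have := sd_sub_rpow (k := k) (V := SymForm k U × SymForm k U) hN (fun i => C (r i))
      (fun c hc i => by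
        have h2 := spec_indep B B' hr hr' (fun i => (c i : Module.Dual k _))
          (fun i => hC _ _ (c i).2) hc i
        exact Subtype.ext h2)
      (fun i => D (r i)) (fun i => hD _ (hrA i)) K₀ hK (fun i => hDc _ (hrA i)) ν h0 hν1 M hν η hη
      (fun i => hbad _ (hrA i))
    linarith
  -- maximal n
  obtain ⟨n, hnN, hn, hn1⟩ : ∃ n, n < N ∧ P n ∧ ¬ P (n + 1) := by
    by_contra hcon
    push Not at hcon
    have : ∀ n, n ≤ N → P n := by
      intro n
      induction n with
      | zero => intro _; exact hP0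
      | succ n ih => intro hle; exact hcon n (by omega) (ih (by omega))
    exact hPN (this N le_rfl)
  obtain ⟨r, hrA, hr, hr'⟩ := hn
  have hδ : 0 ≤ δ := le_trans (Finset.sum_nonneg fun e _ => hτ0 e) (h1 0)
  set E1 : (Fin n → k) × (Fin n → k) → Finset κ := fun ab =>
    univ.filter fun e => ∃ a c : k, (a ≠ 0 ∨ c ≠ 0) ∧
      a • B.u e + c • B.u' e - ∑ i, (ab.1 i • B.u (r i) + ab.2 i • B.u' (r i)) ∈ B.Sp with hE1
  set E2 : (Fin n → k) × (Fin n → k) → Finset κ := fun ab =>
    univ.filter fun e => ∃ a c : k, (a ≠ 0 ∨ c ≠ 0) ∧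
      a • B'.u e + c • B'.u' e - ∑ i, (ab.1 i • B'.u (r i) + ab.2 i • B'.u' (r i)) ∈ B'.Sp with hE2
  have hcover : A ⊆ (univ : Finset ((Fin n → k) × (Fin n → k))).biUnion fun ab => E1 ab ∪ E2 ab := by
    intro e he
    have hnot : ¬ (IndL B.Sp B.u B.u' (Fin.snoc r e : Fin (n + 1) → κ) ∧
        IndL B'.Sp B'.u B'.u' (Fin.snoc r e : Fin (n + 1) → κ)) := by
      intro hcon
      refine hn1 ⟨Fin.snoc r e, fun i => ?_, hcon.1, hcon.2⟩
      refine Fin.lastCases ?_ (fun j => ?_) i
      · simpa using he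
      · simpa using hrA j
    rw [not_and_or] at hnot
    rw [mem_biUnion]
    rcases hnot with h | h
    · obtain ⟨α, β, a, c, hac, hmem⟩ := dep_of_not_indL hr e h
      exact ⟨(α, β), mem_univ _, mem_union_left _ (mem_filter.mpr ⟨mem_univ _, a, c, hac, hmem⟩)⟩
    · obtain ⟨α, β, a, c, hac, hmem⟩ := dep_of_not_indL hr' e h
      exact ⟨(α, β), mem_univ _, mem_union_right _ (mem_filter.mpr ⟨mem_univ _, a, c, hac, hmem⟩)⟩
  have hq : (1 : ℝ) ≤ Fintype.card k := by exact_mod_cast Fintype.card_pos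
  calc ∑ e ∈ A, τ e
      ≤ ∑ e ∈ (univ : Finset ((Fin n → k) × (Fin n → k))).biUnion fun ab => E1 ab ∪ E2 ab, τ e :=
        Finset.sum_le_sum_of_subset_of_nonneg hcover (fun e _ _ => hτ0 e)
    _ ≤ ∑ ab : (Fin n → k) × (Fin n → k), ∑ e ∈ E1 ab ∪ E2 ab, τ e := by
        exact sum_biUnion_le' _ _ τ hτ0
    _ ≤ ∑ _ab : (Fin n → k) × (Fin n → k), (δ + δ) := by
        refine Finset.sum_le_sum fun ab _ => ?_
        calc ∑ e ∈ E1 ab ∪ E2 ab, τ e ≤ ∑ e ∈ E1 ab, τ e + ∑ e ∈ E2 ab, τ e := by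
              rw [← Finset.sum_union_inter]
              have : 0 ≤ ∑ e ∈ E1 ab ∩ E2 ab, τ e := Finset.sum_nonneg fun e _ => hτ0 e
              linarith
          _ ≤ δ + δ := add_le_add (h1 _) (h1' _)
    _ = (Fintype.card k : ℝ) ^ (2 * n) * (2 * δ) := by
        rw [Finset.sum_const, Finset.card_univ, Fintype.card_prod, Fintype.card_fun,
          Fintype.card_fin, nsmul_eq_mul]
        push_cast
        rw [two_mul n, pow_add]
        ring
    _ ≤ (Fintype.card k : ℝ) ^ (2 * N) * (2 * δ) := by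
        refine mul_le_mul_of_nonneg_right ?_ (by linarith)
        exact pow_le_pow_right₀ hq (by omega)
    _ = 2 * (Fintype.card k : ℝ) ^ (2 * N) * δ := by ring

end Crest.Agent.R042.PBSD895
end

-- ▼ part R042/PBSpecial_895
section

/-!
# PLAN B of S0059: `BadS` has small mass (helper341 #28939, HALF (B))
-/

set_option autoImplicit false

namespace Crest.Agent.R042.PBSD895

open Finset Crest.Agent.R042.RowWin543 Crest.Agent.R042.PB Crest.Agent.R042.ConfB461

section Bridge

variable {k : Type*} [Field k] {V E : Type*} [AddCommGroup V] [Module k V]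
  [FiniteDimensional k V] [AddCommGroup E] [Module k E]

/-- cutting `C` down to the functionals of the window does not change the image of its
annihilator in the window -/
theorem map_coann_inf (π : V →ₗ[k] E) (C : Submodule k (Module.Dual k V)) :
    (C ⊓ LinearMap.range π.dualMap).dualCoannihilator.map π = C.dualCoannihilator.map π := by
  have h1 : C ⊓ LinearMap.range π.dualMap
      = (C.dualCoannihilator ⊔ LinearMap.ker π).dualAnnihilator := by
    rw [Submodule.dualAnnihilator_sup_eq, ← LinearMap.range_dualMap_eq_dualAnnihilator_ker,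
      Subspace.dualCoannihilator_dualAnnihilator_eq]
  rw [h1, Subspace.dualAnnihilator_dualCoannihilator_eq, Submodule.map_sup]
  have h2 : (LinearMap.ker π).map π = ⊥ := by
    rw [eq_bot_iff]
    rintro _ ⟨x, hx, rfl⟩
    exact hx
  rw [h2, sup_bot_eq]

theorem badS_inf [Fintype V] [Fintype E] (π : V →ₗ[k] E) (ν : V → ℝ)
    (C : Submodule k (Module.Dual k V)) (K η : ℝ) :
    BadS π ν (C ⊓ LinearMap.range π.dualMap) K η ↔ BadS π ν C K η := by
  unfold BadS
  rw [map_coann_inf]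

end Bridge

open Classical in
/-- **the blocks with large special density have small mass** -/
theorem special_mass {k U κ : Type} [Field k] [Fintype k] [AddCommGroup U] [Module k U] [Finite U]
    [Fintype κ] (u u' : κ → U) (Sp Sp' : Submodule k U) (τ : κ → ℝ)
    (hτ0 : ∀ e, 0 ≤ τ e) (δ : ℝ)
    (h1 : ∀ y : U, ∑ e with (∃ a c : k, (a ≠ 0 ∨ c ≠ 0) ∧
      a • u e + c • u' e - y ∈ Sp), τ e ≤ δ)
    (h1' : ∀ y : U, ∑ e with (∃ a c : k, (a ≠ 0 ∨ c ≠ 0) ∧
      a • u e + c • u' e - y ∈ Sp'), τ e ≤ δ)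
    (C : Submodule k (Module.Dual k (SymForm k U × SymForm k U)))
    {E : κ → Type} [∀ e, AddCommGroup (E e)] [∀ e, Module k (E e)] [∀ e, Fintype (E e)]
    (π : ∀ e, (SymForm k U × SymForm k U) →ₗ[k] E e)
    (hS : ∀ e, ∀ φ ∈ C ⊓ LinearMap.range (π e).dualMap,
      ∃ z1 ∈ Sp, ∃ z2 ∈ Sp, ∃ z3 ∈ Sp', ∃ z4 ∈ Sp',
        φ = evF (u e) z1 + evF (u' e) z2 + evS (u e) z3 + evS (u' e) z4)
    (ν : SymForm k U × SymForm k U → ℝ) (h0 : ∀ v, 0 ≤ ν v) (hν1 : ∑ v, ν v = 1)
    (M : ℝ) (hν : ∀ v, ν v * Fintype.card (SymForm k U × SymForm k U) ≤ M)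
    (N : ℕ) (hN : 0 < N) (K : ℝ) (hK : 0 ≤ K) (K₀ : ℝ) (hK₀ : 1 ≤ K₀)
    (hKK : ∀ e, K₀ * Fintype.card (E e) ≤ K * (Nat.card (LinearMap.range (π e)) : ℝ))
    (η : ℝ) (hη : 0 ≤ η)
    (hnum : M * 2 ^ N * K₀ ^ (-(η * N / 2)) < η / 2) :
    ∑ e with BadS (π e) ν C K η, τ e ≤ 2 * (Fintype.card k : ℝ) ^ (2 * N) * δ := by
  set B : Blk k U κ := ⟨u, u', fun _ => ⊤, fun _ => ⊤, Sp⟩ with hB
  set B' : Blk k U κ := ⟨u, u', fun _ => ⊤, fun _ => ⊤, Sp'⟩ with hB'
  have hex : ∀ e, BadS (π e) ν C K η →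
      ∃ S : Finset (SymForm k U × SymForm k U),
        (∀ v v', (∀ c ∈ C ⊓ LinearMap.range (π e).dualMap, c v = c v') → v ∈ S → v' ∈ S) ∧
        K₀ * S.card ≤ Fintype.card (SymForm k U × SymForm k U) ∧ η ≤ ∑ v ∈ S, ν v := by
    intro e he
    rw [← badS_inf] at he
    obtain ⟨S, hS1, hS2, hS3⟩ := exists_special (π e) ν h0 hν1 _ K η hK he
    refine ⟨S, ?_, ?_, hS3.le⟩
    · intro v v' hc hv
      refine (hS1 v v' ?_).1 hv
      rw [Submodule.mem_dualCoannihilator]
      intro φ hφ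
      rw [map_sub, hc φ hφ, sub_self]
    · have hE : (0 : ℝ) < Fintype.card (E e) := by
        have : Nonempty (E e) := ⟨0⟩
        exact_mod_cast Fintype.card_pos
      have h2 : (K₀ * S.card) * Fintype.card (E e)
          ≤ Fintype.card (SymForm k U × SymForm k U) * Fintype.card (E e) := by
        calc (K₀ * S.card) * Fintype.card (E e) = S.card * (K₀ * Fintype.card (E e)) := by ring
          _ ≤ S.card * (K * (Nat.card (LinearMap.range (π e)) : ℝ)) :=
              mul_le_mul_of_nonneg_left (hKK e) (Nat.cast_nonneg _)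
          _ = S.card * K * (Nat.card (LinearMap.range (π e)) : ℝ) := by ring
          _ ≤ _ := hS2
      exact le_of_mul_le_mul_right h2 hE
  choose! D hD1 hD2 hD3 using hex
  exact sd_blk B B' τ hτ0 δ h1 h1' (fun e => C ⊓ LinearMap.range (π e).dualMap)
    (fun e φ hφ => hS e φ hφ) ν h0 hν1 M hν N hN K₀ hK₀ η hη hnum
    (univ.filter fun e => BadS (π e) ν C K η) D
    (fun e he => hD1 e (mem_filter.mp he).2) (fun e he => hD2 e (mem_filter.mp he).2)
    (fun e he => hD3 e (mem_filter.mp he).2)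


end Crest.Agent.R042.PBSD895
end

-- ▼ part R042/PBGreedy_895
section

/-!
# PLAN B of S0059, step (5): greedy removal of heavy one-point sets (helper477 #27828, helper341)
-/

namespace Crest.Agent.R042.PBGreedy895

open Finset

open Classical in
/-- what is left of `κ` after removing the sets `X Y`, `Y ∈ l` -/
noncomputable def left {κ Θ : Type*} [Fintype κ] (X : Θ → κ → Prop) (l : List Θ) : Finset κ :=
  univ.filter fun e => ∀ Y ∈ l, ¬ X Y e

open Classical in
theorem mem_left {κ Θ : Type*} [Fintype κ] (X : Θ → κ → Prop) (l : List Θ) (e : κ) :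
    e ∈ left X l ↔ ∀ Y ∈ l, ¬ X Y e := by
  simp [left]

open Classical in
theorem left_nil {κ Θ : Type*} [Fintype κ] (X : Θ → κ → Prop) : left X [] = univ := by
  simp [left]

open Classical in
theorem left_cons {κ Θ : Type*} [Fintype κ] (X : Θ → κ → Prop) (Y : Θ) (l : List Θ) :
    left X (Y :: l) = (left X l).filter fun e => ¬ X Y e := by
  ext e
  simp only [mem_left, mem_filter, List.mem_cons, forall_eq_or_imp]
  tauto

open Classical in
/-- **Greedy**: after at most `J` removals either no set `X Y` carries more than a fraction `p`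
of the current mass, or the current mass is at most `(1-p)^J` times the total mass. -/
theorem greedy {κ Θ : Type*} [Fintype κ] (τ : κ → ℝ)
    (X : Θ → κ → Prop) (p : ℝ) (hp1 : p ≤ 1) (J : ℕ) :
    ∃ l : List Θ, l.length ≤ J ∧
      ((∀ Y, ∑ e ∈ (left X l).filter (fun e => X Y e), τ e ≤ p * ∑ e ∈ left X l, τ e) ∨
        ∑ e ∈ left X l, τ e ≤ (1 - p) ^ J * ∑ e, τ e) := by
  induction J with
  | zero =>
    refine ⟨[], le_rfl, Or.inr ?_⟩
    rw [left_nil]; simp
  | succ J ih =>
    obtain ⟨l, hl, h⟩ := ih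
    rcases h with h | h
    · exact ⟨l, hl.trans (Nat.le_succ _), Or.inl h⟩
    · by_cases hY : ∀ Y, ∑ e ∈ (left X l).filter (fun e => X Y e), τ e
          ≤ p * ∑ e ∈ left X l, τ e
      · exact ⟨l, hl.trans (Nat.le_succ _), Or.inl hY⟩
      · push Not at hY
        obtain ⟨Y, hY⟩ := hY
        refine ⟨Y :: l, by simp; omega, Or.inr ?_⟩
        rw [left_cons]
        have hsplit : ∑ e ∈ (left X l).filter (fun e => X Y e), τ e
            + ∑ e ∈ (left X l).filter (fun e => ¬ X Y e), τ e = ∑ e ∈ left X l, τ e :=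
          Finset.sum_filter_add_sum_filter_not _ _ _
        have h1 : ∑ e ∈ (left X l).filter (fun e => ¬ X Y e), τ e
            ≤ (1 - p) * ∑ e ∈ left X l, τ e := by linarith
        calc ∑ e ∈ (left X l).filter (fun e => ¬ X Y e), τ e
            ≤ (1 - p) * ∑ e ∈ left X l, τ e := h1
          _ ≤ (1 - p) * ((1 - p) ^ J * ∑ e, τ e) :=
              mul_le_mul_of_nonneg_left h (by linarith)
          _ = (1 - p) ^ (J + 1) * ∑ e, τ e := by ring

open Classical in
/-- numerical form: with `J ≥ log(1/θ)/p` the second alternative is `≤ θ` -/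
theorem greedy' {κ Θ : Type*} [Fintype κ] (τ : κ → ℝ) (h0 : ∀ e, 0 ≤ τ e)
    (h1 : ∑ e, τ e ≤ 1)
    (X : Θ → κ → Prop) (p : ℝ) (hp1 : p ≤ 1) (J : ℕ) (θ : ℝ) (hθ : 0 < θ)
    (hJ : Real.log (1 / θ) ≤ p * J) :
    ∃ l : List Θ, l.length ≤ J ∧
      ((∀ Y, ∑ e ∈ (left X l).filter (fun e => X Y e), τ e ≤ p * ∑ e ∈ left X l, τ e) ∨
        ∑ e ∈ left X l, τ e ≤ θ) := by
  obtain ⟨l, hl, h⟩ := greedy τ X p hp1 J
  refine ⟨l, hl, h.imp_right fun h => h.trans ?_⟩
  have hs0 : 0 ≤ ∑ e, τ e := Finset.sum_nonneg fun e _ => h0 e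
  have h2 : (1 - p) ^ J ≤ θ := by
    have h3 : 1 - p ≤ Real.exp (-p) := by
      have := Real.add_one_le_exp (-p); linarith
    calc (1 - p) ^ J ≤ Real.exp (-p) ^ J := pow_le_pow_left₀ (by linarith) h3 J
      _ = Real.exp (-(p * J)) := by rw [← Real.exp_nat_mul]; ring_nf
      _ ≤ Real.exp (-(Real.log (1 / θ))) := by
          apply Real.exp_le_exp.mpr; linarith
      _ = θ := by
          rw [Real.log_div one_ne_zero hθ.ne', Real.log_one]
          simp [Real.exp_log hθ]
  calc (1 - p) ^ J * ∑ e, τ e ≤ θ * 1 :=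
        mul_le_mul h2 h1 hs0 hθ.le
    _ = θ := mul_one θ

end Crest.Agent.R042.PBGreedy895
end

-- ▼ part R042/PBFac_989

/-!
# Plan B, family side: the deterministic half of `PB.Hyp` for the frozen family

`kp = 2`, `Q = 2 ^ e` arbitrary.  From "the `b`'s of any six different types are independent":
(sp), (ind), (aniso), (aniso'), (h1).
-/

set_option autoImplicit false
set_option linter.unusedSectionVars false

namespace Crest.Agent.R042.PBFac989

open Finset Crest.Agent.R042.Fam543 Crest.Agent.R042.SpecFam730 Crest.Agent.R042.PB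

variable {k0 KK : Type} [Field k0] [Field KK] [Algebra k0 KK]

/-! ### functionals -/

theorem exists_fun {V ι : Type*} [AddCommGroup V] [Module KK V] (b : ι → V) (J : Finset ι)
    (h : LinearIndependent KK (fun i : J => b i)) (i : ι) (hi : i ∈ J) :
    ∃ f : V →ₗ[KK] KK, f (b i) = 1 ∧ ∀ j ∈ J, j ≠ i → f (b j) = 0 := by
  classical
  obtain ⟨g, hg⟩ := LinearMap.exists_extend (p := Submodule.span KK (Set.range fun i : J => b i))
    ((Finsupp.lapply (⟨i, hi⟩ : J) : (J →₀ KK) →ₗ[KK] KK).comp h.repr)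
  have key : ∀ j : J, g (b j) = if j = (⟨i, hi⟩ : J) then 1 else 0 := by
    intro j
    have hk : b j ∈ Submodule.span KK (Set.range fun i : J => b i) :=
      Submodule.subset_span ⟨j, rfl⟩
    have h5 : g (b j) = ((Finsupp.lapply (⟨i, hi⟩ : J) : (J →₀ KK) →ₗ[KK] KK).comp h.repr)
        ⟨b j, hk⟩ := by
      rw [← hg]; rfl
    rw [h5, LinearMap.comp_apply, h.repr_eq_single j ⟨b j, hk⟩ rfl]
    simp [Finsupp.single_apply]
  refine ⟨g, ?_, ?_⟩
  · rw [key ⟨i, hi⟩, if_pos rfl]
  · intro j hj hji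
    rw [key ⟨j, hj⟩, if_neg]
    intro h
    exact hji (congrArg Subtype.val h)

variable {d L : ℕ}

theorem Phi_two (Q : ℕ) (b : Ix d → KK) (al : Fin 2 → Ix d) :
    (Phi Q b : U0 KK d 2) al = b (al 0) * b (al 1) ^ Q := by
  simp [Phi, Fin.prod_univ_two]

/-- `f` in slot `0`, the coordinate `none` in slot `1` -/
def rd (k0 : Type) {KK : Type} [Field k0] [Field KK] [Algebra k0 KK] {d L : ℕ}
    (f : (Ix d → KK) →ₗ[KK] KK) (l : Fin L) : U KK d 2 L →ₗ[k0] KK where
  toFun x := f (fun i => x l ![i, none])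
  map_add' := by
    intro x y
    rw [← map_add]; rfl
  map_smul' := by
    intro c x
    have h1 : (fun i => (c • x) l ![i, none]) = (algebraMap k0 KK c) • (fun i => x l ![i, none]) := by
      funext i
      simp [Pi.smul_apply, Algebra.smul_def]
    rw [h1, map_smul, RingHom.id_apply, smul_eq_mul, ← Algebra.smul_def]

theorem rd_apply (f : (Ix d → KK) →ₗ[KK] KK) (l : Fin L) (x : U KK d 2 L) :
    rd k0 f l x = f (fun i => x l ![i, none]) := rfl

theorem rd_uvec (Q : ℕ) (f : (Ix d → KK) →ₗ[KK] KK) (l : Fin L) (R : Ty k0 KK d L)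
    (hR : R.b none = 1) :
    rd k0 f l (uvec Q 2 R) = (algebraMap k0 KK (R.E l) * R.lam) * f R.b := by
  rw [rd_apply]
  have h1 : (fun i => uvec Q 2 R l ![i, none]) = (algebraMap k0 KK (R.E l) * R.lam) • R.b := by
    funext i
    simp only [uvec, Pi.smul_apply, smul_eq_mul]
    rw [Phi_two]
    simp [hR]
  rw [h1, map_smul, smul_eq_mul]

theorem rd_Sp2 (Q : ℕ) (f : (Ix d → KK) →ₗ[KK] KK) (l : Fin L) {P P' : Ty k0 KK d L}
    (ha : f (av P P') = 0) {x : U KK d 2 L} (hx : x ∈ Sp2 Q P P') : rd k0 f l x = 0 := by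
  obtain ⟨c, hc⟩ := hx l
  rw [rd_apply]
  have h1 : (fun i => x l ![i, none]) = (c * (av P P' none) ^ Q) • av P P' := by
    funext i
    rw [hc]
    simp only [Pi.smul_apply, smul_eq_mul]
    rw [Phi_two]
    simp
    ring
  rw [h1, map_smul, ha, smul_zero]

theorem smul_uvec (Q : ℕ) (a : k0) (R : Ty k0 KK d L) (l : Fin L) :
    (a • uvec Q 2 R) l =
      (algebraMap k0 KK a * (algebraMap k0 KK (R.E l) * R.lam)) • (Phi Q R.b : U0 KK d 2) := by
  funext al
  rw [Pi.smul_apply, Pi.smul_apply, Algebra.smul_def, mul_smul]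
  rfl

theorem scal_ne {K : Set k0} (hK : Alph K) {R : Ty k0 KK d L} (hR : Valid K R) (l : Fin L) :
    algebraMap k0 KK (R.E l) * R.lam ≠ 0 := by
  refine mul_ne_zero ?_ ?_
  · rw [Ne, map_eq_zero]
    exact hK.ne_zero (hR.E l)
  · intro h
    have := hR.lam
    rw [h, map_zero] at this
    exact zero_ne_one this

section core

variable {K : Set k0} (hK : Alph K) {ι : Type} {T : ι → Ty k0 KK d L}
  (hT : ∀ i, Valid K (T i))
  (hLI : ∀ J : Finset ι, J.card ≤ 6 → LinearIndependent KK (fun i : J => (T i).b))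

include hK hT hLI

/-- **coefficients modulo the special space** -/
theorem coef (Q : ℕ) (hL : 0 < L) {p p' i : ι} (hip : i ≠ p) (hip' : i ≠ p') (s : Finset ι)
    (hs : s.card ≤ 3) (his : i ∉ s) {a : k0} {z : U KK d 2 L}
    (hz : z ∈ Submodule.span k0 ((fun j => uvec Q 2 (T j)) '' (s : Set ι)))
    (h : a • uvec Q 2 (T i) + z ∈ Sp2 Q (T p) (T p')) : a = 0 := by
  classical
  let J : Finset ι := insert i (insert p (insert p' s))
  have hJ : J.card ≤ 6 := by
    refine (card_insert_le _ _).trans ?_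
    have h1 := card_insert_le p (insert p' s)
    have h2 := card_insert_le p' s
    omega
  obtain ⟨f, hf1, hf0⟩ := exists_fun (fun i => (T i).b) J (hLI J hJ) i (mem_insert_self _ _)
  have hp : f (T p).b = 0 :=
    hf0 p (mem_insert_of_mem (mem_insert_self _ _)) hip.symm
  have hp' : f (T p').b = 0 :=
    hf0 p' (mem_insert_of_mem (mem_insert_of_mem (mem_insert_self _ _))) hip'.symm
  have hav : f (av (T p) (T p')) = 0 := by
    rw [av, map_add, map_smul, hp, hp', smul_zero, add_zero]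
  have hz0 : rd k0 f ⟨0, hL⟩ z = 0 := by
    refine Submodule.span_induction (p := fun z _ => rd k0 f ⟨0, hL⟩ z = 0) ?_ ?_ ?_ ?_ hz
    · rintro _ ⟨j, hj, rfl⟩
      have hj' : j ∈ s := hj
      show rd k0 f ⟨0, hL⟩ (uvec Q 2 (T j)) = 0
      rw [rd_uvec Q f _ (T j) (hT j).b0, hf0 j (mem_insert_of_mem (mem_insert_of_mem
        (mem_insert_of_mem hj'))) (fun h => his (h ▸ hj')), mul_zero]
    · exact map_zero _
    · intro x y _ _ hx hy
      rw [map_add, hx, hy, add_zero]
    · intro c x _ hx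
      rw [map_smul, hx, smul_zero]
  have h1 := rd_Sp2 Q f ⟨0, hL⟩ hav h
  rw [map_add, map_smul, hz0, add_zero, rd_uvec Q f _ (T i) (hT i).b0, hf1, mul_one,
    Algebra.smul_def, mul_eq_zero] at h1
  rcases h1 with h1 | h1
  · rwa [map_eq_zero] at h1
  · exact absurd h1 (scal_ne hK (hT i) _)

/-- (ind) -/
theorem ind (Q : ℕ) (hL : 0 < L) {p p' r r' : ι} (h1 : r ≠ p) (h2 : r ≠ p') (h3 : r' ≠ p)
    (h4 : r' ≠ p') (h5 : r ≠ r') (a c : k0)
    (h : a • uvec Q 2 (T r) + c • uvec Q 2 (T r') ∈ Sp2 Q (T p) (T p')) :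
    a = 0 ∧ c = 0 := by
  classical
  constructor
  · refine coef hK hT hLI Q hL h1 h2 {r'} (by simp) (by simpa using h5)
      (z := c • uvec Q 2 (T r')) ?_ h
    exact Submodule.smul_mem _ _ (Submodule.subset_span ⟨r', by simp, rfl⟩)
  · rw [add_comm] at h
    refine coef hK hT hLI Q hL h3 h4 {r} (by simp) (by simpa using h5.symm)
      (z := a • uvec Q 2 (T r)) ?_ h
    exact Submodule.smul_mem _ _ (Submodule.subset_span ⟨r, by simp, rfl⟩)

/-- (h1), the set: all blocks which hit `y` modulo special pass through one type -/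
theorem h1_set (Q : ℕ) (hL : 0 < L) {p p' : ι} {κ : Type*} (r r' : κ → ι)
    (h1 : ∀ e, r e ≠ p) (h2 : ∀ e, r e ≠ p') (h3 : ∀ e, r' e ≠ p) (h4 : ∀ e, r' e ≠ p')
    (h5 : ∀ e, r e ≠ r' e) (y : U KK d 2 L) (e₁ : κ)
    (he₁ : ∃ a c : k0, (a ≠ 0 ∨ c ≠ 0) ∧
      a • uvec Q 2 (T (r e₁)) + c • uvec Q 2 (T (r' e₁)) - y ∈ Sp2 Q (T p) (T p')) :
    ∃ i, i ≠ p ∧ i ≠ p' ∧ ∀ e, (∃ a c : k0, (a ≠ 0 ∨ c ≠ 0) ∧
      a • uvec Q 2 (T (r e)) + c • uvec Q 2 (T (r' e)) - y ∈ Sp2 Q (T p) (T p')) →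
      r e = i ∨ r' e = i := by
  classical
  obtain ⟨a, c, hac, hy⟩ := he₁
  have sp : ∀ (s : Finset ι) (j : ι) (x : k0), j ∈ s →
      x • uvec Q 2 (T j) ∈ Submodule.span k0 ((fun j => uvec Q 2 (T j)) '' (s : Set ι)) :=
    fun s j x hj => Submodule.smul_mem _ _ (Submodule.subset_span ⟨j, hj, rfl⟩)
  rcases hac with ha | hc
  · refine ⟨r e₁, h1 _, h2 _, ?_⟩
    rintro e ⟨a', c', -, hy'⟩
    by_contra hne
    simp only [not_or] at hne
    apply ha
    refine coef hK hT hLI Q hL (h1 e₁) (h2 e₁) {r' e₁, r e, r' e} card_le_three ?_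
      (z := c • uvec Q 2 (T (r' e₁)) - (a' • uvec Q 2 (T (r e)) + c' • uvec Q 2 (T (r' e)))) ?_ ?_
    · simp only [mem_insert, mem_singleton, not_or]
      exact ⟨h5 e₁, Ne.symm hne.1, Ne.symm hne.2⟩
    · exact Submodule.sub_mem _ (sp _ _ _ (by simp))
        (Submodule.add_mem _ (sp _ _ _ (by simp)) (sp _ _ _ (by simp)))
    · have := Submodule.sub_mem _ hy hy'
      convert this using 1
      abel
  · refine ⟨r' e₁, h3 _, h4 _, ?_⟩
    rintro e ⟨a', c', -, hy'⟩
    by_contra hne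
    simp only [not_or] at hne
    apply hc
    refine coef hK hT hLI Q hL (h3 e₁) (h4 e₁) {r e₁, r e, r' e} card_le_three ?_
      (z := a • uvec Q 2 (T (r e₁)) - (a' • uvec Q 2 (T (r e)) + c' • uvec Q 2 (T (r' e)))) ?_ ?_
    · simp only [mem_insert, mem_singleton, not_or]
      exact ⟨(h5 e₁).symm, Ne.symm hne.1, Ne.symm hne.2⟩
    · exact Submodule.sub_mem _ (sp _ _ _ (by simp))
        (Submodule.add_mem _ (sp _ _ _ (by simp)) (sp _ _ _ (by simp)))
    · have := Submodule.sub_mem _ hy hy'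
      convert this using 1
      abel

open scoped Classical in
/-- (h1) -/
theorem h1_sum (Q : ℕ) (hL : 0 < L) {p p' : ι} {κ : Type*} [Fintype κ] (r r' : κ → ι)
    (h1 : ∀ e, r e ≠ p) (h2 : ∀ e, r e ≠ p') (h3 : ∀ e, r' e ≠ p) (h4 : ∀ e, r' e ≠ p')
    (h5 : ∀ e, r e ≠ r' e) (τ : κ → ℝ) (hτ : ∀ e, 0 ≤ τ e) (δ : ℝ) (hδ0 : 0 ≤ δ)
    (hδ : ∀ i, ∑ e with (r e = i ∨ r' e = i), τ e ≤ δ) (y : U KK d 2 L) :
    ∑ e with (∃ a c : k0, (a ≠ 0 ∨ c ≠ 0) ∧
      a • uvec Q 2 (T (r e)) + c • uvec Q 2 (T (r' e)) - y ∈ Sp2 Q (T p) (T p')),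
      τ e ≤ δ := by
  by_cases hex : ∃ e₁, ∃ a c : k0, (a ≠ 0 ∨ c ≠ 0) ∧
      a • uvec Q 2 (T (r e₁)) + c • uvec Q 2 (T (r' e₁)) - y ∈ Sp2 Q (T p) (T p')
  · obtain ⟨e₁, he₁⟩ := hex
    obtain ⟨i, -, -, hi⟩ := h1_set hK hT hLI Q hL r r' h1 h2 h3 h4 h5 y e₁ he₁
    refine le_trans (sum_le_sum_of_subset_of_nonneg ?_ fun e _ _ => hτ e) (hδ i)
    intro e he
    rw [mem_filter] at he ⊢
    exact ⟨he.1, hi e he.2⟩
  · rw [sum_eq_zero]
    · exact hδ0
    · intro e he
      exact absurd ⟨e, (mem_filter.1 he).2⟩ hex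

end core

section anis

variable [CharP KK 2]

theorem B_av_self {P P' : Ty k0 KK d L} (hb : P.b none = 1) : B P.b (av P P') = 0 := by
  rw [av, B_comm, B_add_left, B_smul_left, B_self, hb, one_pow, mul_one, B_comm P'.b P.b]
  exact CharTwo.add_self_eq_zero _

theorem B_av {P P' R : Ty k0 KK d L} (h1 : Perp P R) (h2 : Perp P' R) : B R.b (av P P') = 0 := by
  have h1' : B R.b P.b = 0 := h1.symm
  have h2' : B R.b P'.b = 0 := h2.symm
  rw [av, B_comm, B_add_left, B_smul_left, B_comm P'.b R.b, B_comm P.b R.b, h1', h2', mul_zero,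
    add_zero]

/-- (sp) -/
theorem sp_le (e : ℕ) {P P' R : Ty k0 KK d L} (hP : P.b none = 1) (h1 : Perp P R)
    (h2 : Perp P' R) : Sp2 (2 ^ e) P P' ≤ UPQ (2 ^ e) 2 P R := by
  intro x hx
  refine Submodule.mem_inf.2 ⟨?_, ?_⟩
  · intro l
    obtain ⟨c, hc⟩ := hx l
    rw [hc]
    exact Submodule.smul_mem _ _ (Phi_mem_T1 e (B_av_self hP))
  · intro l
    obtain ⟨c, hc⟩ := hx l
    rw [hc]
    exact Submodule.smul_mem _ _ (Phi_mem_T1 e (B_av h1 h2))

theorem contr0_Phi (e : ℕ) (h b : Ix d → KK) (al : Fin 2 → Ix d) :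
    contr (2 ^ e) h (0 : Fin 2) (Phi (2 ^ e) b) al = B h b * b (al 1) ^ (2 ^ e) := by
  rw [contr_Phi]
  have h1 : (univ : Finset (Fin 2)).erase 0 = {1} := by decide
  rw [h1, prod_singleton]
  simp

/-- (aniso) -/
theorem aniso [Finite KK] {K : Set k0} (hK : Alph K) (e : ℕ) (hL : 0 < L)
    {P P' R R' : Ty k0 KK d L} (hR : Valid K R) (h1 : Perp P R) (h2 : Perp P' R)
    (hind : LinearIndependent KK ![R.b, R'.b]) {s : U KK d 2 L}
    (hs : s ∈ Sp2 (2 ^ e) P P') (a c : k0)
    (h : s + a • uvec (2 ^ e) 2 R + c • uvec (2 ^ e) 2 R' ∈ UP (2 ^ e) 2 R) : a = 0 := by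
  let l : Fin L := ⟨0, hL⟩
  obtain ⟨x, hx⟩ := hs l
  have h3 := (mem_T1.1 (h l)) 0
  have key : (algebraMap k0 KK a * (algebraMap k0 KK (R.E l) * R.lam)) • tw (2 ^ e) 2 R.b 1 +
      (algebraMap k0 KK c * (algebraMap k0 KK (R'.E l) * R'.lam) * B R.b R'.b) •
        tw (2 ^ e) 2 R'.b 1 = 0 := by
    funext j
    have h4 := congrFun h3 ![none, j]
    have h5 : (s + a • uvec (2 ^ e) 2 R + c • uvec (2 ^ e) 2 R') l =
        x • Phi (2 ^ e) (av P P') +
        (algebraMap k0 KK a * (algebraMap k0 KK (R.E l) * R.lam)) • Phi (2 ^ e) R.b +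
        (algebraMap k0 KK c * (algebraMap k0 KK (R'.E l) * R'.lam)) • Phi (2 ^ e) R'.b := by
      rw [Pi.add_apply, Pi.add_apply, hx, smul_uvec, smul_uvec]
    rw [h5, map_add, map_add, map_smul, map_smul, map_smul] at h4
    simp only [Pi.add_apply, Pi.smul_apply, smul_eq_mul, Pi.zero_apply] at h4
    rw [contr0_Phi, contr0_Phi, contr0_Phi, B_av h1 h2, B_self, hR.b0] at h4
    simp only [Matrix.cons_val_one, Matrix.cons_val_fin_one] at h4
    simp only [Pi.add_apply, Pi.smul_apply, smul_eq_mul, Pi.zero_apply, tw]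
    simp only [Fin.val_one, pow_one]
    linear_combination h4
  have h6 := (LinearIndependent.pair_iff.1 (tw_indep e R.b R'.b hind (1 : Fin 2))) _ _ key
  have h7 := h6.1
  rw [mul_eq_zero, map_eq_zero] at h7
  rcases h7 with h7 | h7
  · exact h7
  · exact absurd h7 (scal_ne hK hR l)

open scoped Classical in
/-- **`PB.Hyp` for the family from (h2), (h2')**.  Blocks = pairs of indices `(r e, r' e)` of the
sample, one-type masses at most `δ`. -/
theorem hyp_fblk [Finite KK] {K : Set k0} (hK : Alph K) {ι : Type} {T : ι → Ty k0 KK d L}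
    (hT : ∀ i, Valid K (T i))
    (hLI : ∀ J : Finset ι, J.card ≤ 6 → LinearIndependent KK (fun i : J => (T i).b))
    (e : ℕ) (hL : 0 < L) {p p' : ι} {κ : Type} [Fintype κ] (r r' : κ → ι)
    (h1 : ∀ x, Perp (T p) (T (r x))) (h2 : ∀ x, Perp (T p') (T (r x)))
    (h3 : ∀ x, Perp (T p) (T (r' x))) (h4 : ∀ x, Perp (T p') (T (r' x)))
    (h5 : ∀ x, r x ≠ r' x) (τ : κ → ℝ) (hτ : ∀ x, 0 ≤ τ x) (hs : ∑ x, τ x = 1) (δ : ℝ)
    (hδ : ∀ i, ∑ x with (r x = i ∨ r' x = i), τ x ≤ δ) (hδ0 : 0 ≤ δ)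
    (h2m : ∀ Y : U KK d 2 L, Y ∉ Sp2 (2 ^ e) (T p) (T p') → ∀ a c : k0,
      ∑ x with (Y + a • uvec (2 ^ e) 2 (T (r x)) + c • uvec (2 ^ e) 2 (T (r' x)) ∈
        UPQ (2 ^ e) 2 (T p) (T (r x))), τ x ≤ δ)
    (h2m' : ∀ Y : U KK d 2 L, Y ∉ Sp2 (2 ^ e) (T p) (T p') → ∀ a c : k0,
      ∑ x with (Y + a • uvec (2 ^ e) 2 (T (r x)) + c • uvec (2 ^ e) 2 (T (r' x)) ∈
        UPQ (2 ^ e) 2 (T p) (T (r' x))), τ x ≤ δ) :
    Hyp (fblk (2 ^ e) (T p) (T p') (fun x => T (r x)) (fun x => T (r' x))) τ δ := by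
  have ne : ∀ {i j : ι}, Perp (T i) (T j) → j ≠ i := by
    rintro i j h rfl
    exact (hT j).aniso h
  have li : ∀ i j : ι, i ≠ j → LinearIndependent KK ![(T i).b, (T j).b] := by
    intro i j hij
    have h := hLI {i, j} ((card_le_two).trans (by norm_num))
    have h' := h.comp (![⟨i, by simp⟩, ⟨j, by simp⟩] : Fin 2 → ({i, j} : Finset ι)) (by
      intro a b hab
      fin_cases a <;> fin_cases b <;> simp_all)
    convert h' using 1
    funext a
    fin_cases a <;> rfl
  refine
    { nonneg := hτ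
      sum := hs
      sp := fun x => sp_le e (hT p).b0 (h1 x) (h2 x)
      sp' := fun x => sp_le e (hT p).b0 (h3 x) (h4 x)
      ind := fun x a c h => ind hK hT hLI (2 ^ e) hL (ne (h1 x)) (ne (h2 x)) (ne (h3 x))
        (ne (h4 x)) (h5 x) a c h
      aniso := fun x s hs a c h => aniso hK e hL (hT (r x)) (h1 x) (h2 x) (li _ _ (h5 x)) hs a c
        (Submodule.mem_inf.1 h).2
      aniso' := fun x s hs a c h => aniso hK e hL (hT (r' x)) (h3 x) (h4 x)
        (li _ _ (h5 x).symm) hs c a (by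
          have h' := (Submodule.mem_inf.1 h).2
          rw [add_right_comm] at h'
          exact h')
      h1 := ?_
      h2 := h2m
      h2' := h2m' }
  intro y
  have := h1_sum hK hT hLI (2 ^ e) hL (p := p) (p' := p') r r' (fun x => ne (h1 x))
    (fun x => ne (h2 x)) (fun x => ne (h3 x)) (fun x => ne (h4 x)) h5 τ hτ δ hδ0 hδ y
  refine le_trans (le_of_eq ?_) this
  refine sum_congr ?_ fun _ _ => rfl
  ext x
  simp only [mem_filter, mem_univ, true_and]
  exact Iff.rfl

end anis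

end Crest.Agent.R042.PBFac989
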