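import Mathlib

/-! Row 42 / S0059: assembly of the supersaturation statement (cross kind) from the type level
theorem and the local conflict bound.  Abstract: `J` = ordered pairs of types, `Y` = pairs of
labels, `dl : J → Y → Δ` the difference word, `Θ` the data attached to a conditional law. -/

set_option autoImplicit false
set_option linter.unusedSectionVars false

namespace Crest.Agent.R042.SspAsm375

open Finset
open scoped Classical

/-- relative entropy of `μ` with respect to the uniform law on `Y`. -/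
noncomputable def KL {Y : Type*} [Fintype Y] (μ : Y → ℝ) : ℝ :=
  ∑ y, μ y * Real.log (Fintype.card Y * μ y)

/-- probability laws. -/
structure IsP {Y : Type*} [Fintype Y] (μ : Y → ℝ) : Prop where
  nonneg : ∀ y, 0 ≤ μ y
  sum : ∑ y, μ y = 1




section dis

variable {J Y Δ : Type*} [Fintype J] [Fintype Y] [Fintype Δ]

/-- sub-law of the class `c = (j, d)`. -/
noncomputable def sub (dl : J → Y → Δ) (τ : J × Y → ℝ) (c : J × Δ) (y : Y) : ℝ :=
  if dl c.1 y = c.2 then τ (c.1, y) else 0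

noncomputable def cm (dl : J → Y → Δ) (τ : J × Y → ℝ) (c : J × Δ) : ℝ := ∑ y, sub dl τ c y

noncomputable def cond (dl : J → Y → Δ) (τ : J × Y → ℝ) (c : J × Δ) (y : Y) : ℝ :=
  sub dl τ c y / cm dl τ c

variable {dl : J → Y → Δ} {τ : J × Y → ℝ}

lemma sub_nonneg (hτ : ∀ x, 0 ≤ τ x) (c : J × Δ) (y : Y) : 0 ≤ sub dl τ c y := by
  unfold sub
  split_ifs
  · exact hτ _
  · exact le_rfl

lemma cm_nonneg (hτ : ∀ x, 0 ≤ τ x) (c : J × Δ) : 0 ≤ cm dl τ c :=
  Finset.sum_nonneg fun y _ => sub_nonneg hτ c y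

lemma sum_sub (j : J) (y : Y) : ∑ d, sub dl τ (j, d) y = τ (j, y) := by
  unfold sub
  simp

lemma sum_cm_fst (j : J) : ∑ d, cm dl τ (j, d) = ∑ y, τ (j, y) := by
  unfold cm
  rw [Finset.sum_comm]
  exact Finset.sum_congr rfl fun y _ => sum_sub j y

lemma isP_cm (h : IsP τ) : IsP (cm dl τ) := by
  refine ⟨cm_nonneg h.nonneg, ?_⟩
  rw [Fintype.sum_prod_type]
  rw [Finset.sum_congr rfl (fun j _ => sum_cm_fst j), ← Fintype.sum_prod_type (f := τ)]
  exact h.sum

lemma isP_cond (h : IsP τ) {c : J × Δ} (hc : 0 < cm dl τ c) : IsP (cond dl τ c) := by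
  refine ⟨fun y => div_nonneg (sub_nonneg h.nonneg c y) hc.le, ?_⟩
  unfold cond
  rw [← Finset.sum_div]
  exact div_self hc.ne'

lemma cm_mul_cond (h : IsP τ) (c : J × Δ) (y : Y) :
    cm dl τ c * cond dl τ c y = sub dl τ c y := by
  rcases (cm_nonneg (dl := dl) h.nonneg c).eq_or_lt with h0 | h0
  · have h1 : sub dl τ c y = 0 := by
      have := (Finset.sum_eq_zero_iff_of_nonneg
        (fun y (_ : y ∈ (univ : Finset Y)) => sub_nonneg (dl := dl) h.nonneg c y)).1 h0.symm
      exact this y (Finset.mem_univ _)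
    rw [h1, ← h0]
    simp
  · unfold cond
    field_simp


/-- good classes: positive mass and small conditional entropy. -/
noncomputable def gd (dl : J → Y → Δ) (τ : J × Y → ℝ) (b : ℝ) : Finset (J × Δ) :=
  univ.filter fun c => 0 < cm dl τ c ∧ KL (cond dl τ c) ≤ b


/-- law on classes with data. -/
noncomputable def tt {Θ : Type*} (dl : J → Y → Δ) (τ : J × Y → ℝ) (b : ℝ) (θ : J × Δ → Θ)
    (x : J × Δ × Θ) : ℝ :=
  if (x.1, x.2.1) ∈ gd dl τ b ∧ θ (x.1, x.2.1) = x.2.2 then
    cm dl τ (x.1, x.2.1) / ∑ c ∈ gd dl τ b, cm dl τ c else 0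

end dis

section main

variable {J Y Δ Θ κ : Type*} [Fintype J] [Fintype Y] [Fintype Δ] [Fintype Θ]





end main

end Crest.Agent.R042.SspAsm375
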