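import Crest.Agent.R042.GamS_831_Mg
import Crest.Agent.R042.Exist_592
import Crest.Agent.R042.TLevG_333
import Crest.Agent.R042.TLevP_333
import Mathlib
import Crest.Agent.R042.PBAsy_713
import Crest.Agent.R042.LocFam_958
import Crest.Agent.R042.Inst_592
import Crest.Agent.R042.PBFam_341
import Crest.Agent.R042.SspB_375
import Crest.Agent.R042.IsoD_543_Mg
import Crest.Agent.R042.LocC_958
import Crest.Agent.R042.ConfB_461
import Crest.Agent.R042.FinB_713
import Crest.Agent.R042.HG_365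

-- ▼ part R042/GamInst_664
section

/-! # The same-type gadget Γ for a good sample (helper664): 831's greedy lemma + 831's sample facts +
quasi-randomness from Theorem T. -/

set_option autoImplicit false
set_option linter.unusedVariables false

namespace Crest.Agent.R042.GamInst664

open Finset Crest.Agent.R042.TLev333 Crest.Agent.R042.GamS831
open scoped Classical

/-- For every `ε` there are `D, ρ0` such that every good sample carries a gadget graph. -/
theorem gamma_sample (ε : ℝ) (hε : 0 < ε) (hε1 : ε ≤ 1) :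
    ∃ (D : ℕ) (ρ0 : ℝ), 0 < ρ0 ∧ ∀ (ι Om : Type) [Fintype ι] [Nonempty ι]
      [Fintype Om] (perp : Om → Om → Prop) (hsym : ∀ P Q, perp P Q → perp Q P)
      (_hirr : ∀ P, ¬ perp P P) (ρ : ℝ), 0 < ρ → ρ ≤ ρ0 → ∀ x : ι → Om,
      Gen perp ρ x univ →
      (∀ J : Finset ι, 1 ≤ J.card → J.card ≤ 2 →
        ((univ.filter fun Q => ∀ j ∈ J, perp (x j) Q).card : ℝ) ≤ ρ ^ J.card * Fintype.card Om →
        (cntJ perp J x : ℝ) ≤ 2 * ρ ^ J.card * Fintype.card ι) →
      (∀ τ τ' : ι → ℝ, (∀ s, 0 ≤ τ s) → ∑ s, τ s = 1 → (∀ i, τ i ≤ 1 / (ε * Fintype.card ι)) →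
        (∀ s, 0 ≤ τ' s) → ∑ s, τ' s = 1 → (∀ i, τ' i ≤ 1 / (ε * Fintype.card ι)) →
        ρ / 32 ≤ ∑ s, ∑ s', (if perp (x s) (x s') then τ s * τ' s' else 0)) →
      ∃ G : SimpleGraph ι, (∀ a b, G.Adj a b → a ≠ b ∧ perp (x a) (x b)) ∧
        (∀ a, (univ.filter fun b => G.Adj a b).card ≤ D) ∧
        (∀ a b c, G.Adj a b → G.Adj a c → b ≠ c → ¬ perp (x b) (x c)) ∧
        ∀ A B : Finset ι, ε * Fintype.card ι ≤ A.card → ε * Fintype.card ι ≤ B.card →
          ∃ a ∈ A, ∃ b ∈ B, G.Adj a b := by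
  obtain ⟨D, ρ0, h0, h⟩ := GamG831.gamma ε (1 / 32) 2 hε hε1 (by norm_num) (by norm_num)
  refine ⟨D, ρ0, h0, ?_⟩
  intro ι Om _ _ _ perp hsym hirr ρ hρ hρ1 x hgen hx hT
  have hN : (0 : ℝ) < Fintype.card ι := by exact_mod_cast Fintype.card_pos
  have hgen2 : ∀ J : Finset ι, J.card ≤ 2 →
      ((univ.filter fun Q => ∀ j ∈ J, perp (x j) Q).card : ℝ) ≤ ρ ^ J.card * Fintype.card Om := by
    intro J hJ
    refine le_trans (le_of_eq ?_) (hgen J (subset_univ _) (by omega)).le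
    congr!
  obtain ⟨G, g1, g2, g3, g4⟩ := h ι (PG perp hsym x) ρ hρ hρ1
    (fun a => deg_le perp hsym ρ x hgen2 hx a)
    (fun a c hac => codeg_le perp hsym ρ x hgen2 hx a c hac.ne)
    (fun A B hA hB => by
      have hq := Quasi664.quasi_of perp ρ x (1 / (ε * Fintype.card ι)) hT A B
        (by rw [one_div, inv_mul_eq_div, le_div_iff₀ (by positivity), one_mul]; exact hA)
        (by rw [one_div, inv_mul_eq_div, le_div_iff₀ (by positivity), one_mul]; exact hB)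
      refine hq.trans ?_
      rw [Nat.cast_le]
      refine card_le_card fun p hp => ?_
      rw [mem_filter] at hp ⊢
      refine ⟨hp.1, ?_, hp.2⟩
      rintro he
      rw [he] at hp
      exact hirr _ hp.2)
  refine ⟨G, fun a b hab => g1 hab, g2, ?_, g4⟩
  intro a b c hab hac hbc hp
  exact g3 a b c hab hac hbc ⟨hbc, hp⟩

end Crest.Agent.R042.GamInst664
end

-- ▼ part R042/SampAll_592
section

/-! Row 42 / S0059: THE ONE SAMPLE. One sample of types with all properties that the two kinds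
(cross kind, same kind) consume: `m`-genericity, richness, goodness for the system of pieces, the
gadget graph, and finitely many further properties. -/

set_option autoImplicit false
set_option linter.unusedSectionVars false

namespace Crest.Agent.R042.SampAll592

open Finset Function
open scoped Classical
open Crest.Agent.R042.TLev333 Crest.Agent.R042.Fam543 Crest.Agent.R042.Gen592
open Crest.Agent.R042.Inst592 Crest.Agent.R042.Facts592 Crest.Agent.R042.RichOm592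
open Crest.Agent.R042.Exist592 Crest.Agent.R042.Rich380

section GenM

variable {K W Ω I : Type*} [Field K] [Fintype K] [AddCommGroup W] [Module K W] [Fintype W]
  [Fintype Ω]

lemma li_mono {v : Ω → W} {m n : ℕ} (h : n ≤ m) {x : I → Ω} (hx : LI K v m x) : LI K v n x :=
  fun J hJ => hx J (hJ.trans h)

/-- `m`-genericity from span conditions. -/
lemma li_of_notMem_m {v : Ω → W} [Fintype I] (m : ℕ) (hI : 2 ≤ Fintype.card I) {x : I → Ω}
    (h : ∀ (f : Fin m → I) (i : I), (∀ j, f j ≠ i) →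
      v (x i) ∉ Submodule.span K (Set.range fun j => v (x (f j)))) : LI K v (m + 1) x := by
  classical
  intro J hJ
  rw [linearIndependent_iff_notMem_span]
  rintro ⟨i, hi⟩ hmem
  obtain ⟨d, hd⟩ := Fintype.exists_ne_of_one_lt_card (show 1 < Fintype.card I by omega) i
  have hcard : (J.erase i).card ≤ m := by
    rw [Finset.card_erase_of_mem hi]
    omega
  refine h (fun k => ((J.erase i).toList[(k : ℕ)]?).getD d) i ?_ ?_
  · intro k
    rcases hk : ((J.erase i).toList[(k : ℕ)]?) with _ | j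
    · simpa [hk] using hd
    · have hj : j ∈ J.erase i := by
        rw [← Finset.mem_toList]
        exact List.mem_of_getElem? hk
      simp only [Option.getD_some]
      exact (Finset.mem_erase.mp hj).1
  · refine Submodule.span_mono ?_ hmem
    rintro _ ⟨⟨j, hj⟩, hji, rfl⟩
    have hji' : j ≠ i := fun hh => hji.2 (by simp [hh])
    have hj' : j ∈ (J.erase i).toList := by
      rw [Finset.mem_toList]
      exact Finset.mem_erase.mpr ⟨hji', hj⟩
    obtain ⟨k, hk, hk'⟩ := List.mem_iff_getElem.mp hj'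
    rw [Finset.length_toList] at hk
    refine ⟨⟨k, by omega⟩, ?_⟩
    have hk2 : (J.erase i).toList[k]? = some j := by
      rw [List.getElem?_eq_some_iff]
      exact ⟨by rw [Finset.length_toList]; exact hk, hk'⟩
    simp only [hk2, Option.getD_some]

lemma card_span_le_m {v : Ω → W} {c : ℕ} (hv : Fib v c) (m : ℕ) (u : Fin m → W) :
    (univ.filter fun Q : Ω => v Q ∈ Submodule.span K (Set.range u)).card ≤
      Fintype.card K ^ m * c := by
  classical
  rw [card_pre hv (fun w => w ∈ Submodule.span K (Set.range u))]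
  refine Nat.mul_le_mul_right _ ?_
  have hsub : (univ.filter fun w : W => w ∈ Submodule.span K (Set.range u)) ⊆
      (univ : Finset (Fin m → K)).image (fun a => ∑ i, a i • u i) := by
    intro w hw
    rw [Finset.mem_filter] at hw
    obtain ⟨a, ha⟩ := (Submodule.mem_span_range_iff_exists_fun K).mp hw.2
    rw [Finset.mem_image]
    exact ⟨a, Finset.mem_univ _, ha⟩
  calc _ ≤ _ := Finset.card_le_card hsub
    _ ≤ _ := Finset.card_image_le
    _ = _ := by rw [Finset.card_univ, Fintype.card_fun, Fintype.card_fin]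

/-- all but `N^(m+1) K^m / |W|` of the samples are `(m+1)`-generic. -/
theorem card_not_li_m_le [Fintype I] [Nonempty Ω] {v : Ω → W} {c : ℕ} (hv : Fib v c)
    (hI : 2 ≤ Fintype.card I) (m : ℕ) :
    (((univ.filter fun x : I → Ω => ¬ LI K v (m + 1) x).card : ℕ) : ℝ) ≤
      (Fintype.card I : ℝ) ^ (m + 1) * ((Fintype.card K : ℝ) ^ m / Fintype.card W) *
        (Fintype.card Ω : ℝ) ^ Fintype.card I := by
  classical
  set κ : ℝ := (Fintype.card K : ℝ) ^ m / Fintype.card W with hκ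
  have hW : (0 : ℝ) < Fintype.card W := by exact_mod_cast Fintype.card_pos
  have hκ0 : 0 ≤ κ := by positivity
  set D : (Fin m → I) × I → Finset (I → Ω) := fun p =>
    univ.filter fun x => (∀ j, p.1 j ≠ p.2) ∧
      v (x p.2) ∈ Submodule.span K (Set.range fun j => v (x (p.1 j))) with hD
  have hsub : (univ.filter fun x : I → Ω => ¬ LI K v (m + 1) x) ⊆ univ.biUnion D := by
    intro x hx
    rw [Finset.mem_filter] at hx
    by_contra hcon
    apply hx.2
    refine li_of_notMem_m m hI (fun f i hf hmem => hcon ?_)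
    rw [Finset.mem_biUnion]
    refine ⟨(f, i), Finset.mem_univ _, ?_⟩
    rw [hD, Finset.mem_filter]
    exact ⟨Finset.mem_univ _, hf, hmem⟩
  have hDc : ∀ p, ((D p).card : ℝ) ≤ κ * (Fintype.card Ω : ℝ) ^ Fintype.card I := by
    rintro ⟨f, i⟩
    by_cases hf : ∀ j, f j ≠ i
    · have h := count_one (I := I) (Ω := Ω) {i}
        (fun x => univ.filter fun Q : Ω => v Q ∈ Submodule.span K (Set.range fun j => v (x (f j))))
        κ hκ0 (by
          intro x j hj a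
          rw [Finset.mem_singleton] at hj
          subst hj
          have : (fun k => v (update x j a (f k))) = fun k => v (x (f k)) := by
            funext k
            rw [update_of_ne (hf k)]
          rw [this]) (by
          intro x
          have h1 := card_span_le_m (K := K) hv m (fun j => v (x (f j)))
          have h2 : (Fintype.card Ω : ℝ) = Fintype.card W * c := by
            rw [card_Om hv]; push_cast; rfl
          have h3 : ((univ.filter fun Q : Ω => v Q ∈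
              Submodule.span K (Set.range fun j => v (x (f j)))).card : ℝ) ≤
              (Fintype.card K : ℝ) ^ m * c := by exact_mod_cast h1
          refine h3.trans (le_of_eq ?_)
          rw [h2, hκ]
          field_simp)
      rw [Finset.card_singleton, pow_one] at h
      refine le_trans ?_ h
      refine Nat.cast_le.mpr (Finset.card_le_card ?_)
      intro x hx
      rw [hD, Finset.mem_filter] at hx
      rw [Finset.mem_filter]
      refine ⟨Finset.mem_univ _, ?_⟩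
      intro j hj
      rw [Finset.mem_singleton] at hj
      subst hj
      rw [Finset.mem_filter]
      exact ⟨Finset.mem_univ _, hx.2.2⟩
    · have : D (f, i) = ∅ := by
        rw [hD]
        refine Finset.filter_eq_empty_iff.mpr ?_
        intro x _ hx
        exact hf hx.1
      rw [this, Finset.card_empty]
      push_cast
      positivity
  calc (((univ.filter fun x : I → Ω => ¬ LI K v (m + 1) x).card : ℕ) : ℝ)
      ≤ ∑ p, ((D p).card : ℝ) := by
        have h := (Finset.card_le_card hsub).trans Finset.card_biUnion_le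
        exact_mod_cast h
    _ ≤ ∑ _p : (Fin m → I) × I, κ * (Fintype.card Ω : ℝ) ^ Fintype.card I :=
        Finset.sum_le_sum (fun p _ => hDc p)
    _ = _ := by
        rw [Finset.sum_const, Finset.card_univ, Fintype.card_prod, Fintype.card_fun,
          Fintype.card_fin, nsmul_eq_mul]
        push_cast
        ring

end GenM

section Numbers

/-- the numbers of a system from `params`. -/
theorem num_of {I Ω σ : Type*} [Fintype I] [Fintype Ω] [Fintype σ] (S : Sys I Ω σ)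
    (M : ℝ) (B : ℕ) (hM : 1 ≤ M) (hη : 6656 * M * S.η ≤ 1)
    (hB1 : 1 ≤ B) (hB : 52 * M ≤ B * S.ρ ^ 4)
    (hN : 100 * (B : ℝ) ^ 2 ≤ Fintype.card I * (S.η ^ 5 * S.ρ ^ 8))
    (hσ : Fintype.card σ + 1 ≤ 2 ^ B) (hθ : S.θ * (Fintype.card I : ℝ) ^ 3 ≤ 1) :
    ∃ ℓ r : ℕ, Num S ℓ r ∧ 4 * ℓ * (M / Fintype.card I) ≤ S.η * S.ρ ^ 4 ∧
      256 * (ℓ + r) * (M / Fintype.card I) ≤ 1 := by
  obtain ⟨ℓ, r, h1, h2, h3, h4, h5, h6, h7, h8, h9⟩ := params M S.η S.ρ B (Fintype.card I) hM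
    S.η0 hη S.ρ0 S.ρ1 hB1 hB hN
  refine ⟨ℓ, r, ⟨h1, h2, h3, h4, ?_, ?_⟩, h8, h9⟩
  · exact (Nat.mul_le_mul_left 16 (Nat.pow_le_pow_left hσ ℓ)).trans h5
  · have hE0 : 0 ≤ S.η * ℓ * S.ρ ^ 4 := by linarith
    have e1 : (S.η * ℓ * S.ρ ^ 4) ^ 2 ≤ (Fintype.card I : ℝ) ^ 2 := pow_le_pow_left₀ hE0 h7 2
    have e2 : (ℓ : ℝ) ≤ Fintype.card I := by exact_mod_cast h6
    have h0 := S.θ0
    calc ℓ * S.θ * (S.η * ℓ * S.ρ ^ 4) ^ 2 ≤
        Fintype.card I * S.θ * (Fintype.card I : ℝ) ^ 2 := by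
          refine mul_le_mul (mul_le_mul_of_nonneg_right e2 h0) e1 (by positivity) (by positivity)
      _ = S.θ * (Fintype.card I : ℝ) ^ 3 := by ring
      _ ≤ 1 := hθ

end Numbers

section Main

variable {k0 KK : Type} [Field k0] [Field KK] [Algebra k0 KK] [Fintype k0] [Fintype KK]

/-- 831's sample event. -/
def Ev {I Ω : Type} [Fintype I] [Fintype Ω] (perp : Ω → Ω → Prop) (ρ : ℝ) (x : I → Ω) : Prop :=
  ∀ J : Finset I, 1 ≤ J.card → J.card ≤ 2 →
    ((univ.filter fun Q => ∀ j ∈ J, perp (x j) Q).card : ℝ) ≤ ρ ^ J.card * Fintype.card Ω →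
    (GamS831.cntJ perp J x : ℝ) ≤ 2 * ρ ^ J.card * Fintype.card I

theorem bad_ev {I Ω : Type} [Fintype I] [Fintype Ω] (perp : Ω → Ω → Prop) (ρ : ℝ) (hρ : 0 < ρ)
    (hρ1 : ρ ≤ 1) (hN : 250 ≤ ρ ^ 4 * Fintype.card I) :
    (((univ.filter fun x : I → Ω => ¬ Ev perp ρ x).card : ℕ) : ℝ) ≤
      1 / 16 * (Fintype.card Ω : ℝ) ^ Fintype.card I := by
  have h := GamS831.sample (ι := I) perp ρ hρ hρ1 hN
  refine le_trans (le_of_eq ?_) h
  unfold Ev
  congr!

theorem bad_li {K : Set k0} (h1 : (1 : k0) ∈ K) (d L : ℕ) {I : Type} [Fintype I]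
    (hI : 2 ≤ Fintype.card I) (m : ℕ) (hgen : (Fintype.card I : ℝ) ^ (m + 1) *
          ((Fintype.card KK : ℝ) ^ m / (Fintype.card KK : ℝ) ^ (2 * d)) ≤ 1 / 16) :
    (((univ.filter fun x : I → Om KK K d L => ¬ LI KK vv (m + 1) x).card : ℕ) : ℝ) ≤
      1 / 16 * (Fintype.card (Om KK K d L) : ℝ) ^ Fintype.card I := by
  have := nonempty_Om (KK := KK) h1 d L
  have h := card_not_li_m_le (K := KK) (I := I) (fib (KK := KK) K d L) hI m
  rw [card_WW] at h
  push_cast at h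
  refine le_trans ?_ (h.trans (mul_le_mul_of_nonneg_right hgen (by positivity)))
  exact le_of_eq (by congr!)

/-- existence of the sample, two systems, `LI (m+1)`, 831's event, finitely many further bad
sets (total `≤ 1/2`). -/
theorem exists_x {K : Set k0} (h1 : (1 : k0) ∈ K) {d L : ℕ} {I σ σ' : Type}
    [Fintype I] [DecidableEq I] [Fintype σ] [DecidableEq σ] [Fintype σ'] [DecidableEq σ']
    (hI : 2 ≤ Fintype.card I) (m : ℕ)
    (hgen : (Fintype.card I : ℝ) ^ (m + 1) *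
          ((Fintype.card KK : ℝ) ^ m / (Fintype.card KK : ℝ) ^ (2 * d)) ≤ 1 / 16)
    (ρ : ℝ) (hρ0 : 0 < ρ) (hρ1 : ρ ≤ 1) (hN : 250 ≤ ρ ^ 4 * Fintype.card I)
    (S : Sys I (Om KK K d L) σ) (ℓ r : ℕ) (hS : Num S ℓ r)
    (T : Sys I (Om KK K d L) σ') (ℓ' r' : ℕ) (hT : Num T ℓ' r')
    {ι : Type*} (s : Finset ι) (bad : ι → (I → Om KK K d L) → Prop) (c : ι → ℝ)
    (hbad : ∀ i ∈ s, (((univ.filter fun x => bad i x).card : ℕ) : ℝ) ≤
      c i * (Fintype.card (Om KK K d L) : ℝ) ^ Fintype.card I)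
    (hc : ∑ i ∈ s, c i ≤ 1 / 2) :
    ∃ x : I → Om KK K d L, LI KK vv (m + 1) x ∧ Ev (perp K d L) ρ x ∧ S.Good ℓ r x ∧
      T.Good ℓ' r' x ∧ ∀ i ∈ s, ¬ bad i x := by
  have hne := nonempty_Om (KK := KK) h1 d L
  set W : ℝ := (Fintype.card (Om KK K d L) : ℝ) ^ Fintype.card I with hW
  have hWc : (Fintype.card (I → Om KK K d L) : ℝ) = W := by
    rw [Fintype.card_fun]; push_cast; rfl
  have b1 : (((univ.filter fun x : I → Om KK K d L => ¬ LI KK vv (m + 1) x).card : ℕ) : ℝ) ≤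
      1 / 16 * W := by
    have h := bad_li (KK := KK) h1 d L hI m hgen
    convert h
  have b2 : (((univ.filter fun x : I → Om KK K d L => ¬ Ev (perp K d L) ρ x).card : ℕ) : ℝ) ≤
      1 / 16 * W := by
    have h := bad_ev (I := I) (perp (KK := KK) K d L) ρ hρ0 hρ1 hN
    convert h
  have b3 := Sys.card_bad_le (S := S) ℓ r hS.hE hS.hE' hS.hr1 hS.hr2 hS.hr3 hS.hθ
  have b4 := Sys.card_bad_le (S := T) ℓ' r' hT.hE hT.hE' hT.hr1 hT.hr2 hT.hr3 hT.hθ
  have hbad' : ∀ i ∈ s, (((univ.filter fun x => bad i x).card : ℕ) : ℝ) ≤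
      c i * Fintype.card (I → Om KK K d L) := by
    intro i hi
    rw [hWc]
    exact hbad i hi
  rw [← hWc] at b1 b2
  rw [← hW, ← hWc] at b3 b4
  exact exists5 _ _ _ _ (1 / 16) (1 / 16) (1 / 8) (1 / 8) b1 b2 b3 b4 s bad c hbad'
    (by linarith)

/-- the mass inequality for one-index laws. -/
theorem mass_of {I Ω : Type} [Fintype I] [DecidableEq I] [Fintype Ω] (perp : Ω → Ω → Prop)
    (hsym : ∀ P Q, perp P Q → perp Q P) (ρ η : ℝ) (hρ0 : 0 < ρ) (hρ1 : ρ ≤ 1) (hη0 : 0 < η)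
    (hη1 : η ≤ 1) {ℓ r : ℕ} {x : I → Ω}
    (hG : (Quasi664.triv (I := I) perp ρ η hρ0 hρ1 hη0 hη1).Good ℓ r x)
    (hgen : Gen perp ρ x univ) (hE : 1 ≤ η * ℓ * ρ ^ 4) (hη : η ≤ 1 / 4096)
    (m : ℝ) (hm0 : 0 ≤ m) (hℓm : 4 * ℓ * m ≤ η * ρ ^ 4) (hrm : 256 * (ℓ + r) * m ≤ 1)
    (τ τ' : I → ℝ) (t0 : ∀ s, 0 ≤ τ s) (t1 : ∑ s, τ s = 1) (t2 : ∀ i, τ i ≤ m)
    (t0' : ∀ s, 0 ≤ τ' s) (t1' : ∑ s, τ' s = 1) (t2' : ∀ i, τ' i ≤ m) :
    ρ / 32 ≤ ∑ s, ∑ s', (if perp (x s) (x s') then τ s * τ' s' else 0) := by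
  set T : Sys I Ω I := Quasi664.triv (I := I) perp ρ η hρ0 hρ1 hη0 hη1 with hT
  have hidx : ∀ (u : I → ℝ) (i : I),
      ∑ j ∈ univ.filter (fun j => i ∈ T.idx j), u j = u i := by
    intro u i
    have h1 : (univ.filter fun j : I => i ∈ T.idx j) = {i} := by
      ext j
      simp only [hT, Quasi664.triv, Finset.mem_filter, Finset.mem_univ, true_and,
        Finset.mem_singleton, eq_comm]
    rw [h1, Finset.sum_singleton]
  obtain ⟨G, G', -, -, -, -, h⟩ := Sys.theoremT T T rfl rfl rfl hsym hG hG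
    hgen hE hη m hm0 hℓm hrm τ t0 t1 (fun i => by rw [hidx]; exact t2 i) τ' t0' t1'
    (fun i => by rw [hidx]; exact t2' i)
  have hTρ : T.ρ ^ (T.a * T.a) = ρ := by
    show ρ ^ (1 * 1) = ρ
    rw [mul_one, pow_one]
  rw [hTρ] at h
  refine h.trans ?_
  refine (Finset.sum_le_sum_of_subset_of_nonneg (Finset.subset_univ G) ?_).trans
    (Finset.sum_le_sum fun a _ => (Finset.sum_le_sum_of_subset_of_nonneg
      (Finset.subset_univ G') ?_).trans (Finset.sum_le_sum fun b _ => ?_))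
  · intro a _ _
    refine Finset.sum_nonneg fun b _ => ?_
    split_ifs
    · exact mul_nonneg (t0 a) (t0' b)
    · exact le_rfl
  · intro b _ _
    split_ifs
    · exact mul_nonneg (t0 a) (t0' b)
    · exact le_rfl
  · by_cases hL : Sys.Live T T x a b
    · have h6 : perp (x a) (x b) := hL.1 a (Finset.mem_singleton_self a) b
        (Finset.mem_singleton_self b)
      rw [if_pos hL, if_pos h6]
    · rw [if_neg hL]
      split_ifs
      · exact mul_nonneg (t0 a) (t0' b)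
      · exact le_rfl

theorem perp_irr [CharP KK 2] {K : Set k0} {d L : ℕ} (P : Om KK K d L) :
    ¬ perp K d L P P := by
  intro h
  have h2 := (perp_iff P P).mp h
  rw [om_self] at h2
  exact neg_ne_zero.mpr one_ne_zero h2.symm

/-- 831's size condition from the numbers. -/
theorem size_of (ε : ℝ) (hε : 0 < ε) (hε1 : ε ≤ 1) (ρ N : ℝ) (hρ0 : 0 < ρ) (hρ1 : ρ ≤ 1)
    (hN0 : 0 < N) (B : ℕ) (hB1 : 1 ≤ B)
    (hN' : 100 * (B : ℝ) ^ 2 ≤ N * ((ε / 6656) ^ 5 * ρ ^ 8)) : 250 ≤ ρ ^ 4 * N := by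
  have hη'0 : 0 < ε / 6656 := by positivity
  have hη'1 : ε / 6656 ≤ 1 / 6656 := by
    rw [div_le_div_iff₀ (by norm_num) (by norm_num)]; linarith
  have a1 : (1 : ℝ) ≤ (B : ℝ) ^ 2 := by
    have : (1 : ℝ) ≤ B := by exact_mod_cast hB1
    nlinarith
  have a2 : (ε / 6656) ^ 5 ≤ (1 / 6656 : ℝ) ^ 5 := pow_le_pow_left₀ hη'0.le hη'1 5
  have a3 : ρ ^ 8 ≤ ρ ^ 4 := pow_le_pow_of_le_one hρ0.le hρ1 (by norm_num)
  have a4 : (ε / 6656) ^ 5 * ρ ^ 8 ≤ (1 / 6656 : ℝ) ^ 5 * ρ ^ 4 :=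
    mul_le_mul a2 a3 (by positivity) (by positivity)
  have a5 : N * ((ε / 6656) ^ 5 * ρ ^ 8) ≤
      N * ((1 / 6656 : ℝ) ^ 5 * ρ ^ 4) := mul_le_mul_of_nonneg_left a4 hN0.le
  have a6 : (100 : ℝ) ≤ N * ((1 / 6656 : ℝ) ^ 5 * ρ ^ 4) := by linarith
  have a7 : N * ((1 / 6656 : ℝ) ^ 5 * ρ ^ 4) =
    (1 / 6656 : ℝ) ^ 5 * (ρ ^ 4 * N) := by ring
  rw [a7] at a6
  have a8 : (1 / 6656 : ℝ) ^ 5 ≤ 1 / 250 := by norm_num
  have a9 : (1 / 6656 : ℝ) ^ 5 * (ρ ^ 4 * N) ≤
      1 / 250 * (ρ ^ 4 * N) := mul_le_mul_of_nonneg_right a8 (by positivity)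
  linarith

/-- **THE SAMPLE THEOREM** (no richness; `bad` = finitely many further bad sets). -/
theorem sample_all (ε : ℝ) (hε : 0 < ε) (hε1 : ε ≤ 1) :
    ∃ (D : ℕ) (ρ0 : ℝ), 0 < ρ0 ∧
      ∀ (k0 KK : Type) [Field k0] [Field KK] [Algebra k0 KK] [Fintype k0] [Fintype KK]
        [CharP KK 2] (K : Set k0) (_h1 : (1 : k0) ∈ K) (d L : ℕ) (I σ : Type)
        [Fintype I] [DecidableEq I] [Fintype σ] [DecidableEq σ]
        (_hρ : (Fintype.card KK : ℝ)⁻¹ ≤ ρ0) (_hI : 2 ≤ Fintype.card I)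
        (m : ℕ) (_hm : 7 ≤ m)
        (_hgen : (Fintype.card I : ℝ) ^ (m + 1) *
          ((Fintype.card KK : ℝ) ^ m / (Fintype.card KK : ℝ) ^ (2 * d)) ≤ 1 / 16)
        (S : Sys I (Om KK K d L) σ) (_hSρ : S.ρ = (Fintype.card KK : ℝ)⁻¹)
        (M : ℝ) (B : ℕ) (_hM : 1 ≤ M) (_hη : 6656 * M * S.η ≤ 1) (_hB1 : 1 ≤ B)
        (_hB : 52 * M ≤ B * ((Fintype.card KK : ℝ)⁻¹) ^ 4)
        (_hN : 100 * (B : ℝ) ^ 2 ≤ Fintype.card I * (S.η ^ 5 * ((Fintype.card KK : ℝ)⁻¹) ^ 8))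
        (_hσ : Fintype.card σ + 1 ≤ 2 ^ B) (_hθ : S.θ * (Fintype.card I : ℝ) ^ 3 ≤ 1)
        (_hIB : Fintype.card I + 1 ≤ 2 ^ B)
        (_hB' : 52 * (1 / ε) ≤ B * ((Fintype.card KK : ℝ)⁻¹) ^ 4)
        (_hN' : 100 * (B : ℝ) ^ 2 ≤
          Fintype.card I * ((ε / 6656) ^ 5 * ((Fintype.card KK : ℝ)⁻¹) ^ 8))
        (ι : Type) (s : Finset ι) (bad : ι → (I → Om KK K d L) → Prop) (c : ι → ℝ)
        (_hbad : ∀ i ∈ s, (((univ.filter fun x => bad i x).card : ℕ) : ℝ) ≤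
          c i * (Fintype.card (Om KK K d L) : ℝ) ^ Fintype.card I)
        (_hc : ∑ i ∈ s, c i ≤ 1 / 2),
        ∃ (ℓ r : ℕ) (x : I → Om KK K d L),
          LI KK vv (m + 1) x ∧ LI KK vv 8 x ∧
          Gen (perp K d L) ((Fintype.card KK : ℝ)⁻¹) x univ ∧
          Injective (fun i => (x i).1.b) ∧
          S.Good ℓ r x ∧ 1 ≤ S.η * ℓ * S.ρ ^ 4 ∧ S.η ≤ 1 / 4096 ∧
          4 * ℓ * (M / Fintype.card I) ≤ S.η * S.ρ ^ 4 ∧
          256 * (ℓ + r) * (M / Fintype.card I) ≤ 1 ∧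
          (∀ i ∈ s, ¬ bad i x) ∧
          ∃ Γ : SimpleGraph I, (∀ i j, Γ.Adj i j → Perp (x i).1 (x j).1) ∧
            (∀ i, (univ.filter fun j => Γ.Adj i j).card ≤ D) ∧
            (∀ i j k, Γ.Adj i j → Γ.Adj i k → j ≠ k → ¬ Perp (x j).1 (x k).1) ∧
            (∀ A A' : Finset I, ε * Fintype.card I ≤ A.card → ε * Fintype.card I ≤ A'.card →
              ∃ a ∈ A, ∃ b ∈ A', Γ.Adj a b) ∧
            (D ≤ m + 1 → ∀ i, LinearIndependent KK
              (fun j : {j // Γ.Adj i j} => (x j.1).1.b)) := by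
  obtain ⟨D, ρ0, h0, hgam⟩ := GamInst664.gamma_sample ε hε hε1
  refine ⟨D, ρ0, h0, ?_⟩
  intro k0 KK _ _ _ _ _ _ K h1 d L I σ _ _ _ _ hρ hI m hm hgen S hSρ M B hM hη hB1 hB hN hσ hθ
    hIB hB' hN' ι s bad c hbad hc
  have hneI : Nonempty I := Fintype.card_pos_iff.mp (by omega)
  have hK2 : (1 : ℝ) < Fintype.card KK := by exact_mod_cast Fintype.one_lt_card
  have hN0 : (0 : ℝ) < Fintype.card I := by exact_mod_cast Fintype.card_pos
  have hρ0 : (0 : ℝ) < (Fintype.card KK : ℝ)⁻¹ := by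
    have : (0 : ℝ) < Fintype.card KK := by linarith
    positivity
  have hρ1 : (Fintype.card KK : ℝ)⁻¹ ≤ 1 := (inv_lt_one_of_one_lt₀ hK2).le
  have hη'0 : 0 < ε / 6656 := by positivity
  have hη'1 : ε / 6656 ≤ 1 / 6656 := by
    rw [div_le_div_iff₀ (by norm_num) (by norm_num)]; linarith
  obtain ⟨ℓ, r, hS, e1, e2⟩ := num_of S M B hM hη hB1 (by rw [hSρ]; exact hB)
    (by rw [hSρ]; exact hN) hσ hθ
  obtain ⟨ℓ', r', hT', f1, f2⟩ := num_of (Quasi664.triv (I := I) (perp (KK := KK) K d L)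
    ((Fintype.card KK : ℝ)⁻¹) (ε / 6656) hρ0 hρ1 hη'0 (by linarith)) (1 / ε) B
    (by rw [le_div_iff₀ hε]; linarith)
    (by
      show 6656 * (1 / ε) * (ε / 6656) ≤ 1
      field_simp
      exact le_rfl) hB1 hB' hN' hIB (by
      show (0 : ℝ) * _ ≤ 1
      rw [zero_mul]; exact zero_le_one)
  obtain ⟨x, y1, y2, y3, y4, y5⟩ := exists_x h1 hI m hgen _ hρ0 hρ1
    (size_of ε hε hε1 _ _ hρ0 hρ1 hN0 B hB1 hN') S ℓ r hS _ ℓ' r' hT' s bad c hbad hc
  have x1 : LI KK vv 8 x := li_mono (by omega) y1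
  have hGen : Gen (perp K d L) ((Fintype.card KK : ℝ)⁻¹) x univ := gen x1 univ
  refine ⟨ℓ, r, x, y1, x1, hGen, b_injective x1, y3, hS.hE, ?_, e1, e2, y5, ?_⟩
  · have h0 := S.η0
    have : 6656 * S.η ≤ 6656 * M * S.η := by nlinarith
    rw [le_div_iff₀ (by norm_num)]
    linarith
  · obtain ⟨Γ, g1, g2, g3, g4⟩ := hgam I (Om KK K d L) (perp K d L) (fun P Q => perp_symm)
      perp_irr _ hρ0 hρ x hGen y2 (by
        intro τ τ' t0 t1 t2 t0' t1' t2'
        have hmm : (1 / ε / Fintype.card I : ℝ) = 1 / (ε * Fintype.card I) := by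
          rw [div_div]
        rw [hmm] at f1 f2
        exact mass_of (perp K d L) (fun P Q => perp_symm) _ (ε / 6656) hρ0 hρ1 hη'0
          (by linarith) y4 hGen hT'.hE (by
            have : (1 : ℝ) / 6656 ≤ 1 / 4096 := by norm_num
            linarith) (1 / (ε * Fintype.card I)) (by positivity) f1 f2 τ τ' t0 t1 t2 t0' t1' t2')
    refine ⟨Γ, fun i j h => (g1 i j h).2, g2, g3, g4, ?_⟩
    intro hD i
    have h1 := y1 (univ.filter fun j => Γ.Adj i j) ((g2 i).trans hD)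
    have h2 : LinearIndependent KK (fun j : {j // Γ.Adj i j} => vv (x j.1)) :=
      h1.comp (fun j : {j // Γ.Adj i j} =>
        (⟨j.1, by rw [Finset.mem_filter]; exact ⟨Finset.mem_univ _, j.2⟩⟩ :
          {k // k ∈ univ.filter fun j => Γ.Adj i j}))
        (fun a b hab => Subtype.ext (congrArg (fun z => z.1) hab))
    let f : (Ix d → KK) →ₗ[KK] WW KK d := LinearMap.funLeft KK KK some
    exact LinearIndependent.of_comp f h2


end Main

end Crest.Agent.R042.SampAll592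
end

-- ▼ part R042/SampNum_592
section

/-! Row 42 / S0059: all numeric hypotheses of `SampAll592.sample_all` hold for large `|KK|`
(plan B: `|KK| = t ^ 2`, `t = q ^ j`, `N = |KK| ^ 17` types). -/

set_option autoImplicit false

namespace Crest.Agent.R042.SampNum592

open Filter

/-- the numeric hypotheses of `sample_all` for `|KK| = Kc`, `N` types, `s` pieces. -/
structure Nums (ε M η ρ0 : ℝ) (m d Kc N B s : ℕ) (θ : ℝ) : Prop where
  hρ : (Kc : ℝ)⁻¹ ≤ ρ0
  hI : 2 ≤ N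
  hgen : (N : ℝ) ^ (m + 1) * ((Kc : ℝ) ^ m / (Kc : ℝ) ^ (2 * d)) ≤ 1 / 16
  hB1 : 1 ≤ B
  hB : 52 * M ≤ B * ((Kc : ℝ)⁻¹) ^ 4
  hN : 100 * (B : ℝ) ^ 2 ≤ N * (η ^ 5 * ((Kc : ℝ)⁻¹) ^ 8)
  hσ : s + 1 ≤ 2 ^ B
  hθ : θ * (N : ℝ) ^ 3 ≤ 1
  hIB : N + 1 ≤ 2 ^ B
  hB' : 52 * (1 / ε) ≤ B * ((Kc : ℝ)⁻¹) ^ 4
  hN' : 100 * (B : ℝ) ^ 2 ≤ N * ((ε / 6656) ^ 5 * ((Kc : ℝ)⁻¹) ^ 8)

theorem log_part (t s u c B : ℕ) (ht : 2 * s + c + c ^ 2 + 2 * u * c + 2 ≤ t) (hB : t ^ 8 ≤ B) :
    (t ^ 2) ^ s * c * (c * (t ^ 2) ^ u) ^ (c * t) + 1 ≤ 2 ^ B := by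
  have ht0 : 2 ≤ t := by omega
  have h1 : t ≤ 2 ^ t := Nat.lt_two_pow_self.le
  have h2 : c ≤ 2 ^ c := Nat.lt_two_pow_self.le
  have h3 : t ^ 2 ≤ 2 ^ (2 * t) := by
    calc t ^ 2 ≤ (2 ^ t) ^ 2 := Nat.pow_le_pow_left h1 2
      _ = 2 ^ (2 * t) := by rw [← pow_mul, mul_comm]
  have h4 : (t ^ 2) ^ s ≤ 2 ^ (2 * t * s) := by
    calc (t ^ 2) ^ s ≤ (2 ^ (2 * t)) ^ s := Nat.pow_le_pow_left h3 s
      _ = _ := by rw [← pow_mul]
  have h5 : (t ^ 2) ^ u ≤ 2 ^ (2 * t * u) := by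
    calc (t ^ 2) ^ u ≤ (2 ^ (2 * t)) ^ u := Nat.pow_le_pow_left h3 u
      _ = _ := by rw [← pow_mul]
  have h6 : (c * (t ^ 2) ^ u) ^ (c * t) ≤ 2 ^ ((c + 2 * t * u) * (c * t)) := by
    calc _ ≤ (2 ^ c * 2 ^ (2 * t * u)) ^ (c * t) := Nat.pow_le_pow_left (Nat.mul_le_mul h2 h5) _
      _ = _ := by rw [← pow_add, ← pow_mul]
  have h7 : (t ^ 2) ^ s * c * (c * (t ^ 2) ^ u) ^ (c * t) ≤
      2 ^ (2 * t * s + c + (c + 2 * t * u) * (c * t)) := by
    calc _ ≤ 2 ^ (2 * t * s) * 2 ^ c * 2 ^ ((c + 2 * t * u) * (c * t)) :=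
          Nat.mul_le_mul (Nat.mul_le_mul h4 h2) h6
      _ = _ := by rw [← pow_add, ← pow_add]
  have h8 : 2 * t * s + c + (c + 2 * t * u) * (c * t) + 1 ≤ t ^ 8 := by
    have e1 : 2 * t * s + c + (c + 2 * t * u) * (c * t) + 1 ≤
        (2 * s + c + c ^ 2 + 2 * u * c + 2) * t ^ 2 := by
      have a1 : t ≤ t ^ 2 := by nlinarith
      have a2 : 1 ≤ t ^ 2 := by nlinarith
      have b1 : 2 * t * s ≤ 2 * s * t ^ 2 := by nlinarith [Nat.mul_le_mul_left (2 * s) a1]
      have b2 : c ≤ c * t ^ 2 := by nlinarith [Nat.mul_le_mul_left c a2]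
      have b3 : c * (c * t) ≤ c ^ 2 * t ^ 2 := by nlinarith [Nat.mul_le_mul_left (c ^ 2) a1]
      have b4 : 2 * t * u * (c * t) = 2 * u * c * t ^ 2 := by ring
      nlinarith
    have e2 : (2 * s + c + c ^ 2 + 2 * u * c + 2) * t ^ 2 ≤ t * t ^ 2 :=
      Nat.mul_le_mul_right _ ht
    have e3 : t * t ^ 2 ≤ t ^ 8 := by
      calc t * t ^ 2 = t ^ 3 := by ring
        _ ≤ t ^ 8 := Nat.pow_le_pow_right (by omega) (by norm_num)
    omega
  have h9 : 2 ^ (2 * t * s + c + (c + 2 * t * u) * (c * t) + 1) ≤ 2 ^ B :=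
    Nat.pow_le_pow_right (by norm_num) (h8.trans hB)
  have h10 : 1 ≤ 2 ^ (2 * t * s + c + (c + 2 * t * u) * (c * t)) := Nat.one_le_two_pow
  calc _ ≤ 2 ^ (2 * t * s + c + (c + 2 * t * u) * (c * t)) +
        2 ^ (2 * t * s + c + (c + 2 * t * u) * (c * t)) := Nat.add_le_add h7 h10
    _ = 2 ^ (2 * t * s + c + (c + 2 * t * u) * (c * t) + 1) := by rw [pow_succ]; ring
    _ ≤ _ := h9

/-- core form in `t = √|KK|`. `s` counts the pieces, `θ` is the two-point density. -/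
theorem nums_t (ε M η ρ0 : ℝ) (hε : 0 < ε) (hM : 1 ≤ M) (hη : 0 < η) (hρ0 : 0 < ρ0)
    (a u c m d : ℕ) (hd : 18 * (m + 1) ≤ 2 * d) (hd' : 52 ≤ 2 * d) :
    ∃ T : ℕ, ∀ t : ℕ, T ≤ t → ∃ B : ℕ, ∀ (s : ℕ) (θ : ℝ),
      s ≤ ((t ^ 2) ^ 17) ^ 2 * (c * (t ^ 2) ^ a) * (c * (t ^ 2) ^ u) ^ (c * t) →
      θ ≤ c * t / ((t : ℝ) ^ 2) ^ (2 * d) →
      Nums ε M η ρ0 m d (t ^ 2) ((t ^ 2) ^ 17) B s θ := by
  set M' : ℝ := max M (1 / ε) with hM'
  have hM'1 : 1 ≤ M' := hM.trans (le_max_left _ _)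
  have hε6 : 0 < ε / 6656 := by positivity
  set T1 : ℕ := ⌈1 / ρ0⌉₊ + ⌈291600 * M' ^ 2 / η ^ 5⌉₊ + ⌈291600 * M' ^ 2 / (ε / 6656) ^ 5⌉₊ with hT1
  refine ⟨T1 + 16 + (2 * (34 + a) + c + c ^ 2 + 2 * u * c + 2) + (2 * 17 + 1 + 1 + 2 + c), ?_⟩
  intro t ht
  have ht16 : 16 ≤ t := by omega
  have ht0 : (16 : ℝ) ≤ t := by exact_mod_cast ht16
  have htT : (T1 : ℝ) ≤ t := by exact_mod_cast (by omega : T1 ≤ t)
  have hX : (t : ℝ) ≤ (t : ℝ) ^ 2 := by nlinarith
  have hX16 : (16 : ℝ) ≤ (t : ℝ) ^ 2 := by linarith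
  have hX0 : (0 : ℝ) < (t : ℝ) ^ 2 := by linarith
  have hX1 : (1 : ℝ) ≤ (t : ℝ) ^ 2 := by linarith
  have r1 : 1 / ρ0 ≤ t := by
    have e1 := Nat.le_ceil (1 / ρ0)
    have e2 : ((⌈1 / ρ0⌉₊ : ℕ) : ℝ) ≤ t := by
      exact_mod_cast (by omega : ⌈1 / ρ0⌉₊ ≤ t)
    linarith
  have r2 : 291600 * M' ^ 2 / η ^ 5 ≤ t := by
    have e1 := Nat.le_ceil (291600 * M' ^ 2 / η ^ 5)
    have e2 : ((⌈291600 * M' ^ 2 / η ^ 5⌉₊ : ℕ) : ℝ) ≤ t := by
      exact_mod_cast (by omega : ⌈291600 * M' ^ 2 / η ^ 5⌉₊ ≤ t)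
    linarith
  have r3 : 291600 * M' ^ 2 / (ε / 6656) ^ 5 ≤ t := by
    have e1 := Nat.le_ceil (291600 * M' ^ 2 / (ε / 6656) ^ 5)
    have e2 : ((⌈291600 * M' ^ 2 / (ε / 6656) ^ 5⌉₊ : ℕ) : ℝ) ≤ t := by
      exact_mod_cast (by omega : ⌈291600 * M' ^ 2 / (ε / 6656) ^ 5⌉₊ ≤ t)
    linarith
  set X : ℝ := (t : ℝ) ^ 2 with hXdef
  set B : ℕ := ⌈52 * M' * X ^ 4⌉₊ + 1 with hBdef
  have hB0 : 52 * M' * X ^ 4 ≤ (B : ℝ) := by
    have e1 := Nat.le_ceil (52 * M' * X ^ 4)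
    rw [hBdef]; push_cast; linarith
  have hX4 : 1 ≤ X ^ 4 := one_le_pow₀ hX1
  have hBle : (B : ℝ) ≤ 54 * M' * X ^ 4 := by
    have e1 := (Nat.ceil_lt_add_one (show 0 ≤ 52 * M' * X ^ 4 by positivity)).le
    have e2 : 1 ≤ M' * X ^ 4 := by nlinarith
    rw [hBdef]; push_cast
    nlinarith
  have hBt : t ^ 8 ≤ B := by
    have e1 : ((t ^ 8 : ℕ) : ℝ) ≤ (B : ℝ) := by
      push_cast
      have e2 : (t : ℝ) ^ 8 = X ^ 4 := by rw [hXdef]; ring
      rw [e2]
      have e3 : X ^ 4 ≤ 52 * M' * X ^ 4 := by nlinarith [mul_nonneg (by linarith : (0:ℝ) ≤ 52 * M' - 1) (by positivity : (0:ℝ) ≤ X ^ 4)]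
      linarith
    exact_mod_cast e1
  have hBx : ∀ κ : ℝ, κ ≤ M' → 52 * κ ≤ B * (X⁻¹) ^ 4 := by
    intro κ hκ
    rw [inv_pow, ← div_eq_mul_inv, le_div_iff₀ (by positivity)]
    refine le_trans ?_ hB0
    exact mul_le_mul_of_nonneg_right (by linarith) (by positivity)
  have hNx : ∀ κ : ℝ, 0 < κ → 291600 * M' ^ 2 / κ ^ 5 ≤ t →
      100 * (B : ℝ) ^ 2 ≤ X ^ 17 * (κ ^ 5 * (X⁻¹) ^ 8) := by
    intro κ hκ0 hκ
    rw [div_le_iff₀ (by positivity)] at hκ
    have e1 : (B : ℝ) ^ 2 ≤ (54 * M' * X ^ 4) ^ 2 := pow_le_pow_left₀ (by positivity) hBle 2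
    have e2 : 291600 * M' ^ 2 ≤ X * κ ^ 5 :=
      hκ.trans (mul_le_mul_of_nonneg_right hX (by positivity))
    have e3 : X ^ 17 * (κ ^ 5 * (X⁻¹) ^ 8) = X * κ ^ 5 * X ^ 8 := by
      rw [inv_pow]
      field_simp
    rw [e3]
    calc 100 * (B : ℝ) ^ 2 ≤ 100 * (54 * M' * X ^ 4) ^ 2 := by linarith
      _ = 291600 * M' ^ 2 * X ^ 8 := by ring
      _ ≤ X * κ ^ 5 * X ^ 8 := mul_le_mul_of_nonneg_right e2 (by positivity)
  have hcast : (((t ^ 2 : ℕ) : ℕ) : ℝ) = X := by rw [hXdef]; push_cast; rfl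
  have hcastN : ((((t ^ 2) ^ 17 : ℕ) : ℕ) : ℝ) = X ^ 17 := by rw [hXdef]; push_cast; rfl
  refine ⟨B, ?_⟩
  intro s θ hs hθ
  refine ⟨?_, ?_, ?_, ?_, ?_, ?_, ?_, ?_, ?_, ?_, ?_⟩
  · rw [hcast, inv_le_comm₀ hX0 hρ0, ← one_div]
    exact r1.trans hX
  · have : 2 ≤ t ^ 2 := by nlinarith
    exact this.trans (Nat.le_self_pow (by norm_num) _)
  · rw [hcast, hcastN, ← pow_mul, ← mul_div_assoc, ← pow_add,
      div_le_div_iff₀ (by positivity) (by norm_num), one_mul]
    have e1 : X ^ (17 * (m + 1) + m) * X ≤ X ^ (2 * d) := by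
      rw [← pow_succ]
      exact pow_le_pow_right₀ hX1 (by omega)
    have e2 : X ^ (17 * (m + 1) + m) * 16 ≤ X ^ (17 * (m + 1) + m) * X :=
      mul_le_mul_of_nonneg_left hX16 (by positivity)
    exact e2.trans e1
  · omega
  · rw [hcast]
    exact hBx M (le_max_left _ _)
  · rw [hcast, hcastN]
    exact hNx η hη r2
  · have e1 := log_part t (34 + a) u c B (by omega) hBt
    have e2 : ((t ^ 2) ^ 17) ^ 2 * (c * (t ^ 2) ^ a) * (c * (t ^ 2) ^ u) ^ (c * t) =
        (t ^ 2) ^ (34 + a) * c * (c * (t ^ 2) ^ u) ^ (c * t) := by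
      rw [pow_add, ← pow_mul (t ^ 2) 17 2]
      ring
    rw [e2] at hs
    omega
  · rw [hcastN]
    have e0 : (c : ℝ) ≤ t := by exact_mod_cast (by omega : c ≤ t)
    have e1 : (c : ℝ) * t ≤ X := by
      rw [hXdef, pow_two]
      exact mul_le_mul_of_nonneg_right e0 (by positivity)
    have e2 : θ ≤ X / X ^ (2 * d) :=
      hθ.trans (div_le_div_of_nonneg_right e1 (by positivity))
    calc θ * (X ^ 17) ^ 3 ≤ X / X ^ (2 * d) * (X ^ 17) ^ 3 :=
          mul_le_mul_of_nonneg_right e2 (by positivity)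
      _ = X ^ 52 / X ^ (2 * d) := by ring
      _ ≤ 1 := by
          rw [div_le_one (by positivity)]
          exact pow_le_pow_right₀ hX1 hd'
  · have e1 := log_part t 17 0 1 B (by omega) hBt
    have e2 : (t ^ 2) ^ 17 ≤ (t ^ 2) ^ 17 * 1 * (1 * (t ^ 2) ^ 0) ^ (1 * t) := by simp
    omega
  · rw [hcast]
    exact hBx (1 / ε) (le_max_right _ _)
  · rw [hcast, hcastN]
    exact hNx (ε / 6656) hε6 r3

/-- **all numeric hypotheses of `sample_all`**, plan B letters: `|KK| = (q^j)^2`,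
`N = |KK|^17`. -/
theorem nums (q : ℕ) (hq : 2 ≤ q) (ε M η ρ0 : ℝ) (hε : 0 < ε) (hM : 1 ≤ M) (hη : 0 < η)
    (hρ0 : 0 < ρ0) (a u c m d : ℕ) (hd : 18 * (m + 1) ≤ 2 * d) (hd' : 52 ≤ 2 * d) :
    ∀ᶠ j : ℕ in atTop, ∃ B : ℕ, ∀ (s : ℕ) (θ : ℝ),
      s ≤ ((q ^ (2 * j)) ^ 17) ^ 2 * (c * (q ^ (2 * j)) ^ a) *
        (c * (q ^ (2 * j)) ^ u) ^ (c * q ^ j) →
      θ ≤ c * (q : ℝ) ^ j / ((q : ℝ) ^ (2 * j)) ^ (2 * d) →
      Nums ε M η ρ0 m d (q ^ (2 * j)) ((q ^ (2 * j)) ^ 17) B s θ := by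
  obtain ⟨T, hT⟩ := nums_t ε M η ρ0 hε hM hη hρ0 a u c m d hd hd'
  filter_upwards [eventually_ge_atTop T] with j hj
  have h1 : j < q ^ j := Nat.lt_pow_self (by omega)
  obtain ⟨B, hB⟩ := hT (q ^ j) (by omega)
  refine ⟨B, ?_⟩
  intro s θ hs hθ
  have e1 : q ^ (2 * j) = (q ^ j) ^ 2 := by rw [← pow_mul, mul_comm]
  rw [e1] at hs ⊢
  refine hB s θ hs ?_
  have e2 : (q : ℝ) ^ (2 * j) = ((q : ℝ) ^ j) ^ 2 := by rw [← pow_mul, mul_comm]
  rw [e2] at hθ
  push_cast
  exact hθ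

end Crest.Agent.R042.SampNum592
end

-- ▼ part R042/SampB_592
section

/-! Row 42 / S0059: `sample_all` with the numeric hypotheses packed in `SampNum592.Nums`. -/

set_option autoImplicit false
set_option linter.unusedSectionVars false

namespace Crest.Agent.R042.SampB592

open Finset Function
open scoped Classical
open Crest.Agent.R042.TLev333 Crest.Agent.R042.Fam543 Crest.Agent.R042.Gen592
open Crest.Agent.R042.Inst592 Crest.Agent.R042.SampNum592

/-- **THE SAMPLE THEOREM**, numeric hypotheses packed. -/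
theorem sampleB (ε : ℝ) (hε : 0 < ε) (hε1 : ε ≤ 1) :
    ∃ (D : ℕ) (ρ0 : ℝ), 0 < ρ0 ∧
      ∀ (k0 KK : Type) [Field k0] [Field KK] [Algebra k0 KK] [Fintype k0] [Fintype KK]
        [CharP KK 2] (K : Set k0) (_h1 : (1 : k0) ∈ K) (d L : ℕ) (I σ : Type)
        [Fintype I] [DecidableEq I] [Fintype σ] [DecidableEq σ]
        (m : ℕ) (_hm : 7 ≤ m)
        (S : Sys I (Om KK K d L) σ) (_hSρ : S.ρ = (Fintype.card KK : ℝ)⁻¹)
        (M : ℝ) (B : ℕ) (_hM : 1 ≤ M) (_hη : 6656 * M * S.η ≤ 1)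
        (_hn : Nums ε M S.η ρ0 m d (Fintype.card KK) (Fintype.card I) B (Fintype.card σ) S.θ)
        (ι : Type) (s : Finset ι) (bad : ι → (I → Om KK K d L) → Prop) (c : ι → ℝ)
        (_hbad : ∀ i ∈ s, (((univ.filter fun x => bad i x).card : ℕ) : ℝ) ≤
          c i * (Fintype.card (Om KK K d L) : ℝ) ^ Fintype.card I)
        (_hc : ∑ i ∈ s, c i ≤ 1 / 2),
        ∃ (ℓ r : ℕ) (x : I → Om KK K d L),
          LI KK vv (m + 1) x ∧ LI KK vv 8 x ∧
          Gen (perp K d L) ((Fintype.card KK : ℝ)⁻¹) x univ ∧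
          Injective (fun i => (x i).1.b) ∧
          S.Good ℓ r x ∧ 1 ≤ S.η * ℓ * S.ρ ^ 4 ∧ S.η ≤ 1 / 4096 ∧
          4 * ℓ * (M / Fintype.card I) ≤ S.η * S.ρ ^ 4 ∧
          256 * (ℓ + r) * (M / Fintype.card I) ≤ 1 ∧
          (∀ i ∈ s, ¬ bad i x) ∧
          ∃ Γ : SimpleGraph I, (∀ i j, Γ.Adj i j → Perp (x i).1 (x j).1) ∧
            (∀ i, (univ.filter fun j => Γ.Adj i j).card ≤ D) ∧
            (∀ i j k, Γ.Adj i j → Γ.Adj i k → j ≠ k → ¬ Perp (x j).1 (x k).1) ∧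
            (∀ A A' : Finset I, ε * Fintype.card I ≤ A.card → ε * Fintype.card I ≤ A'.card →
              ∃ a ∈ A, ∃ b ∈ A', Γ.Adj a b) ∧
            (D ≤ m + 1 → ∀ i, LinearIndependent KK
              (fun j : {j // Γ.Adj i j} => (x j.1).1.b)) := by
  obtain ⟨D, ρ0, h0, h⟩ := SampAll592.sample_all ε hε hε1
  refine ⟨D, ρ0, h0, ?_⟩
  intro k0 KK _ _ _ _ _ _ K h1 d L I σ _ _ _ _ m hm S hSρ M B hM hη hn ι s bad c hbad hc
  exact h k0 KK K h1 d L I σ hn.hρ hn.hI m hm hn.hgen S hSρ M B hM hη hn.hB1 hn.hB hn.hN hn.hσ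
    hn.hθ hn.hIB hn.hB' hn.hN' ι s bad c hbad hc

end Crest.Agent.R042.SampB592
end

-- ▼ part R042/ExtF_377
section

/-! Row 42 / S0059: the extension field `KK / k0` of degree `m`, characteristic 2. -/

set_option autoImplicit false

namespace Crest.Agent.R042.ExtF377

theorem exists_ext (k0 : Type) [Field k0] [Fintype k0] [CharP k0 2] (m : ℕ) (hm : 0 < m) :
    ∃ (KK : Type) (_ : Field KK) (_ : Fintype KK) (_ : DecidableEq KK) (_ : Algebra k0 KK)
      (_ : FiniteDimensional k0 KK), CharP KK 2 ∧ Module.finrank k0 KK = m ∧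
        Fintype.card KK = Fintype.card k0 ^ m := by
  classical
  have : NeZero m := ⟨hm.ne'⟩
  have : Fact (Nat.Prime 2) := ⟨Nat.prime_two⟩
  letI : Fintype (FiniteField.Extension k0 2 m) := Fintype.ofFinite _
  refine ⟨FiniteField.Extension k0 2 m, inferInstance, inferInstance, inferInstance, inferInstance,
    inferInstance, ?_, FiniteField.finrank_extension k0 2 m, ?_⟩
  · exact charP_of_injective_algebraMap (algebraMap k0 (FiniteField.Extension k0 2 m)).injective 2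
  · rw [Fintype.card_eq_nat_card, Fintype.card_eq_nat_card]
    exact FiniteField.natCard_extension k0 2 m

end Crest.Agent.R042.ExtF377
end

-- ▼ part R042/TopB_713
section

/-!
# Row 42 / S0059, plan B: order of the constants and `PairConfK K₀`
-/

set_option autoImplicit false
set_option linter.unusedSectionVars false

namespace Crest.Agent.R042.FinB713

open Finset Filter Crest.Agent.R042.RowWin543 Crest.Agent.R042.Fam543
  Crest.Agent.R042.LocFam958 Crest.Agent.R042.SspAsm375 Crest.Agent.R042.SspFin375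
  Crest.Agent.R042.Inst592 Crest.Agent.R042.SysOf333 Crest.Agent.R042.TLev333
  Crest.Agent.R042.FamV220 Crest.Agent.R042.IsoD543 Crest.Agent.R042.SspG375
open scoped Classical

/-- what the top theorem needs from the type level data of one level -/
structure TDok {k0 KK : Type} [Field k0] [Fintype k0] [Field KK] [Fintype KK] [Algebra k0 KK]
    {d L : ℕ} (K : Set k0) (e J : ℕ) (η θ c₀ : ℝ)
    (TD : TData (Om KK K d L) (Dl k0 KK d L) (TH KK d L J)) : Prop where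
  perp : TD.perp = perp K d L
  rho : TD.ρ = (Fintype.card KK : ℝ)⁻¹
  eta : TD.η = η
  theta : TD.θ ≤ θ
  dx : ∀ (P P' : Om KK K d L) (δ : Dl k0 KK d L) (ϑ : TH KK d L J) (i : Fin J)
    (R : Om KK K d L), HG365.DX (2 ^ e) (fun a => bif a then P'.1 else P.1) (ϑ i) R.1 →
      TD.D1 P P' δ ϑ R
  dx2 : ∀ (P P' : Om KK K d L) (δ : Dl k0 KK d L) (ϑ : TH KK d L J) (i : Fin J)
    (R R' : Om KK K d L), HG365.DX2 (2 ^ e) (fun a => bif a then P'.1 else P.1) (ϑ i) R.1 R'.1 →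
      TD.D2 P P' δ ϑ R R'
  loc : ∀ (K1 : ℝ), 1 ≤ K1 → ∀ (N : ℕ) (x : Fin N → Om KK K d L), Gen592.LI KK vv 8 x →
    ∀ (s s' : Jx (Fin N) × Dl k0 KK d L × TH KK d L J) (μ μ' : VV k0 KK d 2 L → ℝ),
      IsP μ → (∀ v, μ v ≠ 0 → dword (2 ^ e) 2 (x s.1.1.1).1 (x s.1.1.2).1 v.1 v.2 = s.2.1 ∧
        ¬ Rel K (2 ^ e) 2 (x s.1.1.1).1 (x s.1.1.2).1 v.1 v.2) →
      IsP μ' → (∀ v, μ' v ≠ 0 → dword (2 ^ e) 2 (x s'.1.1.1).1 (x s'.1.1.2).1 v.1 v.2 = s'.2.1 ∧
        ¬ Rel K (2 ^ e) 2 (x s'.1.1.1).1 (x s'.1.1.2).1 v.1 v.2) →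
      TD.Alive x s s' →
      ¬ HG365.BadE (2 ^ e) (1 / (8 * K1)) K1 (1 / 8) (pj (fun i => (x i).1) s.1)
        (pj (fun i => (x i).1) s'.1) μ →
      ¬ HG365.BadE (2 ^ e) (1 / (8 * K1)) K1 (1 / 8) (pj (fun i => (x i).1) s'.1)
        (pj (fun i => (x i).1) s.1) μ' →
      c₀ ≤ ∑ v, ∑ v', μ v * μ' v' *
        (if CfR (relF K e 2 fun i => (x i).1) s.1 s'.1 v v' then 1 else 0)

/-- **TYPE LEVEL, asymptotic form**: `L` is chosen after the alphabet, everything else holds for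
large `j`, for every dimension `d`. -/
def TypeAsy (η β : ℝ) : Prop :=
  ∀ (k0 : Type) [Field k0] [Fintype k0] [DecidableEq k0] [CharP k0 2] (K : Finset k0),
    Alph767.Alph k0 K β → ∃ L : ℕ, 0 < L ∧ ∀ d : ℕ, 2 ≤ d → ∀ᶠ j : ℕ in atTop,
    ∀ (KK : Type) [Field KK] [Fintype KK] [Algebra k0 KK] [CharP KK 2] (e : ℕ),
      2 ^ e = Fintype.card k0 ^ j → Fintype.card KK = Fintype.card k0 ^ (2 * j) →
      ∃ TD : TData (Om KK (K : Set k0) d L) (Dl k0 KK d L) (TH KK d L (Fintype.card k0 ^ j)),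
        TDok (K : Set k0) e (Fintype.card k0 ^ j) η
          (4 * Fintype.card k0 * (Fintype.card k0 : ℝ) ^ j /
            ((Fintype.card k0 : ℝ) ^ (2 * j)) ^ (2 * d))
          (1 / 8 / (Fintype.card KK : ℝ) ^ (4 * (L * (2 * d - 1) ^ 2))) TD

theorem rpow_99 (X k : ℕ) (hX : 0 < X) :
    (((X ^ (100 * k) : ℕ) : ℝ)) ^ (-(99 : ℝ) / 100) = ((X : ℝ) ^ (99 * k))⁻¹ := by
  have hX0 : (0 : ℝ) ≤ X := by positivity
  rw [Nat.cast_pow, ← Real.rpow_natCast, ← Real.rpow_mul hX0, ← Real.rpow_natCast,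
    ← Real.rpow_neg hX0]
  congr 1
  push_cast
  ring

/-- the numbers of `pair_of_level` in powers of `X = card KK` -/
theorem nums_level (K₀ n0 a u g X : ℕ) (hK₀ : 0 < K₀) (hX : n0 + 9600 * K₀ ≤ X) :
    n0 ≤ X ^ (100 * (a + 1)) ∧ 64 * K₀ ≤ X ^ 17 ∧
    16 * (16 * (K₀ : ℝ) * ((X ^ (100 * (a + 1)) : ℕ) : ℝ) * (X : ℝ) ^ u) * ((X : ℝ) ^ (g * a)) ^ 2 ≤
      (X : ℝ) ^ (100 * (a + 1) + u + 2 * (g * a) + 1) ∧
    64 * (K₀ : ℝ) * (((X ^ 17 : ℕ) : ℝ)) ^ 2 *
      (((X ^ (100 * (a + 1)) : ℕ) : ℝ)) ^ (-(99 : ℝ) / 100) ≤ 1 ∧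
    16 * K₀ * X ^ 17 ≤ X ^ (100 * (a + 1)) ∧
    (((X ^ (100 * (a + 1)) : ℕ) : ℝ)) ^ (-(99 : ℝ) / 100) ≤ 1 / (16 * (K₀ : ℝ)) *
      (225 / 256 * (((X : ℝ)⁻¹) ^ 4 / 32 - 2 * (1 / 128 * ((X : ℝ)⁻¹) ^ 4)) *
        (1 / 8 / (X : ℝ) ^ (4 * a))) := by
  have hX1 : 1 ≤ X := by omega
  have hXr : (1 : ℝ) ≤ X := by exact_mod_cast hX1
  have hX0 : (0 : ℝ) < X := by linarith
  have hKr : (1 : ℝ) ≤ K₀ := by exact_mod_cast hK₀
  have hXK : 9600 * (K₀ : ℝ) ≤ X := by exact_mod_cast (by omega : 9600 * K₀ ≤ X)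
  have hp1 : X ≤ X ^ (100 * (a + 1)) := by
    calc X = X ^ 1 := (pow_one _).symm
      _ ≤ _ := Nat.pow_le_pow_right hX1 (by omega)
  refine ⟨by omega, ?_, ?_, ?_, ?_, ?_⟩
  · calc 64 * K₀ ≤ X := by omega
      _ = X ^ 1 := (pow_one _).symm
      _ ≤ _ := Nat.pow_le_pow_right hX1 (by omega)
  · push_cast
    have e1 : 16 * (16 * (K₀ : ℝ) * (X : ℝ) ^ (100 * (a + 1)) * (X : ℝ) ^ u) *
        ((X : ℝ) ^ (g * a)) ^ 2 = 256 * K₀ * (X : ℝ) ^ (100 * (a + 1) + u + 2 * (g * a)) := by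
      ring
    rw [e1, pow_succ, mul_comm]
    exact mul_le_mul_of_nonneg_left (by linarith) (by positivity)
  · rw [rpow_99 X (a + 1) (by omega), ← div_eq_mul_inv, div_le_one (by positivity)]
    push_cast
    calc 64 * (K₀ : ℝ) * ((X : ℝ) ^ 17) ^ 2 ≤ X * ((X : ℝ) ^ 17) ^ 2 :=
          mul_le_mul_of_nonneg_right (by linarith) (by positivity)
      _ = (X : ℝ) ^ 35 := by ring
      _ ≤ _ := pow_le_pow_right₀ hXr (by omega)
  · calc 16 * K₀ * X ^ 17 ≤ X * X ^ 17 := Nat.mul_le_mul_right _ (by omega)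
      _ = X ^ 18 := by ring
      _ ≤ _ := Nat.pow_le_pow_right hX1 (by omega)
  · rw [rpow_99 X (a + 1) (by omega)]
    have e1 : 1 / (16 * (K₀ : ℝ)) *
      (225 / 256 * (((X : ℝ)⁻¹) ^ 4 / 32 - 2 * (1 / 128 * ((X : ℝ)⁻¹) ^ 4)) *
        (1 / 8 / (X : ℝ) ^ (4 * a))) = 225 / (256 * 16 * 64 * 8 * K₀ * (X : ℝ) ^ (4 * a + 4)) := by
      rw [pow_add]
      field_simp
      ring
    rw [e1, inv_eq_one_div, div_le_div_iff₀ (by positivity) (by positivity)]
    have e2 : (X : ℝ) ^ (4 * a + 5) ≤ (X : ℝ) ^ (99 * (a + 1)) :=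
      pow_le_pow_right₀ hXr (by omega)
    have e3 : 1 * (256 * 16 * 64 * 8 * (K₀ : ℝ) * (X : ℝ) ^ (4 * a + 4)) ≤
        225 * (X : ℝ) ^ (4 * a + 5) := by
      rw [pow_succ (X : ℝ) (4 * a + 4)]
      have : 256 * 16 * 64 * 8 * (K₀ : ℝ) ≤ 225 * X := by nlinarith
      nlinarith [pow_pos hX0 (4 * a + 4)]
    linarith

theorem fin_card {k0 KK : Type} [Field k0] [Fintype k0] [Field KK] [Fintype KK] [Algebra k0 KK]
    (d L : ℕ) : Fintype.card (U KK d 2 L) = Fintype.card KK ^ (L * (2 * d + 1) ^ 2) := by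
  have e1 : Fintype.card (U KK d 2 L) = (Fintype.card KK ^ ((2 * d + 1) ^ 2)) ^ L := by
    rw [Fintype.card_fun, Fintype.card_fun, Fintype.card_fun]
    simp only [Fintype.card_fin, Fintype.card_option, Fintype.card_prod, Fintype.card_bool]
    ring_nf
  rw [e1, ← pow_mul]
  ring_nf

theorem card_sig {k0 KK : Type} [Field k0] [Fintype k0] [Field KK] [Fintype KK] [Algebra k0 KK]
    (d L J N : ℕ) :
    Fintype.card (Jx (Fin N) × Dl k0 KK d L × TH KK d L J) ≤
      N ^ 2 * Fintype.card KK ^ (L * (2 * d + 1) ^ 2) *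
        (2 * Fintype.card KK ^ (L * (2 * d + 1) ^ 2)) ^ J := by
  have h1 : Fintype.card (Jx (Fin N)) ≤ N ^ 2 := by
    refine (Fintype.card_subtype_le _).trans (le_of_eq ?_)
    rw [Fintype.card_prod, Fintype.card_fin, pow_two]
  have h2 : Fintype.card (Dl k0 KK d L) = Fintype.card KK ^ (L * (2 * d + 1) ^ 2) := by
    rw [card_Dl, ← fin_card (k0 := k0) d L]
    exact (Module.card_eq_pow_finrank (K := k0) (V := U KK d 2 L)).symm
  have h3 : Fintype.card (TH KK d L J) =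
      (2 * Fintype.card KK ^ (L * (2 * d + 1) ^ 2)) ^ J := by
    rw [← Nat.card_eq_fintype_card, Nat.card_fun, Nat.card_prod, Nat.card_eq_fintype_card,
      Nat.card_eq_fintype_card, Nat.card_eq_fintype_card, Fintype.card_bool, Fintype.card_fin,
      fin_card (k0 := k0) d L]
  rw [Fintype.card_prod, Fintype.card_prod, h2, h3, ← mul_assoc]
  exact Nat.mul_le_mul_right _ (Nat.mul_le_mul_right _ h1)

/-- **PLAN B, TOP THEOREM**: label theorem + type level data give `PairConfK K₀`. -/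
theorem pairConfK_of_asy (K₀ : ℕ) (hK₀ : 0 < K₀)
    (hLab : ∀ (q d L m1 : ℕ) (cm : ℝ), 2 ≤ q → 0 ≤ cm → LabelAsy q d L m1 cm)
    (hT : ∀ η β : ℝ, 0 < η → η ≤ 1 / 4096 → 0 < β → β ≤ 1 → 12 * β ≤ η ^ 2 → TypeAsy η β) :
    S59Spine883.PairConfK K₀ := by
  obtain ⟨n0, HL⟩ := pair_of_level K₀ hK₀
  have hKr : (1 : ℝ) ≤ K₀ := by exact_mod_cast hK₀
  have hε : (0 : ℝ) < 1 / (64 * (K₀ : ℝ)) := by positivity
  obtain ⟨DΓ, ρ0, hρ0, HS⟩ := SampB592.sampleB (1 / (64 * (K₀ : ℝ))) hε (by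
    rw [div_le_one (by positivity)]; nlinarith)
  set m : ℕ := max 7 DΓ with hm
  set d : ℕ := 9 * (m + 1) with hd
  have hm7 : 7 ≤ m := le_max_left _ _
  set M : ℝ := 32 * K₀ with hM
  have hM1 : 1 ≤ M := by rw [hM]; linarith
  set η : ℝ := 1 / (6656 * M) with hη
  have hη0 : 0 < η := by positivity
  have hη1 : η ≤ 1 / 4096 := by
    rw [hη]
    exact one_div_le_one_div_of_le (by norm_num) (by linarith)
  have hηM : 6656 * M * η ≤ 1 := by
    rw [hη]
    exact le_of_eq (mul_one_div_cancel (by positivity))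
  set β : ℝ := η ^ 2 / 12 with hβ
  have hβ0 : 0 < β := by positivity
  have hβ1 : β ≤ 1 := by
    rw [hβ]
    have : η ^ 2 ≤ 1 := pow_le_one₀ hη0.le (by linarith)
    linarith
  obtain ⟨k0, i1, i2, i3, Kf, hchar, hA⟩ := Alph767.exists_alph β hβ0 hβ1
  haveI := hchar
  obtain ⟨L, hL, HT⟩ := hT η β hη0 hη1 hβ0 hβ1 (by rw [hβ]; linarith) k0 Kf hA
  have hd2 : 2 ≤ d := by omega
  have hAf : Fam543.Alph (Kf : Set k0) := Iso543.famAlph hA
  set q : ℕ := Fintype.card k0 with hq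
  have hq2 : 2 ≤ q := Fintype.one_lt_card
  obtain ⟨a0, -, ha0⟩ := FiniteField.card k0 2
  set a1 : ℕ := L * (2 * d - 1) ^ 2 with ha1
  set u1 : ℕ := L * (2 * d + 1) ^ 2 with hu1
  set m1 : ℕ := 100 * (a1 + 1) + u1 + 2 * (DΓ * a1) + 1 with hm1
  obtain ⟨K1, hK1, HLab⟩ := hLab q d L m1 (32 * K₀) hq2 (by positivity)
  -- the level
  have t1 : Tendsto (fun j : ℕ => q ^ (2 * j)) atTop atTop :=
    (tendsto_pow_atTop_atTop_of_one_lt (by omega)).comp
      (tendsto_id.const_mul_atTop' (by norm_num))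
  have ev1 : ∀ᶠ j : ℕ in atTop, n0 + 9600 * K₀ ≤ q ^ (2 * j) :=
    t1.eventually (eventually_ge_atTop _)
  have ev2 := SampNum592.nums q hq2 (1 / (64 * (K₀ : ℝ))) M η ρ0 hε hM1 hη0 hρ0 u1 u1 (4 * q) m d
    (by omega) (by omega)
  obtain ⟨j, e1, e2, e3, e4, e5⟩ := (ev1.and (ev2.and ((HT d hd2).and (HLab.and
    (eventually_ge_atTop 1))))).exists
  obtain ⟨B, hB⟩ := e2
  obtain ⟨KK, f1, f2, f3, f4, f5, hcharK, hfin, hcardK⟩ := ExtF377.exists_ext k0 (2 * j)
    (by omega)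
  haveI := hcharK
  set e : ℕ := (a0 : ℕ) * j with he
  have he2 : 2 ^ e = q ^ j := by rw [he, pow_mul, ← ha0]
  obtain ⟨TD, hTD⟩ := e3 KK e he2 hcardK
  set X : ℕ := Fintype.card KK with hX
  have hXq : q ^ (2 * j) = X := hcardK.symm
  rw [hXq] at e1 hB
  have hcast : ((q : ℝ) ^ (2 * j)) = (X : ℝ) := by
    rw [← hXq]; push_cast; rfl
  obtain ⟨n1, n2, n3, n4, n5, n6⟩ := nums_level K₀ n0 a1 u1 DΓ X hK₀ e1
  -- the sample
  have hnum : SampNum592.Nums (1 / (64 * (K₀ : ℝ))) M (TD.sys (ι := Fin (X ^ 17))).η ρ0 m d X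
      (Fintype.card (Fin (X ^ 17))) B
      (Fintype.card (Jx (Fin (X ^ 17)) × Dl k0 KK d L × TH KK d L (q ^ j)))
      (TD.sys (ι := Fin (X ^ 17))).θ := by
    rw [TData.sys_η, TData.sys_θ, hTD.eta, Fintype.card_fin]
    refine hB _ _ ?_ ?_
    · refine (card_sig (k0 := k0) (KK := KK) d L (q ^ j) (X ^ 17)).trans ?_
      have hq4 : 1 ≤ 4 * q := by omega
      have hX1 : 1 ≤ X := Fintype.card_pos
      have g1 : X ^ u1 ≤ 4 * q * X ^ u1 := Nat.le_mul_of_pos_left _ (by omega)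
      have g2 : 2 * X ^ u1 ≤ 4 * q * X ^ u1 := Nat.mul_le_mul_right _ (by omega)
      have g3 : (2 * X ^ u1) ^ (q ^ j) ≤ (4 * q * X ^ u1) ^ (4 * q * q ^ j) := by
        calc (2 * X ^ u1) ^ (q ^ j) ≤ (4 * q * X ^ u1) ^ (q ^ j) := Nat.pow_le_pow_left g2 _
          _ ≤ _ := Nat.pow_le_pow_right (Nat.mul_pos (by omega) (pow_pos (by omega) _))
            (Nat.le_mul_of_pos_left _ (by omega))
      exact Nat.mul_le_mul (Nat.mul_le_mul_left _ g1) g3
    · refine hTD.theta.trans (le_of_eq ?_)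
      push_cast
      rfl
  obtain ⟨ℓ, r, x, xLI, xLI8, xgen, xinj, xGood, xE, xη, xℓ, xr, -, Γ, Γp, Γd, Γc, Γx, Γli⟩ :=
    HS k0 KK (Kf : Set k0) hAf.one d L (Fin (X ^ 17)) _ m hm7 TD.sys (by
      rw [TData.sys_ρ]; exact hTD.rho) M B hM1 (by rw [TData.sys_η, hTD.eta]; exact hηM) hnum
      PEmpty ∅ (fun _ _ => False) (fun _ => 0) (by simp) (by simp)
  rw [TData.sys_η, TData.sys_ρ, hTD.rho] at xE xℓ
  rw [TData.sys_η] at xη
  rw [Fintype.card_fin] at xℓ xr Γx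
  refine HL (X ^ (100 * (a1 + 1))) n1 hAf e d L (X ^ 17) (q ^ j) ℓ r hL x xinj TD hTD.perp
    hTD.rho xGood xgen xE xη xℓ xr Γ DΓ Γp Γd Γc (Γli (by omega)) Γx n2
    (HG365.BadE (2 ^ e) (1 / (8 * K1)) K1 (1 / 8)) ((X : ℝ) ^ m1)
    (1 / 128 * ((X : ℝ)⁻¹) ^ 4) (1 / 8 / (X : ℝ) ^ (4 * a1)) (by positivity) n3 ?_ ?_ n4 n5 n6
  · intro c μ hμ hdens t ht hmarg
    have hXJ : ∀ c : Jx (Fin (X ^ 17)), HG365.XJ (fun i => (x i).1) c =
        fun a => bif a then (x c.1.2).1 else (x c.1.1).1 := by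
      intro c
      funext a
      cases a <;> rfl
    refine HG365.hG (2 ^ e) x (q ^ j) TD.sys ?_ ?_ ?_ (1 / (8 * K1)) K1 (1 / 8)
      (1 / 128 * ((X : ℝ)⁻¹) ^ 4) (32 * K₀ / (X : ℝ) ^ 17) c μ ?_ t ht ?_
    · intro P R h
      rw [TData.sys_perp, hTD.perp] at h
      exact h
    · intro s i R h
      rw [hXJ] at h
      exact hTD.dx (x s.1.1.1) (x s.1.1.2) s.2.1 s.2.2 i R h
    · intro s i R R' h
      rw [hXJ] at h
      exact hTD.dx2 (x s.1.1.1) (x s.1.1.2) s.2.1 s.2.2 i R R' h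
    · exact e4 k0 KK e rfl he2 hcardK (Kf : Set k0) hAf hL (Fin (X ^ 17)) x xLI8 _
        (fun h => c.1.2 h) μ hμ hdens
    · intro i
      refine (hmarg i).trans (le_of_eq ?_)
      push_cast
      rfl
  · intro s s' μ μ' hμ hs hμ' hs' hal h1 h2
    exact hTD.loc K1 hK1 (X ^ 17) x xLI8 s s' μ μ' hμ hs hμ' hs' hal h1 h2

end Crest.Agent.R042.FinB713
end

-- ▼ part R042/RichB_763
section

/-!
# Row 42 / S0059, plan B: one-end richness (the number `L` of random characters is a constant)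

`RichP K E E'` : every `g ∈ K` is a ratio `E l / E' l`.  It is symmetric, it fails for a fraction of
at most `|K| (1 - 1/|K|)^L` of the types (independently of the `b`-part), and only the four CROSS
pairs of a conflict have to be rich.
-/

set_option autoImplicit false
set_option linter.unusedSectionVars false

namespace Crest.Agent.R042.RichB763

open Finset Crest.Agent.R042.RowWin543 Crest.Agent.R042.Fam543 Crest.Agent.R042.LocFam958
open Crest.Agent.R042.Inst592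

section words

variable {F : Type*} [Field F] {L : ℕ} {K : Set F}

/-- richness of one pair -/
def RichP (K : Set F) (E E' : Fin L → F) : Prop := ∀ g ∈ K, ∃ l, E l = g * E' l

theorem RichP.symm {E E' : Fin L → F} (h0 : (0 : F) ∉ K) (hinv : ∀ a ∈ K, a⁻¹ ∈ K)
    (h : RichP K E E') : RichP K E' E := by
  intro g hg
  obtain ⟨l, hl⟩ := h g⁻¹ (hinv g hg)
  have hg0 : g ≠ 0 := fun h => h0 (h ▸ hg)
  refine ⟨l, ?_⟩
  rw [hl, ← mul_assoc, mul_inv_cancel₀ hg0, one_mul]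

/-- every pair `(k, k')` is taken by a word `c • E_l` -/
theorem two_values_p (E E' : Fin L → F) (hE : RichP K E E') (hEK' : ∀ l, E' l ∈ K)
    (h0 : (0 : F) ∉ K) (hdiv : ∀ a ∈ K, ∀ b ∈ K, a / b ∈ K)
    {k k' : F} (hk : k ∈ K) (hk' : k' ∈ K) :
    ∃ c ∈ K, ∃ l, c * E l = k ∧ c * E' l = k' := by
  obtain ⟨l, hl⟩ := hE (k / k') (hdiv k hk k' hk')
  have hj : E' l ≠ 0 := fun h => h0 (h ▸ hEK' l)
  have hk0 : k' ≠ 0 := fun h => h0 (h ▸ hk')
  refine ⟨k' / E' l, hdiv _ hk' _ (hEK' l), l, ?_, ?_⟩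
  · rw [hl]; field_simp
  · field_simp

/-- the four digit equations, from the richness of the four cross pairs -/
theorem four_words_p (P P' Q Q' : Fin L → F)
    (h1 : RichP K P Q) (h2 : RichP K P Q') (h3 : RichP K P' Q) (h4 : RichP K P' Q')
    (hQ : ∀ l, Q l ∈ K) (hQ' : ∀ l, Q' l ∈ K)
    (h0 : (0 : F) ∉ K) (hdiv : ∀ a ∈ K, ∀ b ∈ K, a / b ∈ K)
    (hcomp : ∀ d : F, d ∉ K → ∃ a ∈ K, ∃ b ∈ K, a - b = d)
    {D₁ D₂ D₃ D₄ : F} (hD₁ : D₁ ∉ K) (hD₂ : D₂ ∉ K) (hD₃ : D₃ ∉ K) (hD₄ : D₄ ∉ K) :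
    ∃ c : Fin 4 → F, ∃ l : Fin 4 → Fin L, (∀ i, c i ∈ K) ∧
      c 0 * P' (l 0) - c 2 * P (l 2) = D₁ ∧
      c 1 * P' (l 1) - c 3 * P (l 3) = D₂ ∧
      c 0 * Q' (l 0) - c 1 * Q (l 1) = D₃ ∧
      c 2 * Q' (l 2) - c 3 * Q (l 3) = D₄ := by
  obtain ⟨a₁, ha₁, a₃, ha₃, hd₁⟩ := hcomp D₁ hD₁
  obtain ⟨a₂, ha₂, a₄, ha₄, hd₂⟩ := hcomp D₂ hD₂
  obtain ⟨b₁, hb₁, b₂, hb₂, hd₃⟩ := hcomp D₃ hD₃
  obtain ⟨b₃, hb₃, b₄, hb₄, hd₄⟩ := hcomp D₄ hD₄
  obtain ⟨c₁, hc₁, l₁, e₁, e₁'⟩ := two_values_p P' Q' h4 hQ' h0 hdiv ha₁ hb₁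
  obtain ⟨c₂, hc₂, l₂, e₂, e₂'⟩ := two_values_p P' Q h3 hQ h0 hdiv ha₂ hb₂
  obtain ⟨c₃, hc₃, l₃, e₃, e₃'⟩ := two_values_p P Q' h2 hQ' h0 hdiv ha₃ hb₃
  obtain ⟨c₄, hc₄, l₄, e₄, e₄'⟩ := two_values_p P Q h1 hQ h0 hdiv ha₄ hb₄
  refine ⟨![c₁, c₂, c₃, c₄], ![l₁, l₂, l₃, l₄], ?_, ?_, ?_, ?_, ?_⟩
  · intro i; fin_cases i <;> simpa
  · simpa [e₁, e₃] using hd₁
  · simpa [e₂, e₄] using hd₂
  · simpa [e₁', e₂'] using hd₃
  · simpa [e₃', e₄'] using hd₄

end words

section live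

variable {k0 KK : Type} [Field k0] [Field KK] [Algebra k0 KK] {d kp L e : ℕ} [CharP KK 2]

/-- **live**, cross form: 958's `live_word` with the richness of the four cross pairs only -/
theorem live_word_p {K : Set k0} (hK : Alph K) (P R : Bool → Ty k0 KK d L)
    (hP : ∀ a, Valid K (P a)) (hR : ∀ b, Valid K (R b))
    (hrich : ∀ a b, RichP K (P a).E (R b).E)
    (hPR : ∀ a b, Perp (P a) (R b)) (v v' : VV k0 KK d kp L)
    (hv : Perp (P false) (P true) → ∀ b, dlt (2 ^ e) kp P v (uvec (2 ^ e) kp (R b)) ∉ K)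
    (hv' : Perp (R false) (R true) → ∀ a, dlt (2 ^ e) kp R v' (uvec (2 ^ e) kp (P a)) ∉ K) :
    ∃ w ∈ W4 K (2 ^ e) kp P R, ∀ t ∈ Dg e kp P R hPR,
        (winX (2 ^ e) kp P R v + winY (2 ^ e) kp P R v' - w) t = 0 := by
  classical
  have h0 : (0 : k0) ∉ K := fun h => hK.ne_zero h rfl
  have hnotK : ∀ x : k0, x ∉ K → -x ∉ K := by
    intro x hx h
    exact hx (by simpa using hK.neg _ h)
  -- the four digits
  obtain ⟨D₁, hD₁, hD₁'⟩ : ∃ D : k0, D ∉ K ∧ (Perp (P false) (P true) →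
      D = dlt (2 ^ e) kp P v (uvec (2 ^ e) kp (R false))) := by
    by_cases h : Perp (P false) (P true)
    · exact ⟨_, hv h false, fun _ => rfl⟩
    · exact ⟨0, h0, fun h' => absurd h' h⟩
  obtain ⟨D₂, hD₂, hD₂'⟩ : ∃ D : k0, D ∉ K ∧ (Perp (P false) (P true) →
      D = dlt (2 ^ e) kp P v (uvec (2 ^ e) kp (R true))) := by
    by_cases h : Perp (P false) (P true)
    · exact ⟨_, hv h true, fun _ => rfl⟩
    · exact ⟨0, h0, fun h' => absurd h' h⟩
  obtain ⟨D₃, hD₃, hD₃'⟩ : ∃ D : k0, D ∉ K ∧ (Perp (R false) (R true) →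
      D = - dlt (2 ^ e) kp R v' (uvec (2 ^ e) kp (P false))) := by
    by_cases h : Perp (R false) (R true)
    · exact ⟨_, hnotK _ (hv' h false), fun _ => rfl⟩
    · exact ⟨0, h0, fun h' => absurd h' h⟩
  obtain ⟨D₄, hD₄, hD₄'⟩ : ∃ D : k0, D ∉ K ∧ (Perp (R false) (R true) →
      D = - dlt (2 ^ e) kp R v' (uvec (2 ^ e) kp (P true))) := by
    by_cases h : Perp (R false) (R true)
    · exact ⟨_, hnotK _ (hv' h true), fun _ => rfl⟩
    · exact ⟨0, h0, fun h' => absurd h' h⟩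
  obtain ⟨c, l, hc, e1, e2, e3, e4⟩ := four_words_p (K := K) (P false).E (P true).E
    (R false).E (R true).E (hrich _ _) (hrich _ _) (hrich _ _) (hrich _ _)
    (hR false).E (hR true).E h0
    (fun a ha b hb => by
      rw [div_eq_mul_inv]; exact hK.mul _ ha _ (hK.inv _ hb))
    (fun z hz => by
      obtain ⟨x, hx, y, hy, hxy⟩ := hK.complete z hz
      exact ⟨x, hx, -y, hK.neg _ hy, by rw [sub_neg_eq_add]; exact hxy⟩)
    hD₁ hD₂ hD₃ hD₄
  let ix : Bool × Bool → Fin 4 := fun ab => bif ab.1 then (bif ab.2 then 3 else 2)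
    else (bif ab.2 then 1 else 0)
  refine ⟨word (2 ^ e) kp P R (fun ab => c (ix ab))
    (fun ab => l (ix ab)), ⟨_, _, fun ab => hc _, rfl⟩, ?_⟩
  intro t ht
  unfold Dg at ht
  refine Submodule.span_induction (p := fun t _ => (winX (2 ^ e) kp P R v +
    winY (2 ^ e) kp P R v' -
    word (2 ^ e) kp P R (fun ab => c (ix ab)) (fun ab => l (ix ab))) t = 0) ?_ ?_ ?_ ?_ ht
  · rintro t (⟨h, b, rfl⟩ | ⟨h, a, rfl⟩)
    · rw [LinearMap.sub_apply, LinearMap.add_apply, winX_digP, winY_digP,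
        word_digP hPR (K := K) hP]
      cases b
      · have := hD₁' h
        show _ + 0 - (c 0 * (P true).E (l 0) - c 2 * (P false).E (l 2)) = 0
        rw [e1, this]; ring
      · have := hD₂' h
        show _ + 0 - (c 1 * (P true).E (l 1) - c 3 * (P false).E (l 3)) = 0
        rw [e2, this]; ring
    · rw [LinearMap.sub_apply, LinearMap.add_apply, winX_digR, winY_digR,
        word_digR hPR (K := K) hR]
      cases a
      · have := hD₃' h
        show 0 + _ - (c 0 * (R true).E (l 0) - c 1 * (R false).E (l 1)) = 0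
        rw [e3, this]; ring
      · have := hD₄' h
        show 0 + _ - (c 2 * (R true).E (l 2) - c 3 * (R false).E (l 3)) = 0
        rw [e4, this]; ring
  · exact map_zero _
  · intro x y _ _ hx hy
    rw [map_add, hx, hy, add_zero]
  · intro a x _ hx
    rw [map_smul, hx, smul_zero]

end live

section count

open scoped Classical

variable {k0 KK : Type} [Field k0] [Field KK] [Algebra k0 KK] [Fintype k0] [Fintype KK]
  {d L : ℕ}

/-- the vectors of characters that are not rich against a given one -/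
theorem card_not_rich_E {K : Set k0} (hK : Alph K) (E0 : Fin L → k0) (hE0 : ∀ l, E0 l ∈ K) :
    (univ.filter fun E : Fin L → K => ¬ RichP K E0 fun l => (E l : k0)).card ≤
      Fintype.card K * (Fintype.card K - 1) ^ L := by
  have h1 : (univ.filter fun E : Fin L → K => ¬ RichP K E0 fun l => (E l : k0)) ⊆
      univ.biUnion fun g : K => Fintype.piFinset fun l : Fin L =>
        univ.filter fun x : K => E0 l ≠ (g : k0) * (x : k0) := by
    intro E hE
    have hE' := (mem_filter.1 hE).2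
    unfold RichP at hE'
    push Not at hE'
    obtain ⟨g, hg, h⟩ := hE'
    refine mem_biUnion.2 ⟨⟨g, hg⟩, mem_univ _, ?_⟩
    rw [Fintype.mem_piFinset]
    intro l
    exact mem_filter.2 ⟨mem_univ _, h l⟩
  refine (card_le_card h1).trans (card_biUnion_le.trans ?_)
  rw [← smul_eq_mul, ← Finset.card_univ, ← Finset.sum_const]
  refine sum_le_sum fun g _ => ?_
  rw [Fintype.card_piFinset]
  refine (prod_le_pow_card _ _ (Fintype.card K - 1) ?_).trans ?_
  · intro l _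
    have hx : (g : k0)⁻¹ * E0 l ∈ K := hK.mul _ (hK.inv _ g.2) _ (hE0 l)
    have h2 : (univ.filter fun x : K => E0 l ≠ (g : k0) * (x : k0)) ⊆
        univ.erase ⟨(g : k0)⁻¹ * E0 l, hx⟩ := by
      intro x hx'
      refine mem_erase.2 ⟨?_, mem_univ _⟩
      rintro rfl
      apply (mem_filter.1 hx').2
      show E0 l = (g : k0) * ((g : k0)⁻¹ * E0 l)
      rw [← mul_assoc, mul_inv_cancel₀ (hK.ne_zero g.2), one_mul]
    refine (card_le_card h2).trans ?_
    rw [card_erase_of_mem (mem_univ _), Finset.card_univ]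
  · rw [Finset.card_univ, Fintype.card_fin, Finset.card_univ]

/-- **one-end richness**: for every condition `A` on the vector part, the non rich types are at most
a fraction `|K| ((|K| - 1)/|K|)^L` of the types with `A`. -/
theorem card_not_rich {K : Set k0} (hK : Alph K) (E0 : Fin L → k0) (hE0 : ∀ l, E0 l ∈ K)
    (A : WW KK d → Prop) :
    (univ.filter fun R : Om KK K d L => A (vv R) ∧ ¬ RichP K E0 R.1.E).card *
        Fintype.card K ^ L ≤
      Fintype.card K * (Fintype.card K - 1) ^ L *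
        (univ.filter fun R : Om KK K d L => A (vv R)).card := by
  -- transport to the product
  have e1 : (univ.filter fun R : Om KK K d L => A (vv R) ∧ ¬ RichP K E0 R.1.E).card =
      (univ.filter fun z : WW KK d × Zz KK K L =>
        A z.1 ∧ ¬ RichP K E0 fun l => (z.2.2 l : k0)).card := by
    refine card_bij (fun R _ => omEquiv K d L R) ?_ ?_ ?_
    · intro R hR
      exact mem_filter.2 ⟨mem_univ _, (mem_filter.1 hR).2⟩
    · intro R _ R' _ h
      exact (omEquiv K d L).injective h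
    · intro z hz
      refine ⟨(omEquiv K d L).symm z, ?_, Equiv.apply_symm_apply _ _⟩
      have h := (mem_filter.1 hz).2
      refine mem_filter.2 ⟨mem_univ _, ?_⟩
      have hz' : z = omEquiv K d L ((omEquiv K d L).symm z) := (Equiv.apply_symm_apply _ _).symm
      rw [hz'] at h
      exact h
  have e2 : (univ.filter fun R : Om KK K d L => A (vv R)).card =
      (univ.filter fun z : WW KK d × Zz KK K L => A z.1).card := by
    refine card_bij (fun R _ => omEquiv K d L R) ?_ ?_ ?_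
    · intro R hR
      exact mem_filter.2 ⟨mem_univ _, (mem_filter.1 hR).2⟩
    · intro R _ R' _ h
      exact (omEquiv K d L).injective h
    · intro z hz
      refine ⟨(omEquiv K d L).symm z, ?_, Equiv.apply_symm_apply _ _⟩
      have h := (mem_filter.1 hz).2
      refine mem_filter.2 ⟨mem_univ _, ?_⟩
      have hz' : z = omEquiv K d L ((omEquiv K d L).symm z) := (Equiv.apply_symm_apply _ _).symm
      rw [hz'] at h
      exact h
  have e3 : (univ.filter fun z : WW KK d × Zz KK K L =>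
        A z.1 ∧ ¬ RichP K E0 fun l => (z.2.2 l : k0)) =
      (univ.filter A) ×ˢ ((univ : Finset {l : KK // Algebra.trace k0 KK l = 1}) ×ˢ
        (univ.filter fun E : Fin L → K => ¬ RichP K E0 fun l => (E l : k0))) := by
    ext z
    simp only [mem_filter, mem_univ, true_and, mem_product]
  have e4 : (univ.filter fun z : WW KK d × Zz KK K L => A z.1) =
      (univ.filter A) ×ˢ ((univ : Finset {l : KK // Algebra.trace k0 KK l = 1}) ×ˢ
        (univ : Finset (Fin L → K))) := by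
    ext z
    simp only [mem_filter, mem_univ, true_and, mem_product, and_true]
  rw [e1, e2, e3, e4, card_product, card_product, card_product, card_product]
  have h := card_not_rich_E hK E0 hE0
  have e5 : (univ : Finset (Fin L → K)).card = Fintype.card K ^ L := by
    rw [Finset.card_univ, Fintype.card_fun, Fintype.card_fin]
  rw [e5]
  have h2 := Nat.mul_le_mul_left ((univ.filter A).card *
    (univ : Finset {l : KK // Algebra.trace k0 KK l = 1}).card * Fintype.card K ^ L) h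
  calc _ = (univ.filter A).card * (univ : Finset {l : KK // Algebra.trace k0 KK l = 1}).card *
        Fintype.card K ^ L *
        (univ.filter fun E : Fin L → K => ¬ RichP K E0 fun l => (E l : k0)).card := by ring
    _ ≤ _ := h2
    _ = _ := by ring

/-- real form: for `t > 0` and `L ≥ |K| (log |K| + t)` the fraction is at most `e^{-t}` -/
theorem card_not_rich_le {K : Set k0} (hK : Alph K) (E0 : Fin L → k0) (hE0 : ∀ l, E0 l ∈ K)
    (A : WW KK d → Prop) {t : ℝ}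
    (hL : (Fintype.card K : ℝ) * (Real.log (Fintype.card K) + t) ≤ L) :
    ((univ.filter fun R : Om KK K d L => A (vv R) ∧ ¬ RichP K E0 R.1.E).card : ℝ) ≤
      Real.exp (-t) * ((univ.filter fun R : Om KK K d L => A (vv R)).card : ℝ) := by
  have hpos : 0 < Fintype.card K := Fintype.card_pos_iff.2 ⟨⟨1, hK.one⟩⟩
  have hposR : (0 : ℝ) < (Fintype.card K : ℝ) := by exact_mod_cast hpos
  have h := card_not_rich (d := d) hK E0 hE0 A
  have hR : ((univ.filter fun R : Om KK K d L => A (vv R) ∧ ¬ RichP K E0 R.1.E).card : ℝ) *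
        (Fintype.card K : ℝ) ^ L ≤
      (Fintype.card K : ℝ) * ((Fintype.card K : ℝ) - 1) ^ L *
        ((univ.filter fun R : Om KK K d L => A (vv R)).card : ℝ) := by
    have h' : (((univ.filter fun R : Om KK K d L => A (vv R) ∧ ¬ RichP K E0 R.1.E).card *
        Fintype.card K ^ L : ℕ) : ℝ) ≤ ((Fintype.card K * (Fintype.card K - 1) ^ L *
        (univ.filter fun R : Om KK K d L => A (vv R)).card : ℕ) : ℝ) := by exact_mod_cast h
    push_cast [Nat.cast_sub hpos] at h'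
    exact h'
  have hpow : ((Fintype.card K : ℝ) - 1) ^ L ≤
      (Fintype.card K : ℝ) ^ L * (Real.exp (-t) / (Fintype.card K : ℝ)) := by
    have h1 : ((Fintype.card K : ℝ) - 1) = (Fintype.card K : ℝ) * (1 - 1 / (Fintype.card K : ℝ)) := by
      field_simp
    have h2 : 1 - 1 / (Fintype.card K : ℝ) ≤ Real.exp (-(1 / (Fintype.card K : ℝ))) := by
      have := Real.add_one_le_exp (-(1 / (Fintype.card K : ℝ)))
      linarith
    have h3 : 0 ≤ 1 - 1 / (Fintype.card K : ℝ) := by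
      rw [sub_nonneg, div_le_one hposR]
      exact_mod_cast hpos
    rw [h1, mul_pow]
    refine mul_le_mul_of_nonneg_left ?_ (by positivity)
    refine (pow_le_pow_left₀ h3 h2 L).trans ?_
    rw [← Real.exp_nat_mul]
    have h4 : (L : ℝ) * -(1 / (Fintype.card K : ℝ)) ≤ -(Real.log (Fintype.card K) + t) := by
      have h5 : Real.log (Fintype.card K) + t ≤ (L : ℝ) / (Fintype.card K : ℝ) := by
        rw [le_div_iff₀ hposR]; linarith
      have h6 : (L : ℝ) * -(1 / (Fintype.card K : ℝ)) = -((L : ℝ) / (Fintype.card K : ℝ)) := by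
        ring
      rw [h6]; linarith
    refine (Real.exp_le_exp.2 h4).trans (le_of_eq ?_)
    rw [neg_add, Real.exp_add, Real.exp_neg, Real.exp_log hposR]
    field_simp
  have hKL : (0 : ℝ) < (Fintype.card K : ℝ) ^ L := by positivity
  have hA : (0 : ℝ) ≤ ((univ.filter fun R : Om KK K d L => A (vv R)).card : ℝ) := by positivity
  have h7 : (Fintype.card K : ℝ) * ((Fintype.card K : ℝ) - 1) ^ L ≤
      Real.exp (-t) * (Fintype.card K : ℝ) ^ L := by
    have := mul_le_mul_of_nonneg_left hpow hposR.le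
    refine this.trans (le_of_eq ?_)
    field_simp
  have h8 := mul_le_mul_of_nonneg_right h7 hA
  have h9 := hR.trans h8
  have h10 : ((univ.filter fun R : Om KK K d L => A (vv R) ∧ ¬ RichP K E0 R.1.E).card : ℝ) *
        (Fintype.card K : ℝ) ^ L ≤ (Real.exp (-t) *
          ((univ.filter fun R : Om KK K d L => A (vv R)).card : ℝ)) * (Fintype.card K : ℝ) ^ L := by
    refine h9.trans (le_of_eq ?_)
    ring
  exact le_of_mul_le_mul_right h10 hKL

end count

end Crest.Agent.R042.RichB763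
end

-- ▼ part R042/PBOne_342
section

/-!
# Plan B: the one-end sets `deadX` are small

For `Y` outside the special space of `s = (P, P')`, at most a fraction `(q ^ 2 + 1) / card KK` of the
common third types `R` of `P, P'` has `deadX`.
-/

set_option autoImplicit false
set_option linter.unusedSectionVars false

namespace Crest.Agent.R042.PBOne342

open Finset Crest.Agent.R042.Fam543 Crest.Agent.R042.Inst592 Crest.Agent.R042.PB

variable {k0 KK : Type} [Field k0] [Field KK] [Algebra k0 KK]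

section alg

variable [CharP KK 2]

theorem two_pow_pow (e i : ℕ) : (2 ^ e) ^ i = 2 ^ (e * i) := (pow_mul 2 e i).symm

theorem add_pow_Q (e i : ℕ) (x y : KK) :
    (x + y) ^ ((2 ^ e) ^ i) = x ^ ((2 ^ e) ^ i) + y ^ ((2 ^ e) ^ i) := by
  rw [two_pow_pow]; exact add_pow_char_pow x y 2 _

theorem contr_add_vec (e : ℕ) {d kp : ℕ} (h h' : Ix d → KK) (i : Fin kp) (t : U0 KK d kp) :
    contr (2 ^ e) (h + h') i t = contr (2 ^ e) h i t + contr (2 ^ e) h' i t := by
  funext al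
  show ∑ j, ((h + h') (sw j)) ^ ((2 ^ e) ^ (i : ℕ)) * t (Function.update al i j) =
    (∑ j, (h (sw j)) ^ ((2 ^ e) ^ (i : ℕ)) * t (Function.update al i j)) +
      ∑ j, (h' (sw j)) ^ ((2 ^ e) ^ (i : ℕ)) * t (Function.update al i j)
  rw [← sum_add_distrib]
  refine sum_congr rfl fun j _ => ?_
  rw [Pi.add_apply, add_pow_Q, add_mul]

theorem contr_smul_vec (Q : ℕ) {d kp : ℕ} (c : KK) (h : Ix d → KK) (i : Fin kp)
    (t : U0 KK d kp) : contr Q (c • h) i t = c ^ (Q ^ (i : ℕ)) • contr Q h i t := by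
  funext al
  show ∑ j, ((c • h) (sw j)) ^ (Q ^ (i : ℕ)) * t (Function.update al i j) =
    c ^ (Q ^ (i : ℕ)) * ∑ j, (h (sw j)) ^ (Q ^ (i : ℕ)) * t (Function.update al i j)
  rw [mul_sum]
  refine sum_congr rfl fun j _ => ?_
  rw [Pi.smul_apply, smul_eq_mul, mul_pow, mul_assoc]

theorem pow_inj_Q (e i : ℕ) {x y : KK} (h : x ^ ((2 ^ e) ^ i) = y ^ ((2 ^ e) ^ i)) : x = y := by
  rw [two_pow_pow] at h
  exact (iterateFrobenius KK 2 (e * i)).injective (by simpa [iterateFrobenius_def] using h)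

theorem pow_surj_Q [Finite KK] (e i : ℕ) (y : KK) : ∃ x : KK, x ^ ((2 ^ e) ^ i) = y := by
  have h : Function.Surjective (fun x : KK => x ^ ((2 ^ e) ^ i)) :=
    Finite.injective_iff_surjective.1 fun x y h => pow_inj_Q e i h
  exact h y

theorem exists_smul_of_perp {d : ℕ} {a τ : Ix d → KK} (ha : a ≠ 0)
    (h : ∀ x : Ix d → KK, B a x = 0 → B x τ = 0) : ∃ c : KK, τ = c • a := by
  classical
  obtain ⟨j0, hj0⟩ : ∃ j, a j ≠ 0 := by
    by_contra hh
    push Not at hh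
    exact ha (funext hh)
  refine ⟨τ j0 / a j0, ?_⟩
  funext j
  -- test vector
  let x : Ix d → KK := fun i => (if i = sw j then a j0 else 0) - (if i = sw j0 then a j else 0)
  have hx1 : ∀ g : Ix d → KK, (∑ i, g i * x i) = g (sw j) * a j0 - g (sw j0) * a j := by
    intro g
    simp only [x, mul_sub, sum_sub_distrib, mul_ite, mul_zero, Finset.sum_ite_eq', mem_univ,
      if_true]
  have h1 : B a x = 0 := by
    have := hx1 (fun i => a (sw i))
    unfold B
    rw [this, sw_sw, sw_sw]; ring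
  have h2 := h x h1
  rw [B_comm] at h2
  have h3 := hx1 (fun i => τ (sw i))
  unfold B at h2
  rw [h3, sw_sw, sw_sw] at h2
  rw [Pi.smul_apply, smul_eq_mul]
  field_simp
  linear_combination h2

theorem eq_smul_Phi [Finite KK] (e : ℕ) {d : ℕ} {a : Ix d → KK} (ha : a ≠ 0) (t : U0 KK d 2)
    (h : ∀ i : Fin 2, ∀ x : Ix d → KK, B a x = 0 → contr (2 ^ e) x i t = 0) :
    ∃ c : KK, t = c • (Phi (2 ^ e) a : U0 KK d 2) := by
  -- slot vectors
  have key : ∀ (i : Fin 2) (al : Fin 2 → Ix d), ∃ c : KK, ∀ j,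
      t (Function.update al i j) = c * a j ^ ((2 ^ e) ^ (i : ℕ)) := by
    intro i al
    choose rt hrt using pow_surj_Q (KK := KK) e i
    obtain ⟨c, hc⟩ := exists_smul_of_perp (τ := fun j => rt (t (Function.update al i j))) ha
      (by
        intro x hx
        have h1 := congrFun (h i x hx) al
        have h1' : ∑ j, (x (sw j)) ^ ((2 ^ e) ^ (i : ℕ)) * t (Function.update al i j) = 0 := h1
        apply pow_inj_Q e i
        rw [zero_pow (pow_ne_zero _ (pow_ne_zero _ two_ne_zero))]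
        unfold B
        rw [two_pow_pow, sum_pow_char_pow]
        rw [← h1']
        refine sum_congr rfl fun j _ => ?_
        rw [mul_pow, ← two_pow_pow, hrt])
    refine ⟨c ^ ((2 ^ e) ^ (i : ℕ)), fun j => ?_⟩
    have h2 := congrFun hc j
    rw [← hrt (t (Function.update al i j)), h2, Pi.smul_apply, smul_eq_mul, mul_pow]
  obtain ⟨j0, hj0⟩ : ∃ j, a j ≠ 0 := by
    by_contra hh
    push Not at hh
    exact ha (funext hh)
  obtain ⟨c1, hc1⟩ := key 1 (fun _ => j0)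
  refine ⟨c1 / a j0, ?_⟩
  funext al
  obtain ⟨c0, hc0⟩ := key 0 al
  -- t al = c0 * a (al 0)
  have e1 : t al = c0 * a (al 0) := by
    have := hc0 (al 0)
    rw [Function.update_eq_self] at this
    simpa using this
  have e2 : t (Function.update al 0 j0) = c0 * a j0 := by simpa using hc0 j0
  have e3 : Function.update al 0 j0 = Function.update (fun _ => j0) 1 (al 1) := by
    funext i
    fin_cases i <;> simp [Function.update]
  have e4 : t (Function.update al 0 j0) = c1 * a (al 1) ^ (2 ^ e) := by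
    rw [e3]; simpa using hc1 (al 1)
  rw [Pi.smul_apply, smul_eq_mul, e1]
  unfold Phi
  rw [Fin.prod_univ_two]
  simp only [Fin.val_zero, pow_zero, pow_one, Fin.val_one]
  have h5 : c0 * a j0 = c1 * a (al 1) ^ (2 ^ e) := by rw [← e2, e4]
  field_simp
  linear_combination (a (al 0)) * h5

theorem av_ne_zero {K : Set k0} {d L : ℕ} {P P' : Ty k0 KK d L} (hP : Valid K P)
    (hP' : Valid K P') (hne : P.b ≠ P'.b) : av P P' ≠ 0 := by
  intro h
  have h1 := congrFun h none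
  simp only [av, Pi.add_apply, Pi.smul_apply, smul_eq_mul, hP.b0, hP'.b0, mul_one,
    Pi.zero_apply] at h1
  have h2 : B P.b P'.b = 1 := by
    rw [← CharTwo.add_eq_zero (R := KK)]
    rw [add_comm] at h1
    exact h1
  apply hne
  funext j
  have h3 := congrFun h j
  simp only [av, Pi.add_apply, Pi.smul_apply, smul_eq_mul, Pi.zero_apply, h2, one_mul] at h3
  exact ((CharTwo.add_eq_zero (R := KK)).1 h3).symm

theorem B_av {d L : ℕ} (P P' : Ty k0 KK d L) (x : Ix d → KK) :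
    B (av P P') x = B P'.b x + B P.b P'.b * B P.b x := by
  unfold av
  rw [B_add_left, B_smul_left]

theorem mem_Sp2_of_contr [Finite KK] (e : ℕ) {K : Set k0} {d L : ℕ} {P P' : Ty k0 KK d L}
    (hP : Valid K P) (hP' : Valid K P') (hne : P.b ≠ P'.b) {Y : U KK d 2 L}
    (hY : Y ∈ UP (2 ^ e) 2 P)
    (h : ∀ l, ∀ i : Fin 2, ∀ u : Ix d → KK, B P.b u = 0 → B P'.b u = 0 →
      contr (2 ^ e) u i (Y l) = 0) : Y ∈ Sp2 (2 ^ e) P P' := by
  intro l
  refine eq_smul_Phi e (av_ne_zero hP hP' hne) (Y l) fun i x hx => ?_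
  -- x = u + B P x • P
  have hBP : B P.b P.b = 1 := by rw [B_self, hP.b0, one_pow]
  have hx' : B P'.b x = B P.b P'.b * B P.b x := by
    rw [B_av] at hx
    exact (CharTwo.add_eq_zero (R := KK)).1 hx
  set u : Ix d → KK := x + (B P.b x) • P.b with hu
  have hu1 : B P.b u = 0 := by
    rw [hu, B_comm, B_add_left, B_smul_left, hBP, mul_one, B_comm]
    exact CharTwo.add_self_eq_zero _
  have hu2 : B P'.b u = 0 := by
    rw [hu, B_comm, B_add_left, B_smul_left, B_comm x, hx', mul_comm]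
    exact CharTwo.add_self_eq_zero _
  have hxu : x = u + (B P.b x) • P.b := by
    rw [hu, add_assoc]
    rw [show (B P.b x) • P.b + (B P.b x) • P.b = 0 from by
      funext j; exact CharTwo.add_self_eq_zero _]
    rw [add_zero]
  rw [hxu, contr_add_vec, contr_smul_vec, h l i u hu1 hu2, zero_add,
    (mem_T1.1 (hY l)) i, smul_zero]

end alg

section count

open scoped Classical

variable [Fintype k0] [Fintype KK] [CharP KK 2]

/-- move a type along a vector without `none` coordinate -/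
def shift {K : Set k0} {d L : ℕ} (u0 : Ix d → KK) (h0 : u0 none = 0) (x : KK)
    (R : Om KK K d L) : Om KK K d L :=
  ⟨⟨R.1.b + x • u0, R.1.lam, R.1.E⟩, ⟨by
    show R.1.b none + x * u0 none = 1
    rw [R.2.b0, h0, mul_zero, add_zero], R.2.lam, R.2.E⟩⟩

/-- the common third types -/
noncomputable def comm {K : Set k0} {d L : ℕ} (P P' : Ty k0 KK d L) : Finset (Om KK K d L) :=
  univ.filter fun R => Perp P R.1 ∧ Perp P' R.1

theorem mem_comm {K : Set k0} {d L : ℕ} {P P' : Ty k0 KK d L} {R : Om KK K d L} :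
    R ∈ comm (K := K) P P' ↔ Perp P R.1 ∧ Perp P' R.1 := by simp [comm]

theorem count_zero (e : ℕ) {K : Set k0} {d L : ℕ} (P P' : Ty k0 KK d L) (t : U0 KK d 2)
    (i : Fin 2) (al : Fin 2 → Ix d) (u0 : Ix d → KK) (h0 : u0 none = 0) (hP : B P.b u0 = 0)
    (hP' : B P'.b u0 = 0) (hu : contr (2 ^ e) u0 i t al ≠ 0) :
    Fintype.card KK * ((comm (K := K) P P').filter fun R =>
      contr (2 ^ e) R.1.b i t al = 0).card ≤ (comm (K := K) P P').card := by
  rw [← Finset.card_univ, ← Finset.card_product]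
  refine Finset.card_le_card_of_injOn (fun z => shift u0 h0 z.1 z.2) ?_ ?_
  · intro z hz
    rw [Finset.mem_coe, Finset.mem_product, Finset.mem_filter, mem_comm] at hz
    rw [Finset.mem_coe, mem_comm]
    constructor
    · show B P.b (z.2.1.b + z.1 • u0) = 0
      rw [B_comm, B_add_left, B_smul_left, B_comm _ P.b, B_comm u0, hP, mul_zero, add_zero]
      exact hz.2.1.1
    · show B P'.b (z.2.1.b + z.1 • u0) = 0
      rw [B_comm, B_add_left, B_smul_left, B_comm _ P'.b, B_comm u0, hP', mul_zero, add_zero]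
      exact hz.2.1.2
  · rintro ⟨x, R⟩ hz ⟨y, S⟩ hz' h
    rw [Finset.mem_coe, Finset.mem_product, Finset.mem_filter] at hz hz'
    have h1 : (shift u0 h0 x R).1 = (shift u0 h0 y S).1 := congrArg Subtype.val h
    have hb : R.1.b + x • u0 = S.1.b + y • u0 := congrArg Ty.b h1
    have hl : R.1.lam = S.1.lam := by have := congrArg Ty.lam h1; exact this
    have hE : R.1.E = S.1.E := by have := congrArg Ty.E h1; exact this
    have h2 : contr (2 ^ e) (R.1.b + x • u0) i t al = contr (2 ^ e) (S.1.b + y • u0) i t al := by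
      rw [hb]
    rw [contr_add_vec, contr_add_vec, contr_smul_vec, contr_smul_vec] at h2
    simp only [Pi.add_apply, Pi.smul_apply, smul_eq_mul] at h2
    rw [hz.2.2, hz'.2.2, zero_add, zero_add] at h2
    have hxy : x = y := pow_inj_Q e i (mul_right_cancel₀ hu h2)
    subst hxy
    have hb' : R.1.b = S.1.b := add_right_cancel hb
    have : R = S := Subtype.ext (Ty.ext hb' hl hE)
    rw [this]

theorem count_lam {K : Set k0} {d L : ℕ} (P P' : Ty k0 KK d L)
    (ψ : (Ix d → KK) → (Fin L → k0) → k0 → KK) :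
    Fintype.card KK * ((comm (K := K) P P').filter fun R =>
      ∃ a : k0, R.1.lam = ψ R.1.b R.1.E a).card ≤
      Fintype.card k0 ^ 2 * (comm (K := K) P P').card := by
  obtain ⟨l0, hl0⟩ := Algebra.trace_surjective k0 KK 1
  let aa : Om KK K d L → k0 := fun R =>
    if h : ∃ a : k0, R.1.lam = ψ R.1.b R.1.E a then h.choose else 0
  have haa : ∀ R : Om KK K d L, (∃ a : k0, R.1.lam = ψ R.1.b R.1.E a) →
      R.1.lam = ψ R.1.b R.1.E (aa R) := by
    intro R h
    simp only [aa, dif_pos h]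
    exact h.choose_spec
  let newl : KK → KK := fun x => x - (Algebra.trace k0 KK x) • l0 + l0
  have hnew : ∀ x, Algebra.trace k0 KK (newl x) = 1 := by
    intro x
    simp only [newl, map_add, map_sub, map_smul, hl0, smul_eq_mul, mul_one]
    ring
  let mv : KK → Om KK K d L → Om KK K d L := fun x R =>
    ⟨⟨R.1.b, newl x, R.1.E⟩, ⟨R.2.b0, hnew x, R.2.E⟩⟩
  have hq : Fintype.card k0 ^ 2 * (comm (K := K) P P').card =
      ((univ : Finset (k0 × k0)) ×ˢ comm (K := K) P P').card := by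
    rw [Finset.card_product, Finset.card_univ, Fintype.card_prod, pow_two]
  rw [hq, ← Finset.card_univ, ← Finset.card_product]
  refine Finset.card_le_card_of_injOn
    (fun z => ((aa z.2, Algebra.trace k0 KK z.1), mv z.1 z.2)) ?_ ?_
  · intro z hz
    rw [Finset.mem_coe, Finset.mem_product, Finset.mem_filter, mem_comm] at hz
    rw [Finset.mem_coe, Finset.mem_product, mem_comm]
    exact ⟨mem_univ _, hz.2.1⟩
  · rintro ⟨x, R⟩ hz ⟨y, S⟩ hz' h
    rw [Finset.mem_coe, Finset.mem_product, Finset.mem_filter] at hz hz'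
    simp only [Prod.mk.injEq] at h
    obtain ⟨⟨h1, h2⟩, h3⟩ := h
    have h4 : (mv x R).1 = (mv y S).1 := congrArg Subtype.val h3
    have hb : R.1.b = S.1.b := by have := congrArg Ty.b h4; exact this
    have hl : newl x = newl y := congrArg Ty.lam h4
    have hE : R.1.E = S.1.E := by have := congrArg Ty.E h4; exact this
    have hxy : x = y := by
      simp only [newl, h2] at hl
      have := add_right_cancel hl
      exact sub_left_injective this
    have hlam : R.1.lam = S.1.lam := by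
      rw [haa R hz.2.2, haa S hz'.2.2, hb, hE, h1]
    have : R = S := Subtype.ext (Ty.ext hb hlam hE)
    rw [this, hxy]

/-- what `deadX` says in one coordinate -/
theorem dead_coord (e : ℕ) {K : Set k0} {d L : ℕ} {P R : Ty k0 KK d L} (hR : Valid K R)
    {Y : U KK d 2 L} {a : k0} (h : Y + a • uvec (2 ^ e) 2 R ∈ UPQ (2 ^ e) 2 P R)
    (l : Fin L) (i : Fin 2) (al : Fin 2 → Ix d) :
    contr (2 ^ e) R.b i (Y l) al = algebraMap k0 KK a * (algebraMap k0 KK (R.E l) * R.lam) *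
      ∏ i' ∈ univ.erase i, (R.b (al i')) ^ ((2 ^ e) ^ (i' : ℕ)) := by
  have h1 : (Y + a • uvec (2 ^ e) 2 R) l ∈ T1 (2 ^ e) R.b := (Submodule.mem_inf.1 h).2 l
  have h2 := congrFun (mem_T1.1 h1 i) al
  have h3 : (Y + a • uvec (2 ^ e) 2 R) l =
      Y l + (algebraMap k0 KK a * (algebraMap k0 KK (R.E l) * R.lam)) •
        (Phi (2 ^ e) R.b : U0 KK d 2) := by
    rw [Pi.add_apply, Pi.smul_apply]
    show Y l + a • ((algebraMap k0 KK (R.E l) * R.lam) • (Phi (2 ^ e) R.b : U0 KK d 2)) = _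
    rw [← algebraMap_smul KK a, smul_smul]
  rw [h3, map_add, map_smul, Pi.add_apply, Pi.smul_apply, smul_eq_mul, contr_Phi] at h2
  have hB : B R.b R.b = 1 := by rw [B_self, hR.b0, one_pow]
  rw [hB, one_pow, one_mul] at h2
  exact (CharTwo.add_eq_zero (R := KK)).1 h2

theorem card_deadX_of (e : ℕ) {K : Set k0} {d L : ℕ} (P P' : Ty k0 KK d L) (Y : U KK d 2 L)
    (l : Fin L) (i : Fin 2) (al : Fin 2 → Ix d)
    (hz : Fintype.card KK * ((comm (K := K) P P').filter fun R =>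
      contr (2 ^ e) R.1.b i (Y l) al = 0).card ≤ (comm (K := K) P P').card) :
    Fintype.card KK * ((comm (K := K) P P').filter fun R => deadX (2 ^ e) P Y R.1).card ≤
      (Fintype.card k0 ^ 2 + 1) * (comm (K := K) P P').card := by
  have hl := count_lam (K := K) P P' (fun b E a => contr (2 ^ e) b i (Y l) al /
    (algebraMap k0 KK a * algebraMap k0 KK (E l) *
      ∏ i' ∈ univ.erase i, (b (al i')) ^ ((2 ^ e) ^ (i' : ℕ))))
  have hsub : ((comm (K := K) P P').filter fun R => deadX (2 ^ e) P Y R.1) ⊆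
      ((comm (K := K) P P').filter fun R => contr (2 ^ e) R.1.b i (Y l) al = 0) ∪
      ((comm (K := K) P P').filter fun R => ∃ a : k0, R.1.lam =
        contr (2 ^ e) R.1.b i (Y l) al / (algebraMap k0 KK a * algebraMap k0 KK (R.1.E l) *
      ∏ i' ∈ univ.erase i, (R.1.b (al i')) ^ ((2 ^ e) ^ (i' : ℕ)))) := by
    intro R hR
    rw [Finset.mem_filter] at hR
    obtain ⟨hc, a, ha⟩ := hR
    have h1 := dead_coord e R.2 ha l i al
    rw [Finset.mem_union, Finset.mem_filter, Finset.mem_filter]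
    by_cases h0 : contr (2 ^ e) R.1.b i (Y l) al = 0
    · exact Or.inl ⟨hc, h0⟩
    · refine Or.inr ⟨hc, a, ?_⟩
      have h2 : algebraMap k0 KK a * algebraMap k0 KK (R.1.E l) *
          ∏ i' ∈ univ.erase i, (R.1.b (al i')) ^ ((2 ^ e) ^ (i' : ℕ)) ≠ 0 := by
        intro hh
        apply h0
        rw [h1]
        calc _ = (algebraMap k0 KK a * algebraMap k0 KK (R.1.E l) *
          ∏ i' ∈ univ.erase i, (R.1.b (al i')) ^ ((2 ^ e) ^ (i' : ℕ))) * R.1.lam := by ring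
          _ = 0 := by rw [hh, zero_mul]
      rw [eq_div_iff h2, h1]
      ring
  have h3 := (Finset.card_le_card hsub).trans (Finset.card_union_le _ _)
  calc _ ≤ Fintype.card KK * (_ + _) := Nat.mul_le_mul_left _ h3
    _ = Fintype.card KK * _ + Fintype.card KK * _ := Nat.mul_add _ _ _
    _ ≤ (comm (K := K) P P').card + Fintype.card k0 ^ 2 * (comm (K := K) P P').card :=
        Nat.add_le_add hz hl
    _ = _ := by ring

/-- **one-end density** of plan B: for `Y` outside the special space at most a fraction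
`(q ^ 2 + 1) / card KK` of the common third types has `deadX`. -/
theorem card_deadX (e : ℕ) {K : Set k0} {d L : ℕ} {P P' : Ty k0 KK d L} (hP : Valid K P)
    (hP' : Valid K P') (hne : P.b ≠ P'.b) {Y : U KK d 2 L} (hY : Y ∉ Sp2 (2 ^ e) P P') :
    Fintype.card KK * ((comm (K := K) P P').filter fun R => deadX (2 ^ e) P Y R.1).card ≤
      (Fintype.card k0 ^ 2 + 1) * (comm (K := K) P P').card := by
  by_cases hYP : Y ∈ UP (2 ^ e) 2 P
  swap
  · have : ((comm (K := K) P P').filter fun R => deadX (2 ^ e) P Y R.1) = ∅ := by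
      rw [Finset.filter_eq_empty_iff]
      intro R hR hd
      obtain ⟨a, ha⟩ := hd
      apply hYP
      have h1 := (Submodule.mem_inf.1 ha).1
      have h2 := Submodule.smul_mem _ a (uvec_mem_UP (L := L) (kp := 2) e (mem_comm.1 hR).1)
      have h3 := Submodule.sub_mem _ h1 h2
      rwa [add_sub_cancel_right] at h3
    rw [this, Finset.card_empty, Nat.mul_zero]
    exact Nat.zero_le _
  have hex : ∃ l, ∃ i : Fin 2, ∃ u : Ix d → KK, B P.b u = 0 ∧ B P'.b u = 0 ∧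
      contr (2 ^ e) u i (Y l) ≠ 0 := by
    by_contra hh
    push Not at hh
    exact hY (mem_Sp2_of_contr e hP hP' hne hYP hh)
  by_cases hal : ∃ l, ∃ i : Fin 2, ∃ u : Ix d → KK, ∃ al, u none = 0 ∧ B P.b u = 0 ∧
      B P'.b u = 0 ∧ contr (2 ^ e) u i (Y l) al ≠ 0
  · obtain ⟨l, i, u, al, h0, h1, h2, h3⟩ := hal
    exact card_deadX_of e P P' Y l i al (count_zero e P P' (Y l) i al u h0 h1 h2 h3)
  · push Not at hal
    obtain ⟨l, i, u, h1, h2, h3⟩ := hex
    obtain ⟨al, h4⟩ : ∃ al, contr (2 ^ e) u i (Y l) al ≠ 0 := by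
      by_contra hh
      push Not at hh
      exact h3 (funext hh)
    have hu0 : u none ≠ 0 := fun h0 => h4 (hal l i u al h0 h1 h2)
    refine card_deadX_of e P P' Y l i al ?_
    have : ((comm (K := K) P P').filter fun R => contr (2 ^ e) R.1.b i (Y l) al = 0) = ∅ := by
      rw [Finset.filter_eq_empty_iff]
      intro R hR h5
      have h6 := hal l i (R.1.b + (u none)⁻¹ • u) al (by
        rw [Pi.add_apply, Pi.smul_apply, smul_eq_mul, inv_mul_cancel₀ hu0, R.2.b0]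
        exact CharTwo.add_self_eq_zero _) (by
        rw [B_comm, B_add_left, B_smul_left, B_comm _ P.b, B_comm u, h1, mul_zero, add_zero]
        exact (mem_comm.1 hR).1) (by
        rw [B_comm, B_add_left, B_smul_left, B_comm _ P'.b, B_comm u, h2, mul_zero, add_zero]
        exact (mem_comm.1 hR).2)
      rw [contr_add_vec, contr_smul_vec, Pi.add_apply, Pi.smul_apply, smul_eq_mul, h5,
        zero_add, mul_eq_zero] at h6
      rcases h6 with h6 | h6
      · exact inv_ne_zero hu0 (pow_eq_zero_iff (pow_ne_zero _ (pow_ne_zero _ two_ne_zero))|>.1 h6)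
      · exact h4 h6
    rw [this, Finset.card_empty, Nat.mul_zero]
    exact Nat.zero_le _

end count

end Crest.Agent.R042.PBOne342
end

-- ▼ part R042/PBDead2_96
section

/-!
# Plan B: the two-end sets (C2): for given `Y`, `R` few `R'` satisfy `deadX2`
-/

set_option autoImplicit false
set_option linter.unusedSectionVars false

namespace Crest.Agent.R042.PBDead96

open Finset Crest.Agent.R042.RowWin543 Crest.Agent.R042.Fam543 Crest.Agent.R042.Inst592
open Crest.Agent.R042.PB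
open scoped Classical

variable {k0 KK : Type} [Field k0] [Field KK] [Algebra k0 KK] [CharP KK 2]

/-- the slot 0 equation of a point of the window -/
theorem slot_eq (e : ℕ) {d L : ℕ} {P R R' : Ty k0 KK d L} {Y : U KK d 2 L} {a c : k0}
    (h : Y + a • uvec (2 ^ e) 2 R + c • uvec (2 ^ e) 2 R' ∈ UPQ (2 ^ e) 2 P R) (l : Fin L)
    (j : Ix d) :
    contr (2 ^ e) R.b (0 : Fin 2) ((Y + a • uvec (2 ^ e) 2 R) l) (fun _ => j) +
      (algebraMap k0 KK c * (algebraMap k0 KK (R'.E l) * R'.lam) * B R.b R'.b) *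
        (R'.b j) ^ (2 ^ e) = 0 := by
  have h1 := congrFun (mem_T1.1 ((Submodule.mem_inf.1 h).2 l) 0) (fun _ => j)
  rw [Pi.zero_apply] at h1
  rw [← h1]
  have h2 : (Y + a • uvec (2 ^ e) 2 R + c • uvec (2 ^ e) 2 R') l =
      (Y + a • uvec (2 ^ e) 2 R) l +
        (algebraMap k0 KK c * (algebraMap k0 KK (R'.E l) * R'.lam)) • Phi (2 ^ e) R'.b := by
    rw [Pi.add_apply (Y + a • uvec (2 ^ e) 2 R)]
    congr 1
    show c • ((algebraMap k0 KK (R'.E l) * R'.lam) • Phi (2 ^ e) R'.b) = _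
    rw [mul_smul (algebraMap k0 KK c), algebraMap_smul]
  rw [h2, map_add, Pi.add_apply]
  congr 1
  rw [map_smul, Pi.smul_apply, contr_Phi]
  have h3 : (univ.erase (0 : Fin 2)) = {1} := by decide
  rw [h3, prod_singleton]
  simp only [smul_eq_mul, Fin.val_zero, pow_zero, pow_one, Fin.val_one]
  ring

/-- the unknown is determined by `Y`, `R` and the scalar `a` -/
theorem vv_eq (e : ℕ) {K : Set k0} (hK : Alph K) {d L : ℕ} (hL : 0 < L) {P R : Ty k0 KK d L}
    {R' R'' : Om KK K d L} {Y : U KK d 2 L} {a c' c'' : k0} (hc' : c' ≠ 0) (hR' : ¬ Perp R R'.1)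
    (h' : Y + a • uvec (2 ^ e) 2 R + c' • uvec (2 ^ e) 2 R'.1 ∈ UPQ (2 ^ e) 2 P R)
    (h'' : Y + a • uvec (2 ^ e) 2 R + c'' • uvec (2 ^ e) 2 R''.1 ∈ UPQ (2 ^ e) 2 P R) :
    vv R' = vv R'' := by
  set l : Fin L := ⟨0, hL⟩
  have e' := fun j => slot_eq e h' l j
  have e'' := fun j => slot_eq e h'' l j
  set k' : KK := algebraMap k0 KK c' * (algebraMap k0 KK (R'.1.E l) * R'.1.lam) * B R.b R'.1.b
  set k'' : KK := algebraMap k0 KK c'' * (algebraMap k0 KK (R''.1.E l) * R''.1.lam) *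
    B R.b R''.1.b
  have hk : k' = k'' := by
    have h1 := e' none
    have h2 := e'' none
    rw [R'.2.b0, one_pow, mul_one] at h1
    rw [R''.2.b0, one_pow, mul_one] at h2
    exact add_left_cancel (h1.trans h2.symm)
  have hlam : R'.1.lam ≠ 0 := by
    intro h0
    have h1 := R'.2.lam
    rw [h0, map_zero] at h1
    exact zero_ne_one h1
  have hE : algebraMap k0 KK (R'.1.E l) ≠ 0 := by
    intro h0
    exact hK.ne_zero (R'.2.E l) ((map_eq_zero _).1 h0)
  have hk0 : k' ≠ 0 :=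
    mul_ne_zero (mul_ne_zero (fun h0 => hc' ((map_eq_zero _).1 h0)) (mul_ne_zero hE hlam)) hR'
  funext j
  have h1 := e' (some j)
  have h2 := e'' (some j)
  rw [← hk] at h2
  have h3 : k' * (R'.1.b (some j)) ^ (2 ^ e) = k' * (R''.1.b (some j)) ^ (2 ^ e) :=
    add_left_cancel (h1.trans h2.symm)
  have h4 := mul_left_cancel₀ hk0 h3
  show R'.1.b (some j) = R''.1.b (some j)
  exact iterateFrobenius_inj KK 2 e (by
    rw [iterateFrobenius_def, iterateFrobenius_def]; exact h4)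

variable [Fintype k0] [Fintype KK]

/-- the size of the sample space -/
theorem card_Om (K : Set k0) (d L : ℕ) :
    Fintype.card (Om KK K d L) = Fintype.card KK ^ (2 * d) * Fintype.card (Zz KK K L) := by
  rw [Fintype.card_congr (omEquiv K d L), Fintype.card_prod, card_WW]

/-- **(C2)** few `R'` -/
theorem card_deadX2 (e : ℕ) {K : Set k0} (hK : Alph K) {d L : ℕ} (hL : 0 < L)
    (P R : Ty k0 KK d L) (Y : U KK d 2 L) (S : Finset (Om KK K d L))
    (hS : ∀ R' ∈ S, deadX2 (2 ^ e) P Y R R'.1) :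
    Fintype.card KK ^ (2 * d) * S.card ≤ Fintype.card k0 * Fintype.card (Om KK K d L) := by
  have h1 : S ⊆ univ.biUnion fun a : k0 => S.filter fun R' =>
      ∃ c : k0, c ≠ 0 ∧ ¬ Perp R R'.1 ∧
        Y + a • uvec (2 ^ e) 2 R + c • uvec (2 ^ e) 2 R'.1 ∈ UPQ (2 ^ e) 2 P R := by
    intro R' hR'
    obtain ⟨a, c, h⟩ := hS R' hR'
    exact mem_biUnion.2 ⟨a, mem_univ _, mem_filter.2 ⟨hR', c, h⟩⟩
  have h2 : ∀ a : k0, (S.filter fun R' =>
      ∃ c : k0, c ≠ 0 ∧ ¬ Perp R R'.1 ∧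
        Y + a • uvec (2 ^ e) 2 R + c • uvec (2 ^ e) 2 R'.1 ∈ UPQ (2 ^ e) 2 P R).card ≤
          Fintype.card (Zz KK K L) := by
    intro a
    rcases (S.filter fun R' =>
      ∃ c : k0, c ≠ 0 ∧ ¬ Perp R R'.1 ∧
        Y + a • uvec (2 ^ e) 2 R + c • uvec (2 ^ e) 2 R'.1 ∈
          UPQ (2 ^ e) 2 P R).eq_empty_or_nonempty with h0 | ⟨R0, hR0⟩
    · rw [h0, card_empty]; exact Nat.zero_le _
    · obtain ⟨-, c0, hc0, hp0, hm0⟩ := mem_filter.1 hR0
      refine (card_le_card (t := univ.filter fun R' => vv R' = vv R0) ?_).trans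
        (le_of_eq ?_)
      · intro R' hR'
        obtain ⟨-, c, hc, hp, hm⟩ := mem_filter.1 hR'
        exact mem_filter.2 ⟨mem_univ _, vv_eq e hK hL hc hp hm hm0⟩
      · convert fib (KK := KK) K d L (vv R0)
  have h3 : S.card ≤ Fintype.card k0 * Fintype.card (Zz KK K L) :=
    (card_le_card h1).trans (card_biUnion_le.trans ((sum_le_sum fun a _ => h2 a).trans
      (le_of_eq (by rw [sum_const, card_univ, smul_eq_mul]))))
  rw [card_Om]
  calc Fintype.card KK ^ (2 * d) * S.card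
      ≤ Fintype.card KK ^ (2 * d) * (Fintype.card k0 * Fintype.card (Zz KK K L)) :=
        Nat.mul_le_mul_left _ h3
    _ = _ := by ring

/-- (C2) in the form of a density -/
theorem card_deadX2_real (e : ℕ) {K : Set k0} (hK : Alph K) {d L : ℕ} (hL : 0 < L)
    (P R : Ty k0 KK d L) (Y : U KK d 2 L) (S : Finset (Om KK K d L))
    (hS : ∀ R' ∈ S, deadX2 (2 ^ e) P Y R R'.1) :
    ((S.card : ℕ) : ℝ) ≤
      (Fintype.card k0 : ℝ) / (Fintype.card KK : ℝ) ^ (2 * d) * Fintype.card (Om KK K d L) := by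
  have h := card_deadX2 e hK hL P R Y S hS
  have hpos : (0 : ℝ) < (Fintype.card KK : ℝ) ^ (2 * d) :=
    pow_pos (Nat.cast_pos.2 Fintype.card_pos) _
  have h' : (Fintype.card KK : ℝ) ^ (2 * d) * (S.card : ℝ) ≤
      (Fintype.card k0 : ℝ) * (Fintype.card (Om KK K d L) : ℝ) := by
    exact_mod_cast h
  rw [div_mul_eq_mul_div, le_div_iff₀ hpos, mul_comm]
  exact h'


end Crest.Agent.R042.PBDead96
end

-- ▼ part R042/SysBData_333
section

/-!
# Row 42 / S0059, PLAN B: the type level data (`TData`)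

One-end dead sets: isolation, richness, `deadX` for the points of the list; two-end dead sets:
`deadX2` for the points of the list.  `one_out`, `live_out`: what an alive pair knows.
-/

set_option autoImplicit false
set_option linter.unusedSectionVars false

namespace Crest.Agent.R042.SysB333

open Finset SspAsm375 SspFin375 SspT375 SspB375 TLev333 SysOf333
open Crest.Agent.R042.Fam543 Crest.Agent.R042.RowWin543 Crest.Agent.R042.Inst592
open Crest.Agent.R042.IsoD543 Crest.Agent.R042.RichB763 Crest.Agent.R042.PB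
open Crest.Agent.R042.PBOne342 Crest.Agent.R042.PBDead96
open scoped Classical

/-- one of two ends (`false` is the first one) -/
def en {T : Type*} (P P' : T) (a : Bool) : T := bif a then P' else P

@[simp] lemma en_false {T : Type*} (P P' : T) : en P P' false = P := rfl
@[simp] lemma en_true {T : Type*} (P P' : T) : en P P' true = P' := rfl


variable {k0 KK : Type} [Field k0] [Field KK] [Algebra k0 KK] {d L J : ℕ} {Δ : Type}

/-- the points of the list -/
abbrev Pts (KK : Type) (d L J : ℕ) := Fin J → Bool × U KK d 2 L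

/-- the one-end dead set of the list -/
def DX (e : ℕ) (P P' : Ty k0 KK d L) (y : Bool × U KK d 2 L) (R : Ty k0 KK d L) : Prop :=
  y.2 ∉ Sp2 (2 ^ e) (en P P' y.1) (en P P' (!y.1)) ∧ deadX (2 ^ e) (en P P' y.1) y.2 R

/-- the one-end dead sets -/
def D1B (K : Set k0) (e : ℕ) (wd : Δ → (U KK d 2 L →ₗ[k0] k0)) (P P' : Ty k0 KK d L) (w : Δ)
    (y : Pts KK d L J) (R : Ty k0 KK d L) : Prop :=
  Diso K (2 ^ e) 2 P P' (wd w) R ∨ ¬ RichP K P.E R.E ∨ ¬ RichP K P'.E R.E ∨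
    ∃ i, DX e P P' (y i) R

/-- the two-end dead sets -/
def D2B (e : ℕ) (P P' : Ty k0 KK d L) (y : Pts KK d L J) (R R' : Ty k0 KK d L) : Prop :=
  ∃ i, deadX2 (2 ^ e) (en P P' (y i).1) (y i).2 R R'

variable [Fintype k0] [Fintype KK] [CharP KK 2]

/-- monotonicity of a count, any decidability -/
lemma fc {Ω : Type*} [Fintype Ω] {p q : Ω → Prop} {i1 : DecidablePred p} {i2 : DecidablePred q}
    (h : ∀ x, p x → q x) : (((@filter _ p i1 univ).card : ℕ) : ℝ) ≤
      (((@filter _ q i2 univ).card : ℕ) : ℝ) := by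
  refine Nat.cast_le.2 (card_le_card ?_)
  intro x hx
  exact (@Finset.mem_filter _ _ (_) _ _).2 ⟨mem_univ _, h x ((@Finset.mem_filter _ _ (_) _ _).1 hx).2⟩

/-- the number of types with a condition given by a finite union -/
lemma card_ex_le {Ω : Type*} [Fintype Ω] {J : ℕ} (A : Ω → Prop) (p : Fin J → Ω → Prop) (c : ℝ)
    (h : ∀ i, (((univ.filter fun R => A R ∧ p i R).card : ℕ) : ℝ) ≤ c) :
    (((univ.filter fun R => A R ∧ ∃ i, p i R).card : ℕ) : ℝ) ≤ J * c := by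
  have h1 : (univ.filter fun R => A R ∧ ∃ i, p i R) ⊆
      univ.biUnion fun i : Fin J => univ.filter fun R => A R ∧ p i R := by
    intro R hR
    obtain ⟨_, h2, i, h3⟩ := mem_filter.1 hR
    exact mem_biUnion.2 ⟨i, mem_univ _, mem_filter.2 ⟨mem_univ _, h2, h3⟩⟩
  have h2 : (((univ.filter fun R => A R ∧ ∃ i, p i R).card : ℕ) : ℝ) ≤
      ∑ i : Fin J, (((univ.filter fun R => A R ∧ p i R).card : ℕ) : ℝ) := by
    exact_mod_cast (card_le_card h1).trans card_biUnion_le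
  refine h2.trans ((sum_le_sum fun i _ => h i).trans (le_of_eq ?_))
  rw [sum_const, card_univ, Fintype.card_fin, nsmul_eq_mul]

/-- one point, density -/
theorem dx_le {K : Set k0} (h1 : (1 : k0) ∈ K) (e : ℕ) (P P' : Om KK K d L)
    (hc : Cnt (perp K d L) ((Fintype.card KK : ℝ)⁻¹) P P') (y : Bool × U KK d 2 L) :
    (((univ.filter fun R : Om KK K d L =>
      (perp K d L P R ∧ perp K d L P' R) ∧ DX e P.1 P'.1 y R.1).card : ℕ) : ℝ) ≤
      ((Fintype.card k0 : ℝ) ^ 2 + 1) / Fintype.card KK * ((Fintype.card KK : ℝ)⁻¹) ^ 2 *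
        Fintype.card (Om KK K d L) := by
  have hKK : (0 : ℝ) < Fintype.card KK := by exact_mod_cast Fintype.card_pos
  by_cases hy : y.2 ∈ Sp2 (2 ^ e) (en P.1 P'.1 y.1) (en P.1 P'.1 (!y.1))
  · have h2 : (univ.filter fun R : Om KK K d L =>
        (perp K d L P R ∧ perp K d L P' R) ∧ DX e P.1 P'.1 y R.1) = ∅ :=
      filter_eq_empty_iff.2 fun R _ h5 => h5.2.1 hy
    rw [h2, card_empty, Nat.cast_zero]
    positivity
  · have hne : P.1.b ≠ P'.1.b := by
      intro h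
      have h2 := li_b_of_cnt h1 hc
      have h3 := h2.injective.ne (show (0 : Fin 2) ≠ 1 by decide)
      exact h3 h
    have key : Fintype.card KK * ((comm (K := K) P.1 P'.1).filter fun R =>
        deadX (2 ^ e) (en P.1 P'.1 y.1) y.2 R.1).card ≤
        (Fintype.card k0 ^ 2 + 1) * (comm (K := K) P.1 P'.1).card := by
      rcases hy1 : y.1 with _ | _
      · rw [hy1] at hy
        exact card_deadX e P.2 P'.2 hne hy
      · rw [hy1] at hy
        have h2 := card_deadX e P'.2 P.2 hne.symm hy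
        have h3 : comm (K := K) P'.1 P.1 = comm (K := K) P.1 P'.1 := by
          ext R
          rw [mem_comm, mem_comm, and_comm]
        rw [h3] at h2
        exact h2
    have h2 : (((comm (K := K) P.1 P'.1).card : ℕ) : ℝ) =
        ((Fintype.card KK : ℝ)⁻¹) ^ 2 * Fintype.card (Om KK K d L) := by
      rw [← hc.c12]
      exact le_antisymm (fc fun R h => h) (fc fun R h => h)
    have h3 : (((univ.filter fun R : Om KK K d L =>
      (perp K d L P R ∧ perp K d L P' R) ∧ DX e P.1 P'.1 y R.1).card : ℕ) : ℝ) ≤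
        ((((comm (K := K) P.1 P'.1).filter fun R =>
        deadX (2 ^ e) (en P.1 P'.1 y.1) y.2 R.1).card : ℕ) : ℝ) := by
      refine Nat.cast_le.2 (card_le_card ?_)
      intro R hR
      obtain ⟨_, h4, h5⟩ := mem_filter.1 hR
      exact mem_filter.2 ⟨mem_comm.2 h4, h5.2⟩
    refine h3.trans ?_
    rw [mul_assoc, ← h2, div_mul_eq_mul_div, le_div_iff₀ hKK, mul_comm]
    exact_mod_cast key

/-- richness against one end, density -/
theorem rich_le {K : Finset k0} (hK : Alph (K : Set k0)) {t : ℝ}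
    (hL : (K.card : ℝ) * (Real.log K.card + t) ≤ L) (P P' P₀ : Om KK (K : Set k0) d L)
    (hc : Cnt (perp (K : Set k0) d L) ((Fintype.card KK : ℝ)⁻¹) P P') :
    (((univ.filter fun R : Om KK (K : Set k0) d L =>
      (perp (K : Set k0) d L P R ∧ perp (K : Set k0) d L P' R) ∧
        ¬ RichP (K : Set k0) P₀.1.E R.1.E).card : ℕ) : ℝ) ≤
      Real.exp (-t) * ((Fintype.card KK : ℝ)⁻¹) ^ 2 * Fintype.card (Om KK (K : Set k0) d L) := by
  have hcard : ∀ i : Fintype (K : Set k0), @Fintype.card _ i = K.card := by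
    intro i
    rw [← @Nat.card_eq_fintype_card _ i]
    simp
  have h := card_not_rich_le (KK := KK) (d := d) hK P₀.1.E P₀.2.E
    (fun u => om d (vv P) u = -1 ∧ om d (vv P') u = -1) (t := t) (by
      rw [hcard]; exact hL)
  rw [mul_assoc, ← hc.c12]
  refine le_trans (fc ?_) (le_trans h (mul_le_mul_of_nonneg_left (fc ?_) (Real.exp_pos _).le))
  · intro R h
    exact ⟨⟨(perp_iff P R).1 h.1.1, (perp_iff P' R).1 h.1.2⟩, h.2⟩
  · intro R h
    exact ⟨(perp_iff P R).2 h.1, (perp_iff P' R).2 h.2⟩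

variable [DecidableEq k0]

/-- all one-end dead sets, density -/
theorem d1_le {K : Finset k0} {β : ℝ} (hK : Alph767.Alph k0 K β) (e : ℕ) (he : 0 < e)
    (hcard : Fintype.card KK = (2 ^ e) ^ 2)
    (hQ : (Fintype.card k0 : ℝ) ≤ β * ((2 : ℝ) ^ e - 1))
    {t : ℝ} (hL : (K.card : ℝ) * (Real.log K.card + t) ≤ L)
    (wd : Δ → (U KK d 2 L →ₗ[k0] k0)) {η : ℝ}
    (hD1 : 3 * β + (Real.exp (-t) + (Real.exp (-t) +
      J * (((Fintype.card k0 : ℝ) ^ 2 + 1) / Fintype.card KK))) ≤ η ^ 2)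
    (P P' : Om KK (K : Set k0) d L) (w : Δ) (y : Pts KK d L J)
    (hc : Cnt (perp (K : Set k0) d L) ((Fintype.card KK : ℝ)⁻¹) P P') :
    (((univ.filter fun R : Om KK (K : Set k0) d L =>
      (perp (K : Set k0) d L P R ∧ perp (K : Set k0) d L P' R) ∧
        D1B (K : Set k0) e wd P.1 P'.1 w y R.1).card : ℕ) : ℝ) ≤
      η ^ 2 * ((Fintype.card KK : ℝ)⁻¹) ^ 2 * Fintype.card (Om KK (K : Set k0) d L) := by
  have hc12 : (0 : ℝ) ≤ ((Fintype.card KK : ℝ)⁻¹) ^ 2 *
      Fintype.card (Om KK (K : Set k0) d L) := by positivity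
  have i1 := diso_le hK e he hcard hQ P P' (wd w) hc
  have i2 := rich_le (Iso543.famAlph hK) hL P P' P hc
  have i3 := rich_le (Iso543.famAlph hK) hL P P' P' hc
  have i4 := card_ex_le (fun R : Om KK (K : Set k0) d L =>
    perp (K : Set k0) d L P R ∧ perp (K : Set k0) d L P' R)
    (fun i R => DX e P.1 P'.1 (y i) R.1) _
    (fun i => le_trans (fc fun R h => h) (dx_le hK.one e P P' hc (y i)))
  have i5 := card_or_le (perp (K : Set k0) d L) P P' _ _ _ _ (le_trans (fc fun R h => h) i3)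
    (le_trans (fc fun R h => h) i4)
  have i6 := card_or_le (perp (K : Set k0) d L) P P' _ _ _ _ (le_trans (fc fun R h => h) i2)
    (le_trans (fc fun R h => h) i5)
  have i7 := card_or_le (perp (K : Set k0) d L) P P' _ _ _ _ (le_trans (fc fun R h => h) i1)
    (le_trans (fc fun R h => h) i6)
  have h8 := mul_le_mul_of_nonneg_right hD1 hc12
  refine le_trans (fc fun R h => h) (i7.trans ?_)
  nlinarith

/-- all two-end dead sets, density -/
theorem d2_le {K : Set k0} (hK : Alph K) (hL0 : 0 < L) (e : ℕ) {θ : ℝ}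
    (hD2 : J * ((Fintype.card k0 : ℝ) / (Fintype.card KK : ℝ) ^ (2 * d)) ≤ θ)
    (P P' : Om KK K d L) (y : Pts KK d L J) (R : Om KK K d L) :
    (((univ.filter fun R' : Om KK K d L => D2B e P.1 P'.1 y R.1 R'.1).card : ℕ) : ℝ) ≤
      θ * Fintype.card (Om KK K d L) := by
  have i1 := card_ex_le (fun _ : Om KK K d L => True)
    (fun i R' => deadX2 (2 ^ e) (en P.1 P'.1 (y i).1) (y i).2 R.1 R'.1)
    ((Fintype.card k0 : ℝ) / (Fintype.card KK : ℝ) ^ (2 * d) * Fintype.card (Om KK K d L))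
    (fun i => card_deadX2_real e hK hL0 (en P.1 P'.1 (y i).1) R.1 (y i).2
        _ (fun R' hR' => ((@Finset.mem_filter _ _ (_) _ _).1 hR').2.2))
  refine le_trans (fc fun R h => ⟨trivial, h⟩) (le_trans i1 ?_)
  rw [← mul_assoc]
  exact mul_le_mul_of_nonneg_right hD2 (by positivity)

/-- **type level data of PLAN B.** -/
noncomputable def sysB {K : Finset k0} {β : ℝ} (hK : Alph767.Alph k0 K β) (e : ℕ) (he : 0 < e)
    (hcard : Fintype.card KK = (2 ^ e) ^ 2)
    (hQ : (Fintype.card k0 : ℝ) ≤ β * ((2 : ℝ) ^ e - 1))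
    (hL0 : 0 < L) (t : ℝ) (hL : (K.card : ℝ) * (Real.log K.card + t) ≤ L)
    (J : ℕ) (wd : Δ → (U KK d 2 L →ₗ[k0] k0)) (η θ : ℝ) (η0 : 0 < η) (η1 : η ≤ 1)
    (hD1 : 3 * β + (Real.exp (-t) + (Real.exp (-t) +
      J * (((Fintype.card k0 : ℝ) ^ 2 + 1) / Fintype.card KK))) ≤ η ^ 2)
    (hD2 : J * ((Fintype.card k0 : ℝ) / (Fintype.card KK : ℝ) ^ (2 * d)) ≤ θ) :
    TData (Om KK (K : Set k0) d L) Δ (Pts KK d L J) where
  perp := perp (K : Set k0) d L
  ρ := (Fintype.card KK : ℝ)⁻¹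
  η := η
  θ := θ
  ρ0 := inv_pos.2 (by exact_mod_cast Fintype.card_pos)
  ρ1 := inv_le_one_of_one_le₀ (by exact_mod_cast Fintype.card_pos)
  η0 := η0
  η1 := η1
  θ0 := le_trans (by positivity) hD2
  D1 := fun P P' w y R => D1B (K : Set k0) e wd P.1 P'.1 w y R.1
  D2 := fun P P' _ y R R' => D2B e P.1 P'.1 y R.1 R'.1
  D1_le := fun P P' w y hc => le_trans (fc fun R h => h)
    (d1_le hK e he hcard hQ hL wd hD1 P P' w y hc)
  D2_le := fun P P' _ y _ R => le_trans (fc fun R h => h)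
    (d2_le (Iso543.famAlph hK) hL0 e hD2 P P' y R)

section out

variable {K : Finset k0} {β : ℝ} {hK : Alph767.Alph k0 K β} {e : ℕ} {he : 0 < e}
  {hcard : Fintype.card KK = (2 ^ e) ^ 2} {hQ : (Fintype.card k0 : ℝ) ≤ β * ((2 : ℝ) ^ e - 1)}
  {hL0 : 0 < L} {t : ℝ} {hL : (K.card : ℝ) * (Real.log K.card + t) ≤ L}
  {wd : Δ → (U KK d 2 L →ₗ[k0] k0)} {η θ : ℝ} {η0 : 0 < η} {η1 : η ≤ 1}
  {hD1 : 3 * β + (Real.exp (-t) + (Real.exp (-t) +
      J * (((Fintype.card k0 : ℝ) ^ 2 + 1) / Fintype.card KK))) ≤ η ^ 2}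
  {hD2 : J * ((Fintype.card k0 : ℝ) / (Fintype.card KK : ℝ) ^ (2 * d)) ≤ θ}

@[simp] lemma sysB_perp : (sysB hK e he hcard hQ hL0 t hL J wd η θ η0 η1 hD1 hD2).perp =
    perp (K : Set k0) d L := rfl
@[simp] lemma sysB_ρ : (sysB hK e he hcard hQ hL0 t hL J wd η θ η0 η1 hD1 hD2).ρ =
    (Fintype.card KK : ℝ)⁻¹ := rfl
@[simp] lemma sysB_η : (sysB hK e he hcard hQ hL0 t hL J wd η θ η0 η1 hD1 hD2).η = η := rfl
@[simp] lemma sysB_θ : (sysB hK e he hcard hQ hL0 t hL J wd η θ η0 η1 hD1 hD2).θ = θ := rfl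

/-- what one side of an alive pair knows. -/
structure OneB (K : Set k0) (e : ℕ) (w : U KK d 2 L →ₗ[k0] k0) (y : Pts KK d L J)
    (X Y : Bool → Ty k0 KK d L) : Prop where
  /-- all four cross pairs are perpendicular -/
  perp : ∀ a b, Perp (X a) (Y b)
  /-- the four cross pairs are rich -/
  rich : ∀ a b, RichP K (X a).E (Y b).E
  /-- isolation -/
  iso : ∀ b, ¬ Diso K (2 ^ e) 2 (X false) (X true) w (Y b)
  /-- no point of the list kills the block -/
  kill : ∀ i, ¬ ((y i).2 ∉ Sp2 (2 ^ e) (X (y i).1) (X (!(y i).1)) ∧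
    kill (2 ^ e) (X (y i).1) (y i).2 (Y false) (Y true))






variable {ι : Type*} [Fintype ι] [DecidableEq ι] [Fintype Δ] [Fintype (Pts KK d L J)]



end out

end Crest.Agent.R042.SysB333
end

-- ▼ part R042/LocB_461
section

/-!
# Row 42 / S0059, plan B: the local conflict bound from `¬ BadK`, `¬ BadS` on both sides
-/

set_option autoImplicit false
set_option linter.unusedSectionVars false

namespace Crest.Agent.R042.LocB461

open Finset Crest.Agent.R042.Conf921 Crest.Agent.R042.CondFree313 Crest.Agent.R042.ConfB461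
open Crest.Agent.R042.LocFam958 Crest.Agent.R042.Fam543 Crest.Agent.R042.RowWin543
open scoped Classical

section Equiv

variable {k : Type*} [Field k] {V E E' : Type*} [AddCommGroup V] [Module k V] [Fintype V]
  [AddCommGroup E] [Module k E] [Fintype E] [AddCommGroup E'] [Module k E'] [Fintype E']

lemma avg_map_equiv (σ : E ≃ₗ[k] E') (H : Submodule k E) (f : E' → ℝ) (x : E) :
    avg (H.map σ.toLinearMap).toAddSubgroup f (σ x) = avg H.toAddSubgroup (fun y => f (σ y)) x := by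
  have key : ∀ (e : H.toAddSubgroup ≃ (H.map σ.toLinearMap).toAddSubgroup),
      (∀ h, ((e h : (H.map σ.toLinearMap).toAddSubgroup) : E') = σ (h : E)) →
      avg (H.map σ.toLinearMap).toAddSubgroup f (σ x) =
        avg H.toAddSubgroup (fun y => f (σ y)) x := by
    intro e he
    unfold avg
    rw [Fintype.card_congr e]
    congr 1
    refine (Fintype.sum_equiv e _ _ (fun h => ?_)).symm
    show f (σ (x + (h : E))) = f (σ x + ((e h : (H.map σ.toLinearMap).toAddSubgroup) : E'))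
    rw [he h, map_add]
  exact key
    { toFun := fun h => ⟨σ h.1, Submodule.mem_map_of_mem (f := σ.toLinearMap) h.2⟩
      invFun := fun y => ⟨σ.symm y.1, by
        obtain ⟨z, hz, hz'⟩ := y.2
        have : σ.symm y.1 = z := by
          rw [← hz']
          exact σ.symm_apply_apply z
        rw [this]
        exact hz⟩
      left_inv := fun h => Subtype.ext (σ.symm_apply_apply _)
      right_inv := fun y => Subtype.ext (σ.apply_symm_apply _) } (fun h => rfl)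

lemma push_equiv (σ : E ≃ₗ[k] E') (π : V →ₗ[k] E) (ν : V → ℝ) (x : E) :
    push (σ.toLinearMap ∘ₗ π).toAddMonoidHom ν (σ x) = push π.toAddMonoidHom ν x := by
  unfold push
  refine Finset.sum_congr ?_ fun _ _ => rfl
  ext v
  simp only [Finset.mem_filter, Finset.mem_univ, true_and]
  exact σ.injective.eq_iff

lemma map_comp_equiv (σ : E ≃ₗ[k] E') (π : V →ₗ[k] E) (D : Submodule k V) :
    D.map (σ.toLinearMap ∘ₗ π) = (D.map π).map σ.toLinearMap := Submodule.map_comp _ _ _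

/-- `BadK` is invariant under equivalences of the window group -/
theorem badK_equiv (σ : E ≃ₗ[k] E') (π : V →ₗ[k] E) (ν : V → ℝ)
    (C : Submodule k (Module.Dual k V)) (ε : ℝ) :
    BadK (σ.toLinearMap ∘ₗ π) ν C ε ↔ BadK π ν C ε := by
  unfold BadK
  rw [map_comp_equiv]
  have h1 : ∀ x : E, avg ((C.dualCoannihilator.map π).map σ.toLinearMap).toAddSubgroup
      (push (σ.toLinearMap ∘ₗ π).toAddMonoidHom ν) (σ x) =
      avg (C.dualCoannihilator.map π).toAddSubgroup (push π.toAddMonoidHom ν) x := by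
    intro x
    rw [avg_map_equiv]
    congr 1
    funext y
    exact push_equiv σ π ν y
  have h2 : ∑ x with push (σ.toLinearMap ∘ₗ π).toAddMonoidHom ν x <
      avg ((C.dualCoannihilator.map π).map σ.toLinearMap).toAddSubgroup
        (push (σ.toLinearMap ∘ₗ π).toAddMonoidHom ν) x / 2,
      avg ((C.dualCoannihilator.map π).map σ.toLinearMap).toAddSubgroup
        (push (σ.toLinearMap ∘ₗ π).toAddMonoidHom ν) x =
      ∑ x with push π.toAddMonoidHom ν x <
        avg (C.dualCoannihilator.map π).toAddSubgroup (push π.toAddMonoidHom ν) x / 2,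
      avg (C.dualCoannihilator.map π).toAddSubgroup (push π.toAddMonoidHom ν) x := by
    rw [Finset.sum_filter, Finset.sum_filter]
    refine (Fintype.sum_equiv σ.toEquiv _ _ (fun x => ?_)).symm
    show _ = if push (σ.toLinearMap ∘ₗ π).toAddMonoidHom ν (σ x) < avg ((C.dualCoannihilator.map
      π).map σ.toLinearMap).toAddSubgroup (push (σ.toLinearMap ∘ₗ π).toAddMonoidHom ν) (σ x) / 2
      then avg ((C.dualCoannihilator.map π).map σ.toLinearMap).toAddSubgroup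
        (push (σ.toLinearMap ∘ₗ π).toAddMonoidHom ν) (σ x) else 0
    rw [h1, push_equiv]
  rw [h2]

/-- `BadS` is invariant under equivalences of the window group -/
theorem badS_equiv (σ : E ≃ₗ[k] E') (π : V →ₗ[k] E) (ν : V → ℝ)
    (C : Submodule k (Module.Dual k V)) (K η : ℝ) :
    BadS (σ.toLinearMap ∘ₗ π) ν C K η ↔ BadS π ν C K η := by
  unfold BadS
  rw [map_comp_equiv]
  have hcard : (Fintype.card E' : ℝ) = (Fintype.card E : ℝ) := by
    rw [Fintype.card_congr σ.toEquiv]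
  have h1 : ∀ x : E, avg ((C.dualCoannihilator.map π).map σ.toLinearMap).toAddSubgroup
      (push (σ.toLinearMap ∘ₗ π).toAddMonoidHom ν) (σ x) =
      avg (C.dualCoannihilator.map π).toAddSubgroup (push π.toAddMonoidHom ν) x := by
    intro x
    rw [avg_map_equiv]
    congr 1
    funext y
    exact push_equiv σ π ν y
  have h2 : ∑ x with K < avg ((C.dualCoannihilator.map π).map σ.toLinearMap).toAddSubgroup
        (push (σ.toLinearMap ∘ₗ π).toAddMonoidHom ν) x * (Fintype.card E' : ℝ),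
        push (σ.toLinearMap ∘ₗ π).toAddMonoidHom ν x =
      ∑ x with K < avg (C.dualCoannihilator.map π).toAddSubgroup (push π.toAddMonoidHom ν) x *
        (Fintype.card E : ℝ), push π.toAddMonoidHom ν x := by
    rw [Finset.sum_filter, Finset.sum_filter, hcard]
    refine (Fintype.sum_equiv σ.toEquiv _ _ (fun x => ?_)).symm
    show _ = if K < avg ((C.dualCoannihilator.map π).map σ.toLinearMap).toAddSubgroup
      (push (σ.toLinearMap ∘ₗ π).toAddMonoidHom ν) (σ x) * (Fintype.card E : ℝ)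
      then push (σ.toLinearMap ∘ₗ π).toAddMonoidHom ν (σ x) else 0
    rw [h1, push_equiv]
  rw [h2]

/-- the two descriptions of `EX` agree -/
theorem EX_eq_map [FiniteDimensional k V] [FiniteDimensional k E] (F : V →ₗ[k] E)
    (C : Submodule k (Module.Dual k V)) :
    Loc767.EX F C = C.dualCoannihilator.map F := by
  have h1 : (C.dualCoannihilator.map F).dualAnnihilator = Loc767.pull F C := by
    ext φ
    rw [Submodule.mem_dualAnnihilator, Loc767.mem_pull]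
    constructor
    · intro h
      have h2 : φ ∘ₗ F ∈ C.dualCoannihilator.dualAnnihilator := by
        rw [Submodule.mem_dualAnnihilator]
        intro v hv
        exact h (F v) (Submodule.mem_map_of_mem hv)
      rwa [Subspace.dualCoannihilator_dualAnnihilator_eq] at h2
    · rintro h _ ⟨v, hv, rfl⟩
      exact (Submodule.mem_dualCoannihilator v).1 hv _ h
  unfold Loc767.EX
  rw [← h1, Subspace.dualAnnihilator_dualCoannihilator_eq]

lemma pm_eq_push (π : V →ₗ[k] E) (ν : V → ℝ) :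
    Loc767.pm π.toAddMonoidHom ν = push π.toAddMonoidHom ν := by
  funext x
  unfold Loc767.pm push
  rfl

/-- bounds for `loc_core` -/
theorem core_K [FiniteDimensional k V] [FiniteDimensional k E] {π : V →ₗ[k] E} {ν : V → ℝ}
    {C : Submodule k (Module.Dual k V)} {ε : ℝ} (h : ¬ BadK π ν C ε) :
    ∑ x with Loc767.pm π.toAddMonoidHom ν x <
        avg (Loc767.EX π C).toAddSubgroup (Loc767.pm π.toAddMonoidHom ν) x / 2,
      avg (Loc767.EX π C).toAddSubgroup (Loc767.pm π.toAddMonoidHom ν) x ≤ ε := by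
  unfold BadK at h
  rw [EX_eq_map, pm_eq_push]
  exact not_lt.1 h

theorem core_S [FiniteDimensional k V] [FiniteDimensional k E] {π : V →ₗ[k] E} {ν : V → ℝ}
    {C : Submodule k (Module.Dual k V)} {K η : ℝ} (h : ¬ BadS π ν C K η) :
    ∑ x with K < avg (Loc767.EX π C).toAddSubgroup (Loc767.pm π.toAddMonoidHom ν) x *
        (Fintype.card E : ℝ), Loc767.pm π.toAddMonoidHom ν x ≤ η := by
  unfold BadS at h
  rw [EX_eq_map, pm_eq_push]
  exact not_lt.1 h

end Equiv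

section Fam

variable {k0 KK : Type} [Field k0] [Field KK] [Algebra k0 KK] {d kp L : ℕ}

/-- exchanging the two pairs of types -/
def swf (Q kp : ℕ) (P R : Bool → Ty k0 KK d L) : TT Q kp P R →ₗ[k0] TT Q kp R P :=
  LinearMap.pi fun ab : Bool × Bool =>
    (LinearEquiv.ofEq _ _ (UPQ_comm Q kp (P ab.2) (R ab.1))).toLinearMap ∘ₗ
      (LinearMap.proj (R := k0) (φ := fun ab => WW Q kp P R ab) (ab.2, ab.1))

theorem swf_apply (Q kp : ℕ) (P R : Bool → Ty k0 KK d L) (t : TT Q kp P R) (ab : Bool × Bool) :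
    swf Q kp P R t ab =
      LinearEquiv.ofEq _ _ (UPQ_comm Q kp (P ab.2) (R ab.1)) (t (ab.2, ab.1)) := rfl

theorem swf_coe (Q kp : ℕ) (P R : Bool → Ty k0 KK d L) (t : TT Q kp P R) (ab : Bool × Bool) :
    ((swf Q kp P R t ab : WW Q kp R P ab) : U KK d kp L) = (t (ab.2, ab.1) : U KK d kp L) := by
  rw [swf_apply]
  exact LinearEquiv.coe_ofEq_apply _ _

theorem swf_swf (Q kp : ℕ) (P R : Bool → Ty k0 KK d L) (t : TT Q kp P R) :
    swf Q kp R P (swf Q kp P R t) = t := by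
  funext ab
  apply Subtype.ext
  rw [swf_coe, swf_coe]

/-- the equivalence of the window groups -/
def swE (Q kp : ℕ) (P R : Bool → Ty k0 KK d L) : EE Q kp R P ≃ₗ[k0] EE Q kp P R where
  toFun φ := -(φ ∘ₗ swf Q kp P R)
  map_add' := by
    intro φ ψ
    refine LinearMap.ext fun t => ?_
    simp only [LinearMap.neg_apply, LinearMap.comp_apply, LinearMap.add_apply]
    ring
  map_smul' := by
    intro c φ
    refine LinearMap.ext fun t => ?_
    simp only [LinearMap.neg_apply, LinearMap.comp_apply, LinearMap.smul_apply, RingHom.id_apply,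
      smul_eq_mul]
    ring
  invFun φ := -(φ ∘ₗ swf Q kp R P)
  left_inv := by
    intro φ
    refine LinearMap.ext fun t => ?_
    simp only [LinearMap.neg_apply, LinearMap.comp_apply, swf_swf, neg_neg]
  right_inv := by
    intro φ
    refine LinearMap.ext fun t => ?_
    simp only [LinearMap.neg_apply, LinearMap.comp_apply, swf_swf, neg_neg]

theorem swE_apply (Q kp : ℕ) (P R : Bool → Ty k0 KK d L) (φ : EE Q kp R P) (t : TT Q kp P R) :
    (swE Q kp P R).toLinearMap φ t = - φ (swf Q kp P R t) := rfl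

theorem winY_eq (Q kp : ℕ) (P R : Bool → Ty k0 KK d L) :
    winY Q kp P R = (swE Q kp P R).toLinearMap ∘ₗ winX Q kp R P := by
  refine LinearMap.ext fun v => LinearMap.ext fun t => ?_
  rw [LinearMap.comp_apply, swE_apply, winX_apply, winY_apply]
  congr 1
  simp only [swf_coe]
  rw [Fintype.sum_prod_type, Fintype.sum_prod_type, Finset.sum_comm]


end Fam

end Crest.Agent.R042.LocB461
end

-- ▼ part R042/LocBP_461
section

/-!
# Row 42 / S0059, plan B: `locB` with richness of the four cross pairs only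
-/

set_option autoImplicit false
set_option linter.unusedSectionVars false

namespace Crest.Agent.R042.LocB461

open Finset Crest.Agent.R042.Conf921 Crest.Agent.R042.CondFree313 Crest.Agent.R042.ConfB461
open Crest.Agent.R042.LocFam958 Crest.Agent.R042.Fam543 Crest.Agent.R042.RowWin543
open Crest.Agent.R042.RichB763
open scoped Classical

variable {k0 KK : Type} [Field k0] [Field KK] [Algebra k0 KK] {d kp L : ℕ}

/-- the digits depend only on the difference words -/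
theorem dg_const [CharP KK 2] {e : ℕ} {P R : Bool → Ty k0 KK d L} (hPR : ∀ a b, Perp (P a) (R b))
    (v v₂ v' v₂' : VV k0 KK d kp L)
    (hv : Perp (P false) (P true) → ∀ b, dlt (2 ^ e) kp P v (uvec (2 ^ e) kp (R b)) =
      dlt (2 ^ e) kp P v₂ (uvec (2 ^ e) kp (R b)))
    (hv' : Perp (R false) (R true) → ∀ a, dlt (2 ^ e) kp R v' (uvec (2 ^ e) kp (P a)) =
      dlt (2 ^ e) kp R v₂' (uvec (2 ^ e) kp (P a)))
    (t : TT (2 ^ e) kp P R) (ht : t ∈ Dg e kp P R hPR) :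
    (winX (2 ^ e) kp P R v + winY (2 ^ e) kp P R v') t =
      (winX (2 ^ e) kp P R v₂ + winY (2 ^ e) kp P R v₂') t := by
  unfold Dg at ht
  refine Submodule.span_induction (p := fun t _ => (winX (2 ^ e) kp P R v +
    winY (2 ^ e) kp P R v') t = (winX (2 ^ e) kp P R v₂ + winY (2 ^ e) kp P R v₂') t)
      ?_ ?_ ?_ ?_ ht
  · rintro t (⟨h, b, rfl⟩ | ⟨h, a, rfl⟩)
    · rw [LinearMap.add_apply, LinearMap.add_apply, winX_digP, winY_digP, winX_digP, winY_digP,
        hv h]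
    · rw [LinearMap.add_apply, LinearMap.add_apply, winX_digR, winY_digR, winX_digR, winY_digR,
        hv' h]
  · rw [map_zero, map_zero]
  · intro x y _ _ hx hy
    rw [map_add, map_add, hx, hy]
  · intro a x _ hx
    rw [map_smul, map_smul, hx]

/-- **the local conflict bound, plan B, one-pair richness** -/
theorem locBP [Fintype k0] [Fintype KK] [CharP KK 2] {K : Set k0} (hK : Alph K) {e : ℕ}
    (P R : Bool → Ty k0 KK d L) (hP : ∀ a, Valid K (P a)) (hR : ∀ b, Valid K (R b))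
    (hrich : ∀ a b, RichP K (P a).E (R b).E)
    (hPR : ∀ a b, Perp (P a) (R b))
    (μ ν : VV k0 KK d kp L → ℝ)
    (hμ : ∀ x, 0 ≤ μ x) (sμ : ∑ x, μ x = 1) (hν : ∀ y, 0 ≤ ν y) (sν : ∑ y, ν y = 1)
    (hμc : Perp (P false) (P true) → ∀ v v₂, μ v ≠ 0 → μ v₂ ≠ 0 → ∀ b,
      dlt (2 ^ e) kp P v (uvec (2 ^ e) kp (R b)) = dlt (2 ^ e) kp P v₂ (uvec (2 ^ e) kp (R b)))
    (hμK : Perp (P false) (P true) → ∀ v, μ v ≠ 0 → ∀ b,
      dlt (2 ^ e) kp P v (uvec (2 ^ e) kp (R b)) ∉ K)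
    (hνc : Perp (R false) (R true) → ∀ v v₂, ν v ≠ 0 → ν v₂ ≠ 0 → ∀ a,
      dlt (2 ^ e) kp R v (uvec (2 ^ e) kp (P a)) = dlt (2 ^ e) kp R v₂ (uvec (2 ^ e) kp (P a)))
    (hνK : Perp (R false) (R true) → ∀ v, ν v ≠ 0 → ∀ a,
      dlt (2 ^ e) kp R v (uvec (2 ^ e) kp (P a)) ∉ K)
    (CX CY : Submodule k0 (Module.Dual k0 (VV k0 KK d kp L)))
    (hNN : NN (winX (2 ^ e) kp P R) CX ⊓ NN (winY (2 ^ e) kp P R) CY ≤ Dg e kp P R hPR)
    (K₀ ε η : ℝ) (hK₀ : 0 ≤ K₀)
    (hX1 : ¬ BadK (winX (2 ^ e) kp P R) μ CX ε)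
    (hX2 : ¬ BadS (winX (2 ^ e) kp P R) μ CX K₀ η)
    (hY1 : ¬ BadK (winX (2 ^ e) kp R P) ν CY ε)
    (hY2 : ¬ BadS (winX (2 ^ e) kp R P) ν CY K₀ η) :
    1 / (4 * (Fintype.card (EE (2 ^ e) kp P R) : ℝ)) * ((1 - 2 * η) - K₀ * (ε + ε)) ≤
      ∑ v, ∑ v', μ v * ν v' * (if ∀ a b, Rel K (2 ^ e) kp (P a) (R b) (lab v a) (lab v' b)
        then 1 else 0) := by
  have e1 : ∃ v, μ v ≠ 0 := by
    by_contra h
    push Not at h
    rw [sum_eq_zero fun x _ => h x] at sμ
    exact zero_ne_one sμ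
  have e2 : ∃ v, ν v ≠ 0 := by
    by_contra h
    push Not at h
    rw [sum_eq_zero fun x _ => h x] at sν
    exact zero_ne_one sν
  obtain ⟨v0, hv0⟩ := e1
  obtain ⟨v0', hv0'⟩ := e2
  obtain ⟨w0, hw0, hw⟩ := live_word_p (kp := kp) (e := e) hK P R hP hR hrich hPR v0 v0'
    (fun h b => hμK h v0 hv0 b) (fun h a => hνK h v0' hv0' a)
  have hY1' : ¬ BadK (winY (2 ^ e) kp P R) ν CY ε := by
    rw [winY_eq, badK_equiv]
    exact hY1
  have hY2' : ¬ BadS (winY (2 ^ e) kp P R) ν CY K₀ η := by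
    rw [winY_eq, badS_equiv]
    exact hY2
  have main := Loc767.loc_core (k := k0) (winX (2 ^ e) kp P R)
    (winY (2 ^ e) kp P R) μ ν hμ sμ hν sν CX CY K₀ η ε ε hK₀
    (core_K hX1) (core_K hY1') (core_S hX2) (core_S hY2') w0 (by
      intro φ h1 h2 x y hx hy
      obtain ⟨t, ht⟩ := exists_eval φ
      have ht1 : t ∈ NN (winX (2 ^ e) kp P R) CX := by
        rw [mem_NN]
        convert h1 using 1
        refine LinearMap.ext fun v => ?_
        rw [LinearMap.comp_apply, ht]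
        rfl
      have ht2 : t ∈ NN (winY (2 ^ e) kp P R) CY := by
        rw [mem_NN]
        convert h2 using 1
        refine LinearMap.ext fun v => ?_
        rw [LinearMap.comp_apply, ht]
        rfl
      have h3 := hw t (hNN ⟨ht1, ht2⟩)
      have h4 := dg_const hPR x v0 y v0' (fun h b => hμc h x v0 hx hv0 b)
        (fun h a => hνc h y v0' hy hv0' a) t (hNN ⟨ht1, ht2⟩)
      rw [ht, ht, h4]
      rw [LinearMap.sub_apply, sub_eq_zero] at h3
      exact h3)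
  refine main.trans ?_
  refine sum_le_sum fun x _ => sum_le_sum fun y _ => ?_
  split_ifs with h1 h2 h2
  · rw [mul_one]
  · exfalso
    apply h2
    have h3 := (conf_iff K (2 ^ e) kp P R hPR x y).2 (by rw [h1]; exact hw0)
    exact h3
  · rw [mul_one]; exact mul_nonneg (hμ x) (hν y)
  · rw [mul_zero]


end Crest.Agent.R042.LocB461
end

-- ▼ part R042/LocSysB_303
section

/-!
# Row 42 / S0059, plan B, leaf B.20b: the local hypothesis `hLoc` of `FinB713.pair_of_level`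

`hLoc`: for an alive pair of index pairs with laws supported in their classes, without the bad
events, the conflict probability is at least `1/(4 X^(4L(2d-1)²)) * ((1 - 2η) - K₁(ε + ε))`.
-/

set_option autoImplicit false
set_option linter.unusedSectionVars false

namespace Crest.Agent.R042.LocSysB303

open Finset Crest.Agent.R042.RowWin543 Crest.Agent.R042.Fam543 Crest.Agent.R042.LocFam958
  Crest.Agent.R042.SspAsm375 Crest.Agent.R042.SspFin375 Crest.Agent.R042.SspT375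
  Crest.Agent.R042.SspG375 Crest.Agent.R042.SspB375
  Crest.Agent.R042.TLev333 Crest.Agent.R042.Inst592 Crest.Agent.R042.SysOf333
  Crest.Agent.R042.FamV220 Crest.Agent.R042.IsoD543 Crest.Agent.R042.Dim755
  Crest.Agent.R042.FinB713 Crest.Agent.R042.RichB763 Crest.Agent.R042.Gen592
  Crest.Agent.R042.ConfB461 Crest.Agent.R042.LocB461
open Crest.Agent.R042.SpecFam730 (Indep4)
open scoped Classical

variable {k0 KK : Type} [Field k0] [Field KK] [Algebra k0 KK] {d L : ℕ}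

/-- independence of the `some` parts gives independence of the vectors -/
theorem li_b_of_vv {K : Set k0} {κ : Type*} (y : κ → Om KK K d L)
    (h : LinearIndependent KK fun k => vv (y k)) :
    LinearIndependent KK fun k => (y k).1.b := by
  refine LinearIndependent.of_comp
    (LinearMap.pi fun j : Fin d × Bool => LinearMap.proj (R := KK) (φ := fun _ : Ix d => KK)
      (some j)) ?_
  exact h

/-- the four vectors of two cross-perpendicular index pairs are independent -/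
theorem indep4_of_li [CharP KK 2] {K : Set k0} {N m : ℕ} (hm : 4 ≤ m) (x : Fin N → Om KK K d L)
    (hLI : LI KK vv m x) (s s' : Jx (Fin N))
    (hPR : ∀ a b, Perp (pj (fun i => (x i).1) s a) (pj (fun i => (x i).1) s' b)) :
    Indep4 (pj (fun i => (x i).1) s) (pj (fun i => (x i).1) s') := by
  have hne : ∀ i j, Perp (x i).1 (x j).1 → i ≠ j := by
    rintro i j h rfl
    exact (x i).2.aniso h
  have h1 : s.1.1 ≠ s.1.2 := s.2
  have h2 : s'.1.1 ≠ s'.1.2 := s'.2
  have h3 : s.1.1 ≠ s'.1.1 := hne _ _ (hPR false false)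
  have h4 : s.1.1 ≠ s'.1.2 := hne _ _ (hPR false true)
  have h5 : s.1.2 ≠ s'.1.1 := hne _ _ (hPR true false)
  have h6 : s.1.2 ≠ s'.1.2 := hne _ _ (hPR true true)
  set f : Fin 4 → Fin N := ![s.1.1, s.1.2, s'.1.1, s'.1.2] with hf
  have hinj : Function.Injective f := by
    intro i j hij
    fin_cases i <;> fin_cases j <;> simp_all [Ne.symm h1, Ne.symm h2, Ne.symm h3, Ne.symm h4,
      Ne.symm h5, Ne.symm h6]
  have hJ := hLI (univ.image f) (by
    refine (card_image_le.trans ?_).trans hm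
    rw [Finset.card_univ, Fintype.card_fin])
  have h7 := hJ.comp (fun k : Fin 4 => (⟨f k, mem_image_of_mem f (mem_univ k)⟩ :
    (univ.image f : Finset (Fin N)))) (by
      intro i j hij
      exact hinj (congrArg Subtype.val hij))
  have h8 := li_b_of_vv (fun k : Fin 4 => x (f k)) h7
  unfold Indep4
  convert h8 using 1
  funext k
  fin_cases k <;> rfl

/-- size of the window group -/
theorem card_EE [Fintype k0] [Fintype KK] [CharP KK 2] {K : Set k0} (e : ℕ) (P R : Bool → Om KK K d L)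
    (hPR : ∀ a b, Perp (P a).1 (R b).1) :
    (Fintype.card (LocFam958.EE (2 ^ e) 2 (fun a => (P a).1) (fun b => (R b).1)) : ℝ) =
      (Fintype.card KK : ℝ) ^ (4 * (L * (2 * d - 1) ^ 2)) := by
  have h1 := Module.card_eq_pow_finrank (K := k0)
    (V := LocFam958.EE (2 ^ e) 2 (fun a => (P a).1) (fun b => (R b).1))
  have h2 := Module.card_eq_pow_finrank (K := k0) (V := KK)
  have h3 : Module.finrank k0 (LocFam958.EE (2 ^ e) 2 (fun a => (P a).1) (fun b => (R b).1)) =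
      Module.finrank k0 KK * (4 * (L * (2 * d - 1) ^ 2)) := by
    rw [Subspace.dual_finrank_eq, Module.finrank_pi_fintype]
    have h4 : ∀ ab : Bool × Bool, Module.finrank k0
        (WW (2 ^ e) 2 (fun a => (P a).1) (fun b => (R b).1) ab) =
        L * (Module.finrank k0 KK * (2 * d - 1) ^ 2) := fun ab =>
      finrank_UPQ_om (kp := 2) e (P ab.1) (R ab.2) (ne_of_perp _ _ (hPR ab.1 ab.2))
    rw [Finset.sum_congr rfl fun ab _ => h4 ab, Finset.sum_const, Finset.card_univ,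
      Fintype.card_prod, Fintype.card_bool, smul_eq_mul]
    ring
  rw [h1, h2, h3]
  push_cast
  rw [pow_mul]

/-- the two hypotheses on the digits of a class -/
theorem class_facts [CharP KK 2] {K : Set k0} {N : ℕ} (e : ℕ) (x : Fin N → Om KK K d L)
    (s s' : Jx (Fin N)) (δ : Dl k0 KK d L) (μ : VV k0 KK d 2 L → ℝ)
    (hs : ∀ v, μ v ≠ 0 → dword (2 ^ e) 2 (x s.1.1).1 (x s.1.2).1 v.1 v.2 = δ ∧
      ¬ Rel K (2 ^ e) 2 (x s.1.1).1 (x s.1.2).1 v.1 v.2)
    (h1 : ¬ Diso K (2 ^ e) 2 (x s.1.1).1 (x s.1.2).1 δ (x s'.1.1).1)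
    (h2 : ¬ Diso K (2 ^ e) 2 (x s.1.1).1 (x s.1.2).1 δ (x s'.1.2).1) :
    (∀ v v₂, μ v ≠ 0 → μ v₂ ≠ 0 → ∀ b,
      dlt (2 ^ e) 2 (pj (fun i => (x i).1) s) v (uvec (2 ^ e) 2 (pj (fun i => (x i).1) s' b)) =
        dlt (2 ^ e) 2 (pj (fun i => (x i).1) s) v₂
          (uvec (2 ^ e) 2 (pj (fun i => (x i).1) s' b))) ∧
    (Perp (x s.1.1).1 (x s.1.2).1 → ∀ v, μ v ≠ 0 → ∀ b,
      dlt (2 ^ e) 2 (pj (fun i => (x i).1) s) v
        (uvec (2 ^ e) 2 (pj (fun i => (x i).1) s' b)) ∉ K) := by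
  have key : ∀ (v : VV k0 KK d 2 L) (z : U KK d 2 L),
      dlt (2 ^ e) 2 (pj (fun i => (x i).1) s) v z =
        dword (2 ^ e) 2 (x s.1.1).1 (x s.1.2).1 v.1 v.2 z := by
    intro v z
    rw [dword_apply]
    rfl
  constructor
  · intro v v₂ hv hv₂ b
    rw [key, key, (hs v hv).1, (hs v₂ hv₂).1]
  · intro hp v hv b
    rw [key, (hs v hv).1]
    have hN := notS_of_not_rel K (2 ^ e) 2 _ _ v.1 v.2 hp (hs v hv).2
    rw [(hs v hv).1] at hN
    cases b
    · intro h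
      exact h1 ⟨hp, hN, h⟩
    · intro h
      exact h2 ⟨hp, hN, h⟩

/-- **leaf B.20b: the local conflict bound for an alive pair** -/
theorem loc [Fintype k0] [Fintype KK] [CharP KK 2] {K : Set k0} (hK : Fam543.Alph K) (e : ℕ)
    {N J m : ℕ} (hm : 4 ≤ m) (hL : 0 < L) (x : Fin N → Om KK K d L) (hLI : LI KK vv m x)
    (TD : TData (Om KK K d L) (Dl k0 KK d L) (TH KK d L J)) (hTp : TD.perp = perp K d L)
    (hiso : ∀ (P P' : Om KK K d L) (δ : Dl k0 KK d L) (ϑ : TH KK d L J) (R : Om KK K d L),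
      Diso K (2 ^ e) 2 P.1 P'.1 δ R.1 → TD.D1 P P' δ ϑ R)
    (hrich : ∀ (P P' : Om KK K d L) (δ : Dl k0 KK d L) (ϑ : TH KK d L J) (R : Om KK K d L),
      ¬ RichP K P.1.E R.1.E → TD.D1 P P' δ ϑ R)
    (hrich' : ∀ (P P' : Om KK K d L) (δ : Dl k0 KK d L) (ϑ : TH KK d L J) (R : Om KK K d L),
      ¬ RichP K P'.1.E R.1.E → TD.D1 P P' δ ϑ R)
    (kX K₁ η : ℝ) (hK₁ : 0 ≤ K₁)
    (s s' : Jx (Fin N) × Dl k0 KK d L × TH KK d L J) (μ μ' : VV k0 KK d 2 L → ℝ)
    (hμ : IsP μ)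
    (hs : ∀ v, μ v ≠ 0 → dword (2 ^ e) 2 (x s.1.1.1).1 (x s.1.1.2).1 v.1 v.2 = s.2.1 ∧
      ¬ Rel K (2 ^ e) 2 (x s.1.1.1).1 (x s.1.1.2).1 v.1 v.2)
    (hμ' : IsP μ')
    (hs' : ∀ v, μ' v ≠ 0 → dword (2 ^ e) 2 (x s'.1.1.1).1 (x s'.1.1.2).1 v.1 v.2 = s'.2.1 ∧
      ¬ Rel K (2 ^ e) 2 (x s'.1.1.1).1 (x s'.1.1.2).1 v.1 v.2)
    (hA : TD.Alive x s s')
    (h1 : ¬ (BadK (winX (2 ^ e) 2 (pj (fun i => (x i).1) s.1) (pj (fun i => (x i).1) s'.1)) μ
        ((LocA726.VS (2 ^ e) 2 (pj (fun i => (x i).1) s.1)).dualAnnihilator) kX ∨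
      BadS (winX (2 ^ e) 2 (pj (fun i => (x i).1) s.1) (pj (fun i => (x i).1) s'.1)) μ
        ((LocA726.VS (2 ^ e) 2 (pj (fun i => (x i).1) s.1)).dualAnnihilator) K₁ η))
    (h2 : ¬ (BadK (winX (2 ^ e) 2 (pj (fun i => (x i).1) s'.1) (pj (fun i => (x i).1) s.1)) μ'
        ((LocA726.VS (2 ^ e) 2 (pj (fun i => (x i).1) s'.1)).dualAnnihilator) kX ∨
      BadS (winX (2 ^ e) 2 (pj (fun i => (x i).1) s'.1) (pj (fun i => (x i).1) s.1)) μ'
        ((LocA726.VS (2 ^ e) 2 (pj (fun i => (x i).1) s'.1)).dualAnnihilator) K₁ η)) :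
    1 / (4 * (Fintype.card KK : ℝ) ^ (4 * (L * (2 * d - 1) ^ 2))) *
        ((1 - 2 * η) - K₁ * (kX + kX)) ≤
      ∑ v, ∑ v', μ v * μ' v' *
        (if CfR (relF K e 2 fun i => (x i).1) s.1 s'.1 v v' then 1 else 0) := by
  have hp : ∀ P R : Om KK K d L, TD.perp P R → Perp P.1 R.1 := by
    intro P R h
    rw [hTp] at h
    exact h
  have hPR : ∀ a b, Perp (pj (fun i => (x i).1) s.1 a) (pj (fun i => (x i).1) s'.1 b) := by
    intro a b
    cases a <;> cases b
    · exact hp _ _ hA.p11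
    · exact hp _ _ hA.p12
    · exact hp _ _ hA.p21
    · exact hp _ _ hA.p22
  have hRP : ∀ a b, Perp (pj (fun i => (x i).1) s'.1 a) (pj (fun i => (x i).1) s.1 b) :=
    fun a b => (hPR b a).symm
  have hVP : ∀ (t : Jx (Fin N)) (a : Bool), Valid K (pj (fun i => (x i).1) t a) :=
    fun t a => (x _).2
  have hInd := indep4_of_li hm x hLI s.1 s'.1 hPR
  have hri : ∀ a b, RichP K (pj (fun i => (x i).1) s.1 a).E (pj (fun i => (x i).1) s'.1 b).E := by
    intro a b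
    by_contra h
    cases a <;> cases b
    · exact hA.a1 (hrich _ _ _ _ _ h)
    · exact hA.a2 (hrich _ _ _ _ _ h)
    · exact hA.a1 (hrich' _ _ _ _ _ h)
    · exact hA.a2 (hrich' _ _ _ _ _ h)
  obtain ⟨c1, c2⟩ := class_facts e x s.1 s'.1 s.2.1 μ hs
    (fun h => hA.a1 (hiso _ _ _ _ _ h)) (fun h => hA.a2 (hiso _ _ _ _ _ h))
  obtain ⟨c3, c4⟩ := class_facts e x s'.1 s.1 s'.2.1 μ' hs'
    (fun h => hA.b1 (hiso _ _ _ _ _ h)) (fun h => hA.b2 (hiso _ _ _ _ _ h))
  have hNN := nn_inf_le (kp := 2) (e := e) (m := 2) (m' := 2) (by norm_num) le_rfl le_rfl hPR hInd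
    ((LocA726.VS (2 ^ e) 2 (pj (fun i => (x i).1) s.1)).dualAnnihilator)
    ((LocA726.VS (2 ^ e) 2 (pj (fun i => (x i).1) s'.1)).dualAnnihilator)
    (LocA726.nnX_le le_rfl (by norm_num) hK hL (hVP s'.1) hPR hInd _ le_rfl)
    (LocA726.nnY_le le_rfl (by norm_num) hK hL (hVP s.1) hPR hInd _ le_rfl)
  have main := locBP (kp := 2) hK (e := e) (pj (fun i => (x i).1) s.1)
    (pj (fun i => (x i).1) s'.1) (hVP s.1) (hVP s'.1) hri hPR μ μ' hμ.nonneg hμ.sum hμ'.nonneg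
    hμ'.sum (fun _ => c1) c2 (fun _ => c3) c4 _ _ hNN K₁ kX η hK₁
    (fun h => h1 (Or.inl h)) (fun h => h1 (Or.inr h)) (fun h => h2 (Or.inl h))
    (fun h => h2 (Or.inr h))
  have hc := card_EE e (fun a => x (bif a then s.1.1.2 else s.1.1.1))
    (fun b => x (bif b then s'.1.1.2 else s'.1.1.1)) hPR
  rw [← hc]
  refine main.trans (le_of_eq ?_)
  refine sum_congr rfl fun v _ => sum_congr rfl fun v' _ => ?_
  congr 1
  refine if_congr ?_ rfl rfl
  unfold CfR relF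
  constructor
  · intro h
    exact ⟨h false false, h false true, h true false, h true true⟩
  · rintro ⟨g1, g2, g3, g4⟩ a b
    cases a <;> cases b
    · exact g1
    · exact g2
    · exact g3
    · exact g4

/-- **`hLoc` of `FinB713.pair_of_level`**: `η₁ = 1/8`, `ε = 1/(8 K₁)`, `c₀ = 1/(8 X^(4L(2d-1)²))` -/
theorem hLoc [Fintype k0] [Fintype KK] [CharP KK 2] {K : Set k0} (hK : Fam543.Alph K) (e : ℕ)
    {N J m : ℕ} (hm : 4 ≤ m) (hL : 0 < L) (x : Fin N → Om KK K d L) (hLI : LI KK vv m x)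
    (TD : TData (Om KK K d L) (Dl k0 KK d L) (TH KK d L J)) (hTp : TD.perp = perp K d L)
    (hiso : ∀ (P P' : Om KK K d L) (δ : Dl k0 KK d L) (ϑ : TH KK d L J) (R : Om KK K d L),
      Diso K (2 ^ e) 2 P.1 P'.1 δ R.1 → TD.D1 P P' δ ϑ R)
    (hrich : ∀ (P P' : Om KK K d L) (δ : Dl k0 KK d L) (ϑ : TH KK d L J) (R : Om KK K d L),
      ¬ RichP K P.1.E R.1.E → TD.D1 P P' δ ϑ R)
    (hrich' : ∀ (P P' : Om KK K d L) (δ : Dl k0 KK d L) (ϑ : TH KK d L J) (R : Om KK K d L),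
      ¬ RichP K P'.1.E R.1.E → TD.D1 P P' δ ϑ R)
    (K₁ : ℝ) (hK₁ : 0 < K₁) :
    ∀ (s s' : Jx (Fin N) × Dl k0 KK d L × TH KK d L J) (μ μ' : VV k0 KK d 2 L → ℝ),
      IsP μ → (∀ v, μ v ≠ 0 → dword (2 ^ e) 2 (x s.1.1.1).1 (x s.1.1.2).1 v.1 v.2 = s.2.1 ∧
        ¬ Rel K (2 ^ e) 2 (x s.1.1.1).1 (x s.1.1.2).1 v.1 v.2) →
      IsP μ' → (∀ v, μ' v ≠ 0 → dword (2 ^ e) 2 (x s'.1.1.1).1 (x s'.1.1.2).1 v.1 v.2 = s'.2.1 ∧
        ¬ Rel K (2 ^ e) 2 (x s'.1.1.1).1 (x s'.1.1.2).1 v.1 v.2) →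
      TD.Alive x s s' →
      ¬ HG365.BadE (2 ^ e) (1 / (8 * K₁)) K₁ (1 / 8) (pj (fun i => (x i).1) s.1)
        (pj (fun i => (x i).1) s'.1) μ →
      ¬ HG365.BadE (2 ^ e) (1 / (8 * K₁)) K₁ (1 / 8) (pj (fun i => (x i).1) s'.1)
        (pj (fun i => (x i).1) s.1) μ' →
      1 / (8 * (Fintype.card KK : ℝ) ^ (4 * (L * (2 * d - 1) ^ 2))) ≤ ∑ v, ∑ v', μ v * μ' v' *
        (if CfR (relF K e 2 fun i => (x i).1) s.1 s'.1 v v' then 1 else 0) := by
  intro s s' μ μ' hμ hs hμ' hs' hA h1 h2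
  refine le_trans (le_of_eq ?_) (loc hK e hm hL x hLI TD hTp hiso hrich hrich' (1 / (8 * K₁)) K₁
    (1 / 8) hK₁.le s s' μ μ' hμ hs hμ' hs' hA h1 h2)
  have hX : (0 : ℝ) < (Fintype.card KK : ℝ) ^ (4 * (L * (2 * d - 1) ^ 2)) := by
    have : (0 : ℝ) < Fintype.card KK := by exact_mod_cast Fintype.card_pos
    positivity
  field_simp
  ring


end Crest.Agent.R042.LocSysB303
end

-- ▼ part R042/ParamB_766
section

/-!
# Row 42 / S0059, PLAN B: numbers of the type level, the sample and the container (part T)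

Variable `Q → ∞` (`Q = 2 ^ e`, `card KK = Q ^ 2`, `ρ = (Q ^ 2)⁻¹`, `N = Q ^ 34`).
-/

set_option autoImplicit false

namespace Crest.Agent.R042.ParamB766

open Filter Topology

/-- powers of `Q` -/
theorem pow_big (C : ℝ) {a b : ℕ} (hab : a < b) :
    ∀ᶠ Q : ℕ in atTop, C * (Q : ℝ) ^ a ≤ (Q : ℝ) ^ b := by
  obtain ⟨Q0, hQ0⟩ := exists_nat_ge C
  filter_upwards [eventually_ge_atTop (max Q0 1)] with Q hQ
  have h1 : (1 : ℝ) ≤ Q := by exact_mod_cast (le_max_right _ _).trans hQ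
  have h2 : C ≤ Q := hQ0.trans (by exact_mod_cast (le_max_left _ _).trans hQ)
  calc C * (Q : ℝ) ^ a ≤ Q * (Q : ℝ) ^ a := mul_le_mul_of_nonneg_right h2 (by positivity)
    _ = (Q : ℝ) ^ (a + 1) := by ring
    _ ≤ (Q : ℝ) ^ b := pow_le_pow_right₀ h1 hab

/-- constants -/
theorem const_le (C : ℝ) {b : ℕ} (hb : 0 < b) : ∀ᶠ Q : ℕ in atTop, C ≤ (Q : ℝ) ^ b := by
  have := pow_big C (a := 0) hb
  simpa using this



/-- small quotients -/
theorem div_small (C : ℝ) {a b : ℕ} (hab : a < b) {ε : ℝ} (hε : 0 < ε) :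
    ∀ᶠ Q : ℕ in atTop, C * (Q : ℝ) ^ a / (Q : ℝ) ^ b ≤ ε := by
  filter_upwards [pow_big (C / ε) hab, eventually_ge_atTop 1] with Q hQ h1
  have h0 : (0 : ℝ) < (Q : ℝ) ^ b := by
    have : (0 : ℝ) < Q := by exact_mod_cast h1
    positivity
  rw [div_le_iff₀ h0]
  have h2 : C * (Q : ℝ) ^ a = ε * (C / ε * (Q : ℝ) ^ a) := by field_simp
  rw [h2]
  exact mul_le_mul_of_nonneg_left hQ hε.le






/-- the densities of the one-end dead sets: `β + C * Q / |KK| + C / |KK| ≤ β + ε`. -/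
theorem dead_num (C : ℝ) {ε : ℝ} (hε : 0 < ε) : ∀ᶠ Q : ℕ in atTop, ∀ X : ℝ, X = (Q : ℝ) ^ 2 →
    (Q : ℝ) * (C / X) ≤ ε ∧ C / X ≤ ε ∧ C / Q ≤ ε := by
  filter_upwards [div_small C (a := 1) (b := 2) (by norm_num) hε,
    div_small C (a := 0) (b := 2) (by norm_num) hε,
    div_small C (a := 0) (b := 1) (by norm_num) hε] with Q h1 h2 h3 X hX
  rw [hX]
  refine ⟨?_, by simpa using h2, by simpa using h3⟩
  calc (Q : ℝ) * (C / (Q : ℝ) ^ 2) = C * (Q : ℝ) ^ 1 / (Q : ℝ) ^ 2 := by ring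
    _ ≤ ε := h1








end Crest.Agent.R042.ParamB766
end

-- ▼ part R042/ParamD_766
section

/-! Row 42 / S0059, PLAN B: numbers of the dead sets (`TData`): choice of `L` and the sum of the
one-end densities, in 592's / 763's letters `card KK = q ^ (2 j)`, `2 ^ e = q ^ j`. -/

set_option autoImplicit false

namespace Crest.Agent.R042.ParamB766

open Filter Topology



theorem tendsto_qpow (q : ℕ) (hq : 2 ≤ q) : Tendsto (fun j : ℕ => q ^ j) atTop atTop :=
  tendsto_pow_atTop_atTop_of_one_lt (by omega)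

/-- transfer to `Q = q ^ j`. -/
theorem transfer_j (q : ℕ) (hq : 2 ≤ q) {p : ℕ → Prop} (h : ∀ᶠ Q : ℕ in atTop, p Q) :
    ∀ᶠ j : ℕ in atTop, p (q ^ j) := (tendsto_qpow q hq).eventually h


/-- each term separately, with a factor `J ≤ q ^ j`. -/
theorem dead_terms (q : ℕ) (hq : 2 ≤ q) (C : ℝ) (hC : 0 ≤ C) {ε : ℝ} (hε : 0 < ε) :
    ∀ᶠ j : ℕ in atTop, ∀ J : ℕ, J ≤ q ^ j →
      (J : ℝ) * (C / (q : ℝ) ^ (2 * j)) ≤ ε ∧ (J : ℝ) * C / (q : ℝ) ^ (2 * j) ≤ ε ∧
        C / (q : ℝ) ^ (2 * j) ≤ ε ∧ C / (q : ℝ) ^ j ≤ ε := by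
  filter_upwards [transfer_j q hq (dead_num C hε)] with j h1 J hJ
  have e : (q : ℝ) ^ (2 * j) = ((q ^ j : ℕ) : ℝ) ^ 2 := by
    push_cast; rw [← pow_mul]; congr 1; ring
  obtain ⟨a1, a2, a3⟩ := h1 _ e
  have hJ' : (J : ℝ) ≤ ((q ^ j : ℕ) : ℝ) := by exact_mod_cast hJ
  have hq0 : (0 : ℝ) < q := by exact_mod_cast (by omega : 0 < q)
  have h4 : (J : ℝ) * (C / (q : ℝ) ^ (2 * j)) ≤ ε :=
    (mul_le_mul_of_nonneg_right hJ' (by positivity)).trans a1
  refine ⟨h4, ?_, a2, ?_⟩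
  · rw [mul_div_assoc]; exact h4
  · push_cast at a3
    exact a3




end Crest.Agent.R042.ParamB766
end

-- ▼ part R042/TDNum_766

/-! Row 42 / S0059, PLAN B: the numeric hypotheses of `SysB333.sysB`. -/

set_option autoImplicit false

namespace Crest.Agent.R042.ParamB766

open Filter Topology


/-- **hQ, hD1, hD2** of `SysB333.sysB` for `card k0 = q`, `card KK = X = q ^ (2 j)`,
`2 ^ e = Q = q ^ j`, `J = q ^ j`, `θ = q * q ^ j / X ^ (2 d)`. -/
theorem tdata_numbers (q : ℕ) (hq : 2 ≤ q) {β η t : ℝ} (hβ : 0 < β) (hη : 0 < η)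
    (hβη : 3 * β ≤ η ^ 2 / 4) (ht : Real.exp (-t) ≤ η ^ 2 / 4) (d : ℕ) :
    ∀ᶠ j : ℕ in atTop, 0 < j ∧ (q : ℝ) ≤ β * (((q ^ j : ℕ) : ℝ) - 1) ∧
      3 * β + (Real.exp (-t) + (Real.exp (-t) +
        ((q ^ j : ℕ) : ℝ) * (((q : ℝ) ^ 2 + 1) / ((q ^ (2 * j) : ℕ) : ℝ)))) ≤ η ^ 2 ∧
      ((q ^ j : ℕ) : ℝ) * ((q : ℝ) / ((q ^ (2 * j) : ℕ) : ℝ) ^ (2 * d)) ≤
        (q : ℝ) * (q : ℝ) ^ j / ((q : ℝ) ^ (2 * j)) ^ (2 * d) := by
  have h4 : 0 < η ^ 2 / 4 := by positivity
  filter_upwards [dead_terms q hq ((q : ℝ) ^ 2 + 1) (by positivity) h4,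
    transfer_j q hq (const_le ((q : ℝ) / β + 1) (b := 1) one_pos), eventually_gt_atTop 0]
    with j h1 h2 hj
  have a1 := (h1 (q ^ j) le_rfl).1
  refine ⟨hj, ?_, ?_, ?_⟩
  · rw [pow_one] at h2
    have h3 : (q : ℝ) / β ≤ ((q ^ j : ℕ) : ℝ) - 1 := by linarith
    rw [div_le_iff₀ hβ] at h3
    linarith
  · have e : (((q ^ (2 * j) : ℕ) : ℝ)) = (q : ℝ) ^ (2 * j) := by push_cast; rfl
    rw [e]
    linarith
  · push_cast
    refine le_of_eq ?_
    ring

end Crest.Agent.R042.ParamB766
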