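import Crest.Agent.R042.SymInst_695
import Crest.Agent.R042.KLsup_313
import Crest.Agent.R042.LocFam_958
import Crest.Agent.R042.SpecFam_730
import Crest.Agent.R042.Ctrl_420
import Crest.Agent.R042.PBFam_341
import Crest.Agent.R042.PBFac_989_Mg
import Crest.Agent.R042.ConfB_461
import Crest.Agent.R042.LocA_726
import Crest.Agent.R042.LocC_958
import Crest.Agent.R042.HG_365
import Mathlib
import Crest.Agent.R042.PBDefs_341
import Crest.Agent.R042.PBAsy_713
import Crest.Agent.R042.TDNum_766_Mg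

-- ▼ part R042/Greedy_695
section

/-!
# Greedy maximal sequence (row 42, S0059, label level)

The relative entropy of the special rows at a pair `(Q, Q')` is at most `B` for **every** pair of
third types whose rows are independent modulo one subspace `Z` of small dimension.
-/

set_option autoImplicit false
set_option linter.unusedSectionVars false

namespace Crest.Agent.R042.Greedy695

open Module Crest.Agent.R042.RowWin543 Crest.Agent.R042.KLsup313

section Abstract

variable {k U Y Ω : Type*} [Field k] [AddCommGroup U] [Module k U] [AddCommGroup Y] [Module k Y]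





end Abstract

section Forms

variable {k U : Type*} [Field k] [AddCommGroup U] [Module k U]

/-- the pair space of labels -/
abbrev Lab (k U : Type*) [Field k] [AddCommGroup U] [Module k U] :=
  ↥(SymForm k U) × ↥(SymForm k U)

/-- the functional `(f, f') ↦ f x t` -/
def ev1 (x t : U) : Dual k (Lab k U) where
  toFun p := p.1.1 x t
  map_add' := by intro p q; simp
  map_smul' := by intro c p; simp

/-- the functional `(f, f') ↦ f' x t` -/
def ev2 (x t : U) : Dual k (Lab k U) where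
  toFun p := p.2.1 x t
  map_add' := by intro p q; simp
  map_smul' := by intro c p; simp

@[simp] theorem ev1_apply (x t : U) (p : Lab k U) : ev1 x t p = p.1.1 x t := rfl
@[simp] theorem ev2_apply (x t : U) (p : Lab k U) : ev2 x t p = p.2.1 x t := rfl

/-- the special functionals of the row `x`: `f (x, t)`, `t ∈ Sp`, and `f' (x, t)`, `t ∈ Sp'` -/
def spw (Sp Sp' : Submodule k U) (x : U) : Submodule k (Dual k (Lab k U)) :=
  Submodule.span k (ev1 x '' (Sp : Set U) ∪ ev2 x '' (Sp' : Set U))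






end Forms

end Crest.Agent.R042.Greedy695
end

-- ▼ part R042/LocB_767
section

/-!
# Row 42 / S0059: special part of the windows and index of the window range (helper767)

* `rangeX_inf_le`, `rangeY_inf_le`: the special functionals inside the four windows are the special
  functionals of the two rows (the `spw` of `Greedy_695`);
* `card_EE_le_X`, `card_EE_le_Y`: the range of the window map has index at most `q ^ 2`.
-/

set_option autoImplicit false
set_option linter.unusedSectionVars false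

namespace Crest.Agent.R042.LocB767

open Finset Module Crest.Agent.R042.RowWin543 Crest.Agent.R042.Fam543
  Crest.Agent.R042.LocFam958 Crest.Agent.R042.Greedy695

variable {k0 KK : Type} [Field k0] [Field KK] [Algebra k0 KK] {d kp L : ℕ}

/-- special vectors of the pair of types `T` at the end `a` -/
abbrev sp (Q m kp : ℕ) (T : Bool → Ty k0 KK d L) (a : Bool) : Submodule k0 (U KK d kp L) :=
  SpecFam730.specU k0 Q m kp L (SpecFam730.aop (T a).b (T (!a)).b)

/-- the two evaluation functionals -/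
def evA (a : Bool) (x t : U KK d kp L) : Dual k0 (Lab k0 (U KK d kp L)) :=
  bif a then ev2 x t else ev1 x t

theorem evA_apply (a : Bool) (x t : U KK d kp L) (v : Lab k0 (U KK d kp L)) :
    evA a x t v = (lab v a).1 x t := by
  cases a <;> rfl

theorem evA_mem (Sp : Bool → Submodule k0 (U KK d kp L)) (a : Bool) (x t : U KK d kp L)
    (ht : t ∈ Sp a) : evA a x t ∈ spw (Sp false) (Sp true) x := by
  cases a
  · exact Submodule.subset_span (Or.inl ⟨t, ht, rfl⟩)
  · exact Submodule.subset_span (Or.inr ⟨t, ht, rfl⟩)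

/-- the special functionals of the two rows `u false`, `u true` -/
abbrev spw2 (Sp : Bool → Submodule k0 (U KK d kp L)) (u : Bool → U KK d kp L) :
    Submodule k0 (Dual k0 (Lab k0 (U KK d kp L))) :=
  spw (Sp false) (Sp true) (u false) ⊔ spw (Sp false) (Sp true) (u true)

theorem spw_le_spw2 (Sp : Bool → Submodule k0 (U KK d kp L)) (u : Bool → U KK d kp L) (b : Bool) :
    spw (Sp false) (Sp true) (u b) ≤ spw2 Sp u := by
  cases b
  · exact le_sup_left
  · exact le_sup_right

/-! ### the vectors of `CX` give special functionals -/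

theorem flipX_mem (Q m : ℕ) (P R : Bool → Ty k0 KK d L) (t : TT Q kp P R)
    (ht : t ∈ SpecFam730.CX Q m kp P R) :
    (winX Q kp P R).flip t ∈ spw2 (sp Q m kp P) (fun b => uvec Q kp (R b)) := by
  obtain ⟨s, hs, r, hr, rfl⟩ := Submodule.mem_sup.1 ht
  rw [map_add]
  refine Submodule.add_mem _ ?_ ?_
  · have h1 : (winX Q kp P R).flip s =
        ∑ ab : Bool × Bool, evA ab.1 (uvec Q kp (R ab.2)) (s ab : U KK d kp L) := by
      refine LinearMap.ext fun v => ?_
      rw [LinearMap.flip_apply, winX_apply, LinearMap.sum_apply]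
      exact sum_congr rfl fun ab _ => (evA_apply _ _ _ _).symm
    rw [h1]
    refine Submodule.sum_mem _ fun ab _ => ?_
    refine spw_le_spw2 (sp Q m kp P) (fun b => uvec Q kp (R b)) ab.2 ?_
    refine evA_mem (sp Q m kp P) ab.1 _ _ ?_
    have := (Submodule.mem_pi.1 hs) ab (Set.mem_univ _)
    exact this
  · have h1 : (winX Q kp P R).flip r = 0 := by
      refine Submodule.span_induction (p := fun r _ => (winX Q kp P R).flip r = 0)
        ?_ ?_ ?_ ?_ hr
      · rintro D ⟨-, i, hi⟩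
        refine LinearMap.ext fun v => ?_
        rw [LinearMap.flip_apply, winX_apply, LinearMap.zero_apply]
        rw [Fintype.sum_prod_type]
        simp only [Fintype.sum_bool]
        have e : ∀ a b : Bool, ((D (a, b) : _) : U KK d kp L) = if a = i then
            (if b then -uvec Q kp (R false) else uvec Q kp (R true)) else 0 := fun a b => hi (a, b)
        rw [e, e, e, e]
        have s1 := v.1.2 (uvec Q kp (R false)) (uvec Q kp (R true))
        have s2 := v.2.2 (uvec Q kp (R false)) (uvec Q kp (R true))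
        cases i
        · simp
          linear_combination s1
        · simp
          linear_combination s2
      · exact map_zero _
      · intro x y _ _ hx hy
        rw [map_add, hx, hy, add_zero]
      · intro a x _ hx
        rw [map_smul, hx, smul_zero]
    rw [h1]
    exact Submodule.zero_mem _


section fin

variable [Finite k0] [Finite KK]

/-- every functional of the windows is the evaluation at a vector quadruple -/
theorem mem_range_dualMap {V : Type*} [AddCommGroup V] [Module k0 V] (Q : ℕ)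
    (P R : Bool → Ty k0 KK d L) (F : V →ₗ[k0] EE Q kp P R) (ψ : Dual k0 V) :
    ψ ∈ LinearMap.range F.dualMap ↔ ∃ t : TT Q kp P R, ψ = F.flip t := by
  have : FiniteDimensional k0 (TT Q kp P R) := inferInstance
  constructor
  · rintro ⟨φ, rfl⟩
    obtain ⟨t, ht⟩ := (Module.evalEquiv k0 (TT Q kp P R)).surjective φ
    refine ⟨t, LinearMap.ext fun v => ?_⟩
    rw [← ht]
    rfl
  · rintro ⟨t, rfl⟩
    exact ⟨Module.evalEquiv k0 (TT Q kp P R) t, rfl⟩

/-- **special part of the windows**, side `X` -/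
theorem rangeX_inf_le (Q m : ℕ) (P R : Bool → Ty k0 KK d L)
    (C : Submodule k0 (Dual k0 (VV k0 KK d kp L)))
    (hC : NN (winX Q kp P R) C ≤ SpecFam730.CX Q m kp P R) :
    LinearMap.range (winX Q kp P R).dualMap ⊓ C ≤
      spw2 (sp Q m kp P) (fun b => uvec Q kp (R b)) := by
  rintro ψ ⟨h1, h2⟩
  obtain ⟨t, rfl⟩ := (mem_range_dualMap Q P R (winX Q kp P R) ψ).1 h1
  exact flipX_mem Q m P R t (hC h2)


/-! ### index of the range -/

theorem range_flip {V W : Type*} [AddCommGroup V] [Module k0 V]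
    [AddCommGroup W] [Module k0 W] [FiniteDimensional k0 W] (F : V →ₗ[k0] Dual k0 W) :
    LinearMap.range F.flip = LinearMap.range F.dualMap := by
  ext ψ
  constructor
  · rintro ⟨t, rfl⟩
    exact ⟨Module.evalEquiv k0 W t, rfl⟩
  · rintro ⟨φ, rfl⟩
    obtain ⟨t, ht⟩ := (Module.evalEquiv k0 W).surjective φ
    refine ⟨t, ?_⟩
    rw [← ht]
    rfl

theorem card_sub {X : Type*} [AddCommGroup X] [Module k0 X] [FiniteDimensional k0 X]
    (S : Submodule k0 X) : Nat.card S = Nat.card k0 ^ finrank k0 S :=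
  Module.natCard_eq_pow_finrank (K := k0) (V := S)

/-- abstract index bound: if the kernel of `F.flip` injects into `k0 × k0` then the range of `F`
has index at most `q ^ 2` -/
theorem card_le_of_ker {V W : Type*} [AddCommGroup V] [Module k0 V] [FiniteDimensional k0 V]
    [AddCommGroup W] [Module k0 W] [FiniteDimensional k0 W] (F : V →ₗ[k0] Dual k0 W)
    (g : LinearMap.ker F.flip → k0 × k0) (hg : Function.Injective g) :
    Nat.card (Dual k0 W) ≤ Nat.card k0 ^ 2 * Nat.card (LinearMap.range F) := by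
  have h1 : Nat.card (LinearMap.ker F.flip) ≤ Nat.card k0 ^ 2 := by
    have := Nat.card_le_card_of_injective g hg
    rwa [Nat.card_prod, ← pow_two] at this
  have hr : finrank k0 (LinearMap.range F.flip) = finrank k0 (LinearMap.range F) := by
    rw [range_flip]
    exact LinearMap.finrank_range_dualMap_eq_finrank_range F
  have hs : finrank k0 (LinearMap.range F.flip) + finrank k0 (LinearMap.ker F.flip) =
      finrank k0 W := LinearMap.finrank_range_add_finrank_ker F.flip
  have c1 : Nat.card (Dual k0 W) = Nat.card k0 ^ finrank k0 W := by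
    rw [Module.natCard_eq_pow_finrank (K := k0) (V := Dual k0 W), Subspace.dual_finrank_eq]
  have c2 : Nat.card (LinearMap.range F) = Nat.card k0 ^ finrank k0 (LinearMap.range F) :=
    card_sub _
  have c3 : Nat.card (LinearMap.ker F.flip) = Nat.card k0 ^ finrank k0 (LinearMap.ker F.flip) :=
    card_sub _
  rw [c1, ← hs, hr, pow_add, c2, mul_comm]
  refine Nat.mul_le_mul_right _ ?_
  rw [← c3]
  exact h1

/-- labels with one arbitrary component -/
def inc (a : Bool) (f : ↥(SymForm k0 (U KK d kp L))) : VV k0 KK d kp L :=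
  bif a then (0, f) else (f, 0)

theorem lab_inc (a a' : Bool) (f : ↥(SymForm k0 (U KK d kp L))) :
    (lab (inc a f) a').1 = if a' = a then f.1 else 0 := by
  cases a <;> cases a' <;> rfl

theorem ker_ctrl {u u' z z' : U KK d kp L} (hI : Ctrl420.Ind2 (⊥ : Submodule k0 _) u u')
    (h : ∀ f ∈ SymForm k0 (U KK d kp L), f u z + f u' z' = 0) :
    ∃ α : k0, z = α • u' ∧ z' = -(α • u) := by
  obtain ⟨α, h1, h2⟩ := Ctrl420.ctrl ⊥ u u' z z' hI (fun f hf _ => h f hf)
  refine ⟨α, sub_eq_zero.1 ((Submodule.mem_bot k0).1 h1), ?_⟩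
  exact eq_neg_of_add_eq_zero_left ((Submodule.mem_bot k0).1 h2)

theorem kerX (Q : ℕ) (P R : Bool → Ty k0 KK d L)
    (hI : Ctrl420.Ind2 (⊥ : Submodule k0 (U KK d kp L)) (uvec Q kp (R false)) (uvec Q kp (R true)))
    (t : TT Q kp P R) (ht : (winX Q kp P R).flip t = 0) (a : Bool) :
    ∃ α : k0, ((t (a, false) : _) : U KK d kp L) = α • uvec Q kp (R true) ∧
      ((t (a, true) : _) : U KK d kp L) = -(α • uvec Q kp (R false)) := by
  refine ker_ctrl hI fun f hf => ?_
  have h1 := LinearMap.congr_fun ht (inc a ⟨f, hf⟩)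
  rw [LinearMap.flip_apply, winX_apply, LinearMap.zero_apply, Fintype.sum_prod_type] at h1
  simp only [Fintype.sum_bool, lab_inc] at h1
  cases a <;> simpa [add_comm] using h1


/-- **index of the window range**, side `X` -/
theorem card_EE_le_X (Q : ℕ) (P R : Bool → Ty k0 KK d L)
    (hI : Ctrl420.Ind2 (⊥ : Submodule k0 (U KK d kp L)) (uvec Q kp (R false)) (uvec Q kp (R true))) :
    Nat.card (EE Q kp P R) ≤ Nat.card k0 ^ 2 * Nat.card (LinearMap.range (winX Q kp P R)) := by
  classical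
  choose! α h1 h2 using fun (t : TT Q kp P R) (ht : (winX Q kp P R).flip t = 0) =>
    kerX Q P R hI t ht
  refine card_le_of_ker (winX Q kp P R)
    (fun t => (α t.1 false, α t.1 true)) ?_
  intro s t hst
  have e1 : α s.1 false = α t.1 false := (Prod.ext_iff.1 hst).1
  have e2 : α s.1 true = α t.1 true := (Prod.ext_iff.1 hst).2
  have e : ∀ a, α s.1 a = α t.1 a := by intro a; cases a <;> assumption
  have hs : (winX Q kp P R).flip s.1 = 0 := s.2
  have ht : (winX Q kp P R).flip t.1 = 0 := t.2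
  apply Subtype.ext
  funext ab
  apply Subtype.ext
  rcases ab with ⟨a, b⟩
  cases b
  · rw [h1 s.1 hs a, h1 t.1 ht a, e]
  · rw [h2 s.1 hs a, h2 t.1 ht a, e]


theorem ind2_bot {Sp : Submodule k0 (U KK d kp L)} {u u' : U KK d kp L}
    (h : Ctrl420.Ind2 Sp u u') : Ctrl420.Ind2 (⊥ : Submodule k0 (U KK d kp L)) u u' :=
  fun a b hab => h a b (bot_le (a := Sp) hab)

/-- real form of the index bound, as `hXI` of `Loc767.loc` -/
theorem hXI (Q : ℕ) (P R : Bool → Ty k0 KK d L) [Fintype (EE Q kp P R)]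
    (hI : Ctrl420.Ind2 (⊥ : Submodule k0 (U KK d kp L)) (uvec Q kp (R false)) (uvec Q kp (R true))) :
    (Fintype.card (EE Q kp P R) : ℝ) ≤
      (Nat.card k0 : ℝ) ^ 2 * (Nat.card (LinearMap.range (winX Q kp P R)) : ℝ) := by
  have := card_EE_le_X Q P R hI
  rw [Nat.card_eq_fintype_card] at this
  exact_mod_cast this


end fin

end Crest.Agent.R042.LocB767
end

-- ▼ part R042/SpecB_730
section

/-!
# Bridge lemmas for PLAN B (helper730)

For `m = kp` the special space is the line of the product tensor: `spec kp p = span {pure p}`.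
-/

set_option autoImplicit false
set_option linter.unusedSectionVars false

namespace Crest.Agent.R042.SpecB730

open Crest.Agent.R042.Fam543 Crest.Agent.R042.Spec730 Crest.Agent.R042.SpecFam730

theorem spec_full {F : Type*} [Field F] {k : ℕ} {ι : Type*} (p : Fin k → ι → F) :
    spec k p = Submodule.span F {pure p} := by
  apply le_antisymm
  · rw [spec, Submodule.span_le]
    rintro t ⟨c, s, hs, hc, rfl⟩
    have hu : s = Finset.univ := Finset.eq_univ_of_card s
      (le_antisymm (by simpa using Finset.card_le_univ s) (by simpa using hs))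
    have : c = p := by
      funext i
      exact hc i (by rw [hu]; exact Finset.mem_univ i)
    subst this
    exact Submodule.subset_span rfl
  · rw [Submodule.span_le, Set.singleton_subset_iff]
    exact Submodule.subset_span ⟨p, Finset.univ, by simp, fun _ _ => rfl, rfl⟩

variable {k0 KK : Type} [Field k0] [Field KK] [Algebra k0 KK]

theorem mem_spec_full {Q d kp : ℕ} {a : Ix d → KK} {t : U0 KK d kp} :
    t ∈ spec kp (tw Q kp a) ↔ ∃ c : KK, t = c • Phi Q a := by
  rw [spec_full, Submodule.mem_span_singleton]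
  constructor
  · rintro ⟨c, h⟩; exact ⟨c, h.symm⟩
  · rintro ⟨c, h⟩; exact ⟨c, h.symm⟩

theorem mem_specU_full {Q d kp L : ℕ} {a : Ix d → KK} {x : U KK d kp L} :
    x ∈ specU k0 Q kp kp L a ↔ ∀ l, ∃ c : KK, x l = c • Phi Q a := by
  rw [mem_specU]
  exact forall_congr' fun l => mem_spec_full

/-- in characteristic 2 the vector `a_s` is `b' + B b b' • b` -/
theorem aop_eq [CharP KK 2] {d : ℕ} (b b' : Ix d → KK) : aop b b' = b' + B b b' • b := by
  rw [aop]
  funext j
  simp only [Pi.sub_apply, Pi.add_apply, Pi.smul_apply, smul_eq_mul]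
  exact CharTwo.sub_eq_add _ _

/-- 341's special space of plan B is `specU` with `kp = m = 2` -/
theorem Sp2_eq [CharP KK 2] (Q : ℕ) {d L : ℕ} (P P' : Ty k0 KK d L) :
    PB.Sp2 Q P P' = specU k0 Q 2 2 L (aop P.b P'.b) := by
  ext x
  rw [PB.mem_Sp2, mem_specU_full, aop_eq]
  rfl




end Crest.Agent.R042.SpecB730
end

-- ▼ part R042/PBLabel_341
section

/-!
# Plan B of row 42 / S0059: the label theorem

For a pair `s = (P, P')` and a law `μ` of bounded density on pairs of labels there are `J` points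
`Ys` such that for most blocks `(R, R')` not killed by them the window law of `μ` satisfies the
hypotheses of the conflict lemma.
-/

set_option autoImplicit false
set_option linter.unusedSectionVars false

namespace Crest.Agent.R042.PBLabel341

open Finset Crest.Agent.R042.RowWin543 Crest.Agent.R042.Fam543 Crest.Agent.R042.PB
open Crest.Agent.R042.LocFam958 (VV lab lab_false lab_true TT EE winX winX_apply NN)
open Crest.Agent.R042.PBMom253 Crest.Agent.R042.ConfB461

section Abs

/-- averages over a bigger group -/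
theorem sum_zero_of_le {V : Type*} [AddCommGroup V] [Fintype V] (D H : AddSubgroup V)
    [Fintype D] [Fintype H] (h : D ≤ H) (g : V → ℝ)
    (hg : ∀ v, ∑ u : D, g (v + (u : V)) = 0) (f : V) : ∑ u : H, g (f + (u : V)) = 0 := by
  have h1 : ∀ w : D, ∑ u : H, g (f + (u : V) + (w : V)) = ∑ u : H, g (f + (u : V)) := by
    intro w
    refine Fintype.sum_equiv (Equiv.addRight (⟨(w : V), h w.2⟩ : H)) _ _ fun u => ?_
    simp [add_assoc]
  have h2 : (Fintype.card D : ℝ) * ∑ u : H, g (f + (u : V)) =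
      ∑ w : D, ∑ u : H, g (f + (u : V) + (w : V)) := by
    rw [Finset.sum_congr rfl (fun w _ => h1 w), Finset.sum_const, Finset.card_univ, nsmul_eq_mul]
  rw [Finset.sum_comm, Finset.sum_eq_zero fun u _ => hg _] at h2
  have hc : (0 : ℝ) < (Fintype.card D : ℝ) := by exact_mod_cast Fintype.card_pos
  rcases mul_eq_zero.1 h2 with h3 | h3
  · exact absurd h3 hc.ne'
  · exact h3

open scoped Classical in
/-- sums over a subtype -/
theorem sub_sum_le {κ : Type*} [Fintype κ] (P : κ → Prop) [Fintype {x // P x}]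
    (Q : {x // P x} → Prop) [DecidablePred Q] (f : κ → ℝ)
    (hf : ∀ x, 0 ≤ f x) (S : Finset κ) (h : ∀ x : {x // P x}, Q x → x.1 ∈ S) :
    ∑ x : {x // P x} with Q x, f x.1 ≤ ∑ x ∈ S, f x := by
  have h1 : ∑ x : {x // P x} with Q x, f x.1 =
      ∑ x ∈ (univ.filter Q).map (Function.Embedding.subtype P), f x := by
    rw [Finset.sum_map]
    rfl
  rw [h1]
  refine Finset.sum_le_sum_of_subset_of_nonneg ?_ fun x _ _ => hf x
  intro x hx
  rw [Finset.mem_map] at hx
  obtain ⟨y, hy, rfl⟩ := hx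
  exact h y (Finset.mem_filter.1 hy).2

end Abs

variable {k0 KK : Type} [Field k0] [Field KK] [Algebra k0 KK] {d L : ℕ}

/-- the special functionals of a pair of types -/
abbrev Cs (Q : ℕ) (X : Bool → Ty k0 KK d L) :
    Submodule k0 (Module.Dual k0 (VV k0 KK d 2 L)) :=
  (LocA726.VS (kp := 2) Q 2 X).dualAnnihilator

/-- the blocks seen from the end `a` -/
def bk (Q : ℕ) {κ : Type} (X : Bool → Ty k0 KK d L) (R : κ → Bool → Ty k0 KK d L) (a : Bool) :
    Blk k0 (U KK d 2 L) κ :=
  fblk Q (X a) (X (!a)) (fun x => R x false) (fun x => R x true)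

/-- `y` kills the block `R` -/
def killT (Q : ℕ) (X : Bool → Ty k0 KK d L) (y : Bool × U KK d 2 L)
    (R : Bool → Ty k0 KK d L) : Prop :=
  y.2 ∉ Sp2 Q (X y.1) (X (!y.1)) ∧ kill Q (X y.1) y.2 (R false) (R true)

theorem winX_eq_zero {Q : ℕ} {κ : Type} {X : Bool → Ty k0 KK d L} {R : κ → Bool → Ty k0 KK d L}
    {x : κ} {v : VV k0 KK d 2 L} (h : v ∈ ker (WW (bk Q X R false) (bk Q X R true) x)) :
    winX Q 2 X (R x) v = 0 := by
  obtain ⟨h1, h2, h3, h4⟩ := (mem_ker_WW _ _ _ _).1 h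
  refine LinearMap.ext fun t => ?_
  rw [winX_apply, LinearMap.zero_apply]
  refine Finset.sum_eq_zero fun ab _ => ?_
  rcases ab with ⟨a, b⟩
  cases a <;> cases b
  · exact h1 _ (t (false, false)).2
  · exact h2 _ (t (false, true)).2
  · exact h3 _ (t (true, false)).2
  · exact h4 _ (t (true, true)).2

theorem VS_le_ker [CharP KK 2] {Q : ℕ} {κ : Type} {X : Bool → Ty k0 KK d L}
    {R : κ → Bool → Ty k0 KK d L} {x : κ} :
    (LocA726.VS (kp := 2) Q 2 X).toAddSubgroup ≤ ker (CC (bk Q X R false) (bk Q X R true) x) := by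
  intro v hv
  have hv' : v ∈ LocA726.VS (kp := 2) Q 2 X := hv
  rw [LocA726.mem_VS] at hv'
  have h0 : ∀ a y, ∀ t ∈ Sp2 Q (X a) (X (!a)), (lab v a).1 y t = 0 := by
    intro a y t ht
    refine hv' a y t ?_
    rw [← SpecB730.Sp2_eq]
    exact ht
  rw [mem_ker_CC]
  exact ⟨fun z hz => h0 false _ z hz, fun z hz => h0 false _ z hz, fun z hz => h0 true _ z hz,
    fun z hz => h0 true _ z hz⟩

theorem Cs_coann [Finite k0] [Finite KK] (Q : ℕ) (X : Bool → Ty k0 KK d L) :
    (Cs Q X).dualCoannihilator = LocA726.VS (kp := 2) Q 2 X := by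
  have : FiniteDimensional k0 (VV k0 KK d 2 L) := Module.Finite.of_finite
  exact Subspace.dualAnnihilator_dualCoannihilator_eq

open scoped Classical in
/-- a law of blocks satisfying `Hyp` at both ends cannot consist of `BadK` blocks -/
def NoK (q h m b C : ℕ) : Prop :=
    ∀ (k0 KK : Type) [Field k0] [Field KK] [Algebra k0 KK] [Fintype k0] [Fintype KK]
      [CharP KK 2] (d L : ℕ) (Q : ℕ) (κ : Type) [Fintype κ] (X : Bool → Ty k0 KK d L)
      (R : κ → Bool → Ty k0 KK d L) (τ : κ → ℝ) (δ : ℝ), Fintype.card k0 = q → 0 ≤ δ → δ ≤ 1 →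
      Hyp (bk Q X R false) τ δ → Hyp (bk Q X R true) τ δ →
      ∀ (μ : VV k0 KK d 2 L → ℝ), (∀ f, 0 ≤ μ f) → ∑ f, μ f = 1 → ∀ (M : ℝ),
      (∀ f, μ f * (Fintype.card (VV k0 KK d 2 L) : ℝ) ≤ M) → ∀ (ε : ℝ), 0 ≤ ε →
      (∀ x, τ x ≠ 0 → BadK (winX Q 2 X (R x)) μ (Cs Q X) ε) →
      (ε / 4) ^ (b + 1) ≤
        M * (2 * ((C : ℝ) * (δ ^ h + (Fintype.card (U KK d 2 L) : ℝ) ^ (2 * h + 2) * δ ^ m)))

open scoped Classical in
/-- **step 1** -/
theorem noK {q h m : ℕ} (hP : ProbStmt q h m) :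
    ∃ b C : ℕ, Even b ∧ 0 < b ∧ NoK q h m b C := by
  obtain ⟨b, C, hb, hb0, hmain⟩ := mom_prob hP
  refine ⟨b, C, hb, hb0, ?_⟩
  intro k0 KK _ _ _ _ _ _ d L Q κ _ X R τ δ hq hδ0 hδ1 hB hB' μ hμ sμ M hM ε hε hbad
  have hex : ∀ x, ∃ g : VV k0 KK d 2 L → ℝ, (∀ v, |g v| ≤ 1) ∧
      (∀ v u, winX Q 2 X (R x) u = 0 → g (v + u) = g v) ∧
      (∀ v, ∑ u : (LocA726.VS (kp := 2) Q 2 X).toAddSubgroup,
        g (v + (u : VV k0 KK d 2 L)) = 0) ∧
      τ x * (ε / 2) ≤ τ x * ∑ v, μ v * g v := by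
    intro x
    by_cases hx : τ x = 0
    · refine ⟨fun _ => 0, ?_, ?_, ?_, ?_⟩
      · intro v; simp
      · intro v u _; rfl
      · intro v; simp
      · rw [hx, zero_mul, zero_mul]
    · obtain ⟨g, g1, g2, g3, g4⟩ := exists_test (winX Q 2 X (R x)) μ (Cs Q X) ε (hbad x hx)
      refine ⟨g, g1, g2, ?_, mul_le_mul_of_nonneg_left g4 (hB.nonneg x)⟩
      intro v
      rw [← g3 v]
      refine Fintype.sum_equiv
        (Equiv.subtypeEquivRight fun u => ?_) _ _ fun u => rfl
      show u ∈ LocA726.VS (kp := 2) Q 2 X ↔ u ∈ (Cs Q X).dualCoannihilator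
      rw [Cs_coann]
  choose g g1 g2 g3 g4 using hex
  have key := hmain k0 (U KK d 2 L) κ (bk Q X R false) (bk Q X R true) τ δ hq hδ0 hδ1 hB hB' μ hμ
    sμ M hM (ε / 2) (by linarith) g g1
    (fun x f v hv => g2 x f v (winX_eq_zero hv))
    (fun x f => sum_zero_of_le _ _ VS_le_ker (g x) (g3 x) f)
    (by
      calc ε / 2 = ∑ x, τ x * (ε / 2) := by rw [← Finset.sum_mul, hB.sum, one_mul]
        _ ≤ ∑ x, τ x * ∑ f, μ f * g x f := Finset.sum_le_sum fun x _ => g4 x)
  have e1 : ε / 2 / 2 = ε / 4 := by ring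
  rw [e1] at key
  exact key

/-- good position of a block -/
def OkI {ι : Type} (T : ι → Ty k0 KK d L) (p r : Bool → ι) : Prop :=
  (∀ a b, Perp (T (p a)) (T (r b))) ∧ r false ≠ r true

open scoped Classical in
/-- **step 2**: mass of the `BadK` blocks not killed -/
theorem massK [Fintype k0] [Fintype KK] [CharP KK 2] {q h m b C : ℕ} (hno : NoK q h m b C)
    (hq : Fintype.card k0 = q) {K : Set k0} (hK : Alph K) {ι : Type} {T : ι → Ty k0 KK d L}
    (hT : ∀ i, Valid K (T i))
    (hLI : ∀ J : Finset ι, J.card ≤ 6 → LinearIndependent KK (fun i : J => (T i).b))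
    (e : ℕ) (hL : 0 < L) (p : Bool → ι) {κ : Type} [Fintype κ] (r : κ → Bool → ι)
    (t : κ → ℝ) (ht : ∀ x, 0 ≤ t x) (st : ∑ x, t x ≤ 1) (m1 : ℝ)
    (hm1 : ∀ i, ∑ x with (r x false = i ∨ r x true = i), t x ≤ m1)
    (μ : VV k0 KK d 2 L → ℝ) (hμ : ∀ f, 0 ≤ μ f) (sμ : ∑ f, μ f = 1) (M : ℝ)
    (hM : ∀ f, μ f * (Fintype.card (VV k0 KK d 2 L) : ℝ) ≤ M) (kX : ℝ) (hkX : 0 ≤ kX)
    (θ δ : ℝ) (J : ℕ) (hθ : 0 < θ) (hJ : Real.log (1 / θ) ≤ δ * J) (hm1δ : m1 / θ ≤ δ)
    (hδ1 : δ ≤ 1)
    (hnum : M * (2 * ((C : ℝ) *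
      (δ ^ h + (Fintype.card (U KK d 2 L) : ℝ) ^ (2 * h + 2) * δ ^ m))) < (kX / 4) ^ (b + 1)) :
    ∃ Ys : Fin J → Bool × U KK d 2 L, ∑ x, t x * (if OkI T p (r x) ∧
      (∀ i, ¬ killT (2 ^ e) (fun a => T (p a)) (Ys i) (fun b => T (r x b))) ∧
      BadK (winX (2 ^ e) 2 (fun a => T (p a)) (fun b => T (r x b))) μ
        (Cs (2 ^ e) fun a => T (p a)) kX then 1 else 0) ≤ θ := by
  set X : Bool → Ty k0 KK d L := fun a => T (p a) with hX
  set R : κ → Bool → Ty k0 KK d L := fun x b => T (r x b) with hR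
  set A : κ → Prop := fun x => OkI T p (r x) ∧
    BadK (winX (2 ^ e) 2 X (R x)) μ (Cs (2 ^ e) X) kX with hA
  set t1 : κ → ℝ := fun x => if A x then t x else 0 with ht1
  have t1n : ∀ x, 0 ≤ t1 x := by
    intro x; simp only [ht1]; split_ifs
    · exact ht x
    · exact le_rfl
  have t1le : ∀ x, t1 x ≤ t x := by
    intro x; simp only [ht1]; split_ifs
    · exact le_rfl
    · exact ht x
  have t1A : ∀ x, t1 x ≠ 0 → A x := by
    intro x hx
    by_contra hne
    apply hx
    simp only [ht1, if_neg hne]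
  obtain ⟨l, hl, hcase⟩ := PBGreedy895.greedy' t1 t1n
    ((Finset.sum_le_sum fun x _ => t1le x).trans st)
    (fun (y : Bool × U KK d 2 L) x => killT (2 ^ e) X y (R x)) δ hδ1 J θ hθ hJ
  have main : ∑ x ∈ PBGreedy895.left (fun (y : Bool × U KK d 2 L) x =>
      killT (2 ^ e) X y (R x)) l, t1 x ≤ θ := by
    rcases hcase with hc | hc
    swap
    · exact hc
    by_contra hgt
    push Not at hgt
    set Lf := PBGreedy895.left (fun (y : Bool × U KK d 2 L) x => killT (2 ^ e) X y (R x)) l with hLf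
    set s := ∑ x ∈ Lf, t1 x with hs
    have hs0 : 0 < s := hθ.trans hgt
    have hm0 : 0 ≤ m1 := (Finset.sum_nonneg fun x _ => ht x).trans (hm1 (p false))
    have hδ0 : 0 ≤ δ := (div_nonneg hm0 hθ.le).trans hm1δ
    let Pr : κ → Prop := fun x => x ∈ Lf ∧ t1 x ≠ 0
    let τ : {x // Pr x} → ℝ := fun x => t1 x.1 / s
    have hτn : ∀ x, 0 ≤ τ x := fun x => div_nonneg (t1n _) hs0.le
    have hτs : ∑ x, τ x = 1 := by
      have e1 : ∑ x : {x // Pr x}, t1 x.1 = s := by
        rw [hs, ← Finset.sum_filter_add_sum_filter_not Lf (fun x => t1 x ≠ 0)]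
        have e2 : ∑ x ∈ Lf.filter (fun x => ¬ t1 x ≠ 0), t1 x = 0 :=
          Finset.sum_eq_zero fun x hx => by
            have := (Finset.mem_filter.1 hx).2
            push Not at this
            exact this
        rw [e2, add_zero]
        symm
        refine Finset.sum_subtype _ (fun x => ?_) _
        rw [Finset.mem_filter]
      simp only [τ]
      rw [← Finset.sum_div, e1, div_self hs0.ne']
    have hsum : ∀ (Qd : {x // Pr x} → Prop) (S : Finset κ), (∀ x, Qd x → x.1 ∈ S) →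
        ∑ x with Qd x, τ x ≤ (∑ x ∈ S, t1 x) / s := by
      intro Qd S hS
      simp only [τ]
      rw [← Finset.sum_div]
      exact div_le_div_of_nonneg_right (sub_sum_le Pr Qd t1 t1n S hS) hs0.le
    have hyp : ∀ a, Hyp (bk (2 ^ e) X (fun x : {x // Pr x} => R x.1) a) τ δ := by
      intro a
      have h2 : ∀ Y : U KK d 2 L, Y ∉ Sp2 (2 ^ e) (T (p a)) (T (p !a)) →
          ∀ Qd : {x // Pr x} → Prop,
          (∀ x, Qd x → kill (2 ^ e) (T (p a)) Y (T (r x.1 false)) (T (r x.1 true))) →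
          ∑ x with Qd x, τ x ≤ δ := by
        intro Y hY Qd hQd
        refine (hsum Qd (Lf.filter fun x => killT (2 ^ e) X (a, Y) (R x)) ?_).trans ?_
        · intro x hx
          rw [Finset.mem_filter]
          exact ⟨x.2.1, hY, hQd x hx⟩
        · rw [div_le_iff₀ hs0]
          exact hc (a, Y)
      have hOk : ∀ x : {x // Pr x}, OkI T p (r x.1) := fun x => (t1A _ x.2.2).1
      refine PBFac989.hyp_fblk hK hT hLI e hL (p := p a) (p' := p !a)
        (fun x : {x // Pr x} => r x.1 false) (fun x => r x.1 true)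
        (fun x => (hOk x).1 a false) (fun x => (hOk x).1 (!a) false)
        (fun x => (hOk x).1 a true) (fun x => (hOk x).1 (!a) true)
        (fun x => (hOk x).2) τ hτn hτs δ ?_ hδ0 ?_ ?_
      · intro i
        refine le_trans (le_of_eq ?_) ((hsum (fun x : {x // Pr x} => r x.1 false = i ∨ r x.1 true = i)
          (univ.filter fun x => r x false = i ∨ r x true = i) ?_).trans ?_)
        · refine Finset.sum_congr ?_ fun _ _ => rfl
          ext x
          simp only [Finset.mem_filter]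
        · intro x hx
          rw [Finset.mem_filter]
          exact ⟨Finset.mem_univ _, hx⟩
        · refine le_trans ?_ hm1δ
          refine div_le_div₀ hm0 ((Finset.sum_le_sum fun x _ => t1le x).trans (hm1 i)) hθ hgt.le
      · intro Y hY α c
        refine h2 Y hY _ fun x hx => ?_
        exact kill_of_mem e ((hOk x).1 a true) hx
      · intro Y hY α c
        refine h2 Y hY _ fun x hx => ?_
        exact kill_of_mem' e ((hOk x).1 a false) hx
    have key := hno k0 KK d L (2 ^ e) {x // Pr x} X (fun x => R x.1) τ δ hq hδ0 hδ1 (hyp false)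
      (hyp true) μ hμ sμ M hM kX hkX (fun x _ => (t1A _ x.2.2).2)
    linarith
  refine ⟨fun i => (l[i.1]?).getD (false, 0), le_trans (le_of_eq ?_)
    (le_trans (Finset.sum_le_sum_of_subset_of_nonneg (f := t1) (s := univ.filter fun x =>
      (∀ i : Fin J, ¬ killT (2 ^ e) X ((l[i.1]?).getD (false, 0)) (R x)) ∧ A x) ?_
      fun x _ _ => t1n x) main)⟩
  · rw [Finset.sum_filter]
    refine Finset.sum_congr rfl fun x _ => ?_
    simp only [ht1]
    by_cases h1 : A x
    · by_cases h2 : ∀ i : Fin J, ¬ killT (2 ^ e) X ((l[i.1]?).getD (false, 0)) (R x)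
      · rw [if_pos ⟨h1.1, h2, h1.2⟩, if_pos ⟨h2, h1⟩, if_pos h1, mul_one]
      · rw [if_neg (fun h => h2 h.2.1), if_neg (fun h => h2 h.1), mul_zero]
    · rw [if_neg (fun h => h1 ⟨h.1, h.2.2⟩), if_neg (fun h => h1 h.2), mul_zero]
  · intro x hx
    rw [Finset.mem_filter] at hx
    rw [PBGreedy895.mem_left]
    intro y hy
    obtain ⟨i, hi, rfl⟩ := List.getElem_of_mem hy
    have := hx.2.1 ⟨i, lt_of_lt_of_le hi hl⟩
    simpa [List.getElem?_eq_getElem hi] using this

theorem exists_of_mem_spw {k U : Type*} [Field k] [AddCommGroup U] [Module k U]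
    (Sp Sp' : Submodule k U) (x : U) (φ : Module.Dual k (SymForm k U × SymForm k U))
    (h : φ ∈ Greedy695.spw Sp Sp' x) : ∃ z ∈ Sp, ∃ z' ∈ Sp', ∀ v, φ v = v.1.1 x z + v.2.1 x z' := by
  refine Submodule.span_induction (p := fun φ _ => ∃ z ∈ Sp, ∃ z' ∈ Sp',
    ∀ v : SymForm k U × SymForm k U, φ v = v.1.1 x z + v.2.1 x z') ?_ ?_ ?_ ?_ h
  · rintro φ (⟨z, hz, rfl⟩ | ⟨z, hz, rfl⟩)
    · exact ⟨z, hz, 0, Submodule.zero_mem _, fun v => by simp⟩
    · exact ⟨0, Submodule.zero_mem _, z, hz, fun v => by simp⟩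
  · exact ⟨0, Submodule.zero_mem _, 0, Submodule.zero_mem _, fun v => by simp⟩
  · rintro φ ψ _ _ ⟨z, hz, z', hz', h1⟩ ⟨y, hy, y', hy', h2⟩
    refine ⟨z + y, Submodule.add_mem _ hz hy, z' + y', Submodule.add_mem _ hz' hy', fun v => ?_⟩
    rw [LinearMap.add_apply, h1, h2, map_add, map_add]; ring
  · rintro c φ _ ⟨z, hz, z', hz', h1⟩
    refine ⟨c • z, Submodule.smul_mem _ _ hz, c • z', Submodule.smul_mem _ _ hz', fun v => ?_⟩
    rw [LinearMap.smul_apply, h1, map_smul, map_smul, smul_eq_mul, smul_eq_mul, smul_eq_mul]; ring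

theorem indep4_of [CharP KK 2] {K : Set k0} {ι : Type} {T : ι → Ty k0 KK d L}
    (hT : ∀ i, Valid K (T i))
    (hLI : ∀ J : Finset ι, J.card ≤ 6 → LinearIndependent KK (fun i : J => (T i).b))
    (p r : Bool → ι) (hp : p false ≠ p true) (h : OkI T p r) :
    SpecFam730.Indep4 (fun a => T (p a)) (fun b => T (r b)) := by
  classical
  have ne : ∀ a b, p a ≠ r b := by
    intro a b hab
    have := h.1 a b
    rw [hab] at this
    exact (hT _).aniso this
  let f : Fin 4 → ι := ![p false, p true, r false, r true]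
  have hf : Function.Injective f := by
    have h1 := ne false false
    have h2 := ne false true
    have h3 := ne true false
    have h4 := ne true true
    have h5 := h.2
    intro a b hab
    fin_cases a <;> fin_cases b <;> simp_all [f]
  have h1 := hLI (univ.image f) (card_image_le.trans (by simp))
  have h2 := h1.comp (fun a : Fin 4 => (⟨f a, mem_image_of_mem f (mem_univ a)⟩ : univ.image f))
    (fun a b hab => hf (Subtype.ext_iff.1 hab))
  unfold SpecFam730.Indep4
  convert h2 using 1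
  funext a
  fin_cases a <;> rfl

open scoped Classical in
/-- **step 3**: mass of the `BadS` blocks -/
theorem massS [Fintype k0] [Fintype KK] [CharP KK 2] {K : Set k0} (hK : Alph K) {ι : Type}
    {T : ι → Ty k0 KK d L} (hT : ∀ i, Valid K (T i))
    (hLI : ∀ J : Finset ι, J.card ≤ 6 → LinearIndependent KK (fun i : J => (T i).b))
    (e : ℕ) (hL : 0 < L) (p : Bool → ι) (hp : p false ≠ p true) {κ : Type} [Fintype κ]
    (r : κ → Bool → ι) (t : κ → ℝ) (ht : ∀ x, 0 ≤ t x) (m1 : ℝ)
    (hm1 : ∀ i, ∑ x with (r x false = i ∨ r x true = i), t x ≤ m1)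
    (μ : VV k0 KK d 2 L → ℝ) (hμ : ∀ f, 0 ≤ μ f) (sμ : ∑ f, μ f = 1) (M : ℝ)
    (hM : ∀ f, μ f * (Fintype.card (VV k0 KK d 2 L) : ℝ) ≤ M) (N : ℕ) (hN : 0 < N)
    (K₀ K₁ : ℝ) (hK₁ : 1 ≤ K₁) (hK₀ : K₁ * (Fintype.card k0 : ℝ) ^ 2 ≤ K₀)
    (η : ℝ) (hη : 0 ≤ η) (hnum : M * 2 ^ N * K₁ ^ (-(η * N / 2)) < η / 2) :
    ∑ x, t x * (if OkI T p (r x) ∧
      BadS (winX (2 ^ e) 2 (fun a => T (p a)) (fun b => T (r x b))) μ
        (Cs (2 ^ e) fun a => T (p a)) K₀ η then 1 else 0) ≤
      2 * (Fintype.card k0 : ℝ) ^ (2 * N) * m1 := by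
  set X : Bool → Ty k0 KK d L := fun a => T (p a) with hX
  set R : κ → Bool → Ty k0 KK d L := fun x b => T (r x b) with hR
  have hm0 : 0 ≤ m1 := (Finset.sum_nonneg fun x _ => ht x).trans (hm1 (p false))
  have ne : ∀ {i j : ι}, Perp (T i) (T j) → j ≠ i := by
    rintro i j h rfl
    exact (hT j).aniso h
  let Pr : κ → Prop := fun x => OkI T p (r x)
  have hK₀' : 0 ≤ K₀ := le_trans (by positivity) hK₀
  have h1 : ∀ a : Bool, ∀ y : U KK d 2 L, ∑ x : {x // Pr x} with (∃ α c : k0, (α ≠ 0 ∨ c ≠ 0) ∧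
      α • uvec (2 ^ e) 2 (R x.1 false) + c • uvec (2 ^ e) 2 (R x.1 true) - y ∈
        Sp2 (2 ^ e) (X a) (X !a)), t x.1 ≤ m1 := by
    intro a y
    have h2 := PBFac989.h1_sum hK hT hLI (2 ^ e) hL (p := p a) (p' := p !a)
      (fun x : {x // Pr x} => r x.1 false) (fun x => r x.1 true)
      (fun x => ne (x.2.1 a false)) (fun x => ne (x.2.1 (!a) false))
      (fun x => ne (x.2.1 a true)) (fun x => ne (x.2.1 (!a) true)) (fun x => x.2.2)
      (fun x => t x.1) (fun x => ht _) m1 hm0 (fun i => ?_) y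
    · refine le_trans (le_of_eq ?_) h2
      refine Finset.sum_congr ?_ fun _ _ => rfl
      ext x
      simp only [Finset.mem_filter]
      exact Iff.rfl
    · refine le_trans (sub_sum_le Pr _ t ht (univ.filter fun x => r x false = i ∨ r x true = i) ?_)
        (hm1 i)
      intro x hx
      rw [Finset.mem_filter]
      exact ⟨Finset.mem_univ _, hx⟩
  have key := PBSD895.special_mass (fun x : {x // Pr x} => uvec (2 ^ e) 2 (R x.1 false))
    (fun x => uvec (2 ^ e) 2 (R x.1 true)) (Sp2 (2 ^ e) (X false) (X true))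
    (Sp2 (2 ^ e) (X true) (X false)) (fun x => t x.1) (fun x => ht _) m1 (h1 false) (h1 true)
    (Cs (2 ^ e) X) (fun x => winX (2 ^ e) 2 X (R x.1)) ?_ μ hμ sμ M hM N hN K₀ hK₀' K₁ hK₁ ?_ η hη
    hnum
  · refine le_trans (le_of_eq ?_) key
    rw [Finset.sum_filter]
    have e1 : ∑ x : {x // Pr x}, (if BadS (winX (2 ^ e) 2 X (R x.1)) μ (Cs (2 ^ e) X) K₀ η then
        t x.1 else 0) = ∑ x ∈ univ.filter Pr, (if BadS (winX (2 ^ e) 2 X (R x)) μ
          (Cs (2 ^ e) X) K₀ η then t x else 0) := by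
      symm
      refine Finset.sum_subtype (f := fun x => if BadS (winX (2 ^ e) 2 X (R x)) μ
          (Cs (2 ^ e) X) K₀ η then t x else 0) _ (fun x => ?_)
      rw [Finset.mem_filter]
      exact and_iff_right (Finset.mem_univ _)
    rw [e1, Finset.sum_filter]
    refine Finset.sum_congr rfl fun x _ => ?_
    by_cases h2 : Pr x
    · by_cases h3 : BadS (winX (2 ^ e) 2 X (R x)) μ (Cs (2 ^ e) X) K₀ η
      · rw [if_pos ⟨h2, h3⟩, if_pos h2, if_pos h3, mul_one]
      · rw [if_neg (fun h => h3 h.2), if_pos h2, if_neg h3, mul_zero]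
    · rw [if_neg (fun h => h2 h.1), if_neg h2, mul_zero]
  · intro x φ hφ
    have hI4 := indep4_of hT hLI p (r x.1) hp x.2
    have hnn := LocA726.nnX_le (e := e) (m := 2) (kp := 2) le_rfl (by norm_num) hK hL
      (P := X) (R := R x.1) (fun b => hT _) x.2.1 hI4 (Cs (2 ^ e) X) le_rfl
    have h3 := LocB767.rangeX_inf_le (2 ^ e) 2 X (R x.1) (Cs (2 ^ e) X) hnn ⟨hφ.2, hφ.1⟩
    obtain ⟨φ1, hφ1, φ2, hφ2, hsum⟩ := Submodule.mem_sup.1 h3
    obtain ⟨z1, hz1, z1', hz1', h4⟩ := exists_of_mem_spw _ _ _ _ hφ1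
    obtain ⟨z2, hz2, z2', hz2', h5⟩ := exists_of_mem_spw _ _ _ _ hφ2
    have hsp : ∀ a, LocB767.sp (2 ^ e) 2 2 X a = Sp2 (2 ^ e) (X a) (X !a) := fun a =>
      (SpecB730.Sp2_eq (2 ^ e) (X a) (X !a)).symm
    rw [hsp] at hz1 hz1' hz2 hz2'
    refine ⟨z1, hz1, z2, hz2, z1', hz1', z2', hz2', LinearMap.ext fun v => ?_⟩
    rw [← hsum, LinearMap.add_apply, h4, h5]
    simp only [LinearMap.add_apply]
    show _ = v.1.1 _ _ + v.1.1 _ _ + v.2.1 _ _ + v.2.1 _ _
    ring
  · intro x
    have hI4 := indep4_of hT hLI p (r x.1) hp x.2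
    have h3 := LocA726.indepX X (R x.1) hI4 false
    have h4 := ExFam726.ind2_of (k0 := k0) (L := L) e 2 (by norm_num) (kp := 2) (by norm_num)
      (R x.1 false) (R x.1 true) _ h3 (LocA726.E_ne hK hL (hT _)) (LocA726.E_ne hK hL (hT _))
      (LocA726.lam_ne (hT _)) (LocA726.lam_ne (hT _))
    have h5 := LocB767.hXI (2 ^ e) X (R x.1) (LocB767.ind2_bot h4)
    rw [Nat.card_eq_fintype_card] at h5
    calc K₁ * (Fintype.card (EE (2 ^ e) 2 X (R x.1)) : ℝ) ≤
        K₁ * ((Fintype.card k0 : ℝ) ^ 2 * (Nat.card (LinearMap.range (winX (2 ^ e) 2 X (R x.1))) : ℝ)) :=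
          mul_le_mul_of_nonneg_left h5 (by linarith)
      _ = (K₁ * (Fintype.card k0 : ℝ) ^ 2) *
          (Nat.card (LinearMap.range (winX (2 ^ e) 2 X (R x.1))) : ℝ) := by ring
      _ ≤ _ := mul_le_mul_of_nonneg_right hK₀ (Nat.cast_nonneg _)

open scoped Classical in
/-- **THE LABEL THEOREM** of plan B (index form; `(b, C)` from `noK`). -/
theorem label [Fintype k0] [Fintype KK] [CharP KK 2] {q h m b C : ℕ} (hno : NoK q h m b C)
    (hq : Fintype.card k0 = q) {K : Set k0} (hK : Alph K) {ι : Type} {T : ι → Ty k0 KK d L}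
    (hT : ∀ i, Valid K (T i))
    (hLI : ∀ J : Finset ι, J.card ≤ 6 → LinearIndependent KK (fun i : J => (T i).b))
    (e : ℕ) (hL : 0 < L) (p : Bool → ι) (hp : p false ≠ p true) {κ : Type} [Fintype κ]
    (r : κ → Bool → ι) (t : κ → ℝ) (ht : ∀ x, 0 ≤ t x) (st : ∑ x, t x ≤ 1) (m1 : ℝ)
    (hm1 : ∀ i, ∑ x with (r x false = i ∨ r x true = i), t x ≤ m1)
    (μ : VV k0 KK d 2 L → ℝ) (hμ : ∀ f, 0 ≤ μ f) (sμ : ∑ f, μ f = 1) (M : ℝ)
    (hM : ∀ f, μ f * (Fintype.card (VV k0 KK d 2 L) : ℝ) ≤ M) (kX : ℝ) (hkX : 0 ≤ kX)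
    (θ δ : ℝ) (J : ℕ) (hθ : 0 < θ) (hJ : Real.log (2 / θ) ≤ δ * J) (hm1δ : 2 * m1 / θ ≤ δ)
    (hδ1 : δ ≤ 1)
    (hnum : M * (2 * ((C : ℝ) *
      (δ ^ h + (Fintype.card (U KK d 2 L) : ℝ) ^ (2 * h + 2) * δ ^ m))) < (kX / 4) ^ (b + 1))
    (N : ℕ) (hN : 0 < N) (K₀ K₁ : ℝ) (hK₁ : 1 ≤ K₁) (hK₀ : K₁ * (Fintype.card k0 : ℝ) ^ 2 ≤ K₀)
    (η : ℝ) (hη : 0 ≤ η) (hsd : M * 2 ^ N * K₁ ^ (-(η * N / 2)) < η / 2)
    (hNm : 4 * (Fintype.card k0 : ℝ) ^ (2 * N) * m1 ≤ θ) :
    ∃ Ys : Fin J → Bool × U KK d 2 L, ∑ x, t x * (if OkI T p (r x) ∧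
      (∀ i, ¬ killT (2 ^ e) (fun a => T (p a)) (Ys i) (fun b => T (r x b))) ∧
      (BadK (winX (2 ^ e) 2 (fun a => T (p a)) (fun b => T (r x b))) μ
          (Cs (2 ^ e) fun a => T (p a)) kX ∨
        BadS (winX (2 ^ e) 2 (fun a => T (p a)) (fun b => T (r x b))) μ
          (Cs (2 ^ e) fun a => T (p a)) K₀ η) then 1 else 0) ≤ θ := by
  obtain ⟨Ys, hYs⟩ := massK hno hq hK hT hLI e hL p r t ht st m1 hm1 μ hμ sμ M hM kX hkX (θ / 2) δ J
    (by linarith) (by
      have : (1 : ℝ) / (θ / 2) = 2 / θ := by field_simp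
      rw [this]; exact hJ) (by
      have : m1 / (θ / 2) = 2 * m1 / θ := by field_simp
      rw [this]; exact hm1δ) hδ1 hnum
  have h2 := massS hK hT hLI e hL p hp r t ht m1 hm1 μ hμ sμ M hM N hN K₀ K₁ hK₁ hK₀ η hη hsd
  refine ⟨Ys, ?_⟩
  have h3 : ∑ x, t x * (if OkI T p (r x) ∧
      (∀ i, ¬ killT (2 ^ e) (fun a => T (p a)) (Ys i) (fun b => T (r x b))) ∧
      (BadK (winX (2 ^ e) 2 (fun a => T (p a)) (fun b => T (r x b))) μ
          (Cs (2 ^ e) fun a => T (p a)) kX ∨
        BadS (winX (2 ^ e) 2 (fun a => T (p a)) (fun b => T (r x b))) μ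
          (Cs (2 ^ e) fun a => T (p a)) K₀ η) then (1 : ℝ) else 0) ≤
      ∑ x, t x * (if OkI T p (r x) ∧
        (∀ i, ¬ killT (2 ^ e) (fun a => T (p a)) (Ys i) (fun b => T (r x b))) ∧
        BadK (winX (2 ^ e) 2 (fun a => T (p a)) (fun b => T (r x b))) μ
          (Cs (2 ^ e) fun a => T (p a)) kX then 1 else 0) +
      ∑ x, t x * (if OkI T p (r x) ∧
        BadS (winX (2 ^ e) 2 (fun a => T (p a)) (fun b => T (r x b))) μ
          (Cs (2 ^ e) fun a => T (p a)) K₀ η then 1 else 0) := by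
    rw [← Finset.sum_add_distrib]
    refine Finset.sum_le_sum fun x _ => ?_
    rw [← mul_add]
    refine mul_le_mul_of_nonneg_left ?_ (ht x)
    by_cases h4 : OkI T p (r x) ∧
      (∀ i, ¬ killT (2 ^ e) (fun a => T (p a)) (Ys i) (fun b => T (r x b))) ∧
      (BadK (winX (2 ^ e) 2 (fun a => T (p a)) (fun b => T (r x b))) μ
          (Cs (2 ^ e) fun a => T (p a)) kX ∨
        BadS (winX (2 ^ e) 2 (fun a => T (p a)) (fun b => T (r x b))) μ
          (Cs (2 ^ e) fun a => T (p a)) K₀ η)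
    · rw [if_pos h4]
      rcases h4.2.2 with h5 | h5
      · rw [if_pos ⟨h4.1, h4.2.1, h5⟩]
        split_ifs <;> norm_num
      · rw [if_pos (⟨h4.1, h5⟩ : OkI T p (r x) ∧ _)]
        split_ifs <;> norm_num
    · rw [if_neg h4]
      split_ifs <;> norm_num
  linarith

end Crest.Agent.R042.PBLabel341
end

-- ▼ part R042/PBLabel2_341
section

/-!
# Plan B of row 42 / S0059: the label theorem in the form consumed by `HG_365`
-/

set_option autoImplicit false
set_option linter.unusedSectionVars false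

namespace Crest.Agent.R042.PBLabel341

open Finset Crest.Agent.R042.RowWin543 Crest.Agent.R042.Fam543 Crest.Agent.R042.PB
open Crest.Agent.R042.LocFam958 (VV lab lab_false lab_true TT EE winX winX_apply NN)
open Crest.Agent.R042.PBMom253 Crest.Agent.R042.ConfB461

variable {k0 KK : Type} [Field k0] [Field KK] [Algebra k0 KK] {d L : ℕ}

open scoped Classical in
/-- **`LabelConcl` of 365 from the label theorem** -/
theorem labelConcl [Fintype k0] [Fintype KK] [CharP KK 2] {q h m b C : ℕ} (hno : NoK q h m b C)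
    (hq : Fintype.card k0 = q) {K : Set k0} (hK : Alph K) {ι : Type} {T : ι → Ty k0 KK d L}
    (hT : ∀ i, Valid K (T i))
    (hLI : ∀ J : Finset ι, J.card ≤ 6 → LinearIndependent KK (fun i : J => (T i).b))
    (e : ℕ) (hL : 0 < L) (p : Bool → ι) (hp : p false ≠ p true) (m1 : ℝ)
    (μ : VV k0 KK d 2 L → ℝ) (hμ : ∀ f, 0 ≤ μ f) (sμ : ∑ f, μ f = 1) (M : ℝ)
    (hM : ∀ f, μ f * (Fintype.card (VV k0 KK d 2 L) : ℝ) ≤ M) (kX : ℝ) (hkX : 0 ≤ kX)
    (θ δ : ℝ) (J : ℕ) (hθ : 0 < θ) (hJ : Real.log (2 / θ) ≤ δ * J) (hm1δ : 2 * m1 / θ ≤ δ)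
    (hδ1 : δ ≤ 1)
    (hnum : M * (2 * ((C : ℝ) *
      (δ ^ h + (Fintype.card (U KK d 2 L) : ℝ) ^ (2 * h + 2) * δ ^ m))) < (kX / 4) ^ (b + 1))
    (N : ℕ) (hN : 0 < N) (K₀ K₁ : ℝ) (hK₁ : 1 ≤ K₁) (hK₀ : K₁ * (Fintype.card k0 : ℝ) ^ 2 ≤ K₀)
    (η : ℝ) (hη : 0 ≤ η) (hsd : M * 2 ^ N * K₁ ^ (-(η * N / 2)) < η / 2)
    (hNm : 4 * (Fintype.card k0 : ℝ) ^ (2 * N) * m1 ≤ θ) :
    HG365.LabelConcl (2 ^ e) T J kX K₀ η θ m1 p μ := by
  intro κ _ r t ht st hm1
  obtain ⟨Ys, h1⟩ := label hno hq hK hT hLI e hL p hp r t ht st m1 hm1 μ hμ sμ M hM kX hkX θ δ J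
    hθ hJ hm1δ hδ1 hnum N hN K₀ K₁ hK₁ hK₀ η hη hsd hNm
  refine ⟨Ys, le_trans (le_of_eq ?_) h1⟩
  refine Finset.sum_congr rfl fun x _ => ?_
  congr 1
  exact if_congr Iff.rfl rfl rfl

end Crest.Agent.R042.PBLabel341
end

-- ▼ part R042/ParamBL_763
section

/-!
# Row 42 / S0059, plan B: the label-level numbers (PARAM-B, part L)

`X = card KK → ∞`; everything else (`q = card k0`, `u` with `card U = X ^ u`, the degree `Dg` of the
gadget graph, `d`, `η`) is fixed.  `n = X ^ n1` vertices, density bound `M = X ^ m1`,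
greedy step `δ = X ^ (-1/4)`, `J ≤ X ^ (1/3)`, `N ≈ log_q X / 4` comparators for the special part.
-/

set_option autoImplicit false

namespace Crest.Agent.R042.ParamBL763

open Filter Real Topology

/-- a power beats a constant times a smaller power -/
theorem ev_rpow (c : ℝ) {a b : ℝ} (hab : a < b) : ∀ᶠ X : ℝ in atTop, c * X ^ a ≤ X ^ b := by
  have h1 : Tendsto (fun X : ℝ => X ^ (b - a)) atTop atTop := tendsto_rpow_atTop (by linarith)
  filter_upwards [h1.eventually_ge_atTop c, eventually_gt_atTop 0] with X h2 h3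
  have h4 : X ^ b = X ^ (b - a) * X ^ a := by rw [← rpow_add h3]; congr 1; ring
  rw [h4]
  exact mul_le_mul_of_nonneg_right h2 (rpow_nonneg h3.le _)


/-- a power beats a constant times a power of the logarithm -/
theorem ev_log (c : ℝ) (k : ℕ) {b : ℝ} (hb : 0 < b) :
    ∀ᶠ X : ℝ in atTop, c * (log X) ^ k ≤ X ^ b := by
  have h1 : (fun X : ℝ => (log X) ^ k) =o[atTop] fun X : ℝ => X ^ b := by
    have := isLittleO_log_rpow_rpow_atTop (s := b) (k : ℝ) hb
    simpa [rpow_natCast] using this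
  have hc : 0 < 1 / (|c| + 1) := by positivity
  filter_upwards [h1.def hc, eventually_gt_atTop 1] with X h2 h3
  have h4 : 0 ≤ log X := log_nonneg h3.le
  rw [norm_of_nonneg (pow_nonneg h4 k), norm_of_nonneg (rpow_nonneg (by linarith) b)] at h2
  have h5 : (|c| + 1) * (log X) ^ k ≤ X ^ b := by
    have := mul_le_mul_of_nonneg_left h2 (show 0 ≤ |c| + 1 by positivity)
    refine this.trans (le_of_eq ?_)
    field_simp
  have h6 : c * (log X) ^ k ≤ (|c| + 1) * (log X) ^ k :=
    mul_le_mul_of_nonneg_right (by linarith [le_abs_self c]) (pow_nonneg h4 k)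
  linarith






end Crest.Agent.R042.ParamBL763
end

-- ▼ part R042/ParamSD_375
section

/-! Row 42 / S0059, PLAN B, numbers of the special density step: the constant `K₀` is fixed before
the size `X` of the field; the number `N` of independent blocks is of order `log X`. -/

set_option autoImplicit false

namespace Crest.Agent.R042.ParamSD375

open Filter

theorem sd_numbers (q : ℕ) (hq : 2 ≤ q) (η m1 c : ℝ) (hη : 0 < η) (hm1 : 0 ≤ m1) (hc : 0 < c) :
    ∃ K₀ : ℝ, 1 ≤ K₀ ∧ ∀ᶠ X : ℝ in atTop, ∃ N : ℕ, 0 < N ∧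
      X ^ m1 * 2 ^ N * K₀ ^ (-(η * N / 2)) < η / 2 ∧ (q : ℝ) ^ (2 * N) ≤ X ^ c := by
  have hq1 : (1 : ℝ) < q := by exact_mod_cast hq
  have hlq : 0 < Real.log q := Real.log_pos hq1
  have hl2 : 0 < Real.log 2 := Real.log_pos (by norm_num)
  set a : ℝ := (m1 + 1) * (2 * Real.log q / c) with ha
  have ha0 : 0 < a := by positivity
  set κ : ℝ := 2 / η * (a + Real.log 2) with hκ
  have hκ0 : 0 < κ := by positivity
  refine ⟨Real.exp κ, Real.one_le_exp hκ0.le, ?_⟩
  have ev1 : ∀ᶠ X : ℝ in atTop, Real.exp a * (2 / η) < X := eventually_gt_atTop _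
  have ev2 : ∀ᶠ X : ℝ in atTop, 1 < X := eventually_gt_atTop _
  have ev3 : ∀ᶠ X : ℝ in atTop, 2 * Real.log q / c ≤ Real.log X :=
    Real.tendsto_log_atTop.eventually_ge_atTop _
  filter_upwards [ev1, ev2, ev3] with X h1 h2 h3
  have hX : 0 < X := by linarith
  have hlX : 0 < Real.log X := Real.log_pos h2
  set y : ℝ := c * Real.log X / (2 * Real.log q) with hy
  have hy1 : 1 ≤ y := by
    rw [hy, le_div_iff₀ (by positivity)]
    rw [div_le_iff₀ hc] at h3
    linarith
  refine ⟨⌊y⌋₊, Nat.floor_pos.2 hy1, ?_, ?_⟩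
  · have hN : y - 1 < (⌊y⌋₊ : ℝ) := by
      have := Nat.lt_floor_add_one y
      linarith
    set N : ℝ := (⌊y⌋₊ : ℝ) with hNdef
    have e1 : X ^ m1 = Real.exp (Real.log X * m1) := Real.rpow_def_of_pos hX m1
    have e2 : (2 : ℝ) ^ ⌊y⌋₊ = Real.exp (N * Real.log 2) := by
      rw [hNdef, Real.exp_nat_mul, Real.exp_log (by norm_num)]
    have e3 : Real.exp κ ^ (-(η * N / 2)) = Real.exp (-(κ * (η * N / 2))) := by
      rw [Real.rpow_def_of_pos (Real.exp_pos κ), Real.log_exp]
      congr 1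
      ring
    rw [e1, e2, e3, ← Real.exp_add, ← Real.exp_add]
    have e4 : Real.log X * m1 + N * Real.log 2 + -(κ * (η * N / 2)) = Real.log X * m1 - N * a := by
      rw [hκ]
      field_simp
      ring
    rw [e4]
    have e5 : (y - 1) * a ≤ N * a := mul_le_mul_of_nonneg_right hN.le ha0.le
    have e6 : y * a = (m1 + 1) * Real.log X := by
      rw [hy, ha]
      field_simp
    have e7 : Real.log X * m1 - N * a ≤ a - Real.log X := by nlinarith
    refine lt_of_le_of_lt (Real.exp_le_exp.2 e7) ?_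
    rw [Real.exp_sub, Real.exp_log hX, div_lt_iff₀ hX]
    have := mul_lt_mul_of_pos_right h1 (show (0:ℝ) < η / 2 by positivity)
    have e8 : Real.exp a * (2 / η) * (η / 2) = Real.exp a := by field_simp
    rw [e8] at this
    linarith
  · have hN : (⌊y⌋₊ : ℝ) ≤ y := Nat.floor_le (by linarith)
    have e1 : (q : ℝ) ^ (2 * ⌊y⌋₊) = Real.exp ((2 * ⌊y⌋₊ : ℝ) * Real.log q) := by
      have : (2 * ⌊y⌋₊ : ℝ) = ((2 * ⌊y⌋₊ : ℕ) : ℝ) := by push_cast; ring
      rw [this, Real.exp_nat_mul, Real.exp_log (by linarith)]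
    rw [e1, Real.rpow_def_of_pos hX]
    refine Real.exp_le_exp.2 ?_
    have e2 : y * (2 * Real.log q) = c * Real.log X := by
      rw [hy]
      field_simp
    nlinarith [mul_le_mul_of_nonneg_right hN (show (0:ℝ) ≤ 2 * Real.log q by positivity)]

end Crest.Agent.R042.ParamSD375
end

-- ▼ part R042/ParamMom_375
section

/-! Row 42 / S0059, PLAN B, numbers of the moment step. -/

set_option autoImplicit false

namespace Crest.Agent.R042.ParamSD375

open Filter

theorem mom_numbers (m1 u1 s : ℝ) (hs : 0 < s) (hm1 : 0 ≤ m1) (hu1 : 0 ≤ u1) (h₀ m₀ : ℕ) :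
    ∃ h m : ℕ, h₀ ≤ h ∧ m₀ ≤ m ∧ ∀ (b C : ℕ) (ε : ℝ), 0 < ε → ∀ᶠ X : ℝ in atTop,
      ∀ M' U δ : ℝ, 0 ≤ M' → M' ≤ X ^ m1 → 0 ≤ U → U ≤ X ^ u1 → 0 ≤ δ → δ ≤ X ^ (-s) →
      M' * (2 * (C * (δ ^ h + U ^ (2 * h + 2) * δ ^ m))) < (ε / 4) ^ (b + 1) := by
  obtain ⟨h, hh⟩ := exists_nat_ge (max ((m1 + 1) / s) h₀)
  obtain ⟨m, hm⟩ := exists_nat_ge (max ((m1 + 1 + u1 * (2 * h + 2)) / s) m₀)
  have hh1 : (m1 + 1) / s ≤ h := (le_max_left _ _).trans hh
  have hh2 : h₀ ≤ h := by exact_mod_cast (le_max_right _ _).trans hh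
  have hm1' : (m1 + 1 + u1 * (2 * h + 2)) / s ≤ m := (le_max_left _ _).trans hm
  have hm2 : m₀ ≤ m := by exact_mod_cast (le_max_right _ _).trans hm
  refine ⟨h, m, hh2, hm2, ?_⟩
  intro b C ε hε
  have hpos : 0 < (ε / 4) ^ (b + 1) := by positivity
  have ev1 : ∀ᶠ X : ℝ in atTop, 4 * C / (ε / 4) ^ (b + 1) < X := eventually_gt_atTop _
  have ev2 : ∀ᶠ X : ℝ in atTop, 1 < X := eventually_gt_atTop _
  filter_upwards [ev1, ev2] with X h1 h2
  intro M' U δ hM0 hM hU0 hU hδ0 hδ
  have hX : 0 < X := by linarith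
  rw [div_le_iff₀ hs] at hh1 hm1'
  have p1 : δ ^ h ≤ X ^ (-(s * h)) := by
    have := pow_le_pow_left₀ hδ0 hδ h
    rw [← Real.rpow_natCast (X ^ (-s)) h, ← Real.rpow_mul hX.le] at this
    rw [show -(s * h) = -s * h by ring]
    exact this
  have p2 : δ ^ m ≤ X ^ (-(s * m)) := by
    have := pow_le_pow_left₀ hδ0 hδ m
    rw [← Real.rpow_natCast (X ^ (-s)) m, ← Real.rpow_mul hX.le] at this
    rw [show -(s * m) = -s * m by ring]
    exact this
  have p3 : U ^ (2 * h + 2) ≤ X ^ (u1 * (2 * h + 2)) := by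
    have := pow_le_pow_left₀ hU0 hU (2 * h + 2)
    rw [← Real.rpow_natCast (X ^ u1) (2 * h + 2), ← Real.rpow_mul hX.le] at this
    push_cast at this
    exact this
  have q1 : M' * δ ^ h ≤ X⁻¹ := by
    calc M' * δ ^ h ≤ X ^ m1 * X ^ (-(s * h)) := by
          refine mul_le_mul hM p1 (by positivity) (by positivity)
      _ = X ^ (m1 + -(s * h)) := (Real.rpow_add hX _ _).symm
      _ ≤ X ^ (-1 : ℝ) := Real.rpow_le_rpow_of_exponent_le h2.le (by nlinarith)
      _ = X⁻¹ := Real.rpow_neg_one X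
  have q2 : M' * (U ^ (2 * h + 2) * δ ^ m) ≤ X⁻¹ := by
    calc M' * (U ^ (2 * h + 2) * δ ^ m) ≤ X ^ m1 * (X ^ (u1 * (2 * h + 2)) * X ^ (-(s * m))) := by
          refine mul_le_mul hM (mul_le_mul p3 p2 (by positivity) (by positivity))
            (by positivity) (by positivity)
      _ = X ^ (m1 + (u1 * (2 * h + 2) + -(s * m))) := by
          rw [← Real.rpow_add hX, ← Real.rpow_add hX]
      _ ≤ X ^ (-1 : ℝ) := Real.rpow_le_rpow_of_exponent_le h2.le (by nlinarith)
      _ = X⁻¹ := Real.rpow_neg_one X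
  have q3 : M' * (2 * (C * (δ ^ h + U ^ (2 * h + 2) * δ ^ m))) ≤ 4 * C * X⁻¹ := by
    have e1 : M' * (2 * (C * (δ ^ h + U ^ (2 * h + 2) * δ ^ m))) =
        2 * C * (M' * δ ^ h + M' * (U ^ (2 * h + 2) * δ ^ m)) := by ring
    rw [e1]
    have : (0 : ℝ) ≤ 2 * C := by positivity
    nlinarith
  refine lt_of_le_of_lt q3 ?_
  rw [div_lt_iff₀ hpos] at h1
  rw [← div_eq_mul_inv, div_lt_iff₀ hX]
  linarith

end Crest.Agent.R042.ParamSD375
end

-- ▼ part R042/ParamBL2_763
section

/-!
# Row 42 (S0059, plan B): all label-level numbers in one package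

Letters of 766: `Kc = q ^ (2 j)`, `N = Kc ^ 17` types, `J = q ^ j` greedy steps, `ρ = Kc⁻¹`,
`θ = cθ ρ ^ 4`, atoms `cm / Kc ^ 17`.  The output is literally the list `numbers` of the label
theorem (341, #29028) with `m1 := cm / Kc ^ 17`.  Own mathematics of the team.
-/

namespace Crest.Agent.R042.ParamBL763

open Real Filter Topology

/-- `Kc = q ^ (2 j)` tends to infinity -/
theorem tendsto_Kc (q : ℕ) (hq : 2 ≤ q) :
    Tendsto (fun j : ℕ => (q : ℝ) ^ (2 * j)) atTop atTop := by
  have h1 : Tendsto (fun j : ℕ => (q : ℝ) ^ j) atTop atTop :=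
    tendsto_pow_atTop_atTop_of_one_lt (by exact_mod_cast (by omega : 1 < q))
  exact h1.comp (tendsto_id.const_mul_atTop' (by norm_num))

theorem sqrt_Kc (q : ℕ) (j : ℕ) :
    ((q : ℝ) ^ (2 * j)) ^ ((1 : ℝ) / 2) = (q : ℝ) ^ j := by
  have hq : (0 : ℝ) ≤ (q : ℝ) ^ j := by positivity
  rw [pow_mul', ← rpow_natCast ((q : ℝ) ^ j) 2, ← rpow_mul hq]
  norm_num

/-- **the greedy number** with `J = X ^ (1/2)`, `δ = X ^ (-1/4)`, `θ = c (X⁻¹) ^ 4` -/
theorem ev_greedy' {c : ℝ} (hc : 0 < c) :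
    ∀ᶠ X : ℝ in atTop, log (2 / (c * X⁻¹ ^ 4)) ≤ X ^ (-(1 / 4) : ℝ) * X ^ ((1 : ℝ) / 2) := by
  have h1 := ev_log (c := 4 + |log (2 / c)|) 1 (b := (1 : ℝ) / 4) (by norm_num)
  filter_upwards [h1, eventually_gt_atTop (exp 1)] with X h1 h3
  have h0 : 0 < X := (exp_pos 1).trans h3
  have hl1 : 1 ≤ log X := by
    rw [le_log_iff_exp_le h0]; exact h3.le
  have e0 : X ^ (-(1 / 4) : ℝ) * X ^ ((1 : ℝ) / 2) = X ^ ((1 : ℝ) / 4) := by
    rw [← rpow_add h0]; norm_num
  rw [e0]
  rw [pow_one] at h1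
  refine le_trans ?_ h1
  have e1 : log (2 / (c * X⁻¹ ^ 4)) = log (2 / c) + 4 * log X := by
    have : 2 / (c * X⁻¹ ^ 4) = (2 / c) * X ^ 4 := by field_simp
    rw [this, log_mul (by positivity) (by positivity), log_pow]
    norm_num
  rw [e1]
  have := le_abs_self (log (2 / c))
  have h5 : log (2 / c) ≤ |log (2 / c)| * log X := by
    refine this.trans ?_
    nlinarith [abs_nonneg (log (2 / c))]
  linarith

/-- atoms against `δ θ` -/
theorem ev_atom {c cm : ℝ} (hc : 0 < c) :
    ∀ᶠ X : ℝ in atTop, 2 * (cm / X ^ 17) / (c * X⁻¹ ^ 4) ≤ X ^ (-(1 / 4) : ℝ) := by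
  have h1 := ev_rpow (2 * |cm| / c) (a := (-13 : ℝ)) (b := -(1 / 4 : ℝ)) (by norm_num)
  filter_upwards [h1, eventually_gt_atTop 0] with X h1 h0
  refine le_trans ?_ h1
  have e1 : X ^ (-13 : ℝ) = X⁻¹ ^ 13 := by
    rw [rpow_neg h0.le, inv_pow]
    norm_cast
  rw [e1]
  have e2 : 2 * (cm / X ^ 17) / (c * X⁻¹ ^ 4) = 2 * cm / c * X⁻¹ ^ 13 := by
    field_simp
  rw [e2]
  refine mul_le_mul_of_nonneg_right ?_ (by positivity)
  gcongr
  exact le_abs_self cm

/-- special mass against `θ` -/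
theorem ev_smass {c cm : ℝ} (hc : 0 < c) :
    ∀ᶠ X : ℝ in atTop, ∀ s : ℝ, 0 ≤ s → s ≤ X →
      2 * (2 * s * (|cm| / X ^ 17)) ≤ c * X⁻¹ ^ 4 := by
  have h1 := ev_rpow (4 * |cm| / c) (a := (-16 : ℝ)) (b := -4) (by norm_num)
  filter_upwards [h1, eventually_gt_atTop 0] with X h1 h0
  intro s hs hsX
  have e1 : X ^ (-16 : ℝ) = X⁻¹ ^ 16 := by
    rw [rpow_neg h0.le, inv_pow]
    norm_cast
  have e2 : X ^ (-4 : ℝ) = X⁻¹ ^ 4 := by
    rw [rpow_neg h0.le, inv_pow]
    norm_cast
  rw [e1, e2] at h1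
  have e3 : 2 * (2 * s * (|cm| / X ^ 17)) ≤ 2 * (2 * X * (|cm| / X ^ 17)) := by
    gcongr
  refine e3.trans ?_
  have e4 : 2 * (2 * X * (|cm| / X ^ 17)) = c * (4 * |cm| / c * X⁻¹ ^ 16) := by
    field_simp
    ring
  rw [e4]
  exact mul_le_mul_of_nonneg_left h1 hc.le

/-- `X ^ c` beats: `s ≤ X ^ (1/8)` gives `2 s X ^ (-1/4) < 1` -/
theorem ev_small : ∀ᶠ X : ℝ in atTop, ∀ s : ℝ, s ≤ X ^ ((1 : ℝ) / 8) →
    2 * s * X ^ (-(1 / 4) : ℝ) < 1 := by
  have h1 := ev_rpow 3 (a := (0 : ℝ)) (b := 1 / 8) (by norm_num)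
  filter_upwards [h1, eventually_gt_atTop 0] with X h1 h0
  intro s hs
  rw [rpow_zero, mul_one] at h1
  have hp : 0 < X ^ (-(1 / 4) : ℝ) := rpow_pos_of_pos h0 _
  have e1 : X ^ ((1 : ℝ) / 8) * (X ^ ((1 : ℝ) / 8) * X ^ (-(1 / 4) : ℝ)) = 1 := by
    rw [← rpow_add h0, ← rpow_add h0]; norm_num
  have hq : 0 < X ^ ((1 : ℝ) / 8) := rpow_pos_of_pos h0 _
  have e2 : 2 * s * X ^ (-(1 / 4) : ℝ) ≤ 2 * (X ^ ((1 : ℝ) / 8) * X ^ (-(1 / 4) : ℝ)) := by
    have := mul_le_mul_of_nonneg_right hs hp.le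
    linarith
  have hr : 0 < X ^ ((1 : ℝ) / 8) * X ^ (-(1 / 4) : ℝ) := mul_pos hq hp
  nlinarith

theorem ev_small2 : ∀ᶠ X : ℝ in atTop, X ^ (-(1 / 4) : ℝ) ≤ 1 := by
  filter_upwards [eventually_ge_atTop 1] with X h1
  exact rpow_le_one_of_one_le_of_nonpos h1 (by norm_num)

/-- **LABEL NUMBERS** (the list `numbers` of 341's label theorem).  Order of the constants:
`q, m1, u1, η, cm, cθ, h₀, m₀ ⟶ h, m, K₀ ⟶ b, C, ε ⟶ j`. -/
theorem label_numbers (q : ℕ) (hq : 2 ≤ q) (m1 u1 : ℕ) {η : ℝ} (hη : 0 < η) {cm cθ : ℝ}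
    (hcm : 0 ≤ cm) (hcθ : 0 < cθ) (h₀ m₀ : ℕ) :
    ∃ (h m : ℕ) (K₀ : ℝ), h₀ ≤ h ∧ m₀ ≤ m ∧ 1 ≤ K₀ ∧
      ∀ (b C : ℕ) (ε : ℝ), 0 < ε → ∀ᶠ j : ℕ in atTop, ∃ (N : ℕ) (δ : ℝ), 0 < N ∧ 0 < δ ∧ δ ≤ 1 ∧
        0 < cθ * ((q : ℝ) ^ (2 * j))⁻¹ ^ 4 ∧
        log (2 / (cθ * ((q : ℝ) ^ (2 * j))⁻¹ ^ 4)) ≤ δ * ((q ^ j : ℕ) : ℝ) ∧
        2 * (cm / ((q : ℝ) ^ (2 * j)) ^ 17) / (cθ * ((q : ℝ) ^ (2 * j))⁻¹ ^ 4) ≤ δ ∧
        2 * (2 * (q : ℝ) ^ (2 * N) * (cm / ((q : ℝ) ^ (2 * j)) ^ 17)) ≤
          cθ * ((q : ℝ) ^ (2 * j))⁻¹ ^ 4 ∧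
        2 * (q : ℝ) ^ (2 * N) * δ < 1 ∧
        ∀ M U : ℝ, 0 ≤ M → M ≤ ((q : ℝ) ^ (2 * j)) ^ m1 → 0 ≤ U → U ≤ ((q : ℝ) ^ (2 * j)) ^ u1 →
          M * (2 * ((C : ℝ) * (δ ^ h + U ^ (2 * h + 2) * δ ^ m))) < (ε / 4) ^ (b + 1) ∧
          M * 2 ^ N * K₀ ^ (-(η * N / 2)) < η / 2 := by
  obtain ⟨h, m, hh, hm, hmom⟩ := ParamSD375.mom_numbers m1 u1 (1 / 4) (by norm_num)
    (Nat.cast_nonneg _) (Nat.cast_nonneg _) h₀ m₀
  obtain ⟨K₀, hK₀, hsd⟩ := ParamSD375.sd_numbers q hq η m1 (1 / 8) hη (Nat.cast_nonneg _)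
    (by norm_num)
  refine ⟨h, m, K₀, hh, hm, hK₀, ?_⟩
  intro b C ε hε
  have t := tendsto_Kc q hq
  filter_upwards [t.eventually (hmom b C ε hε), t.eventually hsd, t.eventually (ev_greedy' hcθ),
    t.eventually (ev_atom (cm := cm) hcθ), t.eventually (ev_smass (cm := cm) hcθ),
    t.eventually ev_small, t.eventually ev_small2, t.eventually (eventually_gt_atTop 1)]
    with j e1 e2 e3 e4 e5 e6 e7 e8
  obtain ⟨N, hN, hsdN, hqN⟩ := e2
  have h0 : (0 : ℝ) < (q : ℝ) ^ (2 * j) := by linarith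
  refine ⟨N, ((q : ℝ) ^ (2 * j)) ^ (-(1 / 4) : ℝ), hN, rpow_pos_of_pos h0 _, e7, by positivity,
    ?_, e4, ?_, e6 _ hqN, ?_⟩
  · rw [sqrt_Kc] at e3
    rw [Nat.cast_pow]
    exact e3
  · have hle : ((q : ℝ) ^ (2 * j)) ^ ((1 : ℝ) / 8) ≤ (q : ℝ) ^ (2 * j) := by
      calc ((q : ℝ) ^ (2 * j)) ^ ((1 : ℝ) / 8) ≤ ((q : ℝ) ^ (2 * j)) ^ (1 : ℝ) :=
            rpow_le_rpow_of_exponent_le e8.le (by norm_num)
        _ = _ := rpow_one _
    have := e5 _ (by positivity) (hqN.trans hle)
    rwa [abs_of_nonneg hcm] at this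
  · intro M U hM hM' hU hU'
    refine ⟨e1 M U _ hM (by rwa [rpow_natCast]) hU (by rwa [rpow_natCast])
      (rpow_pos_of_pos h0 _).le le_rfl, ?_⟩
    refine lt_of_le_of_lt ?_ hsdN
    have hK0 : (0 : ℝ) ≤ K₀ ^ (-(η * N / 2)) := rpow_nonneg (by linarith) _
    rw [rpow_natCast]
    gcongr

end Crest.Agent.R042.ParamBL763
end

-- ▼ part R042/Rel_477
section

/-!
# Row 42, label level: the relation lemma (algebraic part)

`Rel477.structure`: if `∑ f (u i) (e i) = 0` for all symmetric bilinear forms `f`, and the `u i`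
(`i` outside `D`) are linearly independent, then the `e i` (`i` outside `D`) are combinations of
the `u`'s with an "antisymmetric up to `ε`" coefficient matrix, plus finitely many parameters.
-/

namespace Crest.Agent.R042.Rel477

open Finset

variable {F W : Type*} [Field F] [AddCommGroup W] [Module F W]

/-- the relation: killed by all symmetric bilinear forms -/
def IsRel {ι : Type*} [Fintype ι] (F : Type*) {W : Type*} [Field F] [AddCommGroup W] [Module F W]
    (u e : ι → W) : Prop :=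
  ∀ f : W →ₗ[F] W →ₗ[F] F, (∀ x y, f x y = f y x) → ∑ i, f (u i) (e i) = 0

lemma rel_dual {ι : Type*} [Fintype ι] {u e : ι → W} (h : IsRel F u e)
    (l : W →ₗ[F] F) : ∑ i, (l (u i) • e i + l (e i) • u i) = 0 := by
  classical
  rw [← Module.forall_dual_apply_eq_zero_iff F]
  intro g
  have := h (LinearMap.mk₂ F (fun x y => l x * g y + g x * l y)
    (by intro a b c; simp; ring) (by intro a b c; simp; ring)
    (by intro a b c; simp; ring) (by intro a b c; simp; ring)) (by
      intro x y; simp; ring)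
  simp only [LinearMap.mk₂_apply] at this
  rw [map_sum, ← this]
  refine Finset.sum_congr rfl fun i _ => ?_
  simp; ring

/-- structure of relations. `D` = indices with free parameters. -/
theorem structure' {ι : Type*} [Fintype ι] [DecidableEq ι] {u e : ι → W} (h : IsRel F u e)
    (D : Finset ι) (hli : LinearIndependent F (fun i : {i // i ∉ D} => u i)) :
    ∃ (c a a' : ι → ι → F),
      (∀ i, i ∉ D → e i = ∑ l ∈ Dᶜ, c i l • u l + ∑ l ∈ D, (a i l • e l + a' i l • u l)) ∧
      (∀ i, i ∉ D → ∀ k, k ∉ D → c i k + c k i = ∑ l ∈ D, (a k l * a' i l + a' k l * a i l)) := by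
  classical
  -- dual functionals
  have hex : ∀ i : {i // i ∉ D}, ∃ l : W →ₗ[F] F, ∀ k : {i // i ∉ D}, l (u k) = if k = i then 1 else 0 := by
    intro i
    obtain ⟨g, hg⟩ := (hli.repr).exists_extend
    refine ⟨(Finsupp.lapply i).comp g, fun k => ?_⟩
    have h1 : g (u k) = Finsupp.single k 1 := by
      have : u k ∈ Submodule.span F (Set.range (fun i : {i // i ∉ D} => u i)) :=
        Submodule.subset_span ⟨k, rfl⟩
      have h2 := congrArg (fun t => t ⟨u k, this⟩) hg
      simp only [LinearMap.comp_apply, Submodule.subtype_apply] at h2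
      rw [h2]
      exact hli.repr_eq_single k _ rfl
    simp only [LinearMap.comp_apply, h1, Finsupp.lapply_apply, Finsupp.single_apply]
  choose L hL using hex
  let L' : ι → W →ₗ[F] F := fun i => if h : i ∉ D then L ⟨i, h⟩ else 0
  have hL' : ∀ i, i ∉ D → ∀ k, k ∉ D → L' i (u k) = if k = i then 1 else 0 := by
    intro i hi k hk
    simp only [L', dif_pos hi]
    have := hL ⟨i, hi⟩ ⟨k, hk⟩
    simpa [Subtype.mk.injEq] using this
  have key : ∀ i, i ∉ D → e i = ∑ l ∈ Dᶜ, (-(L' i (e l))) • u l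
      + ∑ l ∈ D, ((-(L' i (u l))) • e l + (-(L' i (e l))) • u l) := by
    intro i hi
    have h0 := rel_dual h (L' i)
    rw [← Finset.sum_compl_add_sum D] at h0
    have h1 : ∑ l ∈ Dᶜ, (L' i (u l) • e l + L' i (e l) • u l)
        = e i + ∑ l ∈ Dᶜ, L' i (e l) • u l := by
      rw [Finset.sum_add_distrib]
      congr 1
      rw [Finset.sum_eq_single i]
      · rw [hL' i hi i hi]; simp
      · intro b hb hbi
        rw [hL' i hi b (by simpa using hb), if_neg hbi, zero_smul]
      · intro hn; exact absurd (by simpa using hi) hn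
    rw [h1] at h0
    have h2 : e i = -(∑ l ∈ Dᶜ, L' i (e l) • u l)
        - ∑ l ∈ D, (L' i (u l) • e l + L' i (e l) • u l) := by
      have : e i + ∑ l ∈ Dᶜ, L' i (e l) • u l
        + ∑ l ∈ D, (L' i (u l) • e l + L' i (e l) • u l) = 0 := h0
      rw [← sub_eq_zero]
      rw [← this]; abel
    rw [h2]
    simp only [neg_smul, Finset.sum_add_distrib, Finset.sum_neg_distrib]
    abel
  refine ⟨fun i l => -(L' i (e l)), fun i l => -(L' i (u l)), fun i l => -(L' i (e l)),
    key, ?_⟩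
  intro i hi k hk
  have h3 := congrArg (L' i) (key k hk)
  simp only [map_add, map_sum, map_smul, smul_eq_mul] at h3
  have h4 : ∑ l ∈ Dᶜ, -(L' k (e l)) * L' i (u l) = -(L' k (e i)) := by
    rw [Finset.sum_eq_single i]
    · rw [hL' i hi i hi]; simp
    · intro b hb hbi
      rw [hL' i hi b (by simpa using hb), if_neg hbi, mul_zero]
    · intro hn; exact absurd (by simpa using hi) hn
  rw [h4] at h3
  -- h3 : L' i (e k) = -(L' k (e i)) + Σ_D (−L' k(u l) * L' i (e l) + −L' k(e l) * L' i (u l))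
  show -(L' i (e k)) + -(L' k (e i)) = _
  rw [h3]
  have h5 : ∑ l ∈ D, (-(L' k (u l)) * -(L' i (e l)) + -(L' k (e l)) * -(L' i (u l)))
      = - ∑ l ∈ D, (-(L' k (u l)) * L' i (e l) + -(L' k (e l)) * L' i (u l)) := by
    rw [← Finset.sum_neg_distrib]
    exact Finset.sum_congr rfl fun l _ => by ring
  rw [h5]
  ring

end Crest.Agent.R042.Rel477
end

-- ▼ part R042/Seq_477
section

/-!
# Row 42: product measures, resampling, sequential bounds (helper477)
-/

namespace Crest.Agent.R042.Seq477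

open Finset Function
open scoped Classical

noncomputable section

variable {Ω : Type*} [Fintype Ω]

/-- expectation of `f` for an i.i.d. family with law `τ` -/
def Ex {ι : Type*} [Fintype ι] (τ : Ω → ℝ) (f : (ι → Ω) → ℝ) : ℝ :=
  ∑ ω : ι → Ω, (∏ i, τ (ω i)) * f ω

/-- indicator -/
def ind (p : Prop) : ℝ := if p then 1 else 0

lemma ind_true {p : Prop} (h : p) : ind p = 1 := by simp [ind, h]
lemma ind_false {p : Prop} (h : ¬ p) : ind p = 0 := by simp [ind, h]
lemma ind_nonneg (p : Prop) : 0 ≤ ind p := by unfold ind; split_ifs <;> norm_num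
lemma ind_le_one (p : Prop) : ind p ≤ 1 := by unfold ind; split_ifs <;> norm_num
lemma ind_mono {p q : Prop} (h : p → q) : ind p ≤ ind q := by
  by_cases hp : p
  · rw [ind_true hp, ind_true (h hp)]
  · rw [ind_false hp]; exact ind_nonneg q
lemma ind_and (p q : Prop) : ind (p ∧ q) = ind p * ind q := by
  by_cases hp : p <;> by_cases hq : q <;> simp [ind, hp, hq]

/-- probability of `p` under the weight `τ` -/
def pr (τ : Ω → ℝ) (p : Ω → Prop) : ℝ := ∑ x, τ x * ind (p x)

lemma pr_nonneg {τ : Ω → ℝ} (h0 : ∀ x, 0 ≤ τ x) (p : Ω → Prop) : 0 ≤ pr τ p :=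
  Finset.sum_nonneg fun x _ => mul_nonneg (h0 x) (ind_nonneg _)

lemma pr_mono {τ : Ω → ℝ} (h0 : ∀ x, 0 ≤ τ x) {p q : Ω → Prop} (h : ∀ x, p x → q x) :
    pr τ p ≤ pr τ q :=
  Finset.sum_le_sum fun x _ => mul_le_mul_of_nonneg_left (ind_mono (h x)) (h0 x)


lemma pr_le_one {τ : Ω → ℝ} (h0 : ∀ x, 0 ≤ τ x) (h1 : ∑ x, τ x = 1) (p : Ω → Prop) :
    pr τ p ≤ 1 := by
  rw [← h1]
  refine Finset.sum_le_sum fun x _ => ?_
  have := mul_le_mul_of_nonneg_left (ind_le_one (p x)) (h0 x)
  simpa using this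

section
variable {ι : Type*} [Fintype ι]

lemma prod_update (τ : Ω → ℝ) (ω : ι → Ω) (i : ι) (x : Ω) :
    (∏ j, τ (update ω i x j)) * τ (ω i) = (∏ j, τ (ω j)) * τ x := by
  have h1 : ∏ j, τ (update ω i x j) = τ x * ∏ j ∈ univ \ {i}, τ (ω j) := by
    have := Finset.prod_update_of_mem (mem_univ i) (fun j => τ (ω j)) (τ x)
    rw [← this]
    refine Finset.prod_congr rfl fun j _ => ?_
    by_cases hj : j = i
    · subst hj; simp
    · simp [hj]
  have h2 : ∏ j, τ (ω j) = τ (ω i) * ∏ j ∈ univ \ {i}, τ (ω j) := by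
    have := Finset.prod_update_of_mem (mem_univ i) (fun j => τ (ω j)) (τ (ω i))
    rw [← this]
    refine Finset.prod_congr rfl fun j _ => ?_
    by_cases hj : j = i
    · subst hj; simp
    · simp [hj]
  rw [h1, h2]; ring

lemma Ex_resample (τ : Ω → ℝ) (h1 : ∑ x, τ x = 1) (i : ι) (f : (ι → Ω) → ℝ) :
    Ex τ f = Ex τ (fun ω => ∑ x, τ x * f (update ω i x)) := by
  unfold Ex
  have hR : ∑ ω : ι → Ω, (∏ j, τ (ω j)) * ∑ x, τ x * f (update ω i x)
      = ∑ p : (ι → Ω) × Ω, (∏ j, τ (p.1 j)) * τ p.2 * f (update p.1 i p.2) := by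
    rw [Fintype.sum_prod_type]
    refine Finset.sum_congr rfl fun ω _ => ?_
    rw [Finset.mul_sum]
    exact Finset.sum_congr rfl fun x _ => by ring
  have hL : ∑ ω : ι → Ω, (∏ j, τ (ω j)) * f ω
      = ∑ p : (ι → Ω) × Ω, (∏ j, τ (p.1 j)) * τ p.2 * f p.1 := by
    rw [Fintype.sum_prod_type]
    refine Finset.sum_congr rfl fun ω _ => ?_
    have : ∑ x, (∏ j, τ (ω j)) * τ x * f ω = ((∏ j, τ (ω j)) * f ω) * ∑ x, τ x := by
      rw [Finset.mul_sum]
      exact Finset.sum_congr rfl fun x _ => by ring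
    rw [this, h1, mul_one]
  rw [hR, hL]
  refine Finset.sum_nbij' (fun p => (update p.1 i p.2, p.1 i)) (fun p => (update p.1 i p.2, p.1 i))
    (fun _ _ => mem_univ _) (fun _ _ => mem_univ _) ?_ ?_ ?_
  · rintro ⟨ω, x⟩ _; simp
  · rintro ⟨ω, x⟩ _; simp
  · rintro ⟨ω, x⟩ _
    simp only [update_idem, update_eq_self]
    rw [prod_update]

lemma Ex_mono {τ : Ω → ℝ} (h0 : ∀ x, 0 ≤ τ x) {f g : (ι → Ω) → ℝ} (h : ∀ ω, f ω ≤ g ω) :
    Ex τ f ≤ Ex τ g :=
  Finset.sum_le_sum fun ω _ => mul_le_mul_of_nonneg_left (h ω) (Finset.prod_nonneg fun i _ => h0 _)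

lemma Ex_smul (τ : Ω → ℝ) (c : ℝ) (f : (ι → Ω) → ℝ) :
    Ex τ (fun ω => c * f ω) = c * Ex τ f := by
  unfold Ex
  rw [Finset.mul_sum]
  exact Finset.sum_congr rfl fun ω _ => by ring

lemma Ex_add (τ : Ω → ℝ) (f g : (ι → Ω) → ℝ) :
    Ex τ (fun ω => f ω + g ω) = Ex τ f + Ex τ g := by
  unfold Ex
  rw [← Finset.sum_add_distrib]
  exact Finset.sum_congr rfl fun ω _ => by ring

lemma Ex_sum (τ : Ω → ℝ) {κ : Type*} (s : Finset κ) (f : κ → (ι → Ω) → ℝ) :
    Ex τ (fun ω => ∑ k ∈ s, f k ω) = ∑ k ∈ s, Ex τ (f k) := by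
  unfold Ex
  rw [Finset.sum_comm]
  exact Finset.sum_congr rfl fun ω _ => by rw [Finset.mul_sum]

lemma Ex_one (τ : Ω → ℝ) (h1 : ∑ x, τ x = 1) : Ex (ι := ι) τ (fun _ => 1) = 1 := by
  unfold Ex
  simp only [mul_one]
  have := Finset.prod_univ_sum (fun _ : ι => (univ : Finset Ω)) (fun _ x => τ x)
  simp only [h1, Finset.prod_const_one, Fintype.piFinset_univ] at this
  exact this.symm

/-- sequential bound: `m` steps, each resampling the two coordinates `κ₀ r`, `κ₁ r`. -/
theorem seq_bound {τ : Ω → ℝ} (h0 : ∀ x, 0 ≤ τ x) (h1 : ∑ x, τ x = 1) (δ : ℝ) (hδ : 0 ≤ δ) :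
    ∀ (m : ℕ) (κ₀ κ₁ : Fin m → ι) (A : Fin m → (ι → Ω) → Prop)
      (_ : ∀ r t, r < t → ∀ ω x, (A r (update ω (κ₀ t) x) ↔ A r ω) ∧
        (A r (update ω (κ₁ t) x) ↔ A r ω))
      (_ : ∀ r ω, ∑ x, τ x * ∑ y, τ y *
        ind (A r (update (update ω (κ₀ r) x) (κ₁ r) y)) ≤ δ),
      Ex τ (fun ω => ind (∀ r, A r ω)) ≤ δ ^ m := by
  intro m
  induction m with
  | zero =>
    intro κ₀ κ₁ A _ _
    simp [ind, Ex_one τ h1]
  | succ m ih =>
    intro κ₀ κ₁ A hind hstep
    set f : (ι → Ω) → ℝ := fun ω => ind (∀ r : Fin m, A r.castSucc ω) with hf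
    set g : (ι → Ω) → ℝ := fun ω => ind (A (Fin.last m) ω) with hg
    have hfg : (fun ω => ind (∀ r, A r ω)) = fun ω => f ω * g ω := by
      funext ω
      simp only [hf, hg]
      rw [← ind_and]
      congr 1
      refine propext ⟨fun h => ⟨fun r => h _, h _⟩, fun h r => Fin.lastCases h.2 h.1 r⟩
    have hinv : ∀ ω x y, f (update (update ω (κ₀ (Fin.last m)) x) (κ₁ (Fin.last m)) y) = f ω := by
      intro ω x y
      simp only [hf]
      have : (∀ r : Fin m, A r.castSucc (update (update ω (κ₀ (Fin.last m)) x)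
          (κ₁ (Fin.last m)) y)) ↔ (∀ r : Fin m, A r.castSucc ω) := by
        refine forall_congr' fun r => ?_
        rw [(hind r.castSucc (Fin.last m) (Fin.castSucc_lt_last r) _ y).2,
          (hind r.castSucc (Fin.last m) (Fin.castSucc_lt_last r) _ x).1]
      simp only [this]
    rw [hfg, Ex_resample τ h1 (κ₁ (Fin.last m)), Ex_resample τ h1 (κ₀ (Fin.last m))]
    have hle : ∀ ω, ∑ x, τ x * ∑ y, τ y *
        (f (update (update ω (κ₀ (Fin.last m)) x) (κ₁ (Fin.last m)) y) *
         g (update (update ω (κ₀ (Fin.last m)) x) (κ₁ (Fin.last m)) y)) ≤ δ * f ω := by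
      intro ω
      have e1 : ∑ x, τ x * ∑ y, τ y *
        (f (update (update ω (κ₀ (Fin.last m)) x) (κ₁ (Fin.last m)) y) *
         g (update (update ω (κ₀ (Fin.last m)) x) (κ₁ (Fin.last m)) y)) =
         f ω * ∑ x, τ x * ∑ y, τ y * g (update (update ω (κ₀ (Fin.last m)) x)
          (κ₁ (Fin.last m)) y) := by
        rw [Finset.mul_sum]
        refine Finset.sum_congr rfl fun x _ => ?_
        rw [Finset.mul_sum, Finset.mul_sum, Finset.mul_sum]
        refine Finset.sum_congr rfl fun y _ => ?_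
        rw [hinv]; ring
      rw [e1, mul_comm]
      refine mul_le_mul_of_nonneg_right (hstep (Fin.last m) ω) ?_
      exact ind_nonneg _
    refine (Ex_mono h0 hle).trans ?_
    rw [Ex_smul, pow_succ, mul_comm]
    refine mul_le_mul_of_nonneg_right (ih (fun r => κ₀ r.castSucc) (fun r => κ₁ r.castSucc)
      (fun r => A r.castSucc) ?_ ?_) hδ
    · intro r t hrt ω x
      exact hind r.castSucc t.castSucc (by simpa using hrt) ω x
    · intro r ω
      exact hstep r.castSucc ω

end

end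

end Crest.Agent.R042.Seq477
end

-- ▼ part R042/Step_477
section

/-!
# Row 42: pair step, pattern bound, end-homogeneous sequences (helper477)
-/

namespace Crest.Agent.R042.Step477

open Finset Function Rel477 Seq477
open scoped Classical

noncomputable section

variable {F W Ω : Type*} [Field F] [AddCommGroup W] [Module F W] [Fintype Ω]

/-- the functional `f ↦ f u₀ e₀ + f u₁ e₁` vanishes on symmetric forms -/
def Triv (F : Type*) {W : Type*} [Field F] [AddCommGroup W] [Module F W] (u e : Bool → W) : Prop :=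
  ∀ f : W →ₗ[F] W →ₗ[F] F, (∀ x y, f x y = f y x) → ∑ j, f (u j) (e j) = 0

/-- the structure of block laws -/
structure Law (τ : Ω → ℝ) (u : Ω → Bool → W) (D : Ω → Bool → Submodule F W) (δ : ℝ) : Prop where
  nonneg : ∀ x, 0 ≤ τ x
  sum_one : ∑ x, τ x = 1
  t1 : ∀ (x : W) (α : Bool → F), α ≠ 0 → pr τ (fun ω => ∑ j, α j • u ω j = x) ≤ δ
  t2 : ∀ (Y : W) (α : Bool → F) (j : Bool), Y ≠ 0 →
    pr τ (fun ω => Y + ∑ i, α i • u ω i ∈ D ω j) ≤ δ
  t3 : ∀ (ω : Ω) (α : Bool → F) (j : Bool), ∑ i, α i • u ω i ∈ D ω j → α j = 0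

variable {τ : Ω → ℝ} {u : Ω → Bool → W} {D : Ω → Bool → Submodule F W} {δ : ℝ}

/-- the character at the current block -/
def ch (u : Ω → Bool → W) (M : Bool → Bool → F) (Z : Bool → W) (x y : Ω) (j : Bool) : W :=
  Z j + ∑ i, (M j i + M i j) • u x i + ∑ i, M j i • u y i

theorem pair_step (H : Law τ u D δ) (M : Bool → Bool → F) (Z : Bool → W) :
    ∑ x, τ x * ∑ y, τ y * ind ((∀ j, ch u M Z x y j ∈ D y j) ∧ ¬ Triv F (u y) (ch u M Z x y))
      ≤ 2 * δ := by
  have hδ : 0 ≤ δ := (pr_nonneg H.nonneg _).trans (H.t1 0 (fun _ => 1) (by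
    intro h; have := congrFun h true; simp at this))
  set Y : Ω → Bool → W := fun x j => Z j + ∑ i, (M j i + M i j) • u x i with hY
  have inner : ∀ x, ∑ y, τ y * ind ((∀ j, ch u M Z x y j ∈ D y j) ∧
      ¬ Triv F (u y) (ch u M Z x y)) ≤
      δ + ind (Y x false = 0 ∧ M true false + M false true ≠ 0) := by
    intro x
    by_cases hx : ∃ j, Y x j ≠ 0
    · obtain ⟨j, hj⟩ := hx
      have h1 : ∑ y, τ y * ind ((∀ j, ch u M Z x y j ∈ D y j) ∧
        ¬ Triv F (u y) (ch u M Z x y)) ≤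
          pr τ (fun ω => Y x j + ∑ i, M j i • u ω i ∈ D ω j) := by
        unfold pr
        refine Finset.sum_le_sum fun y _ => mul_le_mul_of_nonneg_left (ind_mono ?_) (H.nonneg y)
        intro hc
        exact hc.1 j
      have h2 := H.t2 (Y x j) (M j) j hj
      have h3 := ind_nonneg (Y x false = 0 ∧ M true false + M false true ≠ 0)
      linarith
    · push Not at hx
      by_cases hM : M true false + M false true ≠ 0
      · have h1 : ∑ y, τ y * ind ((∀ j, ch u M Z x y j ∈ D y j) ∧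
          ¬ Triv F (u y) (ch u M Z x y)) ≤ 1 := pr_le_one H.nonneg H.sum_one _
        rw [ind_true ⟨hx false, hM⟩]
        linarith
      · push Not at hM
        have h1 : ∑ y, τ y * ind ((∀ j, ch u M Z x y j ∈ D y j) ∧
          ¬ Triv F (u y) (ch u M Z x y)) = 0 := by
          refine Finset.sum_eq_zero fun y _ => ?_
          rw [ind_false, mul_zero]
          rintro ⟨hv, hn⟩
          apply hn
          have hch : ∀ j, ch u M Z x y j = ∑ i, M j i • u y i := by
            intro j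
            have := hx j
            simp only [hY] at this
            simp only [ch, this, zero_add]
          have hjj : ∀ j, M j j = 0 := by
            intro j
            have h := hv j
            rw [hch j] at h
            exact H.t3 y (M j) j h
          intro f hf
          simp only [hch, Fintype.sum_bool, map_add, map_smul, hjj, smul_eq_mul, zero_mul,
            zero_add, add_zero]
          have e1 : M true false = - M false true := by
            linear_combination hM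
          rw [e1, hf (u y false) (u y true)]
          ring
        rw [h1]
        have h3 := ind_nonneg (Y x false = 0 ∧ M true false + M false true ≠ 0)
        linarith
  have hsum : ∑ x, τ x * (δ + ind (Y x false = 0 ∧ M true false + M false true ≠ 0))
      ≤ 2 * δ := by
    have e1 : ∑ x, τ x * (δ + ind (Y x false = 0 ∧ M true false + M false true ≠ 0))
        = δ + pr τ (fun x => Y x false = 0 ∧ M true false + M false true ≠ 0) := by
      simp only [mul_add, Finset.sum_add_distrib]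
      rw [← Finset.sum_mul, H.sum_one, one_mul]
      rfl
    rw [e1]
    have e2 : pr τ (fun x => Y x false = 0 ∧ M true false + M false true ≠ 0) ≤ δ := by
      by_cases hM : M true false + M false true ≠ 0
      · refine le_trans (pr_mono H.nonneg (q := fun x => ∑ i, (M false i + M i false) • u x i
          = - Z false) ?_) (H.t1 _ (fun i => M false i + M i false) ?_)
        · rintro x ⟨h, -⟩
          simp only [hY] at h
          rw [eq_neg_iff_add_eq_zero, add_comm]; exact h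
        · intro h
          have := congrFun h true
          simp only [Pi.zero_apply] at this
          exact hM (by rw [add_comm]; exact this)
      · have : pr τ (fun x => Y x false = 0 ∧ M true false + M false true ≠ 0) = 0 := by
          unfold pr
          refine Finset.sum_eq_zero fun x _ => ?_
          rw [ind_false, mul_zero]
          rintro ⟨-, h⟩; exact hM h
        rw [this]; exact hδ
    linarith
  refine le_trans (Finset.sum_le_sum fun x _ => mul_le_mul_of_nonneg_left (inner x) (H.nonneg x)) hsum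

/-- bound for one pattern -/
theorem pattern_bound {ι : Type*} [Fintype ι] (H : Law τ u D δ) (hδ : 0 ≤ δ) (n : ℕ)
    (κ : Fin n → Bool → ι)
    (hκ : ∀ r t, r < t → ∀ i j, κ t i ≠ κ r j) (hκ' : ∀ r, κ r false ≠ κ r true)
    (M : Bool → Bool → F) (Z : Fin n → (ι → Ω) → Bool → W)
    (hZ : ∀ r t, r ≤ t → ∀ i ω x, Z r (update ω (κ t i) x) = Z r ω) :
    Ex τ (fun ω => ind (∀ r, ((∀ j, ch u M (Z r ω) (ω (κ r false)) (ω (κ r true)) j ∈
        D (ω (κ r true)) j) ∧ ¬ Triv F (u (ω (κ r true)))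
        (ch u M (Z r ω) (ω (κ r false)) (ω (κ r true)))))) ≤ (2 * δ) ^ n := by
  refine seq_bound H.nonneg H.sum_one (2 * δ) (by linarith) n (fun r => κ r false)
    (fun r => κ r true) (fun r ω => ((∀ j, ch u M (Z r ω) (ω (κ r false)) (ω (κ r true)) j ∈
        D (ω (κ r true)) j) ∧ ¬ Triv F (u (ω (κ r true)))
        (ch u M (Z r ω) (ω (κ r false)) (ω (κ r true))))) ?_ ?_
  · intro r t hrt ω x
    constructor
    · simp only [hZ r t hrt.le]
      rw [update_of_ne (hκ r t hrt false false).symm, update_of_ne (hκ r t hrt false true).symm]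
    · simp only [hZ r t hrt.le]
      rw [update_of_ne (hκ r t hrt true false).symm, update_of_ne (hκ r t hrt true true).symm]
  · intro r ω
    have e : ∀ x y, Z r (update (update ω (κ r false) x) (κ r true) y) = Z r ω := by
      intro x y
      rw [hZ r r le_rfl, hZ r r le_rfl]
    have e2 : ∀ x y, update (update ω (κ r false) x) (κ r true) y (κ r false) = x := by
      intro x y
      rw [update_of_ne (hκ' r), update_self]
    have e3 : ∀ x y, update (update ω (κ r false) x) (κ r true) y (κ r true) = y := by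
      intro x y
      rw [update_self]
    simp only [e, e2, e3]
    exact pair_step H M (Z r ω)

/-- end-homogeneous sequences -/
def EHN (Q : ℕ) : ℕ → ℕ
  | 0 => 0
  | n + 1 => Q * EHN Q n + 1

theorem exists_endhom {ι K : Type*} [Fintype K] (Q : ℕ) (hQ : Fintype.card K ≤ Q)
    [Nonempty K] (col : ι → ι → K) :
    ∀ (n : ℕ) (J : Finset ι), EHN Q n ≤ J.card → ∃ (v : Fin n → ι) (g : Fin n → K),
      Injective v ∧ (∀ s, v s ∈ J) ∧ ∀ s t, s < t → col (v s) (v t) = g s := by
  intro n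
  induction n with
  | zero =>
    intro J _
    exact ⟨Fin.elim0, Fin.elim0, fun a => a.elim0, fun a => a.elim0, fun a => a.elim0⟩
  | succ n ih =>
    intro J hJ
    simp only [EHN] at hJ
    have hne : J.Nonempty := by
      rw [← Finset.card_pos]; omega
    obtain ⟨a, ha⟩ := hne
    have hcard : (Finset.univ : Finset K).card * EHN Q n ≤ (J.erase a).card := by
      rw [Finset.card_erase_of_mem ha, Finset.card_univ]
      have : Fintype.card K * EHN Q n ≤ Q * EHN Q n := Nat.mul_le_mul_right _ hQ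
      omega
    obtain ⟨y, -, hy⟩ := Finset.exists_le_card_fiber_of_mul_le_card_of_maps_to
      (s := J.erase a) (t := Finset.univ) (f := fun x => col a x) (fun x _ => Finset.mem_univ _)
      Finset.univ_nonempty hcard
    obtain ⟨v, g, hv, hvJ, hcol⟩ := ih _ hy
    refine ⟨Fin.cons a v, Fin.cons y g, ?_, ?_, ?_⟩
    · rw [Fin.cons_injective_iff]
      refine ⟨?_, hv⟩
      rintro ⟨s, hs⟩
      have := hvJ s
      rw [hs] at this
      simp at this
    · intro s
      refine Fin.cases ?_ (fun s => ?_) s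
      · simpa using ha
      · have := hvJ s
        simp only [Finset.mem_filter, Finset.mem_erase] at this
        simpa using this.1.2
    · intro s t hst
      induction s using Fin.cases with
      | zero =>
        induction t using Fin.cases with
        | zero => exact absurd hst (lt_irrefl _)
        | succ t =>
          have := hvJ t
          simp only [Finset.mem_filter] at this
          simpa using this.2
      | succ s =>
        induction t using Fin.cases with
        | zero => exact absurd hst (by simp)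
        | succ t =>
          simpa using hcol s t (by simpa using hst)

end

end Crest.Agent.R042.Step477
private theorem rz_706cc653de : type_of% @_root_.Crest.Agent.R042.Step477.EHN.eq_def := @_root_.Crest.Agent.R042.Step477.EHN.eq_def -- L152
private theorem rz_a5093d5a6b : type_of% @_root_.Crest.Agent.R042.Step477.EHN.eq_1 := @_root_.Crest.Agent.R042.Step477.EHN.eq_1 -- L152
end

-- ▼ part R042/Prob_477
section

/-!
# Row 42, plan B: extraction of a pattern from a relation, union bound (helper477)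
-/

namespace Crest.Agent.R042.Prob477

open Finset Function Rel477 Seq477 Step477
open scoped Classical

noncomputable section

variable {F W Ω : Type*} [Field F] [AddCommGroup W] [Module F W] [Fintype Ω]

/-- the pair indices in `Fin (2n)` -/
def idx {n : ℕ} (r : Fin n) : Bool → Fin (2 * n)
  | false => ⟨2 * r, by have := r.2; omega⟩
  | true => ⟨2 * r + 1, by have := r.2; omega⟩

/-- `F`-patterns -/
abbrev Pat (F : Type*) (n b : ℕ) : Type _ :=
  (Fin n → Bool → Fin b) × (Bool → Bool → F) × (Bool → Bool → F) ×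
    (Fin n → Bool → Fin b → Bool → F) × (Fin n → Bool → Fin b × Bool → F)

/-- coordinates revealed before step `r` -/
def Out {n b : ℕ} (κ : Fin n → Bool → Fin b) (r : Fin n) : Finset (Fin b) :=
  univ.filter (fun i => ∀ t, r ≤ t → ∀ j, i ≠ κ t j)

/-- the part of the character which is determined before step `r` -/
def Zf {n b : ℕ} (u : Ω → Bool → W) (p : Pat F n b) (T : Finset (Fin b))
    (θ : ↥(T ×ˢ (univ : Finset Bool)) → W) (S : Bool → W) (r : Fin n) (ω : Fin b → Ω) (j : Bool) :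
    W :=
  ∑ i ∈ Out p.1 r, ∑ j', p.2.2.2.1 r j i j' • u (ω i) j' + ∑ d, p.2.2.2.2 r j d.1 • θ d +
    ∑ j', p.2.2.1 j j' • S j'

lemma Zf_update {n b : ℕ} (u : Ω → Bool → W) (p : Pat F n b) (T : Finset (Fin b))
    (θ : ↥(T ×ˢ (univ : Finset Bool)) → W) (S : Bool → W) (r t : Fin n) (h : r ≤ t) (i : Bool)
    (ω : Fin b → Ω) (x : Ω) : Zf u p T θ S r (update ω (p.1 t i) x) = Zf u p T θ S r ω := by
  funext j
  unfold Zf
  congr 2
  refine Finset.sum_congr rfl fun k hk => ?_
  simp only [Out, Finset.mem_filter, Finset.mem_univ, true_and] at hk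
  rw [update_of_ne (hk t h i)]

/-- injectivity of the pair positions -/
def Inj {n b : ℕ} (κ : Fin n → Bool → Fin b) : Prop :=
  (∀ r t, r < t → ∀ i j, κ t i ≠ κ r j) ∧ (∀ r, κ r false ≠ κ r true)

/-- event of a pattern -/
def Ev {n b : ℕ} (u : Ω → Bool → W) (D : Ω → Bool → Submodule F W) (p : Pat F n b)
    (T : Finset (Fin b)) (θ : ↥(T ×ˢ (univ : Finset Bool)) → W) (S : Bool → W) (ω : Fin b → Ω) :
    Prop :=
  Inj p.1 ∧ ∀ r, ((∀ j, ch u p.2.1 (Zf u p T θ S r ω) (ω (p.1 r false)) (ω (p.1 r true)) j ∈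
    D (ω (p.1 r true)) j) ∧ ¬ Triv F (u (ω (p.1 r true)))
    (ch u p.2.1 (Zf u p T θ S r ω) (ω (p.1 r false)) (ω (p.1 r true))))

variable {τ : Ω → ℝ} {u : Ω → Bool → W} {D : Ω → Bool → Submodule F W} {δ : ℝ}

lemma Law.nonneg_delta (H : Law τ u D δ) : 0 ≤ δ :=
  (pr_nonneg H.nonneg _).trans (H.t1 0 (fun _ => 1) (by
    intro h; have := congrFun h true; simp at this))

theorem ev_bound {n b : ℕ} (H : Law τ u D δ) (p : Pat F n b) (T : Finset (Fin b))
    (θ : ↥(T ×ˢ (univ : Finset Bool)) → W) (S : Bool → W) :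
    Ex τ (fun ω => ind (Ev u D p T θ S ω)) ≤ (2 * δ) ^ n := by
  have hδ := Law.nonneg_delta H
  by_cases hp : Inj p.1
  · have := pattern_bound H hδ n p.1 hp.1 hp.2 p.2.1 (fun r ω => Zf u p T θ S r ω)
      (fun r t h i ω x => by convert Zf_update u p T θ S r t h i ω x)
    refine le_trans (Ex_mono H.nonneg fun ω => ind_mono ?_) this
    intro h
    exact h.2
  · have : (fun ω => ind (Ev u D p T θ S ω)) = fun _ => (0:ℝ) := by
      funext ω
      exact ind_false fun h => hp h.1
    rw [this]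
    unfold Ex
    simp only [mul_zero, Finset.sum_const_zero]
    positivity

/-- the coefficient identity: all the combinatorics of the totals trick -/
theorem extract {n b : ℕ} (T : Finset (Fin b)) (ω : Fin b → Ω) (e : Fin b → Bool → W)
    (c a a' : Fin b × Bool → Fin b × Bool → F)
    (he : ∀ p : Fin b × Bool, p.1 ∉ T → e p.1 p.2 =
      ∑ l ∈ (T ×ˢ (univ : Finset Bool))ᶜ, c p l • u (ω l.1) l.2 +
      ∑ l ∈ T ×ˢ (univ : Finset Bool), (a p l • e l.1 l.2 + a' p l • u (ω l.1) l.2))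
    (hc : ∀ p : Fin b × Bool, p.1 ∉ T → ∀ k : Fin b × Bool, k.1 ∉ T →
      c p k + c k p = ∑ l ∈ T ×ˢ (univ : Finset Bool), (a k l * a' p l + a' k l * a p l))
    (v : Fin (2 * n) → Fin b) (hv : Injective v) (hvT : ∀ s, v s ∉ T)
    (G C₀ : Bool → Bool → F)
    (hG : ∀ s t, s < t → ∀ j j', c (v s, j) (v t, j') = G j j')
    (hC : ∀ s, ∀ j j', c (v s, j) (v s, j') = C₀ j j')
    (ha : ∀ s t, ∀ j, ∀ l ∈ T ×ˢ (univ : Finset Bool), a (v s, j) l = a (v t, j) l)
    (ha' : ∀ s t, ∀ j, ∀ l ∈ T ×ˢ (univ : Finset Bool), a' (v s, j) l = a' (v t, j) l) :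
    ∃ (p : Pat F n b) (θ : ↥(T ×ˢ (univ : Finset Bool)) → W) (S : Bool → W),
      Inj p.1 ∧ (∀ r j, p.1 r j = v (idx r j)) ∧
      ∀ r, ch u p.2.1 (Zf u p T θ S r ω) (ω (p.1 r false)) (ω (p.1 r true)) = e (p.1 r true) := by
  set M : Bool → Bool → F := fun j i => C₀ j i - G j i with hM
  set κ : Fin n → Bool → Fin b := fun r j => v (idx r j) with hκ
  set β : Fin n → Bool → Fin b → Bool → F := fun r j i j' =>
    if i ∈ T then a' (v (idx r true), j) (i, j') else c (v (idx r true), j) (i, j') with hβ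
  set A : Fin n → Bool → Fin b → Bool → F := fun r j i j' =>
    if i ∈ Set.range v then β r j i j' - G j j' else β r j i j' with hA
  refine ⟨(κ, M, G, A, fun r j d => a (v (idx r true), j) d),
    fun d => e d.1.1 d.1.2, fun j => ∑ t, u (ω (v t)) j, ⟨?_, ?_⟩, fun r j => rfl, ?_⟩
  · intro r t hrt i j h
    have := hv h
    have h1 : (idx t i : Fin (2*n)).1 = (idx r j).1 := by rw [this]
    have h2 : (r : ℕ) < t := hrt
    cases i <;> cases j <;> simp only [idx] at h1 <;> omega
  · intro r h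
    have := hv h
    have h1 : (idx r false : Fin (2*n)).1 = (idx r true).1 := by rw [this]
    simp only [idx] at h1; omega
  · intro r
    funext j
    have hs := he (v (idx r true), j) (hvT _)
    simp only at hs ⊢
    rw [show e (κ r true) j = e (v (idx r true)) j from rfl, hs]
    -- left side
    unfold ch Zf
    simp only
    -- split off θ
    have hθ : ∑ d : ↥(T ×ˢ (univ : Finset Bool)), a (v (idx r true), j) d.1 • e d.1.1 d.1.2
        = ∑ l ∈ T ×ˢ (univ : Finset Bool), a (v (idx r true), j) l • e l.1 l.2 :=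
      Finset.sum_coe_sort (T ×ˢ (univ : Finset Bool))
        (fun l => a (v (idx r true), j) l • e l.1 l.2)
    -- the u-part of the right side as a full sum
    have hu : ∑ l ∈ (T ×ˢ (univ : Finset Bool))ᶜ, c (v (idx r true), j) l • u (ω l.1) l.2 +
        ∑ l ∈ T ×ˢ (univ : Finset Bool), a' (v (idx r true), j) l • u (ω l.1) l.2
        = ∑ i, ∑ j', β r j i j' • u (ω i) j' := by
      rw [← Fintype.sum_prod_type' (f := fun i j' => β r j i j' • u (ω i) j')]
      rw [← Finset.sum_compl_add_sum (T ×ˢ (univ : Finset Bool))]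
      congr 1
      · refine Finset.sum_congr rfl fun l hl => ?_
        have : l.1 ∉ T := by simpa using hl
        simp [hβ, this]
      · refine Finset.sum_congr rfl fun l hl => ?_
        have : l.1 ∈ T := by simpa using hl
        simp [hβ, this]
    -- splitting of sums over Fin b
    have hsplit : ∀ g : Fin b → W, ∑ i, g i = ∑ i ∈ univ.filter (fun i => i ∉ Set.range v), g i +
        ∑ t, g (v t) := by
      intro g
      rw [← Finset.sum_filter_add_sum_filter_not univ (fun i => i ∉ Set.range v) g]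
      congr 1
      rw [← Finset.sum_image (s := (univ : Finset (Fin (2*n)))) (g := v) (f := g)
        (fun x _ y _ h => hv h)]
      refine Finset.sum_congr ?_ fun _ _ => rfl
      ext i; simp
    have hout : ∀ g : Fin b → W, ∑ i ∈ Out κ r, g i =
        ∑ i ∈ univ.filter (fun i => i ∉ Set.range v), g i +
        ∑ t : Fin (2 * n), if (t : ℕ) < 2 * r then g (v t) else 0 := by
      intro g
      have h1 : ∑ i ∈ Out κ r, g i = ∑ i, if i ∈ Out κ r then g i else 0 := by
        rw [Finset.sum_ite_mem, Finset.univ_inter]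
      rw [h1, hsplit]
      congr 1
      · refine Finset.sum_congr rfl fun i hi => ?_
        rw [if_pos]
        simp only [Out, Finset.mem_filter, Finset.mem_univ, true_and] at hi ⊢
        intro t _ j' h
        exact hi ⟨_, h.symm⟩
      · refine Finset.sum_congr rfl fun t _ => ?_
        by_cases ht : (t : ℕ) < 2 * r
        · rw [if_pos ht, if_pos]
          simp only [Out, Finset.mem_filter, Finset.mem_univ, true_and]
          intro t' htt' j' h
          have := hv h
          have h1 : (t : ℕ) = (idx t' j').1 := by rw [this]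
          have h2 : (r : ℕ) ≤ t' := htt'
          cases j' <;> simp only [idx] at h1 <;> omega
        · rw [if_neg ht, if_neg]
          simp only [Out, Finset.mem_filter, Finset.mem_univ, true_and, not_forall]
          have ht2 := t.2
          rcases Nat.even_or_odd' (t : ℕ) with ⟨k, hk | hk⟩
          · refine ⟨⟨k, by omega⟩, ?_, false, ?_⟩
            · show (r : ℕ) ≤ k; omega
            · simp only [hκ, idx, ne_eq, not_not]
              congr 1; ext; simp [hk]
          · refine ⟨⟨k, by omega⟩, ?_, true, ?_⟩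
            · show (r : ℕ) ≤ k; omega
            · simp only [hκ, idx, ne_eq, not_not]
              congr 1; ext; simp [hk]
    -- pointwise coefficient identity on the range
    have hcoef : ∀ (t : Fin (2 * n)) (j' : Bool), β r j (v t) j' =
        (if (t : ℕ) < 2 * r then A r j (v t) j' else 0) + G j j' +
        (if t = idx r false then M j j' + M j' j else 0) +
        (if t = idx r true then M j j' else 0) := by
      intro t j'
      have hβt : β r j (v t) j' = c (v (idx r true), j) (v t, j') := by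
        simp [hβ, hvT t]
      have hAt : A r j (v t) j' = c (v (idx r true), j) (v t, j') - G j j' := by
        simp only [hA, Set.mem_range_self, if_true, hβt]
      rw [hAt, hβt]
      have hT : (idx r true : Fin (2*n)).1 = 2 * r + 1 := rfl
      have hF : (idx r false : Fin (2*n)).1 = 2 * r := rfl
      rcases lt_trichotomy (t : ℕ) (2 * r) with h | h | h
      · have h1 : t ≠ idx r false := fun h' => by rw [h'] at h; simp [hF] at h
        have h2 : t ≠ idx r true := fun h' => by rw [h'] at h; simp [hT] at h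
        rw [if_pos h, if_neg h1, if_neg h2]; ring
      · have h1 : t = idx r false := Fin.ext (by rw [hF]; exact h)
        have h2 : t ≠ idx r true := fun h' => by rw [h'] at h; simp [hT] at h
        rw [if_neg (by omega), if_pos h1, if_neg h2, h1]
        have e1 := hc (v (idx r true), j) (hvT _) (v (idx r false), j') (hvT _)
        have e2 := hc (v (idx r true), j) (hvT _) (v (idx r true), j') (hvT _)
        have e3 : c (v (idx r false), j') (v (idx r true), j) = G j' j :=
          hG _ _ (by show (idx r false : Fin (2*n)).1 < (idx r true).1; rw [hF, hT]; omega) _ _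
        rw [e3] at e1
        rw [hC, hC] at e2
        have e4 : ∑ l ∈ T ×ˢ (univ : Finset Bool), (a (v (idx r false), j') l *
            a' (v (idx r true), j) l + a' (v (idx r false), j') l * a (v (idx r true), j) l)
            = ∑ l ∈ T ×ˢ (univ : Finset Bool), (a (v (idx r true), j') l *
            a' (v (idx r true), j) l + a' (v (idx r true), j') l * a (v (idx r true), j) l) := by
          refine Finset.sum_congr rfl fun l hl => ?_
          rw [ha (idx r false) (idx r true) j' l hl, ha' (idx r false) (idx r true) j' l hl]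
        rw [e4, ← e2] at e1
        simp only [hM]
        linear_combination e1
      · by_cases h' : (t : ℕ) = 2 * r + 1
        · have h2 : t = idx r true := Fin.ext (by rw [hT]; exact h')
          have h1 : t ≠ idx r false := fun h'' => by rw [h''] at h'; simp [hF] at h'
          rw [if_neg (by omega), if_neg h1, if_pos h2, h2, hC]
          simp only [hM]; ring
        · have h1 : t ≠ idx r false := fun h'' => by rw [h''] at h; simp [hF] at h
          have h2 : t ≠ idx r true := fun h'' => by rw [h''] at h'; simp [hT] at h'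
          rw [if_neg (by omega), if_neg h1, if_neg h2]
          rw [hG (idx r true) t (by show (idx r true : Fin (2*n)).1 < t; rw [hT]; omega)]
          ring
    rw [Finset.sum_add_distrib, hθ]
    have key : ∑ i, ∑ j', β r j i j' • u (ω i) j' =
        ∑ i ∈ Out κ r, ∑ j', A r j i j' • u (ω i) j' + ∑ j', G j j' • ∑ t, u (ω (v t)) j' +
        (∑ i, (M j i + M i j) • u (ω (κ r false)) i + ∑ i, M j i • u (ω (κ r true)) i) := by
      rw [hsplit, hout]
      have h1 : ∑ i ∈ univ.filter (fun i => i ∉ Set.range v), ∑ j', β r j i j' • u (ω i) j'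
          = ∑ i ∈ univ.filter (fun i => i ∉ Set.range v), ∑ j', A r j i j' • u (ω i) j' := by
        refine Finset.sum_congr rfl fun i hi => Finset.sum_congr rfl fun j' _ => ?_
        have : i ∉ Set.range v := by simpa using hi
        simp only [hA, if_neg this]
      rw [h1]
      have h2 : ∑ t, ∑ j', β r j (v t) j' • u (ω (v t)) j' =
          ∑ t : Fin (2 * n), ((if (t : ℕ) < 2 * r then ∑ j', A r j (v t) j' • u (ω (v t)) j' else 0)
            + ∑ j', G j j' • u (ω (v t)) j'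
            + (if t = idx r false then ∑ j', (M j j' + M j' j) • u (ω (v t)) j' else 0)
            + (if t = idx r true then ∑ j', M j j' • u (ω (v t)) j' else 0)) := by
        refine Finset.sum_congr rfl fun t _ => ?_
        have : ∀ j', β r j (v t) j' • u (ω (v t)) j' =
            (if (t : ℕ) < 2 * r then A r j (v t) j' • u (ω (v t)) j' else 0)
            + G j j' • u (ω (v t)) j'
            + (if t = idx r false then (M j j' + M j' j) • u (ω (v t)) j' else 0)
            + (if t = idx r true then M j j' • u (ω (v t)) j' else 0) := by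
          intro j'
          rw [hcoef t j']
          simp only [add_smul, ite_smul, zero_smul]
        simp only [this, Finset.sum_add_distrib]
        congr 1
        · congr 1
          · congr 1
            split_ifs <;> simp
          · split_ifs <;> simp
        · split_ifs <;> simp
      rw [h2]
      simp only [Finset.sum_add_distrib]
      rw [Finset.sum_ite_eq' univ (idx r false), Finset.sum_ite_eq' univ (idx r true)]
      simp only [Finset.mem_univ, if_true]
      have h3 : ∑ j', G j j' • ∑ t, u (ω (v t)) j' = ∑ t, ∑ j', G j j' • u (ω (v t)) j' := by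
        rw [Finset.sum_comm]
        exact Finset.sum_congr rfl fun j' _ => Finset.smul_sum
      rw [h3]
      simp only [hκ]
      abel
    have hu' := hu
    rw [key] at hu'
    have goal' : ∑ l ∈ (T ×ˢ (univ : Finset Bool))ᶜ, c (v (idx r true), j) l • u (ω l.1) l.2 +
        (∑ l ∈ T ×ˢ (univ : Finset Bool), a (v (idx r true), j) l • e l.1 l.2 +
          ∑ l ∈ T ×ˢ (univ : Finset Bool), a' (v (idx r true), j) l • u (ω l.1) l.2) =
        ∑ l ∈ T ×ˢ (univ : Finset Bool), a (v (idx r true), j) l • e l.1 l.2 +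
        (∑ l ∈ (T ×ˢ (univ : Finset Bool))ᶜ, c (v (idx r true), j) l • u (ω l.1) l.2 +
          ∑ l ∈ T ×ˢ (univ : Finset Bool), a' (v (idx r true), j) l • u (ω l.1) l.2) := by abel
    rw [goal', hu']
    abel

/-- dependent blocks -/
def Dep (F : Type*) {W Ω : Type*} [Field F] [AddCommGroup W] [Module F W]
    (u : Ω → Bool → W) {b : ℕ} (ω : Fin b → Ω) : Finset (Fin b) :=
  univ.filter (fun k => ∃ α : Bool → F, α ≠ 0 ∧
    ∑ j, α j • u (ω k) j ∈ Submodule.span F {w | ∃ l < k, ∃ j, w = u (ω l) j})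

theorem exists_ev [Fintype F] {n h b b₁ : ℕ}
    (hb : EHN (Fintype.card (Bool → Bool → F)) (Fintype.card F ^ (8 + 8 * h) * (2 * n)) + h ≤ b₁)
    (ω : Fin b → Ω) (e : Fin b → Bool → W) (hval : ∀ k j, e k j ∈ D (ω k) j)
    (hrel : IsRel F (fun p : Fin b × Bool => u (ω p.1) p.2) (fun p => e p.1 p.2))
    (hdep : (Dep F u ω).card < h)
    (hLI : LinearIndependent F (fun p : {p : Fin b × Bool // p.1 ∉ Dep F u ω} => u (ω p.1.1) p.1.2))
    (hnt : b₁ ≤ (univ.filter (fun k => ¬ Triv F (u (ω k)) (e k))).card) :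
    ∃ (p : Pat F n b) (θ : ↥((Dep F u ω) ×ˢ (univ : Finset Bool)) → W) (S : Bool → W),
      Ev u D p (Dep F u ω) θ S ω := by
  set T := Dep F u ω with hT
  have hLI' : LinearIndependent F (fun i : {i : Fin b × Bool // i ∉ T ×ˢ (univ : Finset Bool)} =>
      (fun p : Fin b × Bool => u (ω p.1) p.2) i) := by
    have := hLI.comp (fun i : {i : Fin b × Bool // i ∉ T ×ˢ (univ : Finset Bool)} =>
      (⟨i.1, by simpa using i.2⟩ : {p : Fin b × Bool // p.1 ∉ T})) (by
        intro x y hxy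
        have := congrArg Subtype.val hxy
        exact Subtype.ext this)
    exact this
  obtain ⟨c, a, a', he, hc⟩ := structure' hrel (T ×ˢ (univ : Finset Bool)) hLI'
  have he' : ∀ p : Fin b × Bool, p.1 ∉ T → e p.1 p.2 =
      ∑ l ∈ (T ×ˢ (univ : Finset Bool))ᶜ, c p l • u (ω l.1) l.2 +
      ∑ l ∈ T ×ˢ (univ : Finset Bool), (a p l • e l.1 l.2 + a' p l • u (ω l.1) l.2) := by
    intro p hp
    exact he p (by simpa using hp)
  have hc' : ∀ p : Fin b × Bool, p.1 ∉ T → ∀ k : Fin b × Bool, k.1 ∉ T →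
      c p k + c k p = ∑ l ∈ T ×ˢ (univ : Finset Bool), (a k l * a' p l + a' k l * a p l) := by
    intro p hp k hk
    exact hc p (by simpa using hp) k (by simpa using hk)
  -- end-homogeneous sequence
  set J := (univ.filter (fun k => ¬ Triv F (u (ω k)) (e k))) \ T with hJ
  have hJc : EHN (Fintype.card (Bool → Bool → F)) (Fintype.card F ^ (8 + 8 * h) * (2 * n)) ≤
      J.card := by
    have h1 : (univ.filter (fun k => ¬ Triv F (u (ω k)) (e k))).card - T.card ≤ J.card := by
      rw [hJ]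
      convert Finset.le_card_sdiff T (univ.filter (fun k => ¬ Triv F (u (ω k)) (e k)))
    omega
  obtain ⟨v, g, hv, hvJ, hcol⟩ := exists_endhom _ le_rfl
    (fun k l : Fin b => fun j j' => c (k, j) (l, j')) _ J hJc
  -- vertex colours
  let K₂ := (Bool → Bool → F) × (Bool → Bool → F) ×
    (Bool → ↥(T ×ˢ (univ : Finset Bool)) → F) × (Bool → ↥(T ×ˢ (univ : Finset Bool)) → F)
  let vc : Fin (Fintype.card F ^ (8 + 8 * h) * (2 * n)) → K₂ := fun s =>
    (g s, fun j j' => c (v s, j) (v s, j'), fun j l => a (v s, j) l.1, fun j l => a' (v s, j) l.1)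
  have hK₂ : Fintype.card K₂ ≤ Fintype.card F ^ (8 + 8 * h) := by
    have h1 : Fintype.card K₂ = (Fintype.card F ^ 2) ^ 2 * ((Fintype.card F ^ 2) ^ 2 *
        ((Fintype.card F ^ (T.card * 2)) ^ 2 * (Fintype.card F ^ (T.card * 2)) ^ 2)) := by
      have hc2 : Fintype.card ↥(T ×ˢ (univ : Finset Bool)) = T.card * 2 := by
        rw [Fintype.card_coe, Finset.card_product]; simp
      simp only [K₂, Fintype.card_prod, Fintype.card_fun, Fintype.card_bool, hc2]
    rw [h1, ← pow_mul, ← pow_mul, ← pow_add, ← pow_add, ← pow_add]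
    exact Nat.pow_le_pow_right Fintype.card_pos (by omega)
  have hcard : (Finset.univ : Finset K₂).card * (2 * n) ≤
      (Finset.univ : Finset (Fin (Fintype.card F ^ (8 + 8 * h) * (2 * n)))).card := by
    rw [Finset.card_univ, Finset.card_univ, Fintype.card_fin]
    exact Nat.mul_le_mul_right _ hK₂
  obtain ⟨y, -, hy⟩ := Finset.exists_le_card_fiber_of_mul_le_card_of_maps_to
    (s := (Finset.univ : Finset (Fin (Fintype.card F ^ (8 + 8 * h) * (2 * n)))))
    (t := (Finset.univ : Finset K₂)) (f := vc) (fun _ _ => Finset.mem_univ _)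
    Finset.univ_nonempty hcard
  set emb := Finset.orderEmbOfCardLe _ hy with hemb
  have hmem : ∀ s, vc (emb s) = y := by
    intro s
    have := Finset.orderEmbOfCardLe_mem _ hy s
    simpa using this
  have hvT : ∀ s, v (emb s) ∉ T := by
    intro s
    have := hvJ (emb s)
    rw [hJ, Finset.mem_sdiff] at this
    exact this.2
  obtain ⟨p, θ, S, hinj, hp1, hch⟩ := extract (n := n) (u := u) T ω e c a a' he' hc'
    (fun s => v (emb s)) (fun s t hst => emb.injective (hv hst)) hvT y.1 y.2.1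
    (by
      intro s t hst j j'
      have h1 := congrFun (congrFun (hcol (emb s) (emb t) (emb.strictMono hst)) j) j'
      have h2 : g (emb s) = y.1 := congrArg Prod.fst (hmem s)
      rw [h2] at h1
      exact h1)
    (by
      intro s j j'
      have h2 : (vc (emb s)).2.1 = y.2.1 := by rw [hmem s]
      exact congrFun (congrFun h2 j) j')
    (by
      intro s t j l hl
      have h2 : (vc (emb s)).2.2.1 = (vc (emb t)).2.2.1 := by rw [hmem s, hmem t]
      exact congrFun (congrFun h2 j) ⟨l, hl⟩)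
    (by
      intro s t j l hl
      have h2 : (vc (emb s)).2.2.2 = (vc (emb t)).2.2.2 := by rw [hmem s, hmem t]
      exact congrFun (congrFun h2 j) ⟨l, hl⟩)
  refine ⟨p, θ, S, hinj, fun r => ?_⟩
  rw [hch r]
  refine ⟨fun j => hval _ j, ?_⟩
  have := hvJ (emb (idx r true))
  rw [hJ, Finset.mem_sdiff, Finset.mem_filter] at this
  rw [hp1 r true]
  exact this.1.2

theorem main_bound [Fintype F] [Fintype W] (H : Law τ u D δ) {n h b b₁ : ℕ}
    (hb : EHN (Fintype.card (Bool → Bool → F)) (Fintype.card F ^ (8 + 8 * h) * (2 * n)) + h ≤ b₁)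
    (hLI : ∀ ω : Fin b → Ω, LinearIndependent F
      (fun p : {p : Fin b × Bool // p.1 ∉ Dep F u ω} => u (ω p.1.1) p.1.2)) :
    Ex τ (fun ω : Fin b → Ω => ind ((Dep F u ω).card < h ∧ ∃ e : Fin b → Bool → W,
      (∀ k j, e k j ∈ D (ω k) j) ∧
      IsRel F (fun p : Fin b × Bool => u (ω p.1) p.2) (fun p => e p.1 p.2) ∧
      b₁ ≤ (univ.filter (fun k => ¬ Triv F (u (ω k)) (e k))).card)) ≤
    (2 ^ b * Fintype.card (Pat F n b) : ℕ) * (Fintype.card W : ℝ) ^ (2 * h + 2) * (2 * δ) ^ n := by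
  have hδ := Law.nonneg_delta H
  have h1 : ∀ ω : Fin b → Ω, ind ((Dep F u ω).card < h ∧ ∃ e : Fin b → Bool → W,
      (∀ k j, e k j ∈ D (ω k) j) ∧
      IsRel F (fun p : Fin b × Bool => u (ω p.1) p.2) (fun p => e p.1 p.2) ∧
      b₁ ≤ (univ.filter (fun k => ¬ Triv F (u (ω k)) (e k))).card) ≤
      ∑ T ∈ (univ : Finset (Finset (Fin b))).filter (fun T => T.card < h),
        ∑ p : Pat F n b, ∑ θ : ↥(T ×ˢ (univ : Finset Bool)) → W, ∑ S : Bool → W,
          ind (Ev u D p T θ S ω) := by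
    intro ω
    by_cases hω : ((Dep F u ω).card < h ∧ ∃ e : Fin b → Bool → W,
      (∀ k j, e k j ∈ D (ω k) j) ∧
      IsRel F (fun p : Fin b × Bool => u (ω p.1) p.2) (fun p => e p.1 p.2) ∧
      b₁ ≤ (univ.filter (fun k => ¬ Triv F (u (ω k)) (e k))).card)
    · rw [ind_true hω]
      obtain ⟨hd, e, hval, hrel, hnt⟩ := hω
      obtain ⟨p, θ, S, hev⟩ := exists_ev (n := n) hb ω e hval hrel hd (hLI ω) hnt
      have hn : ∀ (T : Finset (Fin b)) (p : Pat F n b) (θ : ↥(T ×ˢ (univ : Finset Bool)) → W)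
        (S : Bool → W), 0 ≤ ind (Ev u D p T θ S ω) := fun _ _ _ _ => ind_nonneg _
      calc (1:ℝ) = ind (Ev u D p (Dep F u ω) θ S ω) := (ind_true hev).symm
        _ ≤ ∑ S : Bool → W, ind (Ev u D p (Dep F u ω) θ S ω) :=
          Finset.single_le_sum (f := fun S => ind (Ev u D p (Dep F u ω) θ S ω))
            (fun S _ => hn _ _ _ _) (Finset.mem_univ S)
        _ ≤ ∑ θ, ∑ S : Bool → W, ind (Ev u D p (Dep F u ω) θ S ω) :=
          Finset.single_le_sum (f := fun θ => ∑ S : Bool → W, ind (Ev u D p (Dep F u ω) θ S ω))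
            (fun θ _ => Finset.sum_nonneg fun S _ => hn _ _ _ _) (Finset.mem_univ θ)
        _ ≤ ∑ p : Pat F n b, ∑ θ, ∑ S : Bool → W, ind (Ev u D p (Dep F u ω) θ S ω) :=
          Finset.single_le_sum
            (f := fun p : Pat F n b => ∑ θ, ∑ S : Bool → W, ind (Ev u D p (Dep F u ω) θ S ω))
            (fun p _ => Finset.sum_nonneg fun θ _ => Finset.sum_nonneg fun S _ => hn _ _ _ _)
            (Finset.mem_univ p)
        _ ≤ _ :=
          Finset.single_le_sum
            (f := fun T => ∑ p : Pat F n b, ∑ θ : ↥(T ×ˢ (univ : Finset Bool)) → W,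
              ∑ S : Bool → W, ind (Ev u D p T θ S ω))
            (fun T _ => Finset.sum_nonneg fun p _ => Finset.sum_nonneg fun θ _ =>
              Finset.sum_nonneg fun S _ => hn _ _ _ _)
            (by simpa using hd)
    · rw [ind_false hω]
      exact Finset.sum_nonneg fun T _ => Finset.sum_nonneg fun p _ => Finset.sum_nonneg fun θ _ =>
        Finset.sum_nonneg fun S _ => ind_nonneg _
  refine le_trans (Ex_mono H.nonneg h1) ?_
  rw [Ex_sum]
  have hW : (1:ℝ) ≤ (Fintype.card W : ℝ) := by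
    have : 0 < Fintype.card W := Fintype.card_pos
    exact_mod_cast this
  have h2 : ∀ T ∈ (univ : Finset (Finset (Fin b))).filter (fun T => T.card < h),
      Ex τ (fun ω => ∑ p : Pat F n b, ∑ θ : ↥(T ×ˢ (univ : Finset Bool)) → W, ∑ S : Bool → W,
          ind (Ev u D p T θ S ω)) ≤
      (Fintype.card (Pat F n b) : ℝ) * ((Fintype.card W : ℝ) ^ (2 * h + 2) * (2 * δ) ^ n) := by
    intro T hT
    have hT' : T.card < h := by simpa using hT
    rw [Ex_sum]
    have h3 : ∀ p ∈ (univ : Finset (Pat F n b)),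
        Ex τ (fun ω => ∑ θ : ↥(T ×ˢ (univ : Finset Bool)) → W, ∑ S : Bool → W,
          ind (Ev u D p T θ S ω)) ≤ (Fintype.card W : ℝ) ^ (2 * h + 2) * (2 * δ) ^ n := by
      intro p _
      rw [Ex_sum]
      have h4 : ∀ θ ∈ (univ : Finset (↥(T ×ˢ (univ : Finset Bool)) → W)),
          Ex τ (fun ω => ∑ S : Bool → W, ind (Ev u D p T θ S ω)) ≤
          (Fintype.card W : ℝ) ^ 2 * (2 * δ) ^ n := by
        intro θ _
        rw [Ex_sum]
        refine (Finset.sum_le_sum fun S _ => ev_bound H p T θ S).trans ?_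
        rw [Finset.sum_const, Finset.card_univ, nsmul_eq_mul]
        have : Fintype.card (Bool → W) = Fintype.card W ^ 2 := by simp
        rw [this]; push_cast; exact le_rfl
      refine (Finset.sum_le_sum h4).trans ?_
      rw [Finset.sum_const, Finset.card_univ, nsmul_eq_mul]
      have : Fintype.card (↥(T ×ˢ (univ : Finset Bool)) → W) = Fintype.card W ^ (T.card * 2) := by
        rw [Fintype.card_fun, Fintype.card_coe, Finset.card_product]; simp
      rw [this]; push_cast
      rw [← mul_assoc, ← pow_add]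
      refine mul_le_mul_of_nonneg_right (pow_le_pow_right₀ hW (by omega)) (by positivity)
    refine (Finset.sum_le_sum h3).trans ?_
    rw [Finset.sum_const, Finset.card_univ, nsmul_eq_mul]
  refine (Finset.sum_le_sum h2).trans ?_
  rw [Finset.sum_const, nsmul_eq_mul]
  have h5 : (((univ : Finset (Finset (Fin b))).filter (fun T => T.card < h)).card : ℝ) ≤ 2 ^ b := by
    have : ((univ : Finset (Finset (Fin b))).filter (fun T => T.card < h)).card ≤ 2 ^ b := by
      refine (Finset.card_filter_le _ _).trans ?_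
      rw [Finset.card_univ, Fintype.card_finset, Fintype.card_fin]
    exact_mod_cast this
  have h6 : (0:ℝ) ≤ (Fintype.card (Pat F n b) : ℝ) * ((Fintype.card W : ℝ) ^ (2 * h + 2) *
      (2 * δ) ^ n) := by positivity
  refine (mul_le_mul_of_nonneg_right h5 h6).trans ?_
  push_cast
  ring_nf
  exact le_rfl

end

end Crest.Agent.R042.Prob477
private theorem rz_9e4480b29e : type_of% @_root_.Crest.Agent.R042.Prob477.idx.eq_1 := @_root_.Crest.Agent.R042.Prob477.idx.eq_1 -- L17
end

-- ▼ part R042/Cor_420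
section

/-!
# Row 42 (S0059, Plan B): COR + LI in the letters of helper477

`Dep u ω` = the blocks whose rows meet the span of the earlier rows.  The rows of the other blocks
are linearly independent (`li_compl`), and few blocks are dependent (`cor`).
-/

set_option autoImplicit false

namespace Crest.Agent.R042.Cor420

open Finset Function Seq477 Step477
open scoped Classical

noncomputable section

variable {F W Ω : Type*} [Field F] [AddCommGroup W] [Module F W]


/-- the dependent blocks -/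
def Dep (F : Type*) [Field F] {W : Type*} [AddCommGroup W] [Module F W]
    (u : Ω → Bool → W) {b : ℕ} (ω : Fin b → Ω) : Finset (Fin b) :=
  univ.filter (fun k => ∃ α : Bool → F, α ≠ 0 ∧ ∑ j, α j • u (ω k) j ∈
    Submodule.span F {w | ∃ l < k, ∃ j, w = u (ω l) j})

/-- **LI**: the rows of the non dependent blocks are independent -/
theorem li_compl (u : Ω → Bool → W) {b : ℕ} (ω : Fin b → Ω) :
    LinearIndependent F (fun p : {p : Fin b × Bool // p.1 ∉ Dep F u ω} => u (ω p.1.1) p.1.2) := by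
  rw [Fintype.linearIndependent_iff]
  intro g hg
  by_contra hcon
  push Not at hcon
  -- extend by zero
  let G : Fin b → Bool → F := fun l j =>
    if h : l ∉ Dep F u ω then g ⟨(l, j), h⟩ else 0
  have hG0 : ∑ l, ∑ j, G l j • u (ω l) j = 0 := by
    rw [← Fintype.sum_prod_type' (f := fun l j => G l j • u (ω l) j)]
    rw [← hg]
    have h1 : ∑ x : Fin b × Bool, G x.1 x.2 • u (ω x.1) x.2 =
        ∑ x ∈ univ.filter (fun x : Fin b × Bool => x.1 ∉ Dep F u ω),
          G x.1 x.2 • u (ω x.1) x.2 := by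
      symm
      refine Finset.sum_subset (Finset.filter_subset _ _) ?_
      intro x _ hx
      have h2 : ¬ (x.1 ∉ Dep F u ω) := by
        intro h; exact hx (Finset.mem_filter.2 ⟨mem_univ _, h⟩)
      simp only [G, dif_neg h2, zero_smul]
    rw [h1, ← Finset.sum_subtype_eq_sum_filter]
    rw [Finset.subtype_univ]
    refine Finset.sum_congr rfl fun p _ => ?_
    have h3 : p.1.1 ∉ Dep F u ω := p.2
    simp only [G, dif_pos h3]
  -- the last block with a nonzero coefficient
  let T : Finset (Fin b) := univ.filter fun l => ∃ j, G l j ≠ 0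
  have hT : T.Nonempty := by
    obtain ⟨p, hp⟩ := hcon
    refine ⟨p.1.1, Finset.mem_filter.2 ⟨mem_univ _, p.1.2, ?_⟩⟩
    have h3 : p.1.1 ∉ Dep F u ω := p.2
    simp only [G, dif_pos h3]
    exact hp
  let l0 := T.max' hT
  have hl0 : l0 ∈ T := T.max'_mem hT
  obtain ⟨j0, hj0⟩ := (Finset.mem_filter.1 hl0).2
  have hnd : l0 ∉ Dep F u ω := by
    intro h
    apply hj0
    simp only [G, dif_neg (not_not.2 h)]
  apply hnd
  refine Finset.mem_filter.2 ⟨mem_univ _, G l0, ?_, ?_⟩
  · intro h; exact hj0 (congrFun h j0)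
  · have h4 : ∑ j, G l0 j • u (ω l0) j = - ∑ l ∈ univ.erase l0, ∑ j, G l j • u (ω l) j := by
      rw [eq_neg_iff_add_eq_zero,
        Finset.add_sum_erase univ (fun l => ∑ j, G l j • u (ω l) j) (mem_univ l0)]
      exact hG0
    rw [h4]
    refine Submodule.neg_mem _ (Submodule.sum_mem _ fun l hl => ?_)
    by_cases hlt : l < l0
    · exact Submodule.sum_mem _ fun j _ =>
        Submodule.smul_mem _ _ (Submodule.subset_span ⟨l, hlt, j, rfl⟩)
    · have hgt : l0 < l := lt_of_le_of_ne (not_lt.1 hlt) (Ne.symm (Finset.ne_of_mem_erase hl))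
      have hlT : l ∉ T := fun h => absurd (T.le_max' l h) (not_le.2 hgt)
      have h5 : ∀ j, G l j = 0 := by
        intro j
        by_contra h
        exact hlT (Finset.mem_filter.2 ⟨mem_univ _, j, h⟩)
      have h6 : ∑ j, G l j • u (ω l) j = 0 :=
        Finset.sum_eq_zero fun j _ => by rw [h5 j, zero_smul]
      rw [h6]
      exact Submodule.zero_mem _

/-- the combination of the earlier rows with coefficients `p` -/
def comb (u : Ω → Bool → W) {b : ℕ} (ω : Fin b → Ω) (k : Fin b) (p : Fin b → Bool → F) : W :=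
  ∑ l, if l < k then ∑ j, p l j • u (ω l) j else 0

theorem exists_comb (u : Ω → Bool → W) {b : ℕ} (ω : Fin b → Ω) (k : Fin b) (y : W)
    (hy : y ∈ Submodule.span F {w | ∃ l < k, ∃ j, w = u (ω l) j}) :
    ∃ p : Fin b → Bool → F, y = comb u ω k p := by
  induction hy using Submodule.span_induction with
  | mem y hy =>
    obtain ⟨l, hl, j, rfl⟩ := hy
    refine ⟨fun l' j' => if l' = l ∧ j' = j then 1 else 0, ?_⟩
    unfold comb
    rw [Finset.sum_eq_single l]
    · rw [if_pos hl, Finset.sum_eq_single j]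
      · simp
      · intro j' _ hj'; simp [hj']
      · intro h; exact absurd (mem_univ _) h
    · intro l' _ hl'; simp [hl']
    · intro h; exact absurd (mem_univ _) h
  | zero => exact ⟨fun _ _ => 0, by unfold comb; simp⟩
  | add y z _ _ h1 h2 =>
    obtain ⟨p, hp⟩ := h1
    obtain ⟨r, hr⟩ := h2
    refine ⟨fun l j => p l j + r l j, ?_⟩
    rw [hp, hr]
    unfold comb
    rw [← Finset.sum_add_distrib]
    refine Finset.sum_congr rfl fun l _ => ?_
    split_ifs
    · rw [← Finset.sum_add_distrib]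
      exact Finset.sum_congr rfl fun j _ => by rw [add_smul]
    · simp
  | smul c y _ h1 =>
    obtain ⟨p, hp⟩ := h1
    refine ⟨fun l j => c * p l j, ?_⟩
    rw [hp]
    unfold comb
    rw [Finset.smul_sum]
    refine Finset.sum_congr rfl fun l _ => ?_
    split_ifs
    · rw [Finset.smul_sum]
      exact Finset.sum_congr rfl fun j _ => by rw [mul_smul]
    · simp

theorem comb_update (u : Ω → Bool → W) {b : ℕ} (ω : Fin b → Ω) (k i : Fin b) (hki : k ≤ i) (x : Ω)
    (p : Fin b → Bool → F) : comb u (update ω i x) k p = comb u ω k p := by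
  unfold comb
  refine Finset.sum_congr rfl fun l _ => ?_
  split_ifs with h
  · have hne : l ≠ i := (lt_of_lt_of_le h hki).ne
    rw [update_of_ne hne]
  · rfl

variable [Fintype Ω] {τ : Ω → ℝ} {u : Ω → Bool → W} {D : Ω → Bool → Submodule F W} {δ : ℝ}

theorem Law.delta_nonneg (H : Law τ u D δ) : 0 ≤ δ :=
  (pr_nonneg H.nonneg _).trans (H.t1 0 (fun _ => 1) (by
    intro h; have := congrFun h true; simp at this))

/-- the event of one pattern -/
def Pat (u : Ω → Bool → W) {b h : ℕ} (κ : Fin h → Fin b) (α : Fin h → Bool → F)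
    (p : Fin h → Fin b → Bool → F) (r : Fin h) (ω : Fin b → Ω) : Prop :=
  α r ≠ 0 ∧ ∑ j, α r j • u (ω (κ r)) j = comb u ω (κ r) (p r)

theorem pat_bound (H : Law τ u D δ) {b h : ℕ} (κ : Fin h → Fin b) (hκ : StrictMono κ)
    (α : Fin h → Bool → F) (p : Fin h → Fin b → Bool → F) :
    Ex τ (fun ω : Fin b → Ω => ind (∀ r, Pat u κ α p r ω)) ≤ δ ^ h := by
  refine seq_bound H.nonneg H.sum_one δ (Law.delta_nonneg H) h κ κ
    (fun r ω => Pat u κ α p r ω) ?_ ?_
  · intro r t hrt ω x
    have hlt : κ r < κ t := hκ hrt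
    have h2 : ∀ inst : DecidableEq (Fin b),
        Pat u κ α p r (@update (Fin b) (fun _ => Ω) inst ω (κ t) x) ↔ Pat u κ α p r ω := by
      intro inst
      have hi : inst = instDecidableEqFin b := Subsingleton.elim _ _
      subst hi
      unfold Pat
      rw [update_of_ne hlt.ne, comb_update u ω (κ r) (κ t) hlt.le x (p r)]
    exact ⟨h2 _, h2 _⟩
  · intro r ω
    have h1 : ∀ (inst : DecidableEq (Fin b)) (x y : Ω), Pat u κ α p r
        (@update (Fin b) (fun _ => Ω) inst (@update (Fin b) (fun _ => Ω) inst ω (κ r) x) (κ r) y) ↔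
        (α r ≠ 0 ∧ ∑ j, α r j • u y j = comb u ω (κ r) (p r)) := by
      intro inst x y
      have hi : inst = instDecidableEqFin b := Subsingleton.elim _ _
      subst hi
      rw [update_idem]
      unfold Pat
      rw [update_self, comb_update u ω (κ r) (κ r) le_rfl y (p r)]
    simp only [h1]
    rw [← Finset.sum_mul, H.sum_one, one_mul]
    by_cases hα : α r = 0
    · have : ∑ y, τ y * ind (α r ≠ 0 ∧ ∑ j, α r j • u y j = comb u ω (κ r) (p r)) = 0 := by
        refine Finset.sum_eq_zero fun y _ => ?_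
        rw [ind_false, mul_zero]
        rintro ⟨h, -⟩; exact h hα
      rw [this]; exact Law.delta_nonneg H
    · refine le_trans ?_ (H.t1 (comb u ω (κ r) (p r)) (α r) hα)
      exact pr_mono H.nonneg fun y hy => hy.2

/-- **COR** -/
theorem cor [Fintype F] (H : Law τ u D δ) (b h : ℕ) :
    Ex τ (fun ω : Fin b → Ω => ind (h ≤ (Dep F u ω).card)) ≤
      (Fintype.card ((Fin h → Fin b) × (Fin h → Bool → F) × (Fin h → Fin b → Bool → F)) : ℝ)
        * δ ^ h := by
  have h1 : ∀ ω : Fin b → Ω, ind (h ≤ (Dep F u ω).card) ≤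
      ∑ t ∈ (univ : Finset ((Fin h → Fin b) × (Fin h → Bool → F) × (Fin h → Fin b → Bool → F))),
        ind (StrictMono t.1 ∧ ∀ r, Pat u t.1 t.2.1 t.2.2 r ω) := by
    intro ω
    by_cases hω : h ≤ (Dep F u ω).card
    · obtain ⟨S, hS, hSc⟩ := Finset.exists_subset_card_eq hω
      let κ : Fin h ↪o Fin b := S.orderEmbOfFin hSc
      have hmem : ∀ r, κ r ∈ Dep F u ω := fun r => hS (S.orderEmbOfFin_mem hSc r)
      have hch : ∀ r, ∃ α : Bool → F, α ≠ 0 ∧ ∃ p : Fin b → Bool → F,
          ∑ j, α j • u (ω (κ r)) j = comb u ω (κ r) p := by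
        intro r
        have hr := hmem r
        simp only [Dep, Finset.mem_filter, Finset.mem_univ, true_and] at hr
        obtain ⟨α, hα, hsp⟩ := hr
        obtain ⟨p, hp⟩ := exists_comb u ω (κ r) _ hsp
        exact ⟨α, hα, p, hp⟩
      choose α hα p hp using hch
      have hle := Finset.single_le_sum (f := fun t : (Fin h → Fin b) × (Fin h → Bool → F) ×
        (Fin h → Fin b → Bool → F) => ind (StrictMono t.1 ∧ ∀ r, Pat u t.1 t.2.1 t.2.2 r ω))
        (fun t _ => ind_nonneg _) (mem_univ ((fun r => κ r), α, p))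
      refine le_trans ?_ hle
      rw [ind_true hω, ind_true]
      exact ⟨κ.strictMono, fun r => ⟨hα r, hp r⟩⟩
    · rw [ind_false hω]
      exact Finset.sum_nonneg fun t _ => ind_nonneg _
  refine (Ex_mono H.nonneg h1).trans ?_
  rw [Ex_sum]
  have h2 : ∀ t ∈ (univ : Finset ((Fin h → Fin b) × (Fin h → Bool → F) ×
      (Fin h → Fin b → Bool → F))),
      Ex τ (fun ω : Fin b → Ω => ind (StrictMono t.1 ∧ ∀ r, Pat u t.1 t.2.1 t.2.2 r ω)) ≤
        δ ^ h := by
    intro t _
    by_cases ht : StrictMono t.1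
    · refine le_trans (Ex_mono H.nonneg fun ω => ind_mono fun hh => hh.2) ?_
      exact pat_bound H t.1 ht t.2.1 t.2.2
    · have h3 : Ex τ (fun ω : Fin b → Ω => ind (StrictMono t.1 ∧
          ∀ r, Pat u t.1 t.2.1 t.2.2 r ω)) = 0 := by
        unfold Ex
        refine Finset.sum_eq_zero fun ω _ => ?_
        have h4 : ind (StrictMono t.1 ∧ ∀ r, Pat u t.1 t.2.1 t.2.2 r ω) = 0 :=
          ind_false fun hh => ht hh.1
        simp only [h4, mul_zero]
      rw [h3]
      exact pow_nonneg (Law.delta_nonneg H) h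
  refine (Finset.sum_le_sum h2).trans ?_
  rw [Finset.sum_const, Finset.card_univ, nsmul_eq_mul]

end

end Crest.Agent.R042.Cor420
end

-- ▼ part R042/PBProb_477
section

/-!
# Row 42, plan B: theorem PROB (helper477): `∀ q h m, ProbStmt q h m`
-/

namespace Crest.Agent.R042.PBProb477

open Finset Function Rel477 Seq477 Step477 Prob477 RowWin543
open scoped Classical

noncomputable section

variable {k U κ : Type} [Field k] [AddCommGroup U] [Module k U]

/-- rows modulo the special space -/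
def ub (B : PB.Blk k U κ) (e : κ) : Bool → U ⧸ B.Sp
  | false => B.Sp.mkQ (B.u e)
  | true => B.Sp.mkQ (B.u' e)

/-- windows modulo the special space -/
def Db (B : PB.Blk k U κ) (e : κ) : Bool → Submodule k (U ⧸ B.Sp)
  | false => (B.D e).map B.Sp.mkQ
  | true => (B.D' e).map B.Sp.mkQ

lemma mem_map_iff {S D : Submodule k U} (h : S ≤ D) (x : U) : S.mkQ x ∈ D.map S.mkQ ↔ x ∈ D := by
  rw [← Submodule.mem_comap, Submodule.comap_map_mkQ, sup_eq_right.mpr h]

/-- symmetric forms which kill `Sp` descend -/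
lemma descend (S : Submodule k U) (f : U →ₗ[k] U →ₗ[k] k) (hf : ∀ x y, f x y = f y x)
    (h : ∀ x, ∀ t ∈ S, f x t = 0) :
    ∃ g : (U ⧸ S) →ₗ[k] (U ⧸ S) →ₗ[k] k, (∀ x y, g x y = g y x) ∧
      ∀ x y, g (S.mkQ x) (S.mkQ y) = f x y := by
  have h1 : S ≤ LinearMap.ker f := by
    intro t ht
    rw [LinearMap.mem_ker]
    ext x
    rw [hf t x, h x t ht]; rfl
  let f1 : (U ⧸ S) →ₗ[k] U →ₗ[k] k := S.liftQ f h1
  have hf1 : ∀ x y, f1 (S.mkQ x) y = f x y := fun x y => by
    simp [f1]
  have h2 : S ≤ LinearMap.ker f1.flip := by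
    intro t ht
    rw [LinearMap.mem_ker]
    ext x
    simp only [LinearMap.flip_apply, LinearMap.comp_apply, LinearMap.zero_apply]
    rw [hf1, h x t ht]
  let f2 : (U ⧸ S) →ₗ[k] (U ⧸ S) →ₗ[k] k := S.liftQ f1.flip h2
  have hf2 : ∀ x y, f2 (S.mkQ x) (S.mkQ y) = f y x := fun x y => by
    simp only [f2, Submodule.mkQ_apply, Submodule.liftQ_apply, LinearMap.flip_apply]
    exact hf1 y x
  refine ⟨f2, ?_, fun x y => by rw [hf2, hf]⟩
  intro x y
  obtain ⟨x, rfl⟩ := S.mkQ_surjective x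
  obtain ⟨y, rfl⟩ := S.mkQ_surjective y
  rw [hf2, hf2, hf]

variable [Fintype κ]

lemma law_of_hyp {B : PB.Blk k U κ} {τ : κ → ℝ} {δ : ℝ} (H : PB.Hyp B τ δ) :
    Law τ (ub B) (Db B) δ := by
  have conv : ∀ p : κ → Prop, pr τ p = ∑ e with p e, τ e := by
    intro p
    unfold pr ind
    rw [Finset.sum_filter]
    refine Finset.sum_congr rfl fun x _ => ?_
    split_ifs <;> simp
  refine ⟨H.nonneg, H.sum, ?_, ?_, ?_⟩
  · intro x α hα
    obtain ⟨y, rfl⟩ := B.Sp.mkQ_surjective x
    rw [conv]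
    refine le_trans (Finset.sum_le_sum_of_subset_of_nonneg ?_ fun e _ _ => H.nonneg e) (H.h1 y)
    intro e he
    simp only [Finset.mem_filter, Finset.mem_univ, true_and, Fintype.sum_bool, ub] at he ⊢
    refine ⟨α false, α true, ?_, ?_⟩
    · by_contra hcon
      push Not at hcon
      apply hα
      funext j
      cases j
      · exact hcon.1
      · exact hcon.2
    · rw [← Submodule.Quotient.mk_eq_zero]
      have h3 : B.Sp.mkQ (α false • B.u e + α true • B.u' e - y) = 0 := by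
        rw [map_sub, map_add, map_smul, map_smul, ← he]
        abel
      exact h3
  · intro Y α j hY
    obtain ⟨y, rfl⟩ := B.Sp.mkQ_surjective Y
    have hy : y ∉ B.Sp := by
      intro h
      apply hY
      rw [Submodule.mkQ_apply, Submodule.Quotient.mk_eq_zero]; exact h
    rw [conv]
    cases j
    · refine le_trans (Finset.sum_le_sum_of_subset_of_nonneg ?_ fun e _ _ => H.nonneg e)
        (H.h2 y hy (α false) (α true))
      intro e he
      simp only [Finset.mem_filter, Finset.mem_univ, true_and, Fintype.sum_bool, ub, Db] at he ⊢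
      rw [← mem_map_iff (H.sp e)]
      simp only [map_add, map_smul]
      convert he using 1
      abel
    · refine le_trans (Finset.sum_le_sum_of_subset_of_nonneg ?_ fun e _ _ => H.nonneg e)
        (H.h2' y hy (α false) (α true))
      intro e he
      simp only [Finset.mem_filter, Finset.mem_univ, true_and, Fintype.sum_bool, ub, Db] at he ⊢
      rw [← mem_map_iff (H.sp' e)]
      simp only [map_add, map_smul]
      convert he using 1
      abel
  · intro e α j he
    cases j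
    · simp only [Fintype.sum_bool, ub, Db] at he
      have h1 : B.Sp.mkQ (0 + α false • B.u e + α true • B.u' e) ∈ (B.D e).map B.Sp.mkQ := by
        simp only [map_add, map_smul, map_zero]
        convert he using 1
        abel
      rw [mem_map_iff (H.sp e)] at h1
      exact H.aniso e 0 (Submodule.zero_mem _) _ _ h1
    · simp only [Fintype.sum_bool, ub, Db] at he
      have h1 : B.Sp.mkQ (0 + α false • B.u e + α true • B.u' e) ∈ (B.D' e).map B.Sp.mkQ := by
        simp only [map_add, map_smul, map_zero]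
        convert he using 1
        abel
      rw [mem_map_iff (H.sp' e)] at h1
      exact H.aniso' e 0 (Submodule.zero_mem _) _ _ h1

/-- characters modulo `Sp` -/
def eb (B : PB.Blk k U κ) {b : ℕ} (z z' : Fin b → U) (i : Fin b) : Bool → U ⧸ B.Sp
  | false => B.Sp.mkQ (z i)
  | true => B.Sp.mkQ (z' i)

lemma rel_transfer {B : PB.Blk k U κ} {b : ℕ} {e : Fin b → κ} {z z' : Fin b → U}
    (h : PB.IsRel B e z z') :
    (∀ i j, eb B z z' i j ∈ Db B (e i) j) ∧
      IsRel k (fun p : Fin b × Bool => ub B (e p.1) p.2) (fun p => eb B z z' p.1 p.2) := by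
  obtain ⟨h1, h2, h3⟩ := h
  refine ⟨?_, ?_⟩
  · intro i j
    cases j
    · exact Submodule.mem_map_of_mem (h1 i)
    · exact Submodule.mem_map_of_mem (h2 i)
  · intro f hf
    have := h3 (LinearMap.compl₁₂ f B.Sp.mkQ B.Sp.mkQ) (by
      rw [mem_symForm]
      intro x y
      simp only [LinearMap.compl₁₂_apply]
      exact hf _ _)
    simp only [LinearMap.compl₁₂_apply] at this
    rw [Fintype.sum_prod_type]
    rw [← this]
    refine Finset.sum_congr rfl fun i _ => ?_
    rw [Fintype.sum_bool, add_comm]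
    rfl

lemma triv_transfer {B : PB.Blk k U κ} {τ : κ → ℝ} {δ : ℝ} (H : PB.Hyp B τ δ) {b : ℕ}
    {e : Fin b → κ} {z z' : Fin b → U} {i : Fin b}
    (h : ¬ PB.Triv B (e i) (z i) (z' i)) : ¬ Triv k (ub B (e i)) (eb B z z' i) := by
  intro ht
  apply h
  refine Ctrl420.ctrl B.Sp (B.u (e i)) (B.u' (e i)) (z i) (z' i) (H.ind (e i)) ?_
  intro f hf hk
  obtain ⟨g, hg, hgf⟩ := descend B.Sp f ((mem_symForm f).1 hf) hk
  have := ht g hg
  rw [Fintype.sum_bool] at this
  simp only [ub, eb, hgf] at this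
  rw [add_comm]; exact this

/-- COR and LI in the letters of 420 -/
structure CorLI : Prop where
  li : ∀ (k W κ : Type) [Field k] [AddCommGroup W] [Module k W] [Fintype κ] (u : κ → Bool → W)
    (b : ℕ) (ω : Fin b → κ), LinearIndependent k
      (fun p : {p : Fin b × Bool // p.1 ∉ Dep k u ω} => u (ω p.1.1) p.1.2)
  cor : ∀ (k W κ : Type) [Field k] [Fintype k] [AddCommGroup W] [Module k W] [Fintype κ]
    (τ : κ → ℝ) (u : κ → Bool → W) (D : κ → Bool → Submodule k W) (δ : ℝ) (_ : Law τ u D δ)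
    (b h : ℕ), Ex τ (fun ω : Fin b → κ => ind (h ≤ (Dep k u ω).card)) ≤
      (Fintype.card ((Fin h → Fin b) × (Fin h → Bool → k) × (Fin h → Fin b → Bool → k)) : ℝ) * δ ^ h

/-- the constants -/
def b1 (q h m : ℕ) : ℕ := EHN (q ^ 4) (q ^ (8 + 8 * h) * (2 * m)) + h + 1

theorem prob_of (HC : CorLI) (q h m : ℕ) : PB.ProbStmt q h m := by
  refine ⟨4 * b1 q h m,
    Fintype.card ((Fin h → Fin (4 * b1 q h m)) × (Fin h → Bool → Fin q) ×
      (Fin h → Fin (4 * b1 q h m) → Bool → Fin q)) +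
    2 ^ (4 * b1 q h m) * Fintype.card (Pat (Fin q) m (4 * b1 q h m)) * 2 ^ m,
    ⟨2 * b1 q h m, by ring⟩, by unfold b1; omega, ?_⟩
  intro k U κ _ _ _ _ _ _ B τ δ hq hδ0 hδ1 H
  have L := law_of_hyp H
  set b := 4 * b1 q h m with hb
  have hcardP : Fintype.card (Pat k m b) = Fintype.card (Pat (Fin q) m b) := by
    simp only [Pat, Fintype.card_prod, Fintype.card_fun, Fintype.card_fin, hq]
  have hcardC : Fintype.card ((Fin h → Fin b) × (Fin h → Bool → k) × (Fin h → Fin b → Bool → k))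
      = Fintype.card ((Fin h → Fin b) × (Fin h → Bool → Fin q) ×
        (Fin h → Fin b → Bool → Fin q)) := by
    simp only [Fintype.card_prod, Fintype.card_fun, Fintype.card_fin, hq]
  have hE : ∑ e : Fin b → κ with (∃ z z' : Fin b → U, PB.IsRel B e z z' ∧
        b ≤ 4 * (univ.filter fun i => ¬ PB.Triv B (e i) (z i) (z' i)).card), ∏ i, τ (e i) =
      Ex τ (fun e : Fin b → κ => ind (∃ z z' : Fin b → U, PB.IsRel B e z z' ∧
        b ≤ 4 * (univ.filter fun i => ¬ PB.Triv B (e i) (z i) (z' i)).card)) := by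
    unfold Ex ind
    rw [Finset.sum_filter]
    refine Finset.sum_congr (by ext; simp) fun x _ => ?_
    by_cases hx : (∃ z z' : Fin b → U, PB.IsRel B x z z' ∧
        b ≤ 4 * (univ.filter fun i => ¬ PB.Triv B (x i) (z i) (z' i)).card)
    · rw [if_pos hx]; beta_reduce; rw [if_pos hx, mul_one]
    · rw [if_neg hx]; beta_reduce; rw [if_neg hx, mul_zero]
  rw [hE]
  have hsplit : ∀ e : Fin b → κ, ind (∃ z z' : Fin b → U, PB.IsRel B e z z' ∧
        b ≤ 4 * (univ.filter fun i => ¬ PB.Triv B (e i) (z i) (z' i)).card) ≤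
      ind (h ≤ (Dep k (ub B) e).card) +
      ind ((Dep k (ub B) e).card < h ∧ ∃ c : Fin b → Bool → U ⧸ B.Sp,
        (∀ i j, c i j ∈ Db B (e i) j) ∧
        IsRel k (fun p : Fin b × Bool => ub B (e p.1) p.2) (fun p => c p.1 p.2) ∧
        b1 q h m ≤ (univ.filter (fun i => ¬ Triv k (ub B (e i)) (c i))).card) := by
    intro e
    by_cases hd : h ≤ (Dep k (ub B) e).card
    · rw [ind_true hd]
      have h1 := ind_le_one (∃ z z' : Fin b → U, PB.IsRel B e z z' ∧
        b ≤ 4 * (univ.filter fun i => ¬ PB.Triv B (e i) (z i) (z' i)).card)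
      have h2 := ind_nonneg ((Dep k (ub B) e).card < h ∧ ∃ c : Fin b → Bool → U ⧸ B.Sp,
        (∀ i j, c i j ∈ Db B (e i) j) ∧
        IsRel k (fun p : Fin b × Bool => ub B (e p.1) p.2) (fun p => c p.1 p.2) ∧
        b1 q h m ≤ (univ.filter (fun i => ¬ Triv k (ub B (e i)) (c i))).card)
      linarith
    · rw [ind_false hd, zero_add]
      refine ind_mono ?_
      rintro ⟨z, z', hr, hn⟩
      obtain ⟨hv, hrel⟩ := rel_transfer hr
      refine ⟨by omega, eb B z z', hv, hrel, ?_⟩
      have h1 : (univ.filter fun i => ¬ PB.Triv B (e i) (z i) (z' i)).card ≤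
          (univ.filter (fun i => ¬ Triv k (ub B (e i)) (eb B z z' i))).card := by
        refine Finset.card_le_card ?_
        intro i hi
        simp only [Finset.mem_filter, Finset.mem_univ, true_and] at hi ⊢
        exact triv_transfer H hi
      omega
  refine le_trans (Ex_mono L.nonneg hsplit) ?_
  rw [Ex_add]
  have hA := HC.cor k (U ⧸ B.Sp) κ τ (ub B) (Db B) δ L b h
  rw [hcardC] at hA
  haveI : Fintype (U ⧸ B.Sp) := Fintype.ofSurjective B.Sp.mkQ B.Sp.mkQ_surjective
  have hK4 : Fintype.card (Bool → Bool → k) = q ^ 4 := by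
    simp only [Fintype.card_fun, Fintype.card_bool, hq]; ring
  have hM := main_bound (n := m) (h := h) (b := b) (b₁ := b1 q h m) L (by
    rw [hK4, hq]; unfold b1; omega) (fun ω => HC.li k (U ⧸ B.Sp) κ (ub B) b ω)
  rw [hcardP] at hM
  have hW : (Fintype.card (U ⧸ B.Sp) : ℝ) ≤ (Fintype.card U : ℝ) := by
    have := Fintype.card_le_of_surjective B.Sp.mkQ B.Sp.mkQ_surjective
    exact_mod_cast this
  have hM' : Ex τ (fun ω : Fin b → κ => ind ((Dep k (ub B) ω).card < h ∧
      ∃ e : Fin b → Bool → U ⧸ B.Sp,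
      (∀ k j, e k j ∈ Db B (ω k) j) ∧
      IsRel k (fun p : Fin b × Bool => ub B (ω p.1) p.2) (fun p => e p.1 p.2) ∧
      b1 q h m ≤ (univ.filter (fun i => ¬ Triv k (ub B (ω i)) (e i))).card)) ≤
      (2 ^ b * Fintype.card (Pat (Fin q) m b) * 2 ^ m : ℕ) *
        ((Fintype.card U : ℝ) ^ (2 * h + 2) * δ ^ m) := by
    refine hM.trans ?_
    have h1 : (Fintype.card (U ⧸ B.Sp) : ℝ) ^ (2 * h + 2) ≤ (Fintype.card U : ℝ) ^ (2 * h + 2) :=
      pow_le_pow_left₀ (by positivity) hW _
    have h2 : (2 * δ) ^ m = 2 ^ m * δ ^ m := mul_pow _ _ _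
    rw [h2]
    push_cast
    have h3 : (0:ℝ) ≤ 2 ^ b * (Fintype.card (Pat (Fin q) m b) : ℝ) * 2 ^ m * δ ^ m := by positivity
    nlinarith [mul_le_mul_of_nonneg_left h1 h3]
  have hδh : (0:ℝ) ≤ δ ^ h := pow_nonneg hδ0 _
  have hUm : (0:ℝ) ≤ (Fintype.card U : ℝ) ^ (2 * h + 2) * δ ^ m := by positivity
  push_cast at hA hM' ⊢
  have e1 : (0:ℝ) ≤ (Fintype.card ((Fin h → Fin b) × (Fin h → Bool → Fin q) ×
        (Fin h → Fin b → Bool → Fin q)) : ℝ) := by positivity
  have e2 : (0:ℝ) ≤ 2 ^ b * (Fintype.card (Pat (Fin q) m b) : ℝ) * 2 ^ m := by positivity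
  nlinarith [mul_nonneg e1 hUm, mul_nonneg e2 hδh]

theorem corLI : CorLI where
  li := fun k W κ _ _ _ _ u b ω => Cor420.li_compl (F := k) u ω
  cor := fun k W κ _ _ _ _ _ τ u D δ H b h => Cor420.cor H b h

/-- **PROB** -/
theorem prob (q h m : ℕ) : PB.ProbStmt q h m := prob_of corLI q h m

end

end Crest.Agent.R042.PBProb477
private theorem rz_98d27253c6 : type_of% @_root_.Crest.Agent.R042.PBProb477.Db.eq_1 := @_root_.Crest.Agent.R042.PBProb477.Db.eq_1 -- L25
private theorem rz_b0b692a1f1 : type_of% @_root_.Crest.Agent.R042.PBProb477.eb.eq_1 := @_root_.Crest.Agent.R042.PBProb477.eb.eq_1 -- L133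
private theorem rz_1ce927d572 : type_of% @_root_.Crest.Agent.R042.PBProb477.ub.eq_1 := @_root_.Crest.Agent.R042.PBProb477.ub.eq_1 -- L20
end

-- ▼ part R042/LabAsy_375
section

/-! Row 42 / S0059, PLAN B: the asymptotic form of the label theorem. -/

set_option autoImplicit false
set_option linter.unusedSectionVars false

namespace Crest.Agent.R042.LabAsy375

open Finset Filter Crest.Agent.R042.RowWin543 Crest.Agent.R042.Fam543
  Crest.Agent.R042.LocFam958 Crest.Agent.R042.SspAsm375 Crest.Agent.R042.Inst592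
open scoped Classical

lemma card_U {KK : Type} [Fintype KK] (d L : ℕ) :
    Fintype.card (U KK d 2 L) = Fintype.card KK ^ (L * (2 * d + 1) ^ 2) := by
  unfold U U0
  rw [Fintype.card_fun, Fintype.card_fun, Fintype.card_fun, Fintype.card_fin, Fintype.card_fin]
  have h : Fintype.card (Ix d) = 2 * d + 1 := by
    simp [Ix, Fintype.card_option, Fintype.card_prod, mul_comm]
  rw [h, ← pow_mul, mul_comm L]

/-- **LABEL THEOREM, asymptotic form.** -/
theorem labelAsy (q : ℕ) (hq : 2 ≤ q) (d L m1 : ℕ) (cm : ℝ) (hcm : 0 ≤ cm) :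
    FinB713.LabelAsy q d L m1 cm := by
  obtain ⟨h, m, K₀, -, -, hK₀, hnumb⟩ := ParamBL763.label_numbers q hq m1
    (L * (2 * d + 1) ^ 2) (η := 1 / 8) (by norm_num) (cm := cm) (cθ := 1 / 128) hcm (by norm_num)
    0 0
  obtain ⟨b, C, -, -, hno⟩ := PBLabel341.noK (PBProb477.prob q h m)
  have hq1 : (1 : ℝ) ≤ (q : ℝ) ^ 2 := by
    have : (1 : ℝ) ≤ q := by exact_mod_cast (by omega : 1 ≤ q)
    nlinarith
  have hK1 : 1 ≤ K₀ * (q : ℝ) ^ 2 := by nlinarith
  refine ⟨K₀ * (q : ℝ) ^ 2, hK1, ?_⟩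
  filter_upwards [hnumb b C (1 / (8 * (K₀ * (q : ℝ) ^ 2))) (by positivity)] with j hj
  obtain ⟨N, δ, hN, hδ0, hδ1, hθ, hJ, hat, hNm, -, hMU⟩ := hj
  intro k0 KK _ _ _ _ _ _ e hk0 he hKK K hK hL ι _ _ x hx p hp μ hμ hM
  have hcK : (Fintype.card KK : ℝ) = (q : ℝ) ^ (2 * j) := by
    rw [hKK]
    push_cast
    rfl
  have hcU : (Fintype.card (U KK d 2 L) : ℝ) = ((q : ℝ) ^ (2 * j)) ^ (L * (2 * d + 1) ^ 2) := by
    rw [card_U, ← hcK]
    push_cast
    rfl
  have hLI : ∀ J : Finset ι, J.card ≤ 6 → LinearIndependent KK (fun i : J => (x i).1.b) :=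
    fun J hJc => Inst592.li_b hx J (by omega)
  obtain ⟨n1, n2⟩ := hMU (((q : ℝ) ^ (2 * j)) ^ m1) (((q : ℝ) ^ (2 * j)) ^ (L * (2 * d + 1) ^ 2))
    (by positivity) le_rfl (by positivity) le_rfl
  rw [hcK]
  refine PBLabel341.labelConcl hno hk0 hK (fun i => (x i).2) hLI e hL p hp _ μ hμ.nonneg hμ.sum
    (((q : ℝ) ^ (2 * j)) ^ m1) ?_ _ (by positivity) _ δ (q ^ j) hθ hJ hat hδ1 ?_ N hN _ K₀ hK₀ ?_
    _ (by norm_num) n2 ?_
  · intro v
    have := hM v
    rw [hcK] at this
    exact this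
  · rw [hcU]
    exact n1
  · rw [hk0]
  · rw [hk0]
    linarith
end Crest.Agent.R042.LabAsy375
end

-- ▼ part R042/TypeAsy_375

/-! Row 42 / S0059, PLAN B: the type level, asymptotic form; `PairConfK`. -/

set_option autoImplicit false
set_option linter.unusedSectionVars false

namespace Crest.Agent.R042.TypeAsy375

open Finset Filter Crest.Agent.R042.RowWin543 Crest.Agent.R042.Fam543
  Crest.Agent.R042.LocFam958 Crest.Agent.R042.SspAsm375 Crest.Agent.R042.SspFin375
  Crest.Agent.R042.Inst592 Crest.Agent.R042.SysOf333 Crest.Agent.R042.TLev333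
  Crest.Agent.R042.FamV220 Crest.Agent.R042.IsoD543 Crest.Agent.R042.SspG375
  Crest.Agent.R042.FinB713
open scoped Classical

theorem typeAsy (η β : ℝ) (hη : 0 < η) (hη1 : η ≤ 1 / 4096) (hβ : 0 < β)
    (hβη : 12 * β ≤ η ^ 2) : TypeAsy η β := by
  intro k0 _ _ _ _ K hK
  have hq : 2 ≤ Fintype.card k0 := Fintype.one_lt_card
  have h4 : 0 < η ^ 2 / 4 := by positivity
  set t : ℝ := -Real.log (η ^ 2 / 4) with ht
  have het : Real.exp (-t) ≤ η ^ 2 / 4 := by
    rw [ht, neg_neg, Real.exp_log h4]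
  obtain ⟨L, hL⟩ := exists_nat_ge (max 1 ((K.card : ℝ) * (Real.log K.card + t)))
  have hL0 : 0 < L := by
    have : (1 : ℝ) ≤ L := (le_max_left _ _).trans hL
    exact_mod_cast (by linarith : (0 : ℝ) < L)
  have hL1 : (K.card : ℝ) * (Real.log K.card + t) ≤ L := (le_max_right _ _).trans hL
  refine ⟨L, hL0, ?_⟩
  intro d _
  filter_upwards [ParamB766.tdata_numbers (Fintype.card k0) hq hβ hη (by linarith) het d]
    with j hj
  obtain ⟨hj0, n1, n2, n3⟩ := hj
  intro KK _ _ _ _ e he hKK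
  have he0 : 0 < e := by
    rcases Nat.eq_zero_or_pos e with h | h
    · rw [h, pow_zero] at he
      have : 1 < Fintype.card k0 ^ j := Nat.one_lt_pow hj0.ne' (by omega)
      omega
    · exact h
  have hcard : Fintype.card KK = (2 ^ e) ^ 2 := by
    rw [hKK, he, ← pow_mul, mul_comm]
  have hcast : (2 : ℝ) ^ e = ((Fintype.card k0 ^ j : ℕ) : ℝ) := by
    rw [← he]
    push_cast
    rfl
  have hQ : (Fintype.card k0 : ℝ) ≤ β * ((2 : ℝ) ^ e - 1) := by
    rw [hcast]
    exact n1
  have hKKr : (Fintype.card KK : ℝ) = ((Fintype.card k0 ^ (2 * j) : ℕ) : ℝ) := by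
    rw [hKK]
  have hD1 : 3 * β + (Real.exp (-t) + (Real.exp (-t) +
      ((Fintype.card k0 ^ j : ℕ) : ℝ) * (((Fintype.card k0 : ℝ) ^ 2 + 1) / Fintype.card KK))) ≤
        η ^ 2 := by
    rw [hKKr]
    exact n2
  have hD2 : ((Fintype.card k0 ^ j : ℕ) : ℝ) *
      ((Fintype.card k0 : ℝ) / (Fintype.card KK : ℝ) ^ (2 * d)) ≤
      (Fintype.card k0 : ℝ) * (Fintype.card k0 : ℝ) ^ j /
        ((Fintype.card k0 : ℝ) ^ (2 * j)) ^ (2 * d) := by
    rw [hKKr]
    exact n3
  set TD := SysB333.sysB (KK := KK) (d := d) (L := L) (Δ := Dl k0 KK d L) hK e he0 hcard hQ hL0 t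
    hL1 (Fintype.card k0 ^ j) (fun w => w) η _ hη (by linarith) hD1 hD2 with hTD
  refine ⟨TD, ⟨rfl, rfl, rfl, ?_, ?_, ?_, ?_⟩⟩
  · have e1 : TD.θ = (Fintype.card k0 : ℝ) * (Fintype.card k0 : ℝ) ^ j /
        ((Fintype.card k0 : ℝ) ^ (2 * j)) ^ (2 * d) := rfl
    rw [e1]
    refine div_le_div_of_nonneg_right ?_ (by positivity)
    have : (0 : ℝ) ≤ (Fintype.card k0 : ℝ) * (Fintype.card k0 : ℝ) ^ j := by positivity
    nlinarith
  · intro P P' δ ϑ i R h
    exact Or.inr (Or.inr (Or.inr ⟨i, h⟩))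
  · intro P P' δ ϑ i R R' h
    exact ⟨i, h.2⟩
  · intro K1 hK1 N x hx s s' μ μ' p1 p2 p3 p4 hA h1 h2
    have := LocSysB303.hLoc (Iso543.famAlph hK) e (by norm_num : 4 ≤ 8) hL0 x hx TD rfl
      (fun P P' δ ϑ R h => Or.inl h) (fun P P' δ ϑ R h => Or.inr (Or.inl h))
      (fun P P' δ ϑ R h => Or.inr (Or.inr (Or.inl h))) K1 (by linarith) s s' μ μ' p1 p2 p3 p4 hA
      h1 h2
    refine le_trans (le_of_eq ?_) this
    have hX : (0 : ℝ) < (Fintype.card KK : ℝ) ^ (4 * (L * (2 * d - 1) ^ 2)) := by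
      have : (0 : ℝ) < Fintype.card KK := by exact_mod_cast Fintype.card_pos
      positivity
    field_simp

/-- **`PairConfK` for every constant.** -/
theorem pairConfK (K₀ : ℕ) (hK₀ : 0 < K₀) : S59Spine883.PairConfK K₀ :=
  pairConfK_of_asy K₀ hK₀ (fun q d L m1 cm hq hcm => LabAsy375.labelAsy q hq d L m1 cm hcm)
    (fun η β h1 h2 h3 _ h5 => typeAsy η β h1 h2 h3 h5)

end Crest.Agent.R042.TypeAsy375
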